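import Vale.Agent.P287.H674.Ratl
import Vale.Agent.P287.H673.Prime

/-!
A criterion for rationality in terms of polynomial functions.
-/

namespace Vale.Agent.P287.H674

open MvPolynomial

/-- homogeneous polynomial functions -/
def IsHP (n d : ℕ) (f : (Fin n → ℂ) → ℂ) : Prop :=
  ∃ P : MvPolynomial (Fin n) ℂ, P.IsHomogeneous d ∧ ∀ v, eval v P = f v

namespace IsHP

variable {n d e : ℕ} {f g : (Fin n → ℂ) → ℂ}

theorem add (hf : IsHP n d f) (hg : IsHP n d g) : IsHP n d (fun v => f v + g v) := by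
  obtain ⟨P, h1, h2⟩ := hf
  obtain ⟨Q, h3, h4⟩ := hg
  exact ⟨P + Q, h1.add h3, fun v => by rw [map_add, h2, h4]⟩

theorem neg (hf : IsHP n d f) : IsHP n d (fun v => - f v) := by
  obtain ⟨P, h1, h2⟩ := hf
  exact ⟨-P, h1.neg, fun v => by rw [map_neg, h2]⟩

theorem sub (hf : IsHP n d f) (hg : IsHP n d g) : IsHP n d (fun v => f v - g v) := by
  obtain ⟨P, h1, h2⟩ := hf
  obtain ⟨Q, h3, h4⟩ := hg
  exact ⟨P - Q, h1.sub h3, fun v => by rw [map_sub, h2, h4]⟩

theorem mul (hf : IsHP n d f) (hg : IsHP n e g) : IsHP n (d + e) (fun v => f v * g v) := by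
  obtain ⟨P, h1, h2⟩ := hf
  obtain ⟨Q, h3, h4⟩ := hg
  exact ⟨P * Q, h1.mul h3, fun v => by rw [map_mul, h2, h4]⟩

theorem const (c : ℂ) : IsHP n 0 (fun _ => c) := ⟨C c, isHomogeneous_C _ _, fun v => eval_C _⟩

theorem cmul (c : ℂ) (hf : IsHP n d f) : IsHP n d (fun v => c * f v) := by
  obtain ⟨P, h1, h2⟩ := hf
  exact ⟨C c * P, h1.C_mul _, fun v => by rw [map_mul, h2, eval_C]⟩

theorem mulc (c : ℂ) (hf : IsHP n d f) : IsHP n d (fun v => f v * c) := by
  obtain ⟨P, h1, h2⟩ := hf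
  exact ⟨C c * P, h1.C_mul _, fun v => by rw [map_mul, h2, eval_C, mul_comm]⟩

theorem coord (i : Fin n) : IsHP n 1 (fun v => v i) := ⟨X i, isHomogeneous_X _ _, fun v => eval_X _⟩

theorem zero : IsHP n d (fun _ => 0) := ⟨0, isHomogeneous_zero _ _ _, fun v => map_zero _⟩

theorem sum {ι : Type*} (s : Finset ι) {F : ι → (Fin n → ℂ) → ℂ} (h : ∀ i ∈ s, IsHP n d (F i)) :
    IsHP n d (fun v => ∑ i ∈ s, F i v) := by
  classical
  induction s using Finset.induction_on with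
  | empty => simpa using (zero (n := n) (d := d))
  | insert a s ha ih =>
    have h1 := (h a (Finset.mem_insert_self a s)).add
      (ih fun i hi => h i (Finset.mem_insert_of_mem hi))
    convert h1 using 2
    rw [Finset.sum_insert ha]

theorem lin (l : (Fin n → ℂ) →ₗ[ℂ] ℂ) : IsHP n 1 (fun v => l v) := by
  have : (fun v => l v) = fun v => ∑ i, v i * l (Pi.single i 1) := by
    funext v
    rw [LinearMap.pi_apply_eq_sum_univ l v]
    refine Finset.sum_congr rfl fun i _ => ?_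
    rw [smul_eq_mul]
    congr 2
    funext j
    simp [Pi.single_apply, eq_comm]
  rw [this]
  exact sum _ fun i _ => (coord i).mulc _

theorem pow (hf : IsHP n d f) (k : ℕ) : IsHP n (d * k) (fun v => f v ^ k) := by
  obtain ⟨P, h1, h2⟩ := hf
  exact ⟨P ^ k, h1.pow k, fun v => by rw [map_pow, h2]⟩

theorem congr (hf : IsHP n d f) (h : ∀ v, g v = f v) : IsHP n d g := by
  obtain ⟨P, h1, h2⟩ := hf
  exact ⟨P, h1, fun v => by rw [h2, h]⟩

theorem cast (hf : IsHP n d f) (h : e = d) : IsHP n e f := h ▸ hf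

theorem map_smul (hf : IsHP n d f) (c : ℂ) (v : Fin n → ℂ) : f (c • v) = c ^ d * f v := by
  obtain ⟨P, h1, h2⟩ := hf
  rw [← h2, ← h2, Vale.Agent.P287.H673.eval_hom_smul h1]

end IsHP

/-- a prime polynomial divides every polynomial vanishing on its zero set -/
theorem dvd_of_vanish {F P : MvPolynomial (Fin 6) ℂ} (hF : Prime F)
    (h : ∀ v, eval v F = 0 → eval v P = 0) : F ∣ P := by
  have h1 : P ∈ vanishingIdeal ℂ (zeroLocus ℂ (Ideal.span {F})) := by
    rw [mem_vanishingIdeal_iff]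
    intro x hx
    have h2 : eval x F = 0 := by
      have := (mem_zeroLocus_iff.mp hx) F (Ideal.mem_span_singleton_self F)
      rw [Vale.Agent.P287.H673.aeval_eval] at this
      exact this
    rw [Vale.Agent.P287.H673.aeval_eval]
    exact h x h2
  rw [vanishingIdeal_zeroLocus_eq_radical] at h1
  have h3 : (Ideal.span {F}).IsPrime := by
    rw [Ideal.span_singleton_prime hF.ne_zero]
    exact hF
  rw [h3.radical] at h1
  exact Ideal.mem_span_singleton.mp h1

theorem rational_criterion {F : MvPolynomial (Fin 6) ℂ} (hF : SmoothCubic F) {d e : ℕ}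
    (Φ : (Fin 5 → ℂ) → (Fin 6 → ℂ)) (Ψ : (Fin 6 → ℂ) → (Fin 5 → ℂ))
    (hΦ : ∀ i, IsHP 5 (d + 1) (fun z => Φ z i)) (hΨ : ∀ j, IsHP 6 e (fun w => Ψ w j))
    (h1 : ∀ z, eval (Φ z) F = 0)
    (h2 : ∀ w, eval w F = 0 → ∀ i j, Φ (Ψ w) i * w j = Φ (Ψ w) j * w i)
    (h3 : ∀ z i j, Ψ (Φ z) i * z j = Ψ (Φ z) j * z i)
    {w₀ : Fin 6 → ℂ} (hw : w₀ ≠ 0) (hw0 : eval w₀ F = 0) (h4 : Φ (Ψ w₀) ≠ 0) :
    RationalHypersurface F := by
  choose φ hφ hφe using hΦ
  choose ψ hψ hψe using hΨ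
  obtain ⟨i₀, hi⟩ : ∃ i, Φ (Ψ w₀) i ≠ 0 := by
    by_contra hcon
    push Not at hcon
    exact h4 (funext hcon)
  have hwi : w₀ i₀ ≠ 0 := by
    intro h0
    apply hw
    funext j
    have := h2 w₀ hw0 i₀ j
    rw [h0, mul_zero] at this
    exact (mul_eq_zero.mp this).resolve_left hi
  have hp := Vale.Agent.P287.H673.prime_of_smooth hF
  have eφ : ∀ z, (fun i => eval z (φ i)) = Φ z := fun z => funext fun i => hφe i z
  have eψ : ∀ w, (fun j => eval w (ψ j)) = Ψ w := fun w => funext fun j => hψe j w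
  have eψ' : ∀ w, (fun j => eval w (X i₀ * ψ j)) = w i₀ • Ψ w := fun w => by
    funext j
    rw [map_mul, eval_X, hψe, Pi.smul_apply, smul_eq_mul]
  have hsm : ∀ (c : ℂ) z, Φ (c • z) = c ^ (d + 1) • Φ z := by
    intro c z
    funext i
    rw [Pi.smul_apply, smul_eq_mul]
    exact IsHP.map_smul ⟨φ i, hφ i, hφe i⟩ c z
  have hsm' : ∀ (c : ℂ) w, Ψ (c • w) = c ^ e • Ψ w := by
    intro c z
    funext i
    rw [Pi.smul_apply, smul_eq_mul]
    exact IsHP.map_smul ⟨ψ i, hψ i, hψe i⟩ c z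
  -- the factor h
  let χ : Fin 5 → MvPolynomial (Fin 5) ℂ := fun j => aeval φ (ψ j)
  have eχ : ∀ z j, eval z (χ j) = Ψ (Φ z) j := by
    intro z j
    rw [eval_aeval, eφ, hψe]
  have hχ : ∀ i j, χ i * X j = χ j * X i := by
    intro i j
    refine MvPolynomial.funext fun z => ?_
    rw [map_mul, map_mul, eχ, eχ, eval_X, eval_X]
    exact h3 z i j
  obtain ⟨h, hh⟩ : ∃ h, χ 0 = h * X 0 := by
    have h5 : (X 0 : MvPolynomial (Fin 5) ℂ) ∣ χ 0 * X 1 := ⟨χ 1, by rw [hχ 0 1]; ring⟩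
    have hpx : Prime (X 0 : MvPolynomial (Fin 5) ℂ) := X_prime
    rcases hpx.dvd_or_dvd h5 with h6 | h6
    · obtain ⟨h, hh⟩ := h6
      exact ⟨h, by rw [hh]; ring⟩
    · exfalso
      have := X_dvd_X.mp h6
      exact absurd this (by decide)
  have hhj : ∀ j, χ j = h * X j := by
    intro j
    have h5 := hχ j 0
    rw [hh] at h5
    have h6 : (X 0 : MvPolynomial (Fin 5) ℂ) ≠ 0 := X_ne_zero 0
    apply mul_right_cancel₀ h6
    rw [h5]
    ring
  let z₀ := Ψ w₀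
  obtain ⟨c, hc, hc0⟩ : ∃ c : ℂ, Φ z₀ = c • w₀ ∧ c ≠ 0 := by
    refine ⟨Φ z₀ i₀ / w₀ i₀, ?_, div_ne_zero hi hwi⟩
    funext j
    rw [Pi.smul_apply, smul_eq_mul]
    field_simp
    rw [← h2 w₀ hw0 i₀ j]
  have hz0 : z₀ ≠ 0 := by
    intro h0
    apply h4
    change Φ z₀ = 0
    have := hsm 0 z₀
    rw [zero_smul, pow_succ, mul_zero, zero_smul] at this
    rw [h0, this]
  have hzh : eval z₀ h ≠ 0 := by
    intro h0
    apply hz0
    have h5 : Ψ (Φ z₀) = c ^ e • z₀ := by rw [hc, hsm']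
    funext j
    have h6 := congrFun h5 j
    rw [← eχ, hhj, map_mul, h0, zero_mul, Pi.smul_apply, smul_eq_mul] at h6
    exact (mul_eq_zero.mp h6.symm).resolve_left (pow_ne_zero _ hc0)
  refine ⟨d + 1, 1 + e, φ, fun j => X i₀ * ψ j, φ i₀ * h, X i₀ ^ d * aeval ψ (φ i₀), hφ,
    fun j => (isHomogeneous_X _ _).mul (hψ j), ?_, ?_, ?_, ?_, ?_⟩
  · refine MvPolynomial.funext fun z => ?_
    rw [eval_aeval, eφ, h1, map_zero]
  · intro h0
    have h5 : eval z₀ (φ i₀ * h) ≠ 0 := by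
      rw [map_mul, hφe]
      exact mul_ne_zero hi hzh
    rw [h0, map_zero] at h5
    exact h5 rfl
  · rintro ⟨k, hk⟩
    have h5 := congrArg (eval w₀) hk
    rw [map_mul, map_mul, hw0, zero_mul, map_pow, eval_X, eval_aeval, eψ, hφe] at h5
    exact mul_ne_zero (pow_ne_zero _ hwi) hi h5
  · intro j
    rw [map_mul, aeval_X]
    have := hhj j
    change aeval φ (ψ j) = h * X j at this
    rw [this]; ring
  · intro i
    apply dvd_of_vanish hp
    intro w hw1
    rw [map_sub, eval_aeval, eψ', hφe, map_mul, map_mul, map_pow,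
      eval_X, eval_X, eval_aeval, eψ, hφe]
    simp only [hsm, Pi.smul_apply, smul_eq_mul]
    have := h2 w hw1 i i₀
    rw [pow_succ]
    linear_combination (w i₀ ^ d) * this

end Vale.Agent.P287.H674
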