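import Vale.Agent.P287.H674.Main

/-!
The theorem on Klein four-groups for cubic forms.
-/

namespace Vale.Agent.P287.H674

open MvPolynomial

theorem tri_inv {F : MvPolynomial (Fin 6) ℂ} (hF : F.IsHomogeneous 3)
    {g : (Fin 6 → ℂ) →ₗ[ℂ] (Fin 6 → ℂ)} (hg : ∀ v, eval (g v) F = eval v F) (x y z : Fin 6 → ℂ) :
    tri F (g x) (g y) (g z) = tri F x y z := by
  have pol : ∀ a b c : Fin 6 → ℂ, 6 * tri F a b c = eval (a + b + c) F - eval (a + b) F
      - eval (a + c) F - eval (b + c) F + eval a F + eval b F + eval c F := by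
    intro a b c
    simp only [← tri_self hF, map_add, LinearMap.add_apply]
    have e1 : tri F b a c = tri F a b c := tri_comm1 F _ _ _
    have e2 : tri F a c b = tri F a b c := tri_comm2 F _ _ _
    have e3 : tri F b c a = tri F a b c := by rw [tri_comm2, tri_comm1]
    have e4 : tri F c a b = tri F a b c := by rw [tri_comm1, tri_comm2]
    have e5 : tri F c b a = tri F a b c := by rw [tri_comm2, e4]
    rw [e1, e2, e3, e4, e5]
    ring
  have h1 := pol (g x) (g y) (g z)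
  have h2 := pol x y z
  simp only [← map_add, hg] at h1
  have : (6 : ℂ) ≠ 0 := by norm_num
  exact mul_left_cancel₀ this (by rw [h1, h2])

theorem twoPlanes_of {F : MvPolynomial (Fin 6) ℂ} (hF : F.IsHomogeneous 3)
    (h : TwoPl (tri F)) : TwoDisjointPlanes F := by
  obtain ⟨W1, W2, ⟨h1, z1⟩, ⟨h2, z2⟩, hd⟩ := h
  exact ⟨W1, W2, ⟨h1, fun w hw => by rw [← tri_self hF]; exact z1 w hw⟩,
    ⟨h2, fun w hw => by rw [← tri_self hF]; exact z2 w hw⟩, hd⟩

theorem klein {F : MvPolynomial (Fin 6) ℂ} (hF : SmoothCubic F)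
    {σ τ : (Fin 6 → ℂ) →ₗ[ℂ] (Fin 6 → ℂ)} (hσ : ∀ v, σ (σ v) = v) (hτ : ∀ v, τ (τ v) = v)
    (hc : ∀ v, σ (τ v) = τ (σ v)) (hσF : ∀ v, eval (σ v) F = eval v F)
    (hτF : ∀ v, eval (τ v) F = eval v F) (hdet : LinearMap.det σ = -1)
    (hτ1 : ∃ v, τ v ≠ v) (hne : ∃ v, τ v ≠ σ v) : TwoPl (tri F) := by
  have h : Kl (tri F) (eig σ τ) := kl_of (tri_comm1 F) (tri_comm2 F)
    (fun v hv => smooth_tri hF hv) hσ hτ hc (tri_inv hF.1 hσF) (tri_inv hF.1 hτF)
  have hd := det_eig h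
  rw [hdet] at hd
  have hV : Module.finrank ℂ (Fin 6 → ℂ) = 6 := by simp
  have hs : ∀ {i : Fin 4} {v : Fin 6 → ℂ}, v ∈ eig σ τ i →
      σ v = (es i : ℂ) • v ∧ τ v = (et i : ℂ) • v := fun h => h
  apply graded h hV
  · by_contra hcon
    have a1 : Module.finrank ℂ (eig σ τ 1) = 0 := by omega
    have a2 : Module.finrank ℂ (eig σ τ 2) = 0 := by omega
    obtain ⟨v, hv⟩ := hne
    apply hv
    obtain ⟨x, hx, y, hy, z, hz, w, hw, rfl⟩ := h.span v
    rw [eq_zero_of_finrank a1 y hy, eq_zero_of_finrank a2 z hz]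
    have h1 := hs hx
    have h2 := hs hw
    simp only [es, et, Matrix.cons_val_zero, Matrix.cons_val] at h1 h2
    rw [add_zero, add_zero, map_add, map_add, h1.1, h1.2, h2.1, h2.2]
  · by_contra hcon
    have a1 : Module.finrank ℂ (eig σ τ 1) + Module.finrank ℂ (eig σ τ 3) = 0 := by omega
    rw [a1] at hd
    norm_num at hd
  · by_contra hcon
    have a1 : Module.finrank ℂ (eig σ τ 2) = 0 := by omega
    have a2 : Module.finrank ℂ (eig σ τ 3) = 0 := by omega
    obtain ⟨v, hv⟩ := hτ1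
    apply hv
    obtain ⟨x, hx, y, hy, z, hz, w, hw, rfl⟩ := h.span v
    rw [eq_zero_of_finrank a1 z hz, eq_zero_of_finrank a2 w hw]
    have h1 := hs hx
    have h2 := hs hy
    simp only [es, et, Matrix.cons_val_zero, Matrix.cons_val_one, Int.cast_one,
      one_smul] at h1 h2
    rw [add_zero, add_zero, map_add, h1.2, h2.2]
  · rintro ⟨b1, -, b3⟩
    rw [b1, b3] at hd
    norm_num at hd

end Vale.Agent.P287.H674
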