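import Vale.Agent.P287.H674.Eckardt
import Vale.Agent.P287.H674.Thm

/-!
Eckardt points of cubic fourfolds.
-/

namespace Vale.Agent.P287.H674

open MvPolynomial

/-- The point of `P^5` given by `e` is an Eckardt point of `V(F)`: it lies on `V(F)`, and the
section of `V(F)` by its tangent hyperplane at `e` is a cone with vertex `e`. -/
def EckardtPoint (F : MvPolynomial (Fin 6) ℂ) (e : Fin 6 → ℂ) : Prop :=
  e ≠ 0 ∧ eval e F = 0 ∧ ∀ v : Fin 6 → ℂ, (∑ i, v i * eval e (pderiv i F) = 0) →
    ∀ s : ℂ, eval (v + s • e) F = eval v F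

theorem sum_pderiv {F : MvPolynomial (Fin 6) ℂ} (hF : F.IsHomogeneous 3) (e v : Fin 6 → ℂ) :
    ∑ i, v i * eval e (pderiv i F) = 3 * tri F e e v := by
  have e3 : tri F e e v = ∑ i, v i * tri F e e (Pi.single i 1) := by
    rw [LinearMap.pi_apply_eq_sum_univ (tri F e e) v]
    refine Finset.sum_congr rfl fun i _ => ?_
    rw [smul_eq_mul]
    congr 2
    funext j
    simp [Pi.single_apply, eq_comm]
  rw [e3, Finset.mul_sum]
  refine Finset.sum_congr rfl fun i _ => ?_
  rw [eval_pderiv_eq hF]
  ring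

theorem eck_of {F : MvPolynomial (Fin 6) ℂ} (hF : SmoothCubic F) {e : Fin 6 → ℂ}
    (he : EckardtPoint F e) : ∃ U, Eck (tri F) e U := by
  obtain ⟨hne, he0, hcone⟩ := he
  have s1 := tri_comm1 F
  have s2 := tri_comm2 F
  have eee : tri F e e e = 0 := by rw [tri_self hF.1]; exact he0
  have hH : ∀ v, tri F e e v = 0 → tri F v v e = 0 := by
    intro v hv
    have h1 := hcone v (by rw [sum_pderiv hF.1, hv, mul_zero]) 1
    rw [one_smul, ← tri_self hF.1, ← tri_self hF.1] at h1
    have f1 : tri F v e e = 0 := by rw [s1, s2]; exact hv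
    have f2 : tri F e v e = 0 := by rw [s2]; exact hv
    have f3 : tri F v e v = tri F v v e := s2 _ _ _
    have f4 : tri F e v v = tri F v v e := by rw [s1, s2]
    simp only [map_add, LinearMap.add_apply, hv, f1, f2, f3, f4, eee] at h1
    have : 3 * tri F v v e = 0 := by linear_combination h1
    simpa using this
  have hHH : ∀ v w, tri F e e v = 0 → tri F e e w = 0 → tri F v w e = 0 := by
    intro v w hv hw
    have h1 := hH (v + w) (by rw [map_add, hv, hw, add_zero])
    have h2 := hH v hv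
    have h3 := hH w hw
    have f : tri F w v e = tri F v w e := s1 _ _ _
    simp only [map_add, LinearMap.add_apply, f] at h1
    have : 2 * tri F v w e = 0 := by linear_combination h1 - h2 - h3
    simpa using this
  obtain ⟨x, hx⟩ := smooth_tri hF hne
  set c := tri F e e x with hc
  set x' := x - (tri F x x e / (2 * c)) • e with hx'
  have hcx' : tri F e e x' = c := by
    rw [hx', map_sub, map_smul, eee, smul_zero, sub_zero]
  have hexx : tri F e x' x' = 0 := by
    have f1 : tri F e x x = tri F x x e := by rw [s1, s2]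
    have f2 : tri F e x e = c := by rw [s2]
    simp only [hx', map_sub, map_smul, LinearMap.sub_apply, LinearMap.smul_apply, smul_eq_mul,
      f1, f2, eee, ← hc]
    field_simp
    ring
  have hex'e : tri F e x' e = c := by rw [s2]; exact hcx'
  have hdec : ∀ u, tri F e x' u = 0 → ∃ a : ℂ, ∃ k, u = a • x' + k ∧ tri F e e k = 0 ∧
      tri F e x' k = 0 := by
    intro u hu
    refine ⟨tri F e e u / c, u - (tri F e e u / c) • x', by abel, ?_, ?_⟩
    · rw [map_sub, map_smul, hcx', smul_eq_mul]; field_simp; ring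
    · rw [map_sub, map_smul, hexx, hu]; simp
  refine ⟨LinearMap.ker (tri F e x'), ⟨⟨s1, s2, fun v hv => smooth_tri hF hv⟩, hne, eee, ?_, ?_, ?_⟩⟩
  · intro u hu w hw
    obtain ⟨a, k, rfl, k1, k2⟩ := hdec u hu
    obtain ⟨b, l, rfl, l1, l2⟩ := hdec w hw
    have g1 : tri F x' x' e = 0 := by rw [s2, s1]; exact hexx
    have g2 : tri F x' l e = 0 := by rw [s2, s1]; exact l2
    have g3 : tri F k x' e = 0 := by rw [s1, s2, s1]; exact k2
    have g4 := hHH k l k1 l1
    simp only [map_add, map_smul, LinearMap.add_apply, LinearMap.smul_apply, smul_eq_mul,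
      g1, g2, g3, g4]
    ring
  · intro u hu s h0
    have h1 : tri F e x' (u + s • e) = s * c := by
      have : tri F e x' u = 0 := hu
      rw [map_add, map_smul, this, hex'e, zero_add, smul_eq_mul]
    rw [h0, map_zero] at h1
    have hs : s = 0 := by
      rcases mul_eq_zero.mp h1.symm with h | h
      · exact h
      · exact absurd h hx
    refine ⟨?_, hs⟩
    rw [hs, zero_smul, add_zero] at h0
    exact h0
  · intro v
    refine ⟨v - (tri F e x' v / c) • e, ?_, tri F e x' v / c, by abel⟩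
    rw [LinearMap.mem_ker, map_sub, map_smul, hex'e, smul_eq_mul]
    field_simp
    ring

/-- an Eckardt point and a plane which does not contain it -/
theorem eckardt_plane {F : MvPolynomial (Fin 6) ℂ} (hF : SmoothCubic F) {e : Fin 6 → ℂ}
    (he : EckardtPoint F e) {W : Submodule ℂ (Fin 6 → ℂ)} (hW : PlaneIn F W) (heW : e ∉ W) :
    TwoDisjointPlanes F := by
  obtain ⟨U, hU⟩ := eck_of hF he
  apply twoPlanes_of hF.1
  exact hU.twoPl_of_plane (by simp) hW.1 (fun w hw => by rw [tri_self hF.1]; exact hW.2 w hw) heW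

variable {V : Type*} [AddCommGroup V] [Module ℂ V]
variable {T : V →ₗ[ℂ] V →ₗ[ℂ] V →ₗ[ℂ] ℂ}

/-- two Eckardt points, given a line on the cubic surface of the second one -/
theorem Eck.two (hV : Module.finrank ℂ V = 6) {e e' : V} {U U' : Submodule ℂ V}
    (h : Eck T e U) (h' : Eck T e' U') (hne : ∀ s : ℂ, e ≠ s • e')
    (hline : ∃ L : Submodule ℂ h'.K, Module.finrank ℂ L = 2 ∧
      ∀ w ∈ L, restr T h'.K w w w = 0) : TwoPl T := by
  obtain ⟨L, hL, hLT⟩ := hline
  obtain ⟨M, hM, hMT, hLM⟩ := exists_skew h'.smK (h'.finrank_K hV) hL hLT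
  obtain ⟨P, hP, hPT, hPm⟩ := h'.cone hL hLT
  obtain ⟨Q, hQ, hQT, hQm⟩ := h'.cone hM hMT
  by_cases h1 : e ∈ P
  · by_cases h2 : e ∈ Q
    · exfalso
      obtain ⟨l, hl, s, es⟩ := hPm e h1
      obtain ⟨m, hm, t, et⟩ := hQm e h2
      have e1 : ((l : V) - m) + (s - t) • e' = 0 := by
        rw [es, ← sub_eq_zero] at et
        rw [← et]; module
      have e2 := (h'.ind _ (U'.sub_mem (h'.memK l.2).1 (h'.memK m.2).1) _ e1).1
      have e3 : l = m := Subtype.ext (sub_eq_zero.mp e2)
      have e4 : l ∈ L ⊓ M := ⟨hl, by rw [e3]; exact hm⟩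
      rw [hLM] at e4
      have e5 : l = 0 := (Submodule.mem_bot ℂ).mp e4
      apply hne s
      rw [e5] at es
      simpa using es
    · exact h.twoPl_of_plane hV hQ hQT h2
  · exact h.twoPl_of_plane hV hP hPT h1

end Vale.Agent.P287.H674
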