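import Vale.Agent.P287.H674.Thm
import Vale.Agent.P287.H674.EckardtPt
import Vale.Agent.P287.H673.Line3

/-!
The Klein four-group theorem for abstract trilinear forms; transport of Eckardt points.
-/

namespace Vale.Agent.P287.H674

variable {V : Type*} [AddCommGroup V] [Module ℂ V]
variable {T : V →ₗ[ℂ] V →ₗ[ℂ] V →ₗ[ℂ] ℂ}

theorem absKlein (hS : Sm T) (hV : Module.finrank ℂ V = 6)
    {σ τ : V →ₗ[ℂ] V} (hσ : ∀ v, σ (σ v) = v) (hτ : ∀ v, τ (τ v) = v)
    (hc : ∀ v, σ (τ v) = τ (σ v)) (hσT : ∀ x y z, T (σ x) (σ y) (σ z) = T x y z)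
    (hτT : ∀ x y z, T (τ x) (τ y) (τ z) = T x y z) (hdet : LinearMap.det σ = -1)
    (hτ1 : ∃ v, τ v ≠ v) (hne : ∃ v, τ v ≠ σ v) : TwoPl T := by
  have hfin : Module.Finite ℂ V := Module.finite_of_finrank_pos (by omega)
  have h : Kl T (eig σ τ) := kl_of hS.s1 hS.s2 hS.smooth hσ hτ hc hσT hτT
  have hd := det_eig h
  rw [hdet] at hd
  have hs : ∀ {i : Fin 4} {v : V}, v ∈ eig σ τ i →
      σ v = (es i : ℂ) • v ∧ τ v = (et i : ℂ) • v := fun h => h
  apply graded h hV
  · by_contra hcon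
    have a1 : Module.finrank ℂ (eig σ τ 1) = 0 := by omega
    have a2 : Module.finrank ℂ (eig σ τ 2) = 0 := by omega
    obtain ⟨v, hv⟩ := hne
    apply hv
    obtain ⟨x, hx, y, hy, z, hz, w, hw, rfl⟩ := h.span v
    rw [eq_zero_of_finrank a1 y hy, eq_zero_of_finrank a2 z hz]
    have h1 := hs hx
    have h2 := hs hw
    simp only [es, et, Matrix.cons_val_zero, Matrix.cons_val] at h1 h2
    rw [add_zero, add_zero, map_add, map_add, h1.1, h1.2, h2.1, h2.2]
  · by_contra hcon
    have a1 : Module.finrank ℂ (eig σ τ 1) + Module.finrank ℂ (eig σ τ 3) = 0 := by omega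
    rw [a1] at hd
    norm_num at hd
  · by_contra hcon
    have a1 : Module.finrank ℂ (eig σ τ 2) = 0 := by omega
    have a2 : Module.finrank ℂ (eig σ τ 3) = 0 := by omega
    obtain ⟨v, hv⟩ := hτ1
    apply hv
    obtain ⟨x, hx, y, hy, z, hz, w, hw, rfl⟩ := h.span v
    rw [eq_zero_of_finrank a1 z hz, eq_zero_of_finrank a2 w hw]
    have h1 := hs hx
    have h2 := hs hy
    simp only [es, et, Matrix.cons_val_zero, Matrix.cons_val_one, Int.cast_one,
      one_smul] at h1 h2
    rw [add_zero, add_zero, map_add, h1.2, h2.2]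
  · rintro ⟨b1, -, b3⟩
    rw [b1, b3] at hd
    norm_num at hd

/-- two Eckardt points give two disjoint planes -/
theorem Eck.two' (hV : Module.finrank ℂ V = 6) {e e' : V} {U U' : Submodule ℂ V}
    (h : Eck T e U) (h' : Eck T e' U') (hne : ∀ s : ℂ, e ≠ s • e') : TwoPl T :=
  h.two hV h' hne (Vale.Agent.P287.H673.exists_line (h'.finrank_K hV) h'.smK.s1 h'.smK.s2
    h'.smK.smooth)

/-- transport of an Eckardt point by an automorphism -/
theorem Eck.transport {e : V} {U : Submodule ℂ V} (h : Eck T e U) {ρ ρ' : V →ₗ[ℂ] V}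
    (h1 : ∀ v, ρ (ρ' v) = v) (h2 : ∀ v, ρ' (ρ v) = v)
    (hT : ∀ x y z, T (ρ x) (ρ y) (ρ z) = T x y z) : Eck T (ρ e) (U.map ρ) where
  s1 := h.s1
  s2 := h.s2
  smooth := h.smooth
  ne := fun h0 => h.ne (by rw [← h2 e, h0, map_zero])
  eee := by rw [hT]; exact h.eee
  uue := by
    intro x hx y hy
    obtain ⟨x, hx', rfl⟩ := Submodule.mem_map.mp hx
    obtain ⟨y, hy', rfl⟩ := Submodule.mem_map.mp hy
    rw [hT]; exact h.uue x hx' y hy'
  ind := by
    intro x hx s hs
    obtain ⟨x, hx', rfl⟩ := Submodule.mem_map.mp hx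
    have h3 : ρ (x + s • e) = 0 := by rw [map_add, map_smul]; exact hs
    have h4 : x + s • e = 0 := by rw [← h2 (x + s • e), h3, map_zero]
    obtain ⟨h5, h6⟩ := h.ind x hx' s h4
    exact ⟨by rw [h5, map_zero], h6⟩
  span := by
    intro v
    obtain ⟨x, hx, s, hs⟩ := h.span (ρ' v)
    refine ⟨ρ x, Submodule.mem_map_of_mem hx, s, ?_⟩
    rw [← map_smul, ← map_add, ← hs, h1]

/-- the Eckardt point of a reflection -/
theorem eck_reflection (hS : Sm T) {s : V →ₗ[ℂ] V} (hs : ∀ v, s (s v) = v)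
    (hsT : ∀ x y z, T (s x) (s y) (s z) = T x y z) {e : V} (he : e ≠ 0) (hse : s e = - e)
    (hU : ∀ v, s v = - v → ∃ c : ℂ, v = c • e) :
    Eck T e (LinearMap.ker (s - LinearMap.id)) := by
  have mem : ∀ v, v ∈ LinearMap.ker (s - LinearMap.id) ↔ s v = v := by
    intro v
    rw [LinearMap.mem_ker, LinearMap.sub_apply, LinearMap.id_apply, sub_eq_zero]
  refine ⟨hS, he, ?_, ?_, ?_, ?_⟩
  · have h1 := hsT e e e
    rw [hse] at h1
    simp only [map_neg, LinearMap.neg_apply, neg_neg] at h1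
    have : 2 * T e e e = 0 := by linear_combination -h1
    simpa using this
  · intro x hx y hy
    have h1 := hsT x y e
    rw [(mem x).mp hx, (mem y).mp hy, hse, map_neg] at h1
    have : 2 * T x y e = 0 := by linear_combination -h1
    simpa using this
  · intro x hx c h0
    have h1 := congrArg s h0
    rw [map_add, map_smul, (mem x).mp hx, hse, map_zero] at h1
    have h2 : (2 : ℂ) • x = 0 := by
      have : (2 : ℂ) • x = (x + c • e) + (x + c • -e) := by module
      rw [this, h0, h1, add_zero]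
    have h3 : x = 0 := by simpa using h2
    refine ⟨h3, ?_⟩
    rw [h3, zero_add] at h0
    rcases smul_eq_zero.mp h0 with h | h
    · exact h
    · exact absurd h he
  · intro v
    obtain ⟨c, hc⟩ := hU (v - s v) (by rw [map_sub, hs]; abel)
    refine ⟨(1 / 2 : ℂ) • (v + s v), ?_, c / 2, ?_⟩
    · rw [mem, map_smul, map_add, hs, add_comm]
    · have : (c / 2) • e = (1 / 2 : ℂ) • (c • e) := by module
      rw [this, ← hc]; module

end Vale.Agent.P287.H674
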