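import Mathlib

/-!
Elementary algebra over the complex numbers.
-/

namespace Vale.Agent.P287.H674

open Polynomial

theorem exists_sq (a : ℂ) : ∃ z : ℂ, z ^ 2 = a := IsAlgClosed.exists_pow_nat_eq a two_pos

theorem root2 {a : ℂ} (b c : ℂ) (ha : a ≠ 0) : ∃ s : ℂ, a * s ^ 2 + b * s + c = 0 := by
  have hd : (C a * X ^ 2 + C b * X + C c : ℂ[X]).degree ≠ 0 := by
    rw [degree_quadratic ha]; decide
  obtain ⟨s, hs⟩ := IsAlgClosed.exists_root _ hd
  exact ⟨s, by simpa using hs⟩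

theorem root3 {a : ℂ} (b c d : ℂ) (ha : a ≠ 0) : ∃ s : ℂ, a * s ^ 3 + b * s ^ 2 + c * s + d = 0 := by
  have hd : (C a * X ^ 3 + C b * X ^ 2 + C c * X + C d : ℂ[X]).degree ≠ 0 := by
    rw [degree_cubic ha]; decide
  obtain ⟨s, hs⟩ := IsAlgClosed.exists_root _ hd
  exact ⟨s, by simpa using hs⟩

theorem root4 {a : ℂ} (b c d e : ℂ) (ha : a ≠ 0) :
    ∃ s : ℂ, a * s ^ 4 + b * s ^ 3 + c * s ^ 2 + d * s + e = 0 := by
  have hd : (C a * X ^ 4 + C b * X ^ 3 + C c * X ^ 2 + C d * X + C e : ℂ[X]).degree ≠ 0 := by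
    have : (C a * X ^ 4 + C b * X ^ 3 + C c * X ^ 2 + C d * X + C e : ℂ[X]).degree = 4 := by
      compute_degree!
    rw [this]; decide
  obtain ⟨s, hs⟩ := IsAlgClosed.exists_root _ hd
  exact ⟨s, by simpa using hs⟩

theorem root6 {a : ℂ} (b c d e f g : ℂ) (ha : a ≠ 0) :
    ∃ s : ℂ, a * s ^ 6 + b * s ^ 5 + c * s ^ 4 + d * s ^ 3 + e * s ^ 2 + f * s + g = 0 := by
  have hd : (C a * X ^ 6 + C b * X ^ 5 + C c * X ^ 4 + C d * X ^ 3 + C e * X ^ 2 + C f * X + C g :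
      ℂ[X]).degree ≠ 0 := by
    have : (C a * X ^ 6 + C b * X ^ 5 + C c * X ^ 4 + C d * X ^ 3 + C e * X ^ 2 + C f * X + C g :
      ℂ[X]).degree = 6 := by
      compute_degree!
    rw [this]; decide
  obtain ⟨s, hs⟩ := IsAlgClosed.exists_root _ hd
  exact ⟨s, by simpa using hs⟩

/-- a binary quadratic form with zero discriminant is a square -/
theorem perfect_sq {A B D : ℂ} (h : B ^ 2 = A * D) :
    ∃ p q : ℂ, A = p ^ 2 ∧ B = p * q ∧ D = q ^ 2 := by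
  obtain ⟨p, hp⟩ := exists_sq A
  obtain ⟨q, hq⟩ := exists_sq D
  have h1 : (B - p * q) * (B + p * q) = 0 := by
    linear_combination h - q ^ 2 * hp - A * hq
  rcases mul_eq_zero.mp h1 with h2 | h2
  · exact ⟨p, q, hp.symm, by linear_combination h2, hq.symm⟩
  · exact ⟨p, -q, hp.symm, by linear_combination h2, by rw [← hq]; ring⟩

/-- a binary quadratic form has a nontrivial zero -/
theorem binary_quad (a b c : ℂ) : ∃ s t : ℂ, (s, t) ≠ 0 ∧ a * s ^ 2 + 2 * b * s * t + c * t ^ 2 = 0 := by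
  by_cases ha : a = 0
  · exact ⟨1, 0, by simp, by simp [ha]⟩
  · obtain ⟨s, hs⟩ := root2 (2 * b) c ha
    exact ⟨s, 1, by simp, by linear_combination hs⟩

/-- isotropic plane of a degenerate ternary form -/
theorem degenerate {n b d k z : ℂ} (hk : k ≠ 0) (h : n * (d * k - z ^ 2) - b ^ 2 * k = 0) :
    ∃ α β : ℂ, ∀ y y' : ℂ, n * y ^ 2 + 2 * b * y * y' + d * y' ^ 2 + k * (α * y + β * y') ^ 2
      + 2 * z * y' * (α * y + β * y') = 0 := by
  have h1 : b ^ 2 = n * (d - z ^ 2 / k) := by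
    field_simp
    linear_combination -h
  obtain ⟨p, q, e1, e2, e3⟩ := perfect_sq h1
  obtain ⟨μ, hμ⟩ := exists_sq (-1 / k)
  have hμ' : k * μ ^ 2 = -1 := by rw [hμ]; field_simp
  refine ⟨μ * p, μ * q - z / k, fun y y' => ?_⟩
  have e4 : d = q ^ 2 + z ^ 2 / k := by rw [← e3]; ring
  rw [e1, e2, e4]
  have e5 : k * (μ * p * y + (μ * q - z / k) * y') ^ 2 +
      2 * z * y' * (μ * p * y + (μ * q - z / k) * y') =
      k * μ ^ 2 * (p * y + q * y') ^ 2 - z ^ 2 / k * y' ^ 2 := by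
    field_simp
    ring
  have e6 : (p ^ 2 * y ^ 2 + 2 * (p * q) * y * y' + (q ^ 2 + z ^ 2 / k) * y' ^ 2 +
      k * (μ * p * y + (μ * q - z / k) * y') ^ 2 +
      2 * z * y' * (μ * p * y + (μ * q - z / k) * y')) =
      (p * y + q * y') ^ 2 + z ^ 2 / k * y' ^ 2 + (k * (μ * p * y + (μ * q - z / k) * y') ^ 2 +
      2 * z * y' * (μ * p * y + (μ * q - z / k) * y')) := by ring
  rw [e6, e5, hμ']
  ring

/-- two linear equations in three unknowns -/
theorem two_lin (a b c a' b' c' : ℂ) :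
    ∃ v : Fin 3 → ℂ, v ≠ 0 ∧ a * v 0 + b * v 1 + c * v 2 = 0 ∧ a' * v 0 + b' * v 1 + c' * v 2 = 0 := by
  have hdet : (!![a, b, c; a', b', c'; 0, 0, 0] : Matrix (Fin 3) (Fin 3) ℂ).det = 0 := by
    rw [Matrix.det_fin_three]; simp
  obtain ⟨v, hv, hv2⟩ := Matrix.exists_mulVec_eq_zero_iff.mpr hdet
  refine ⟨v, hv, ?_, ?_⟩
  · have := congrFun hv2 0
    simpa [Matrix.mulVec, dotProduct, Fin.sum_univ_three] using this
  · have := congrFun hv2 1
    simpa [Matrix.mulVec, dotProduct, Fin.sum_univ_three] using this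

/-- two diagonal quadratic equations in three unknowns -/
theorem two_sq (a b c a' b' c' : ℂ) :
    ∃ x y z : ℂ, ¬ (x = 0 ∧ y = 0 ∧ z = 0) ∧ a * x ^ 2 + b * y ^ 2 + c * z ^ 2 = 0 ∧
      a' * x ^ 2 + b' * y ^ 2 + c' * z ^ 2 = 0 := by
  obtain ⟨v, hv, h1, h2⟩ := two_lin a b c a' b' c'
  obtain ⟨x, hx⟩ := exists_sq (v 0)
  obtain ⟨y, hy⟩ := exists_sq (v 1)
  obtain ⟨z, hz⟩ := exists_sq (v 2)
  refine ⟨x, y, z, ?_, by rw [hx, hy, hz]; exact h1, by rw [hx, hy, hz]; exact h2⟩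
  rintro ⟨rfl, rfl, rfl⟩
  apply hv
  funext i
  fin_cases i
  · simpa using hx.symm
  · simpa using hy.symm
  · simpa using hz.symm

end Vale.Agent.P287.H674
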