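import Vale.Agent.P287.H674.Odd4

/-!
Two involutions of a smooth cubic fourfold, one of them antisymplectic.
-/

namespace Vale.Agent.P287.H674

variable {V : Type*} [AddCommGroup V] [Module ℂ V]
variable {T : V →ₗ[ℂ] V →ₗ[ℂ] V →ₗ[ℂ] ℂ}

/-- the determinant of an involution preserving the cubic form -/
theorem det_inv (hS : Sm T) [Module.Finite ℂ V] {s : Module.End ℂ V} (hs : ∀ v, s (s v) = v)
    (hsT : ∀ x y z, T (s x) (s y) (s z) = T x y z) :
    LinearMap.det s = (-1) ^ Module.finrank ℂ (LinearMap.ker (s + LinearMap.id)) := by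
  have h : Kl T (eig s LinearMap.id) := kl_of hS.s1 hS.s2 hS.smooth hs (fun v => rfl)
    (fun v => rfl) hsT (fun x y z => rfl)
  have h1 := det_eig h
  have e1 : eig s LinearMap.id 1 = LinearMap.ker (s + LinearMap.id) := by
    ext v
    rw [mem_eig, LinearMap.mem_ker, LinearMap.add_apply, LinearMap.id_apply,
      add_eq_zero_iff_eq_neg]
    simp [es, et]
  have e3 : eig s LinearMap.id 3 = ⊥ := by
    rw [Submodule.eq_bot_iff]
    intro v hv
    rw [mem_eig] at hv
    have h2 := hv.2
    simp only [et, Matrix.cons_val, LinearMap.id_apply, Int.cast_neg, Int.cast_one, neg_smul,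
      one_smul] at h2
    have h3 : (2 : ℂ) • v = 0 := by
      have : (2 : ℂ) • v = v - (-v) := by module
      rw [this, ← h2, sub_self]
    simpa using h3
  rw [h1, e1, e3, finrank_bot, add_zero]

theorem Dih.twoPl {s ρ : Module.End ℂ V} {n : ℕ} (h : Dih T s ρ n)
    (hV : Module.finrank ℂ V = 6) : TwoPl T := by
  have hfin : Module.Finite ℂ V := Module.finite_of_finrank_pos (by omega)
  have mem : ∀ v, v ∈ LinearMap.ker (s + LinearMap.id) ↔ s v = - v := by
    intro v
    rw [LinearMap.mem_ker, LinearMap.add_apply, LinearMap.id_apply, add_eq_zero_iff_eq_neg]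
  have iso : ∀ w, s w = - w → T w w w = 0 := by
    intro w hw
    have h1 := h.sT w w w
    rw [hw] at h1
    simp only [map_neg, LinearMap.neg_apply, neg_neg] at h1
    have : 2 * T w w w = 0 := by linear_combination -h1
    simpa using this
  have hle : Module.finrank ℂ (LinearMap.ker (s + LinearMap.id)) ≤ 3 :=
    isotropic_le hV h.s1 h.s2 h.smooth fun w hw => iso w ((mem w).mp hw)
  have hdet := det_inv h.toSm h.ss h.sT
  rw [h.det] at hdet
  have hd : Module.finrank ℂ (LinearMap.ker (s + LinearMap.id)) = 1 ∨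
      Module.finrank ℂ (LinearMap.ker (s + LinearMap.id)) = 3 := by
    generalize Module.finrank ℂ (LinearMap.ker (s + LinearMap.id)) = d at *
    interval_cases d
    · norm_num at hdet
    · exact Or.inl rfl
    · norm_num at hdet
    · exact Or.inr rfl
  rcases hd with hd | hd
  · obtain ⟨e, he⟩ := exists_IsB1 hd
    exact h.caseA hV he.ne ((mem e).mp he.he) (fun v hv => he.span v ((mem v).mpr hv))
  · by_cases hN : ∀ v, s v = - v → ρ v = v → v = 0
    · exact h.caseB0 hd hN
    · push Not at hN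
      obtain ⟨a, hsa, hra, ha⟩ := hN
      by_cases h0 : ∀ b, ρ b = b → ∀ u v, T (s b - b) (ρ u - u) (ρ v - v) = 0
      · exact h.caseB1 hV ha hsa hra h0
      · push Not at h0
        obtain ⟨b, hb, u, v, huv⟩ := h0
        exact h.caseB2 hV (a := s b - b) (by rw [map_sub, hb, h.rho_s hb])
          (by rw [map_sub, h.ss]; abel) huv

/-- two involutions of a smooth cubic form in six variables, one of them antisymplectic, whose
product has finite order -/
theorem absL (hS : Sm T) (hV : Module.finrank ℂ V = 6)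
    {σ τ : Module.End ℂ V} (hσ : ∀ v, σ (σ v) = v) (hτ : ∀ v, τ (τ v) = v)
    (hσT : ∀ x y z, T (σ x) (σ y) (σ z) = T x y z)
    (hτT : ∀ x y z, T (τ x) (τ y) (τ z) = T x y z) (hdet : LinearMap.det σ = -1)
    (hτ1 : ∃ v, τ v ≠ v) (hne : ∃ v, τ v ≠ σ v)
    (hfin : ∃ N : ℕ, 0 < N ∧ (σ * τ) ^ N = 1) : TwoPl T := by
  by_cases hc : ∀ v, σ (τ v) = τ (σ v)
  · exact absKlein hS hV hσ hτ hc hσT hτT hdet hτ1 hne
  have hσ2 : σ * σ = 1 := by ext v; exact hσ v
  have hτ2 : τ * τ = 1 := by ext v; exact hτ v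
  set ρ : Module.End ℂ V := σ * τ with hρ
  have hρT : ∀ x y z, T (ρ x) (ρ y) (ρ z) = T x y z := fun x y z => by
    rw [hρ, Module.End.mul_apply, Module.End.mul_apply, Module.End.mul_apply, hσT, hτT]
  have hsrsr : ∀ v, σ (ρ (σ (ρ v))) = v := by
    intro v
    simp only [hρ, Module.End.mul_apply, hσ, hτ]
  have hpos : 0 < orderOf ρ := by
    obtain ⟨N, hN, hN1⟩ := hfin
    exact orderOf_pos_iff.mpr (isOfFinOrder_iff_pow_eq_one.mpr ⟨N, hN, hN1⟩)
  have hpow : ρ ^ orderOf ρ = 1 := pow_orderOf_eq_one ρ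
  rcases Nat.even_or_odd (orderOf ρ) with he | ho
  · obtain ⟨k, hk⟩ := he
    have hk0 : 0 < k := by omega
    have hz1 : ρ ^ k ≠ 1 := pow_ne_one_of_lt_orderOf (by omega) (by omega)
    have hz2 : ρ ^ k * ρ ^ k = 1 := by rw [← pow_add, ← hk, hpow]
    -- `σ ρ^k = ρ^{-k} σ`
    have hcomm : ∀ j : ℕ, ρ ^ j * (σ * ρ ^ j) = σ := by
      intro j
      induction j with
      | zero => simp
      | succ j ih =>
        have h1 : ρ * σ * ρ = σ := by
          rw [hρ]
          calc σ * τ * σ * (σ * τ) = σ * (τ * (σ * σ) * τ) := by noncomm_ring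
            _ = σ := by rw [hσ2, mul_one, hτ2, mul_one]
        calc ρ ^ (j + 1) * (σ * ρ ^ (j + 1)) = (ρ ^ j * ρ) * (σ * (ρ * ρ ^ j)) := by
              rw [← pow_succ, ← pow_succ']
          _ = ρ ^ j * ((ρ * σ * ρ) * ρ ^ j) := by simp only [mul_assoc]
          _ = σ := by rw [h1, ih]
    have hzc : σ * ρ ^ k = ρ ^ k * σ := by
      calc σ * ρ ^ k = (ρ ^ k * ρ ^ k) * (σ * ρ ^ k) := by rw [hz2, one_mul]
        _ = ρ ^ k * (ρ ^ k * (σ * ρ ^ k)) := by rw [mul_assoc]
        _ = ρ ^ k * σ := by rw [hcomm]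
    have hzT : ∀ j : ℕ, ∀ x y z, T ((ρ ^ j) x) ((ρ ^ j) y) ((ρ ^ j) z) = T x y z := by
      intro j
      induction j with
      | zero => intro x y z; rfl
      | succ j ih =>
        intro x y z
        rw [pow_succ]
        exact (ih _ _ _).trans (hρT x y z)
    refine absKlein hS hV (σ := σ) (τ := ρ ^ k) hσ (fun v => LinearMap.congr_fun hz2 v)
      (fun v => LinearMap.congr_fun hzc v) hσT (hzT k) hdet ?_ ?_
    · by_contra hcon
      push Not at hcon
      exact hz1 (LinearMap.ext hcon)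
    · by_contra hcon
      push Not at hcon
      have hzs : ρ ^ k = σ := LinearMap.ext hcon
      apply hc
      -- `σ` is a power of `ρ`, so it commutes with `ρ`, hence with `τ`
      have h1 : σ * ρ = ρ * σ := by
        rw [← hzs]; exact (pow_mul_comm' ρ k)
      intro v
      have h2 := LinearMap.congr_fun h1 (σ v)
      simp only [hρ, Module.End.mul_apply, hσ] at h2
      exact h2.symm
  · obtain ⟨v0, hv0⟩ := hne
    have hD : Dih T σ ρ (orderOf ρ) := by
      refine ⟨hS, hσ, hσT, hρT, hsrsr, fun v => by rw [hpow]; rfl, ho, ?_, hdet⟩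
      refine ⟨v0, fun h1 => hv0 ?_⟩
      have h2 := congrArg σ h1
      rw [hρ, Module.End.mul_apply, hσ] at h2
      exact h2
    exact hD.twoPl hV

end Vale.Agent.P287.H674
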