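import Vale.Agent.P287.H674.Phi3d
import Vale.Agent.P287.H674.EckardtPt
import Vale.Agent.P287.H674.Odd5

/-!
A plane in general position with respect to an antisymplectic involution.
-/

namespace Vale.Agent.P287.H674

open MvPolynomial

variable {V : Type*} [AddCommGroup V] [Module ℂ V]
variable {T : V →ₗ[ℂ] V →ₗ[ℂ] V →ₗ[ℂ] ℂ}

theorem phi_of_inv (hS : Sm T) (hV : Module.finrank ℂ V = 6) {s : V →ₗ[ℂ] V}
    (hs : ∀ v, s (s v) = v) (hsT : ∀ x y z, T (s x) (s y) (s z) = T x y z)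
    (h3 : Module.finrank ℂ (LinearMap.ker (s + LinearMap.id)) = 3) :
    Phi T (LinearMap.ker (s - LinearMap.id)) (LinearMap.ker (s + LinearMap.id)) := by
  have hfin : Module.Finite ℂ V := Module.finite_of_finrank_pos (by omega)
  have memA : ∀ v, v ∈ LinearMap.ker (s - LinearMap.id) ↔ s v = v := by
    intro v
    rw [LinearMap.mem_ker, LinearMap.sub_apply, LinearMap.id_apply, sub_eq_zero]
  have memB : ∀ v, v ∈ LinearMap.ker (s + LinearMap.id) ↔ s v = - v := by
    intro v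
    rw [LinearMap.mem_ker, LinearMap.add_apply, LinearMap.id_apply, add_eq_zero_iff_eq_neg]
  have hbot : ∀ v ∈ LinearMap.ker (s - LinearMap.id), v ∈ LinearMap.ker (s + LinearMap.id) →
      v = 0 := by
    intro v h1 h2
    rw [memA] at h1
    rw [memB, h1] at h2
    have h4 : (2 : ℂ) • v = 0 := by
      have : (2 : ℂ) • v = v - (-v) := by module
      rw [this, ← h2, sub_self]
    simpa using h4
  have htop : ∀ v : V, ∃ a ∈ LinearMap.ker (s - LinearMap.id),
      ∃ b ∈ LinearMap.ker (s + LinearMap.id), v = a + b := by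
    intro v
    refine ⟨(1 / 2 : ℂ) • (v + s v), ?_, (1 / 2 : ℂ) • (v - s v), ?_, by module⟩
    · rw [memA, map_smul, map_add, hs, add_comm]
    · rw [memB, map_smul, map_sub, hs]; module
  refine ⟨hS, ?_, h3, htop, hbot, ?_, ?_⟩
  · have hc : IsCompl (LinearMap.ker (s - LinearMap.id)) (LinearMap.ker (s + LinearMap.id)) := by
      rw [isCompl_iff, Submodule.disjoint_def, Submodule.codisjoint_iff_exists_add_eq]
      refine ⟨hbot, fun v => ?_⟩
      obtain ⟨a, ha, b, hb, e⟩ := htop v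
      exact ⟨a, b, ha, hb, e.symm⟩
    have := Submodule.finrank_add_eq_of_isCompl hc
    omega
  · intro a ha a' ha' b hb
    have h1 := hsT a a' b
    rw [(memA a).mp ha, (memA a').mp ha', (memB b).mp hb, map_neg] at h1
    have : 2 * T a a' b = 0 := by linear_combination -h1
    simpa using this
  · intro a ha a' ha' b hb
    have h1 := hsT a a' b
    rw [(memB a).mp ha, (memB a').mp ha', (memB b).mp hb] at h1
    simp only [map_neg, LinearMap.neg_apply, neg_neg] at h1
    have : 2 * T a a' b = 0 := by linear_combination -h1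
    simpa using this

/-- an antisymplectic involution and a plane which contains less than half of the
`-1`-eigenspace -/
theorem anti_plane (hS : Sm T) (hV : Module.finrank ℂ V = 6) {s : Module.End ℂ V}
    (hs : ∀ v, s (s v) = v) (hsT : ∀ x y z, T (s x) (s y) (s z) = T x y z)
    (hdet : LinearMap.det s = -1) {W : Submodule ℂ V} (hW : IsPl T W)
    (hWB : 2 * Module.finrank ℂ (W ⊓ LinearMap.ker (s + LinearMap.id) : Submodule ℂ V)
      < Module.finrank ℂ (LinearMap.ker (s + LinearMap.id))) : TwoPl T := by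
  have hfin : Module.Finite ℂ V := Module.finite_of_finrank_pos (by omega)
  have mem : ∀ v, v ∈ LinearMap.ker (s + LinearMap.id) ↔ s v = - v := by
    intro v
    rw [LinearMap.mem_ker, LinearMap.add_apply, LinearMap.id_apply, add_eq_zero_iff_eq_neg]
  have iso : ∀ w, s w = - w → T w w w = 0 := by
    intro w hw
    have h1 := hsT w w w
    rw [hw] at h1
    simp only [map_neg, LinearMap.neg_apply, neg_neg] at h1
    have : 2 * T w w w = 0 := by linear_combination -h1
    simpa using this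
  have hle : Module.finrank ℂ (LinearMap.ker (s + LinearMap.id)) ≤ 3 :=
    isotropic_le hV hS.s1 hS.s2 hS.smooth fun w hw => iso w ((mem w).mp hw)
  have hdet' := det_inv hS hs hsT
  rw [hdet] at hdet'
  have hd : Module.finrank ℂ (LinearMap.ker (s + LinearMap.id)) = 1 ∨
      Module.finrank ℂ (LinearMap.ker (s + LinearMap.id)) = 3 := by
    clear hWB
    generalize Module.finrank ℂ (LinearMap.ker (s + LinearMap.id)) = d at *
    interval_cases d
    · norm_num at hdet'
    · exact Or.inl rfl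
    · norm_num at hdet'
    · exact Or.inr rfl
  rcases hd with hd | hd
  · obtain ⟨e, he⟩ := exists_IsB1 hd
    have hE : Eck T e (LinearMap.ker (s - LinearMap.id)) :=
      eck_reflection hS hs hsT he.ne ((mem e).mp he.he) (fun v hv => he.span v ((mem v).mpr hv))
    refine hE.twoPl_of_plane hV hW.1 hW.2 (fun heW => ?_)
    rw [hd] at hWB
    have h0 : Module.finrank ℂ (W ⊓ LinearMap.ker (s + LinearMap.id) : Submodule ℂ V) = 0 := by
      omega
    have h1 := Submodule.finrank_eq_zero.mp h0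
    have h2 : e ∈ W ⊓ LinearMap.ker (s + LinearMap.id) := ⟨heW, he.he⟩
    rw [h1] at h2
    exact he.ne ((Submodule.mem_bot ℂ).mp h2)
  · exact (phi_of_inv hS hV hs hsT hd).two hV hW (by omega)

/-- `V₋`, the `-1`-eigenspace of `s` -/
def antiSpace (s : (Fin 6 → ℂ) →ₗ[ℂ] (Fin 6 → ℂ)) : Submodule ℂ (Fin 6 → ℂ) where
  carrier := {v | s v = - v}
  add_mem' := by
    intro a b ha hb
    simp only [Set.mem_setOf_eq] at *
    rw [map_add, ha, hb]; abel
  zero_mem' := by simp
  smul_mem' := by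
    intro c a ha
    simp only [Set.mem_setOf_eq] at *
    rw [map_smul, ha, smul_neg]

theorem antiSpace_eq (s : (Fin 6 → ℂ) →ₗ[ℂ] (Fin 6 → ℂ)) :
    antiSpace s = LinearMap.ker (s + LinearMap.id) := by
  ext v
  rw [LinearMap.mem_ker, LinearMap.add_apply, LinearMap.id_apply, add_eq_zero_iff_eq_neg]
  rfl

theorem anti_plane' {F : MvPolynomial (Fin 6) ℂ} (hF : SmoothCubic F)
    {s : (Fin 6 → ℂ) →ₗ[ℂ] (Fin 6 → ℂ)} (hs : ∀ v, s (s v) = v)
    (hsF : ∀ v, eval (s v) F = eval v F) (hdet : LinearMap.det s = -1)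
    {W : Submodule ℂ (Fin 6 → ℂ)} (hW : PlaneIn F W)
    (hWB : 2 * Module.finrank ℂ (W ⊓ antiSpace s : Submodule ℂ (Fin 6 → ℂ))
      < Module.finrank ℂ (antiSpace s)) : TwoDisjointPlanes F := by
  rw [antiSpace_eq] at hWB
  exact twoPlanes_of hF.1 (anti_plane ⟨tri_comm1 F, tri_comm2 F, fun v hv => smooth_tri hF hv⟩
    (by simp) hs (tri_inv hF.1 hsF) hdet
    ⟨hW.1, fun w hw => by rw [tri_self hF.1]; exact hW.2 w hw⟩ hWB)

/-- two disjoint planes cannot both contain more than half of a third space -/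
theorem one_small {W₁ W₂ B : Submodule ℂ (Fin 6 → ℂ)} (hd : W₁ ⊓ W₂ = ⊥)
    (hodd : Odd (Module.finrank ℂ B)) :
    2 * Module.finrank ℂ (W₁ ⊓ B : Submodule ℂ (Fin 6 → ℂ)) < Module.finrank ℂ B ∨
      2 * Module.finrank ℂ (W₂ ⊓ B : Submodule ℂ (Fin 6 → ℂ)) < Module.finrank ℂ B := by
  by_contra hcon
  push Not at hcon
  obtain ⟨k, hk⟩ := hodd
  have h1 := Submodule.finrank_sup_add_finrank_inf_eq (W₁ ⊓ B) (W₂ ⊓ B)
  have h2 : (W₁ ⊓ B) ⊓ (W₂ ⊓ B) = ⊥ := by
    rw [Submodule.eq_bot_iff]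
    rintro x ⟨⟨h3, -⟩, ⟨h4, -⟩⟩
    have h5 : x ∈ W₁ ⊓ W₂ := ⟨h3, h4⟩
    rw [hd] at h5
    exact (Submodule.mem_bot ℂ).mp h5
  rw [h2, finrank_bot, add_zero] at h1
  have h3 : Module.finrank ℂ ((W₁ ⊓ B) ⊔ (W₂ ⊓ B) : Submodule ℂ (Fin 6 → ℂ)) ≤
      Module.finrank ℂ B :=
    Submodule.finrank_mono (sup_le inf_le_right inf_le_right)
  omega

theorem anti_iff {F : MvPolynomial (Fin 6) ℂ} (hF : SmoothCubic F)
    {s : (Fin 6 → ℂ) →ₗ[ℂ] (Fin 6 → ℂ)} (hs : ∀ v, s (s v) = v)
    (hsF : ∀ v, eval (s v) F = eval v F) (hdet : LinearMap.det s = -1) :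
    (∃ W, PlaneIn F W ∧ 2 * Module.finrank ℂ (W ⊓ antiSpace s : Submodule ℂ (Fin 6 → ℂ))
      < Module.finrank ℂ (antiSpace s)) ↔ TwoDisjointPlanes F := by
  constructor
  · rintro ⟨W, hW, hWB⟩
    exact anti_plane' hF hs hsF hdet hW hWB
  · rintro ⟨W₁, W₂, h1, h2, hd⟩
    have hS : Sm (tri F) := ⟨tri_comm1 F, tri_comm2 F, fun v hv => smooth_tri hF hv⟩
    have hdet' := det_inv hS hs (tri_inv hF.1 hsF)
    have hodd : Odd (Module.finrank ℂ (antiSpace s)) := by
      rw [antiSpace_eq]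
      by_contra hcon
      rw [Nat.not_odd_iff_even] at hcon
      have h3 := hcon.neg_one_pow (α := ℂ)
      rw [hdet] at hdet'
      rw [← hdet'] at h3
      norm_num at h3
    rcases one_small hd hodd with h | h
    · exact ⟨W₁, h1, h⟩
    · exact ⟨W₂, h2, h⟩

theorem eckardt_iff {F : MvPolynomial (Fin 6) ℂ} (hF : SmoothCubic F) {e : Fin 6 → ℂ}
    (he : EckardtPoint F e) : (∃ W, PlaneIn F W ∧ e ∉ W) ↔ TwoDisjointPlanes F := by
  constructor
  · rintro ⟨W, hW, heW⟩
    exact eckardt_plane hF he hW heW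
  · rintro ⟨W₁, W₂, h1, h2, hd⟩
    by_cases h3 : e ∈ W₁
    · refine ⟨W₂, h2, fun h4 => he.1 ?_⟩
      have h5 : e ∈ W₁ ⊓ W₂ := ⟨h3, h4⟩
      rw [hd] at h5
      exact (Submodule.mem_bot ℂ).mp h5
    · exact ⟨W₁, h1, h3⟩

end Vale.Agent.P287.H674
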