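import Mathlib

/-!
Two plane cubics which meet transversally have a common zero off a given line.
-/

namespace Vale.Agent.P287.H674

open MvPolynomial

/-- common zeros of two polynomials contained in the zeros of a third one -/
theorem nullst {c D z : MvPolynomial (Fin 3) ℂ}
    (h : ∀ v, eval v c = 0 → eval v D = 0 → eval v z = 0) :
    ∃ N : ℕ, z ^ N ∈ Ideal.span {c, D} := by
  have h1 : z ∈ (Ideal.span {c, D} : Ideal (MvPolynomial (Fin 3) ℂ)).radical := by
    rw [← vanishingIdeal_zeroLocus_eq_radical (K := ℂ)]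
    intro v hv
    have hv' : ∀ p ∈ (Ideal.span {c, D} : Ideal (MvPolynomial (Fin 3) ℂ)), aeval v p = 0 := hv
    have e1 := hv' c (Ideal.subset_span (by simp))
    have e2 := hv' D (Ideal.subset_span (by simp))
    rw [MvPolynomial.aeval_eq_eval] at e1 e2 ⊢
    exact h v e1 e2
  exact h1

theorem nullst' {J : Ideal (MvPolynomial (Fin 3) ℂ)} {z : MvPolynomial (Fin 3) ℂ}
    (h : ∀ v, (∀ p ∈ J, eval v p = 0) → eval v z = 0) : ∃ N : ℕ, z ^ N ∈ J := by
  have h1 : z ∈ J.radical := by
    rw [← vanishingIdeal_zeroLocus_eq_radical (K := ℂ)]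
    intro v hv
    have hv' : ∀ p ∈ J, aeval v p = 0 := hv
    rw [MvPolynomial.aeval_eq_eval]
    refine h v fun p hp => ?_
    have := hv' p hp
    rwa [MvPolynomial.aeval_eq_eval] at this
  exact h1

/-- a polynomial minus its image under a substitution -/
theorem sub_subst (p : Fin 3 → MvPolynomial (Fin 3) ℂ) (J : Ideal (MvPolynomial (Fin 3) ℂ))
    (hJ : ∀ i, X i - p i ∈ J) (f : MvPolynomial (Fin 3) ℂ) : f - aeval p f ∈ J := by
  induction f using MvPolynomial.induction_on with
  | C a => simp [MvPolynomial.algebraMap_eq]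
  | add f g hf hg =>
    have : f + g - aeval p (f + g) = (f - aeval p f) + (g - aeval p g) := by
      rw [map_add]; ring
    rw [this]
    exact J.add_mem hf hg
  | mul_X f i hf =>
    have : f * X i - aeval p (f * X i) = X i * (f - aeval p f) + aeval p f * (X i - p i) := by
      rw [map_mul, aeval_X]; ring
    rw [this]
    exact J.add_mem (J.mul_mem_left _ hf) (J.mul_mem_left _ (hJ i))

/-- the substitution `X 1 = 0` -/
noncomputable def sub1 : MvPolynomial (Fin 3) ℂ →ₐ[ℂ] MvPolynomial (Fin 3) ℂ :=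
  aeval ![X 0, 0, X 2]

theorem sub1_dvd (f : MvPolynomial (Fin 3) ℂ) : X 1 ∣ f - sub1 f := by
  have h := sub_subst ![X 0, 0, X 2] (Ideal.span {X 1}) (fun i => by
    fin_cases i
    · simp
    · simpa using Ideal.mem_span_singleton_self (X 1 : MvPolynomial (Fin 3) ℂ)
    · simp) f
  exact Ideal.mem_span_singleton.mp h

theorem dvd_of_sub1 {f : MvPolynomial (Fin 3) ℂ} (h : sub1 f = 0) : X 1 ∣ f := by
  have := sub1_dvd f
  rwa [h, sub_zero] at this

theorem sub1_X1 : sub1 (X 1) = 0 := by simp [sub1]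

theorem sub1_sub1 (f : MvPolynomial (Fin 3) ℂ) : sub1 (sub1 f) = sub1 f := by
  have h1 := sub1_dvd f
  obtain ⟨g, hg⟩ := h1
  have h2 := congrArg sub1 hg
  rw [map_sub, map_mul, sub1_X1, zero_mul, sub_eq_zero] at h2
  exact h2.symm

theorem eval_sub1 (f : MvPolynomial (Fin 3) ℂ) (v : Fin 3 → ℂ) :
    eval v (sub1 f) = eval ![v 0, 0, v 2] f := by
  have h1 : (eval v).comp (sub1 : MvPolynomial (Fin 3) ℂ →ₐ[ℂ] MvPolynomial (Fin 3) ℂ).toRingHom
      = eval ![v 0, 0, v 2] := by
    apply MvPolynomial.ringHom_ext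
    · intro r; simp [sub1]
    · intro i; fin_cases i <;> simp [sub1]
  exact congrFun (congrArg DFunLike.coe h1) f

/-- `X 1` is not a zero divisor modulo `c`, `D` -/
theorem nzd {c D : MvPolynomial (Fin 3) ℂ} (h0 : eval ![1, 0, 0] c ≠ 0)
    (hL : ∀ v, eval v c = 0 → eval v D = 0 → v 2 = 0) {h : MvPolynomial (Fin 3) ℂ}
    (hh : X 1 * h ∈ Ideal.span {c, D}) : h ∈ Ideal.span {c, D} := by
  obtain ⟨N, hN⟩ := nullst (c := sub1 c) (D := sub1 D) (z := X 2) fun v h1 h2 => by
    rw [eval_sub1] at h1 h2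
    have := hL _ h1 h2
    simpa using this
  obtain ⟨u1, v1, e1⟩ := Ideal.mem_span_pair.mp hN
  obtain ⟨u, v, e2⟩ := Ideal.mem_span_pair.mp hh
  have hc0 : sub1 c ≠ 0 := by
    intro e
    apply h0
    have := eval_sub1 c ![1, 0, 0]
    rw [e, map_zero] at this
    simpa using this.symm
  have e3 : sub1 u * sub1 c + sub1 v * sub1 D = 0 := by
    have := congrArg sub1 e2
    rw [map_add, map_mul, map_mul, map_mul, sub1_X1, zero_mul] at this
    exact this
  have e4 : sub1 c * (u1 * sub1 v - v1 * sub1 u) = X 2 ^ N * sub1 v := by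
    linear_combination (sub1 v) * e1 - v1 * e3
  have hX2 : ¬ (X 2 : MvPolynomial (Fin 3) ℂ) ∣ sub1 c := by
    rintro ⟨g, hg⟩
    apply h0
    have := congrArg (eval ![1, 0, 0]) hg
    rw [eval_sub1] at this
    simpa using this
  have hpr : Prime (X 2 : MvPolynomial (Fin 3) ℂ) := MvPolynomial.X_prime
  have h5 : X 2 ^ N ∣ u1 * sub1 v - v1 * sub1 u :=
    hpr.pow_dvd_of_dvd_mul_left N hX2 ⟨sub1 v, e4⟩
  obtain ⟨m, hm⟩ := h5
  have e6 : sub1 v = sub1 c * m := by
    have h7 : X 2 ^ N * (sub1 c * m) = X 2 ^ N * sub1 v := by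
      rw [← e4, hm]; ring
    exact (mul_left_cancel₀ (pow_ne_zero _ hpr.ne_zero) h7).symm
  have e7 : sub1 v = sub1 c * sub1 m := by
    have := congrArg sub1 e6
    rw [sub1_sub1, map_mul, sub1_sub1] at this
    exact this
  have e8 : sub1 u = - sub1 m * sub1 D := by
    have h8 : sub1 c * (sub1 u + sub1 m * sub1 D) = 0 := by
      linear_combination e3 - (sub1 D) * e7
    rcases mul_eq_zero.mp h8 with h | h
    · exact absurd h hc0
    · linear_combination h
  obtain ⟨v', hv'⟩ := dvd_of_sub1 (f := v - c * sub1 m) (by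
    rw [map_sub, map_mul, sub1_sub1, e7, sub_self])
  obtain ⟨u', hu'⟩ := dvd_of_sub1 (f := u + sub1 m * D) (by
    rw [map_add, map_mul, sub1_sub1, e8]; ring)
  rw [Ideal.mem_span_pair]
  refine ⟨u', v', ?_⟩
  have h9 : X 1 * (u' * c + v' * D) = X 1 * h := by
    linear_combination (-c) * hu' - D * hv' + e2
  exact mul_left_cancel₀ (MvPolynomial.X_ne_zero 1) h9

/-- membership in the ideal of a line through the origin -/
theorem mem_line {c : MvPolynomial (Fin 3) ℂ}
    (hcs : ∀ (r : ℂ) (v : Fin 3 → ℂ), eval (r • v) c = r ^ 3 * eval v c) {v : Fin 3 → ℂ}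
    (hv1 : v 1 ≠ 0) (hv2 : v 2 = 0) (h1 : eval v c = 0) :
    ∃ a b : MvPolynomial (Fin 3) ℂ, a * (X 0 - C (v 0 / v 1) * X 1) + b * X 2 = c := by
  rw [← Ideal.mem_span_pair]
  set q : Fin 3 → MvPolynomial (Fin 3) ℂ := ![C (v 0 / v 1) * X 1, X 1, 0] with hq
  have h := sub_subst q (Ideal.span {X 0 - C (v 0 / v 1) * X 1, X 2}) (fun i => by
    fin_cases i
    · exact Ideal.subset_span (by simp [hq])
    · simp [hq]
    · exact Ideal.subset_span (by simp [hq])) c
  have h0 : aeval q c = 0 := by
    apply MvPolynomial.funext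
    intro u
    have h2 : (eval u).comp (aeval q : MvPolynomial (Fin 3) ℂ →ₐ[ℂ] _).toRingHom
        = eval ((u 1 / v 1) • v) := by
      apply MvPolynomial.ringHom_ext
      · intro r; simp
      · intro i
        fin_cases i
        · simp [hq]; field_simp
        · simp [hq]; field_simp
        · simp [hq, hv2]
    have h3 := congrFun (congrArg DFunLike.coe h2) c
    have h4 : eval u (aeval q c) = eval ((u 1 / v 1) • v) c := h3
    rw [h4, hcs, h1, mul_zero, map_zero]
  rwa [h0, sub_zero] at h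

/-- Cramer's rule at a transversal common zero -/
theorem cramer_at {c D : MvPolynomial (Fin 3) ℂ}
    (hcs : ∀ (r : ℂ) (v : Fin 3 → ℂ), eval (r • v) c = r ^ 3 * eval v c)
    (hDs : ∀ (r : ℂ) (v : Fin 3 → ℂ), eval (r • v) D = r ^ 3 * eval v D) {v : Fin 3 → ℂ}
    (hv1 : v 1 ≠ 0) (hv2 : v 2 = 0) (h1 : eval v c = 0) (h2 : eval v D = 0)
    (hT : eval v (pderiv 0 c) * eval v (pderiv 2 D)
      - eval v (pderiv 2 c) * eval v (pderiv 0 D) ≠ 0) :
    ∃ r : MvPolynomial (Fin 3) ℂ, eval v r ≠ 0 ∧ r * X 2 ∈ Ideal.span {c, D} := by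
  obtain ⟨a, b, hc⟩ := mem_line hcs hv1 hv2 h1
  obtain ⟨a', b', hD⟩ := mem_line hDs hv1 hv2 h2
  have hm : eval v (X 0 - C (v 0 / v 1) * X 1 : MvPolynomial (Fin 3) ℂ) = 0 := by
    simp; field_simp; ring
  have hx : eval v (X 2 : MvPolynomial (Fin 3) ℂ) = 0 := by simp [hv2]
  have d0 : ∀ p q : MvPolynomial (Fin 3) ℂ,
      eval v (pderiv 0 (p * (X 0 - C (v 0 / v 1) * X 1) + q * X 2)) = eval v p := by
    intro p q
    rw [map_add, Derivation.leibniz, Derivation.leibniz, map_sub, Derivation.leibniz]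
    simp only [pderiv_X, pderiv_C, smul_eq_mul, map_add, map_mul, map_sub, hm, hx, map_zero]
    simp [Pi.single_apply]
  have d2 : ∀ p q : MvPolynomial (Fin 3) ℂ,
      eval v (pderiv 2 (p * (X 0 - C (v 0 / v 1) * X 1) + q * X 2)) = eval v q := by
    intro p q
    rw [map_add, Derivation.leibniz, Derivation.leibniz, map_sub, Derivation.leibniz]
    simp only [pderiv_X, pderiv_C, smul_eq_mul, map_add, map_mul, map_sub, hm, hx, map_zero]
    simp [Pi.single_apply]
  refine ⟨a * b' - a' * b, ?_, ?_⟩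
  · rw [← hc, ← hD, d0, d2, d0, d2] at hT
    rw [map_sub, map_mul, map_mul]
    intro e
    apply hT
    linear_combination e
  · rw [Ideal.mem_span_pair]
    refine ⟨-a', a, ?_⟩
    linear_combination (-a') * hc.symm + a * hD.symm

/-- the ideal of the multipliers of `X 2` -/
def colon2 (I : Ideal (MvPolynomial (Fin 3) ℂ)) : Ideal (MvPolynomial (Fin 3) ℂ) where
  carrier := {r | r * X 2 ∈ I}
  add_mem' := by
    intro a b ha hb
    simp only [Set.mem_setOf_eq, add_mul] at *
    exact I.add_mem ha hb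
  zero_mem' := by simp
  smul_mem' := by
    intro a b hb
    simp only [Set.mem_setOf_eq, smul_eq_mul, mul_assoc] at *
    exact I.mul_mem_left _ hb

/-- Two cubics do not meet transversally with all common zeros on a line. -/
theorem bez {c D : MvPolynomial (Fin 3) ℂ}
    (hcs : ∀ (r : ℂ) (v : Fin 3 → ℂ), eval (r • v) c = r ^ 3 * eval v c)
    (hDs : ∀ (r : ℂ) (v : Fin 3 → ℂ), eval (r • v) D = r ^ 3 * eval v D)
    (h0 : eval ![1, 0, 0] c ≠ 0)
    (hL : ∀ v, eval v c = 0 → eval v D = 0 → v 2 = 0)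
    (hT : ∀ v, v ≠ 0 → eval v c = 0 → eval v D = 0 →
      ∑ i, v i * eval v (pderiv i c) = 0 ∧ ∑ i, v i * eval v (pderiv i D) = 0 ∧
      ∀ α β : ℂ, (∀ i, α * eval v (pderiv i c) + β * eval v (pderiv i D) = 0) →
        α = 0 ∧ β = 0) : False := by
  set I : Ideal (MvPolynomial (Fin 3) ℂ) := Ideal.span {c, D} with hI
  -- common zeros have nonzero second coordinate
  have hv1 : ∀ v, v ≠ 0 → eval v c = 0 → eval v D = 0 → v 1 ≠ 0 := by
    intro v hv h1 h2 h3
    have h4 := hL v h1 h2
    have h5 : v = v 0 • ![1, 0, 0] := by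
      funext i
      fin_cases i
      · simp
      · simpa using h3
      · simpa using h4
    rw [h5, hcs] at h1
    rcases mul_eq_zero.mp h1 with h6 | h6
    · apply hv
      rw [h5, pow_eq_zero_iff (by norm_num) |>.mp h6, zero_smul]
    · exact h0 h6
  have key : ∃ N : ℕ, (X 1 : MvPolynomial (Fin 3) ℂ) ^ N ∈ colon2 I := by
    apply nullst'
    intro v hv
    by_contra hcon
    have hv0 : v ≠ 0 := by
      rintro rfl
      exact hcon (by simp)
    have hle : ∀ p ∈ I, eval v p = 0 := fun p hp => hv p (by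
      change p * X 2 ∈ I
      exact I.mul_mem_right _ hp)
    have h1 : eval v c = 0 := hle c (Ideal.subset_span (by simp))
    have h2 : eval v D = 0 := hle D (Ideal.subset_span (by simp))
    have h3 := hL v h1 h2
    have h4 := hv1 v hv0 h1 h2
    obtain ⟨s1, s2, s3⟩ := hT v hv0 h1 h2
    rw [Fin.sum_univ_three, h3, zero_mul, add_zero] at s1 s2
    obtain ⟨r, hr, hrI⟩ := cramer_at hcs hDs h4 h3 h1 h2 (by
      intro hm
      set c0 := eval v (pderiv 0 c)
      set c1 := eval v (pderiv 1 c)
      set c2 := eval v (pderiv 2 c)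
      set D0 := eval v (pderiv 0 D)
      set D1 := eval v (pderiv 1 D)
      set D2 := eval v (pderiv 2 D)
      by_cases hD0 : D0 = 0 ∧ D2 = 0
      · have hD1 : D1 = 0 := by
          rw [hD0.1, mul_zero, zero_add] at s2
          exact (mul_eq_zero.mp s2).resolve_left h4
        have := (s3 0 1 (by
          intro i
          fin_cases i
          · change 0 * c0 + 1 * D0 = 0
            rw [hD0.1]; ring
          · change 0 * c1 + 1 * D1 = 0
            rw [hD1]; ring
          · change 0 * c2 + 1 * D2 = 0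
            rw [hD0.2]; ring)).2
        exact one_ne_zero this
      · by_cases hD2 : D2 = 0
        · have hD0' : D0 ≠ 0 := fun h => hD0 ⟨h, hD2⟩
          have hc2 : c2 = 0 := by
            rw [hD2, mul_zero, zero_sub, neg_eq_zero] at hm
            exact (mul_eq_zero.mp hm).resolve_right hD0'
          have := (s3 D0 (-c0) (by
            intro i
            fin_cases i
            · change D0 * c0 + -c0 * D0 = 0
              ring
            · change D0 * c1 + -c0 * D1 = 0
              have h5 : v 1 * (D0 * c1 + -c0 * D1) = 0 := by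
                linear_combination D0 * s1 - c0 * s2
              exact (mul_eq_zero.mp h5).resolve_left h4
            · change D0 * c2 + -c0 * D2 = 0
              rw [hD2, hc2]; ring)).1
          exact hD0' this
        · have := (s3 D2 (-c2) (by
            intro i
            fin_cases i
            · change D2 * c0 + -c2 * D0 = 0
              linear_combination hm
            · change D2 * c1 + -c2 * D1 = 0
              have h5 : v 1 * (D2 * c1 + -c2 * D1) = 0 := by
                linear_combination D2 * s1 - c2 * s2 - v 0 * hm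
              exact (mul_eq_zero.mp h5).resolve_left h4
            · change D2 * c2 + -c2 * D2 = 0
              ring)).1
          exact hD2 this)
    exact hr (hv r hrI)
  obtain ⟨N, hN⟩ := key
  have hN' : (X 1 : MvPolynomial (Fin 3) ℂ) ^ N * X 2 ∈ I := hN
  have hX2 : (X 2 : MvPolynomial (Fin 3) ℂ) ∈ I := by
    clear hN
    induction N with
    | zero => simpa using hN'
    | succ n ih =>
      apply ih
      apply nzd h0 hL
      rw [← mul_assoc, ← pow_succ']
      exact hN'
  obtain ⟨u, w, huw⟩ := Ideal.mem_span_pair.mp hX2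
  -- compare orders of vanishing along the line of the third coordinate
  let φ : MvPolynomial (Fin 3) ℂ →ₐ[ℂ] Polynomial ℂ := aeval ![0, 0, Polynomial.X]
  have hφ : ∀ (f : MvPolynomial (Fin 3) ℂ) (s : ℂ), (φ f).eval s = eval ![0, 0, s] f := by
    intro f s
    have h1 : (Polynomial.evalRingHom s).comp φ.toRingHom = eval ![0, 0, s] := by
      apply MvPolynomial.ringHom_ext
      · intro r; simp [φ]
      · intro i; fin_cases i <;> simp [φ]
    exact congrFun (congrArg DFunLike.coe h1) f
  have hcub : ∀ f : MvPolynomial (Fin 3) ℂ,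
      (∀ (r : ℂ) (v : Fin 3 → ℂ), eval (r • v) f = r ^ 3 * eval v f) →
      φ f = Polynomial.C (eval ![0, 0, 1] f) * Polynomial.X ^ 3 := by
    intro f hf
    apply Polynomial.funext
    intro s
    rw [hφ]
    have : (![0, 0, s] : Fin 3 → ℂ) = s • ![0, 0, 1] := by simp
    rw [this, hf]
    simp
    ring
  have h7 := congrArg φ huw
  rw [map_add, map_mul, map_mul, hcub c hcs, hcub D hDs] at h7
  have h8 : φ (X 2) = Polynomial.X := by simp [φ]
  rw [h8] at h7
  have h9 := congrArg (fun p : Polynomial ℂ => p.coeff 1) h7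
  simp only [Polynomial.coeff_add, Polynomial.coeff_X_one] at h9
  rw [← mul_assoc, ← mul_assoc, Polynomial.coeff_mul_X_pow', Polynomial.coeff_mul_X_pow'] at h9
  simp at h9

end Vale.Agent.P287.H674
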