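import Vale.Agent.P287.H674.Lin

/-!
The case (1,1,0).
-/

namespace Vale.Agent.P287.H674

variable {V : Type*} [AddCommGroup V] [Module ℂ V]
variable {T : V →ₗ[ℂ] V →ₗ[ℂ] V →ₗ[ℂ] ℂ} {S : Fin 4 → Submodule ℂ V}

theorem exists_dir (s1 : ∀ x y z, T x y z = T y x z) (s2 : ∀ x y z, T x y z = T x z y)
    {r r' : V} (d : V) (h2 : T r' r' r' = 0) (h3 : T r r' r' ≠ 0) {μ : ℂ}
    (hμ : μ ≠ 0) : ∃ h p q : ℂ, T r r (d + h • r') = -μ * p ^ 2 ∧
      T r (d + h • r') (d + h • r') = -2 * μ * p * q ∧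
      T (d + h • r') (d + h • r') (d + h • r') = -3 * μ * q ^ 2 := by
  obtain ⟨h, hh⟩ := root4 (a := 3 * T r r' r' ^ 2)
    (12 * T r r' d * T r r' r' - 12 * T r r r' * T r' r' d)
    (12 * T r r' d ^ 2 + 6 * T r d d * T r r' r' - 12 * T r r d * T r' r' d
      - 12 * T r r r' * T r' d d)
    (12 * T r d d * T r r' d - 12 * T r r d * T r' d d - 4 * T r r r' * T d d d)
    (3 * T r d d ^ 2 - 4 * T r r d * T d d d) (mul_ne_zero three_ne_zero (pow_ne_zero 2 h3))
  have c1 : T r d r' = T r r' d := s2 _ _ _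
  have c2 : T d r' d = T r' d d := s1 _ _ _
  have c3 : T d d r' = T r' d d := by rw [s2, s1]
  have c4 : T d r' r' = T r' r' d := by rw [s1, s2]
  have c5 : T r' d r' = T r' r' d := s2 _ _ _
  have eA : T r r (d + h • r') = T r r d + h * T r r r' := by
    simp only [map_add, map_smul, smul_eq_mul]
  have eB : T r (d + h • r') (d + h • r') = T r d d + 2 * h * T r r' d + h ^ 2 * T r r' r' := by
    simp only [map_add, map_smul, LinearMap.add_apply, LinearMap.smul_apply, smul_eq_mul, c1]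
    ring
  have eC : T (d + h • r') (d + h • r') (d + h • r') =
      T d d d + 3 * h * T r' d d + 3 * h ^ 2 * T r' r' d := by
    simp only [map_add, map_smul, LinearMap.add_apply, LinearMap.smul_apply, smul_eq_mul,
      c2, c3, c4, c5, h2]
    ring
  have hsq : (-(T r (d + h • r') (d + h • r')) / (2 * μ)) ^ 2 =
      (-(T r r (d + h • r')) / μ) * (-(T (d + h • r') (d + h • r') (d + h • r')) / (3 * μ)) := by
    rw [eA, eB, eC]
    field_simp
    linear_combination hh
  obtain ⟨p, q, e1, e2, e3⟩ := perfect_sq hsq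
  refine ⟨h, p, q, ?_, ?_, ?_⟩
  · rw [neg_mul, ← e1]; field_simp
  · have : -2 * μ * p * q = -2 * μ * (p * q) := by ring
    rw [this, ← e2]; field_simp
  · rw [← e3]; field_simp

theorem plane1 (h : Kl T S) {e g : V} (he : e ∈ S 1) (hg : g ∈ S 2) {r x1 : V}
    (hr : r ∈ S 0) (hx1 : x1 ∈ S 0) (l1 : T e e r = 0) (l2 : T e e x1 = 0) (l3 : T g g r = 0)
    {μ p q : ℂ} (l4 : T g g x1 = μ) (h1 : T r r r = 0) (h2 : T r r x1 = -μ * p ^ 2)
    (h3 : T r x1 x1 = -2 * μ * p * q) (h4 : T x1 x1 x1 = -3 * μ * q ^ 2) (s t u : ℂ) :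
    T (s • e + t • (r + p • g) + u • (x1 + q • g)) (s • e + t • (r + p • g) + u • (x1 + q • g))
      (s • e + t • (r + p • g) + u • (x1 + q • g)) = 0 := by
  have e0 : s • e + t • (r + p • g) + u • (x1 + q • g) =
      (t • r + u • x1) + s • e + (t * p + u * q) • g + 0 := by module
  rw [e0, h.exF ((S 0).add_mem ((S 0).smul_mem _ hr) ((S 0).smul_mem _ hx1)) ((S 1).smul_mem _ he)
    ((S 2).smul_mem _ hg) (S 3).zero_mem]
  have c1 : T r x1 r = T r r x1 := h.s2 _ _ _
  have c2 : T x1 r r = T r r x1 := by rw [h.s1, h.s2]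
  have c3 : T x1 r x1 = T r x1 x1 := h.s1 _ _ _
  have c4 : T x1 x1 r = T r x1 x1 := by rw [h.s2, h.s1]
  have c5 : T r e e = 0 := by rw [h.s1, h.s2]; exact l1
  have c6 : T x1 e e = 0 := by rw [h.s1, h.s2]; exact l2
  have c7 : T r g g = 0 := by rw [h.s1, h.s2]; exact l3
  have c8 : T x1 g g = μ := by rw [h.s1, h.s2]; exact l4
  simp only [map_add, map_smul, LinearMap.add_apply, LinearMap.smul_apply, smul_eq_mul,
    map_zero, c1, c2, c3, c4, c5, c6, c7, c8, h1, h2, h3, h4]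
  ring

theorem case1 (h : Kl T S) (hS0 : Module.finrank ℂ (S 0) = 4) {e g : V}
    (hB : IsB1 (S 1) e) (hC : IsB1 (S 2) g) (hD : ∀ w ∈ S 3, w = 0) : TwoPl T := by
  have hdep : ∀ α β : ℂ, (∀ x ∈ S 0, α * T e e x + β * T g g x = 0) → α = 0 ∧ β = 0 := by
    intro α β hαβ
    obtain ⟨s, hs⟩ := exists_sq α
    obtain ⟨t, ht⟩ := exists_sq β
    have key := h.sing (S 0).zero_mem ((S 1).smul_mem s hB.he) ((S 2).smul_mem t hC.he)
      (S 3).zero_mem ?_ ?_ ?_ ?_
    · have s0 := hB.ind key.2.1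
      have t0 := hC.ind key.2.2.1
      exact ⟨by rw [← hs, s0]; ring, by rw [← ht, t0]; ring⟩
    · intro x0 hx0
      simp only [map_smul, LinearMap.smul_apply, smul_eq_mul, map_zero, LinearMap.zero_apply]
      linear_combination hαβ x0 hx0 + T e e x0 * hs + T g g x0 * ht
    · intro x0 hx0; simp
    · intro x0 hx0; simp
    · intro x0 hx0; rw [hD x0 hx0]; simp
  obtain ⟨x1, hx1, hx1L⟩ : ∃ x ∈ S 0, T e e x ≠ 0 := by
    by_contra hcon
    push Not at hcon
    exact one_ne_zero (hdep 1 0 (fun x hx => by rw [hcon x hx]; ring)).1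
  have hK1 := finrank_inf_ker hS0 (T e e) hx1 hx1L
  obtain ⟨d, hd, hdL⟩ : ∃ x ∈ S 0 ⊓ LinearMap.ker (T e e), T g g x ≠ 0 := by
    by_contra hcon
    push Not at hcon
    have : T e e x1 = 0 := by
      apply (hdep (-(T g g x1)) (T e e x1) (fun x hx => ?_)).2
      have h1 := hcon (x - (T e e x / T e e x1) • x1)
        ⟨(S 0).sub_mem hx ((S 0).smul_mem _ hx1), LinearMap.mem_ker.mpr (by
          rw [map_sub, map_smul, smul_eq_mul]; field_simp; ring)⟩
      rw [map_sub, map_smul, smul_eq_mul] at h1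
      have h2 : T e e x1 * T g g x - T e e x * T g g x1 = 0 := by
        have := congrArg (fun z => T e e x1 * z) h1
        simp only [mul_zero] at this
        rw [← this]
        field_simp
      linear_combination h2
    exact hx1L this
  have hK := finrank_inf_ker hK1 (T g g) hd hdL
  have hdL0 : T e e d = 0 := hd.2
  have hdS : d ∈ S 0 := hd.1
  set d' := x1 - (T g g x1 / T g g d) • d with hd'
  have hd'S : d' ∈ S 0 := (S 0).sub_mem hx1 ((S 0).smul_mem _ hdS)
  have hd'g : T g g d' = 0 := by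
    rw [hd', map_sub, map_smul, smul_eq_mul]; field_simp; ring
  have hd'e : T e e d' = T e e x1 := by
    rw [hd', map_sub, map_smul, smul_eq_mul, hdL0]; ring
  have hd'e0 : T e e d' ≠ 0 := by rw [hd'e]; exact hx1L
  set K := S 0 ⊓ LinearMap.ker (T e e) ⊓ LinearMap.ker (T g g) with hKdef
  have hKe : ∀ k ∈ K, T e e k = 0 := fun k hk => hk.1.2
  have hKg : ∀ k ∈ K, T g g k = 0 := fun k hk => hk.2
  have hKS : ∀ k ∈ K, k ∈ S 0 := fun k hk => hk.1.1
  have hdec : ∀ u ∈ S 0, ∃ c c' : ℂ, ∃ k ∈ K, u = c • d + c' • d' + k := by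
    intro u hu
    refine ⟨T g g u / T g g d, T e e u / T e e d',
      u - (T g g u / T g g d) • d - (T e e u / T e e d') • d', ?_, by abel⟩
    refine ⟨⟨(S 0).sub_mem ((S 0).sub_mem hu ((S 0).smul_mem _ hdS)) ((S 0).smul_mem _ hd'S),
      LinearMap.mem_ker.mpr ?_⟩, LinearMap.mem_ker.mpr ?_⟩
    · rw [map_sub, map_sub, map_smul, map_smul, smul_eq_mul, smul_eq_mul, hdL0]
      field_simp
      ring
    · rw [map_sub, map_sub, map_smul, map_smul, smul_eq_mul, smul_eq_mul, hd'g]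
      field_simp
      ring
  have hsimple : ∀ r ∈ K, r ≠ 0 → T r r r = 0 → ∃ k ∈ K, T r r k ≠ 0 := by
    intro r hr hr0 hrr
    by_contra hcon
    push Not at hcon
    obtain ⟨z, hz⟩ := exists_sq (-(T r r d') / T e e d')
    have hz' : T r r d' + z ^ 2 * T e e d' = 0 := by rw [hz]; field_simp; ring
    obtain ⟨w, hw⟩ := exists_sq (-(T r r d) / T g g d)
    have hw' : T r r d + w ^ 2 * T g g d = 0 := by rw [hw]; field_simp; ring
    have key := h.sing (hKS r hr) ((S 1).smul_mem z hB.he) ((S 2).smul_mem w hC.he)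
      (S 3).zero_mem ?_ ?_ ?_ ?_
    · exact hr0 key.1
    · intro x0 hx0
      obtain ⟨c, c', k, hk, rfl⟩ := hdec x0 hx0
      simp only [map_add, map_smul, LinearMap.smul_apply, smul_eq_mul, map_zero,
        LinearMap.zero_apply, hcon k hk, hKe k hk, hKg k hk, hdL0, hd'g]
      linear_combination c * hw' + c' * hz'
    · intro x0 hx0
      obtain ⟨s, rfl⟩ := hB.span x0 hx0
      have : T r e e = 0 := by rw [h.s1, h.s2]; exact hKe r hr
      simp [this]
    · intro x0 hx0
      obtain ⟨s, rfl⟩ := hC.span x0 hx0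
      have : T r g g = 0 := by rw [h.s1, h.s2]; exact hKg r hr
      simp [this]
    · intro x0 hx0
      rw [hD x0 hx0]
      simp
  obtain ⟨r, r', hR, hr, hr', hrr, hrr'⟩ := two_roots h.s1 h.s2 hK hsimple
  obtain ⟨c, p, q, a1, a2, a3⟩ := exists_dir h.s1 h.s2 d hr' hrr' hdL
  have hrr2 : T r' r r ≠ 0 := by rw [h.s1, h.s2]; exact hrr
  obtain ⟨c', p', q', b1, b2, b3⟩ := exists_dir h.s1 h.s2 d' hr hrr2 hd'e0
  have hrS := hKS r hR.ha
  have hr'S := hKS r' hR.hb
  have m1 : d + c • r' ∈ S 0 := (S 0).add_mem hdS ((S 0).smul_mem _ hr'S)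
  have m2 : d' + c' • r ∈ S 0 := (S 0).add_mem hd'S ((S 0).smul_mem _ hrS)
  refine twoPl_of ![e, r + p • g, (d + c • r') + q • g] ![g, r' + p' • e, (d' + c' • r) + q' • e]
    ?_ ?_ ?_
  · intro s t u
    exact plane1 h hB.he hC.he hrS m1 (hKe r hR.ha)
      (by rw [map_add, map_smul, hdL0, hKe r' hR.hb]; simp) (hKg r hR.ha)
      (by rw [map_add, map_smul, hKg r' hR.hb]; simp) hr a1 a2 a3 s t u
  · intro s t u
    exact plane1 h.swap12 (e := g) (g := e) hC.he hB.he (r := r') (x1 := d' + c' • r) hr'S m2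
      (hKg r' hR.hb) (by rw [map_add, map_smul, hd'g, hKg r hR.ha]; simp) (hKe r' hR.hb)
      (by rw [map_add, map_smul, hKe r hR.ha]; simp) hr' b1 b2 b3 s t u
  · intro s1 t1 u1 s2 t2 u2 heq
    simp only [Matrix.cons_val_zero, Matrix.cons_val_one, Matrix.cons_val] at heq
    have e1 : (u1 • d - u2 • d' + ((t1 - u2 * c') • r + (u1 * c - t2) • r')) +
        (s1 - t2 * p' - u2 * q') • e + (t1 * p + u1 * q - s2) • g + 0 = 0 := by
      refine Eq.trans ?_ (sub_eq_zero.mpr heq)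
      module
    have hk : (t1 - u2 * c') • r + (u1 * c - t2) • r' ∈ K :=
      K.add_mem (K.smul_mem _ hR.ha) (K.smul_mem _ hR.hb)
    have e2 := h.ind _ ((S 0).add_mem ((S 0).sub_mem ((S 0).smul_mem _ hdS)
      ((S 0).smul_mem _ hd'S)) (hKS _ hk)) _ ((S 1).smul_mem _ hB.he)
      _ ((S 2).smul_mem _ hC.he) _ (S 3).zero_mem e1
    obtain ⟨i0, i1, i2, -⟩ := e2
    have hu1 : u1 = 0 := by
      have := congrArg (T g g) i0
      rw [map_add, map_sub, map_smul, map_smul, hKg _ hk, hd'g, map_zero] at this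
      simp only [smul_eq_mul, mul_zero, sub_zero, add_zero] at this
      rcases mul_eq_zero.mp this with h1 | h1
      · exact h1
      · exact absurd h1 hdL
    have hu2 : u2 = 0 := by
      have := congrArg (T e e) i0
      rw [map_add, map_sub, map_smul, map_smul, hKe _ hk, hdL0, map_zero] at this
      simp only [smul_eq_mul, mul_zero, zero_sub, add_zero] at this
      rcases mul_eq_zero.mp (neg_eq_zero.mp this) with h1 | h1
      · exact h1
      · exact absurd h1 hd'e0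
    have h2 : t1 - u2 * c' = 0 ∧ u1 * c - t2 = 0 := by
      apply hR.ind
      rw [hu1, hu2, zero_smul, zero_smul, sub_zero, zero_add] at i0
      rw [hu1, hu2]
      exact i0
    have ht1 : t1 = 0 := by linear_combination h2.1 + c' * hu2
    have ht2 : t2 = 0 := by linear_combination c * hu1 - h2.2
    have j1 := hB.ind i1
    have j2 := hC.ind i2
    refine ⟨⟨?_, ht1, hu1⟩, ⟨?_, ht2, hu2⟩⟩
    · linear_combination j1 + p' * ht2 + q' * hu2
    · linear_combination p * ht1 + q * hu1 - j2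

end Vale.Agent.P287.H674
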