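import Vale.Agent.P287.H674.Lin

/-!
The case (2,1,0).
-/

namespace Vale.Agent.P287.H674

variable {V : Type*} [AddCommGroup V] [Module ℂ V]
variable {T : V →ₗ[ℂ] V →ₗ[ℂ] V →ₗ[ℂ] ℂ} {S : Fin 4 → Submodule ℂ V}

theorem L_ne (h : Kl T S) (hS0 : Module.finrank ℂ (S 0) = 3) {e : V} (hC : IsB1 (S 2) e)
    (hD : ∀ w ∈ S 3, w = 0) {x y0 : V} (hx : x ∈ S 0) (hx0 : x ≠ 0) (hf : T x x x = 0)
    (hy : y0 ∈ S 1) (hy0 : y0 ≠ 0) (hq : ∀ y ∈ S 1, T x y0 y = 0) : T e e x ≠ 0 := by
  intro hL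
  have c1 : T y0 y0 x = 0 := by rw [h.s2, h.s1]; exact hq y0 hy
  obtain ⟨c, hc, hc2⟩ := dep3 hS0 ![T x x, T y0 y0, T e e] hx hx0 (by
    intro i
    fin_cases i
    · exact hf
    · exact c1
    · exact hL)
  obtain ⟨a, ha⟩ := exists_sq (c 0)
  obtain ⟨b, hb⟩ := exists_sq (c 1)
  obtain ⟨z, hz⟩ := exists_sq (c 2)
  have key := h.sing ((S 0).smul_mem a hx) ((S 1).smul_mem b hy) ((S 2).smul_mem z hC.he)
    (S 3).zero_mem ?_ ?_ ?_ ?_
  · obtain ⟨k1, k2, k3, -⟩ := key
    have a0 : a = 0 := by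
      rcases smul_eq_zero.mp k1 with h1 | h1
      · exact h1
      · exact absurd h1 hx0
    have b0 : b = 0 := by
      rcases smul_eq_zero.mp k2 with h1 | h1
      · exact h1
      · exact absurd h1 hy0
    have z0 : z = 0 := hC.ind k3
    apply hc
    funext i
    fin_cases i
    · simpa [a0] using ha.symm
    · simpa [b0] using hb.symm
    · simpa [z0] using hz.symm
  · intro x0 hx0
    have := hc2 x0 hx0
    simp only [Matrix.cons_val_zero, Matrix.cons_val_one, Matrix.cons_val] at this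
    simp only [map_smul, LinearMap.smul_apply, smul_eq_mul, map_zero, LinearMap.zero_apply]
    linear_combination this + T x x x0 * ha + T y0 y0 x0 * hb + T e e x0 * hz
  · intro x0 hx0
    simp [hq x0 hx0]
  · intro x0 hx0
    obtain ⟨s, rfl⟩ := hC.span x0 hx0
    have : T x e e = 0 := by rw [h.s1, h.s2]; exact hL
    simp [this]
  · intro x0 hx0
    rw [hD x0 hx0]
    simp

/-- a point of the base with vanishing cubic and degenerate quadratic form -/
theorem exists_xs (h : Kl T S) (hS0 : Module.finrank ℂ (S 0) = 3) (m n : V) :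
    ∃ x ∈ S 0, x ≠ 0 ∧ T x x x = 0 ∧ T m m x * T n n x - (T m n x) ^ 2 = 0 := by
  let Φ : S 0 →ₗ[ℂ] (Fin 3 → ℂ) := LinearMap.pi ![(T m m).domRestrict (S 0),
    (T m n).domRestrict (S 0), (T n n).domRestrict (S 0)]
  have hfin : Module.Finite ℂ (S 0) := Module.finite_of_finrank_pos (by omega)
  have hΦ : ∀ x : S 0, Φ x = ![T m m x, T m n x, T n n x] := by
    intro x
    funext i
    fin_cases i <;> rfl
  by_cases hinj : Function.Injective Φ
  · have hsurj : Function.Surjective Φ := by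
      rw [← LinearMap.injective_iff_surjective_of_finrank_eq_finrank (by rw [hS0]; simp)]
      exact hinj
    obtain ⟨X1, h1⟩ := hsurj ![1, 0, 0]
    obtain ⟨X2, h2⟩ := hsurj ![0, 1, 0]
    obtain ⟨X3, h3⟩ := hsurj ![0, 0, 1]
    rw [hΦ] at h1 h2 h3
    have a1 : T m m X1 = 1 := congrFun h1 0
    have a2 : T m n X1 = 0 := congrFun h1 1
    have a3 : T n n X1 = 0 := congrFun h1 2
    have b1 : T m m X2 = 0 := congrFun h2 0
    have b2 : T m n X2 = 1 := congrFun h2 1
    have b3 : T n n X2 = 0 := congrFun h2 2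
    have d1 : T m m X3 = 0 := congrFun h3 0
    have d2 : T m n X3 = 0 := congrFun h3 1
    have d3 : T n n X3 = 1 := congrFun h3 2
    by_cases hf : T (X1 : V) X1 X1 = 0
    · refine ⟨X1, X1.2, ?_, hf, ?_⟩
      · intro e
        rw [e] at a1
        simp at a1
      · rw [a1, a2, a3]; ring
    · obtain ⟨p, hp⟩ := root6 (3 * T (X1 : V) X1 X2) (3 * T (X1 : V) X1 X3 + 3 * T (X1 : V) X2 X2)
        (6 * T (X1 : V) X2 X3 + T (X2 : V) X2 X2) (3 * T (X1 : V) X3 X3 + 3 * T (X2 : V) X2 X3)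
        (3 * T (X2 : V) X3 X3) (T (X3 : V) X3 X3) hf
      refine ⟨p ^ 2 • (X1 : V) + p • (X2 : V) + X3,
        (S 0).add_mem ((S 0).add_mem ((S 0).smul_mem _ X1.2) ((S 0).smul_mem _ X2.2)) X3.2,
        ?_, ?_, ?_⟩
      · intro e
        have : T n n (p ^ 2 • (X1 : V) + p • (X2 : V) + X3) = 1 := by
          simp [a3, b3, d3]
        rw [e] at this
        simp at this
      · have c1 : T (X1 : V) X2 X1 = T (X1 : V) X1 X2 := h.s2 _ _ _
        have c2 : T (X2 : V) X1 X1 = T (X1 : V) X1 X2 := by rw [h.s1, h.s2]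
        have c3 : T (X1 : V) X3 X1 = T (X1 : V) X1 X3 := h.s2 _ _ _
        have c4 : T (X3 : V) X1 X1 = T (X1 : V) X1 X3 := by rw [h.s1, h.s2]
        have c5 : T (X2 : V) X1 X2 = T (X1 : V) X2 X2 := h.s1 _ _ _
        have c6 : T (X2 : V) X2 X1 = T (X1 : V) X2 X2 := by rw [h.s2, h.s1]
        have c7 : T (X1 : V) X3 X2 = T (X1 : V) X2 X3 := h.s2 _ _ _
        have c8 : T (X2 : V) X1 X3 = T (X1 : V) X2 X3 := h.s1 _ _ _
        have c9 : T (X2 : V) X3 X1 = T (X1 : V) X2 X3 := by rw [h.s2, h.s1]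
        have c10 : T (X3 : V) X1 X2 = T (X1 : V) X2 X3 := by rw [h.s1, h.s2]
        have c11 : T (X3 : V) X2 X1 = T (X1 : V) X2 X3 := by rw [h.s2, h.s1, h.s2]
        have c12 : T (X3 : V) X1 X3 = T (X1 : V) X3 X3 := h.s1 _ _ _
        have c13 : T (X3 : V) X3 X1 = T (X1 : V) X3 X3 := by rw [h.s2, h.s1]
        have c14 : T (X2 : V) X3 X2 = T (X2 : V) X2 X3 := h.s2 _ _ _
        have c15 : T (X3 : V) X2 X2 = T (X2 : V) X2 X3 := by rw [h.s1, h.s2]
        have c16 : T (X3 : V) X2 X3 = T (X2 : V) X3 X3 := h.s1 _ _ _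
        have c17 : T (X3 : V) X3 X2 = T (X2 : V) X3 X3 := by rw [h.s2, h.s1]
        simp only [map_add, map_smul, LinearMap.add_apply, LinearMap.smul_apply, smul_eq_mul,
          c1, c2, c3, c4, c5, c6, c7, c8, c9, c10, c11, c12, c13, c14, c15, c16, c17]
        linear_combination hp
      · simp only [map_add, map_smul, smul_eq_mul, a1, a2, a3, b1, b2, b3, d1, d2, d3]
        ring
  · have hex : ∃ x0 : S 0, x0 ≠ 0 ∧ Φ x0 = 0 := by
      rw [injective_iff_map_eq_zero] at hinj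
      push Not at hinj
      obtain ⟨a, ha, hb⟩ := hinj
      exact ⟨a, hb, ha⟩
    obtain ⟨x0, hne, h0⟩ := hex
    rw [hΦ] at h0
    have a1 : T m m x0 = 0 := congrFun h0 0
    have a2 : T m n x0 = 0 := congrFun h0 1
    have a3 : T n n x0 = 0 := congrFun h0 2
    have hne' : (x0 : V) ≠ 0 := fun e => hne (Subtype.ext e)
    by_cases hf : T (x0 : V) x0 x0 = 0
    · exact ⟨x0, x0.2, hne', hf, by rw [a1, a2, a3]; ring⟩
    · have hK := finrank_inf_ker hS0 (T (x0 : V) x0) x0.2 hf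
      obtain ⟨u, v, huv⟩ := exists_IsB2 hK
      obtain ⟨s, t, hst, hq⟩ := binary_quad (T m m u * T n n u - (T m n u) ^ 2)
        ((T m m u * T n n v + T m m v * T n n u - 2 * T m n u * T m n v) / 2)
        (T m m v * T n n v - (T m n v) ^ 2)
      set x1 := s • u + t • v with hx1
      have hx1K : x1 ∈ S 0 ⊓ LinearMap.ker (T (x0 : V) x0) :=
        Submodule.add_mem _ (Submodule.smul_mem _ _ huv.ha) (Submodule.smul_mem _ _ huv.hb)
      obtain ⟨c, hc⟩ := root3 (3 * T (x0 : V) x0 x1) (3 * T (x0 : V) x1 x1) (T x1 x1 x1) hf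
      refine ⟨c • (x0 : V) + x1, (S 0).add_mem ((S 0).smul_mem _ x0.2) hx1K.1, ?_, ?_, ?_⟩
      · intro e
        have h1 : T (x0 : V) x0 (c • (x0 : V) + x1) = c * T (x0 : V) x0 x0 := by
          have : T (x0 : V) x0 x1 = 0 := hx1K.2
          simp [this]
        rw [e, map_zero] at h1
        have hc0 : c = 0 := by
          rcases mul_eq_zero.mp h1.symm with h2 | h2
          · exact h2
          · exact absurd h2 hf
        rw [hc0, zero_smul, zero_add] at e
        have := huv.ind s t e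
        exact hst (by rw [this.1, this.2]; rfl)
      · have c1 : T (x0 : V) x1 x0 = T (x0 : V) x0 x1 := h.s2 _ _ _
        have c2 : T x1 (x0 : V) x0 = T (x0 : V) x0 x1 := by rw [h.s1, h.s2]
        have c3 : T x1 (x0 : V) x1 = T (x0 : V) x1 x1 := h.s1 _ _ _
        have c4 : T x1 x1 (x0 : V) = T (x0 : V) x1 x1 := by rw [h.s2, h.s1]
        simp only [map_add, map_smul, LinearMap.add_apply, LinearMap.smul_apply, smul_eq_mul,
          c1, c2, c3, c4]
        linear_combination hc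
      · simp only [hx1, map_add, map_smul, smul_eq_mul, a1, a2, a3]
        linear_combination hq

end Vale.Agent.P287.H674
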