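import Vale.Agent.P287.H674.Case2

/-!
The case (2,1,0), end.
-/

namespace Vale.Agent.P287.H674

variable {V : Type*} [AddCommGroup V] [Module ℂ V]
variable {T : V →ₗ[ℂ] V →ₗ[ℂ] V →ₗ[ℂ] ℂ} {S : Fin 4 → Submodule ℂ V}

theorem exists_isotropic (T : V →ₗ[ℂ] V →ₗ[ℂ] V →ₗ[ℂ] ℂ) {K : Submodule ℂ V} {m n : V}
    (hB : IsB2 K m n) (s1 : ∀ x y z, T x y z = T y x z) (r : V) :
    ∃ a ∈ K, a ≠ 0 ∧ T a a r = 0 := by
  obtain ⟨s, t, hst, hq⟩ := binary_quad (T m m r) (T m n r) (T n n r)
  refine ⟨s • m + t • n, K.add_mem (K.smul_mem _ hB.ha) (K.smul_mem _ hB.hb), ?_, ?_⟩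
  · intro e
    have := hB.ind s t e
    exact hst (by rw [this.1, this.2]; rfl)
  · have c1 : T n m r = T m n r := s1 _ _ _
    simp only [map_add, map_smul, LinearMap.add_apply, LinearMap.smul_apply, smul_eq_mul, c1]
    linear_combination hq

theorem exists_radical (h : Kl T S) {m n x : V} (hB : IsB2 (S 1) m n)
    (hδ : T m m x * T n n x - (T m n x) ^ 2 = 0) :
    ∃ y0 y1, IsB2 (S 1) y0 y1 ∧ ∀ y ∈ S 1, T x y0 y = 0 := by
  have c1 : T x m m = T m m x := by rw [h.s1, h.s2]
  have c2 : T x m n = T m n x := by rw [h.s1, h.s2]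
  have c3 : T x n n = T n n x := by rw [h.s1, h.s2]
  have c4 : T x n m = T m n x := by rw [h.s2, c2]
  by_cases hm : T m m x = 0
  · have hmn : T m n x = 0 := by
      rw [hm] at hδ
      have : (T m n x) ^ 2 = 0 := by linear_combination -hδ
      exact pow_eq_zero_iff two_ne_zero |>.mp this
    refine ⟨m, n, hB, fun y hy => ?_⟩
    obtain ⟨s, t, rfl⟩ := hB.span y hy
    simp only [map_add, map_smul, smul_eq_mul, c1, c2, hm, hmn]
    ring
  · refine ⟨(-(T m n x) / T m m x) • m + n, m, hB.shift _, fun y hy => ?_⟩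
    obtain ⟨s, t, rfl⟩ := hB.span y hy
    simp only [map_add, map_smul, LinearMap.add_apply, LinearMap.smul_apply, smul_eq_mul, c1, c2,
      c3, c4]
    field_simp
    linear_combination t * hδ

theorem two_conics {A1 A2 B C D E : ℂ} (hA1 : A1 ≠ 0) (hC : C ≠ 0) (hD : D ≠ 0)
    (hne : 4 * B * E ≠ C * D) :
    ∃ α β : ℂ, A1 + 2 * α * β * B + α ^ 2 * C = 0 ∧ A2 + β ^ 2 * D + 2 * α * β * E = 0 := by
  obtain ⟨a, b, hab, hq⟩ := binary_quad (A2 * C) (A2 * B - A1 * E) (-A1 * D)
  have hq' : A2 * (2 * B * a * b + C * a ^ 2) = A1 * (D * b ^ 2 + 2 * E * a * b) := by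
    linear_combination hq
  have hk : 2 * B * a * b + C * a ^ 2 ≠ 0 := by
    intro h1
    have h2 : D * b ^ 2 + 2 * E * a * b = 0 := by
      apply mul_left_cancel₀ hA1
      rw [← hq', h1]; ring
    by_cases ha : a = 0
    · rw [ha] at h2
      have : D * b ^ 2 = 0 := by linear_combination h2
      rcases mul_eq_zero.mp this with h3 | h3
      · exact hD h3
      · have hb : b = 0 := pow_eq_zero_iff two_ne_zero |>.mp h3
        exact hab (by rw [ha, hb]; rfl)
    · by_cases hb : b = 0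
      · rw [hb] at h1
        have : C * a ^ 2 = 0 := by linear_combination h1
        rcases mul_eq_zero.mp this with h3 | h3
        · exact hC h3
        · exact ha (pow_eq_zero_iff two_ne_zero |>.mp h3)
      · have e1 : 2 * B * b + C * a = 0 := by
          apply mul_left_cancel₀ ha
          linear_combination h1
        have e2 : D * b + 2 * E * a = 0 := by
          apply mul_left_cancel₀ hb
          linear_combination h2
        apply hne
        apply mul_left_cancel₀ (mul_ne_zero ha hb)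
        linear_combination 2 * a * E * e1 - a * C * e2
  obtain ⟨c, hc⟩ := exists_sq (-A1 / (2 * B * a * b + C * a ^ 2))
  have hc' : (2 * B * a * b + C * a ^ 2) * c ^ 2 = -A1 := by
    rw [hc, mul_div_assoc', mul_div_cancel_left₀ _ hk]
  refine ⟨c * a, c * b, by linear_combination hc', ?_⟩
  apply mul_left_cancel₀ hA1
  linear_combination A2 * hc' - c ^ 2 * hq'

theorem case2 (h : Kl T S) (hS0 : Module.finrank ℂ (S 0) = 3) {m n e : V}
    (hB : IsB2 (S 1) m n) (hC : IsB1 (S 2) e) (hD : ∀ w ∈ S 3, w = 0) : TwoPl T := by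
  obtain ⟨x, hx, hx0, hf, hδ⟩ := exists_xs h hS0 m n
  obtain ⟨y0, y1, hY, hrad⟩ := exists_radical h hB hδ
  have hy0 : y0 ≠ 0 := by
    intro h0
    exact one_ne_zero (hY.ind 1 0 (by rw [h0]; simp)).1
  have hL := L_ne h hS0 hC hD hx hx0 hf hY.ha hy0 hrad
  have hK := finrank_inf_ker hS0 (T e e) hx hL
  set K := S 0 ⊓ LinearMap.ker (T e e) with hKdef
  have hdec : ∀ u ∈ S 0, ∃ c : ℂ, ∃ k ∈ K, u = c • x + k := by
    intro u hu
    refine ⟨T e e u / T e e x, u - (T e e u / T e e x) • x, ?_, by abel⟩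
    refine ⟨(S 0).sub_mem hu ((S 0).smul_mem _ hx), LinearMap.mem_ker.mpr ?_⟩
    rw [map_sub, map_smul, smul_eq_mul]
    field_simp
    ring
  have hKe : ∀ k ∈ K, T e e k = 0 := fun k hk => hk.2
  have hKS : ∀ k ∈ K, k ∈ S 0 := fun k hk => hk.1
  have hsimple : ∀ r ∈ K, r ≠ 0 → T r r r = 0 → ∃ k ∈ K, T r r k ≠ 0 := by
    intro r hr hr0 hrr
    by_contra hcon
    push Not at hcon
    obtain ⟨z, hz⟩ := exists_sq (-(T r r x) / T e e x)
    have hz' : T r r x + z ^ 2 * T e e x = 0 := by rw [hz]; field_simp; ring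
    have key := h.sing (hKS r hr) (S 1).zero_mem ((S 2).smul_mem z hC.he) (S 3).zero_mem ?_ ?_ ?_ ?_
    · exact hr0 key.1
    · intro x0 hx0
      obtain ⟨c, k, hk, rfl⟩ := hdec x0 hx0
      simp only [map_add, map_smul, LinearMap.smul_apply, smul_eq_mul, map_zero,
        LinearMap.zero_apply, hcon k hk, hKe k hk]
      linear_combination c * hz'
    · intro x0 hx0
      simp
    · intro x0 hx0
      obtain ⟨s, rfl⟩ := hC.span x0 hx0
      have : T r e e = 0 := by rw [h.s1, h.s2]; exact hKe r hr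
      simp [this]
    · intro x0 hx0
      rw [hD x0 hx0]
      simp
  obtain ⟨r, r', hR, hr, hr', hrr, hrr'⟩ := two_roots h.s1 h.s2 hK hsimple
  have hcop : ∀ y ∈ S 1, T y y r = 0 → T y y r' = 0 → y = 0 := by
    intro y hy h1 h2
    obtain ⟨z, hz⟩ := exists_sq (-(T y y x) / T e e x)
    have hz' : T y y x + z ^ 2 * T e e x = 0 := by rw [hz]; field_simp; ring
    have key := h.sing (S 0).zero_mem hy ((S 2).smul_mem z hC.he) (S 3).zero_mem ?_ ?_ ?_ ?_
    · exact key.2.1
    · intro x0 hx0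
      obtain ⟨c, k, hk, rfl⟩ := hdec x0 hx0
      obtain ⟨s, t, hst⟩ := hR.span k hk
      have h3 : T y y k = 0 := by rw [hst]; simp [h1, h2]
      simp only [map_add, map_smul, LinearMap.smul_apply, smul_eq_mul, map_zero,
        LinearMap.zero_apply, h3, hKe k hk]
      linear_combination c * hz'
    · intro x0 hx0
      simp
    · intro x0 hx0
      simp
    · intro x0 hx0
      rw [hD x0 hx0]
      simp
  obtain ⟨a0, ha0, ha0', hqa⟩ := exists_isotropic T hB h.s1 r
  obtain ⟨b0, hb0, hb0', hqb⟩ := exists_isotropic T hB h.s1 r'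
  have hCne : T a0 a0 r' ≠ 0 := fun h1 => ha0' (hcop a0 ha0 hqa h1)
  have hDne : T b0 b0 r ≠ 0 := fun h1 => hb0' (hcop b0 hb0 h1 hqb)
  have cba : ∀ u, T b0 a0 u = T a0 b0 u := fun u => h.s1 _ _ _
  have hne : 4 * T a0 b0 r * T a0 b0 r' ≠ T a0 a0 r' * T b0 b0 r := by
    intro h1
    set Y := (T b0 b0 r) • a0 + (-2 * T a0 b0 r) • b0 with hYdef
    have hY1 : Y ∈ S 1 := (S 1).add_mem ((S 1).smul_mem _ ha0) ((S 1).smul_mem _ hb0)
    have q1 : T Y Y r = 0 := by
      simp only [hYdef, map_add, map_smul, LinearMap.add_apply, LinearMap.smul_apply, smul_eq_mul,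
        cba, hqa]
      ring
    have q2 : T Y Y r' = 0 := by
      simp only [hYdef, map_add, map_smul, LinearMap.add_apply, LinearMap.smul_apply, smul_eq_mul,
        cba, hqb]
      linear_combination -(T b0 b0 r) * h1
    have hY0 := hcop Y hY1 q1 q2
    have hB0 : T a0 b0 r = 0 := by
      have e1 : (T b0 b0 r) • a0 = (2 * T a0 b0 r) • b0 := by
        have : Y = 0 := hY0
        rw [hYdef] at this
        rw [← sub_eq_zero, ← this]
        module
      have e2 : T ((T b0 b0 r) • a0) ((T b0 b0 r) • a0) r = 0 := by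
        simp [hqa]
      rw [e1] at e2
      simp only [map_smul, LinearMap.smul_apply, smul_eq_mul] at e2
      have e3 : (T a0 b0 r) ^ 2 * T b0 b0 r = 0 := by linear_combination e2 / 4
      rcases mul_eq_zero.mp e3 with h2 | h2
      · exact pow_eq_zero_iff two_ne_zero |>.mp h2
      · exact absurd h2 hDne
    rw [hYdef, hB0] at hY0
    have : (T b0 b0 r) • a0 = 0 := by rw [← hY0]; simp
    rcases smul_eq_zero.mp this with h2 | h2
    · exact hDne h2
    · exact ha0' h2
  obtain ⟨α, β, hc1, hc2⟩ := two_conics (A2 := T r r' r') hrr hCne hDne hne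
  obtain ⟨κ, hκ⟩ := exists_sq (-(T y1 y1 x) / T e e x)
  have hκ' : T y1 y1 x + κ ^ 2 * T e e x = 0 := by rw [hκ]; field_simp; ring
  refine twoPl_of ![x, y0, y1 + κ • e] ![e, r + α • a0, r' + β • b0] ?_ ?_ ?_
  · intro s t u
    simp only [Matrix.cons_val_zero, Matrix.cons_val_one, Matrix.cons_val]
    have e0 : s • x + t • y0 + u • (y1 + κ • e) =
        s • x + (t • y0 + u • y1) + (u * κ) • e + 0 := by module
    rw [e0, h.exF ((S 0).smul_mem _ hx) ((S 1).add_mem ((S 1).smul_mem _ hY.ha)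
      ((S 1).smul_mem _ hY.hb)) ((S 2).smul_mem _ hC.he) (S 3).zero_mem]
    have c1 := hrad y0 hY.ha
    have c2 := hrad y1 hY.hb
    have c3 : T x y1 y0 = 0 := by rw [h.s2]; exact c2
    have c4 : T x y1 y1 = T y1 y1 x := by rw [h.s1, h.s2]
    have c5 : T x e e = T e e x := by rw [h.s1, h.s2]
    simp only [map_add, map_smul, LinearMap.add_apply, LinearMap.smul_apply, smul_eq_mul,
      map_zero, c1, c2, c3, c4, c5, hf]
    linear_combination 3 * s * u ^ 2 * hκ'
  · intro s t u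
    simp only [Matrix.cons_val_zero, Matrix.cons_val_one, Matrix.cons_val]
    have e0 : s • e + t • (r + α • a0) + u • (r' + β • b0) =
        (t • r + u • r') + ((t * α) • a0 + (u * β) • b0) + s • e + 0 := by module
    rw [e0, h.exF ((S 0).add_mem ((S 0).smul_mem _ (hKS _ hR.ha)) ((S 0).smul_mem _ (hKS _ hR.hb)))
      ((S 1).add_mem ((S 1).smul_mem _ ha0) ((S 1).smul_mem _ hb0)) ((S 2).smul_mem _ hC.he)
      (S 3).zero_mem]
    have d1 : T r' r r = T r r r' := by rw [h.s1, h.s2]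
    have d2 : T r r' r = T r r r' := h.s2 _ _ _
    have d3 : T r' r r' = T r r' r' := h.s1 _ _ _
    have d4 : T r' r' r = T r r' r' := by rw [h.s2, h.s1]
    have d5 : T r a0 a0 = T a0 a0 r := by rw [h.s1, h.s2]
    have d6 : T r a0 b0 = T a0 b0 r := by rw [h.s1, h.s2]
    have d7 : T r b0 a0 = T a0 b0 r := by rw [h.s2, d6]
    have d8 : T r b0 b0 = T b0 b0 r := by rw [h.s1, h.s2]
    have d9 : T r' a0 a0 = T a0 a0 r' := by rw [h.s1, h.s2]
    have d10 : T r' a0 b0 = T a0 b0 r' := by rw [h.s1, h.s2]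
    have d11 : T r' b0 a0 = T a0 b0 r' := by rw [h.s2, d10]
    have d12 : T r' b0 b0 = T b0 b0 r' := by rw [h.s1, h.s2]
    have d13 : T r e e = 0 := by rw [h.s1, h.s2]; exact hKe _ hR.ha
    have d14 : T r' e e = 0 := by rw [h.s1, h.s2]; exact hKe _ hR.hb
    simp only [map_add, map_smul, LinearMap.add_apply, LinearMap.smul_apply, smul_eq_mul,
      map_zero, d1, d2, d3, d4, d5, d6, d7, d8, d9, d10, d11, d12, d13, d14, hr, hr', hqa, hqb]
    linear_combination 3 * t ^ 2 * u * hc1 + 3 * t * u ^ 2 * hc2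
  · intro s1 t1 u1 s2 t2 u2 heq
    simp only [Matrix.cons_val_zero, Matrix.cons_val_one, Matrix.cons_val] at heq
    have e1 : (s1 • x - (t2 • r + u2 • r')) +
        ((t1 • y0 + u1 • y1) - ((t2 * α) • a0 + (u2 * β) • b0)) +
        (u1 * κ - s2) • e + 0 = 0 := by
      refine Eq.trans ?_ (sub_eq_zero.mpr heq)
      module
    have hk : t2 • r + u2 • r' ∈ K := K.add_mem (K.smul_mem _ hR.ha) (K.smul_mem _ hR.hb)
    have e2 := h.ind _ ((S 0).sub_mem ((S 0).smul_mem _ hx) (hKS _ hk))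
      _ ((S 1).sub_mem ((S 1).add_mem ((S 1).smul_mem _ hY.ha) ((S 1).smul_mem _ hY.hb))
        ((S 1).add_mem ((S 1).smul_mem _ ha0) ((S 1).smul_mem _ hb0)))
      _ ((S 2).smul_mem _ hC.he) _ (S 3).zero_mem e1
    obtain ⟨i0, i1, i2, -⟩ := e2
    have hs1 : s1 = 0 := by
      have := congrArg (T e e) i0
      rw [map_sub, map_smul, hKe _ hk, map_zero, sub_zero, smul_eq_mul] at this
      rcases mul_eq_zero.mp this with h1 | h1
      · exact h1
      · exact absurd h1 hL
    have h2 : t2 = 0 ∧ u2 = 0 := by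
      apply hR.ind
      rw [hs1, zero_smul, zero_sub, neg_eq_zero] at i0
      exact i0
    rw [h2.1, h2.2] at i1
    have h3 := hY.ind t1 u1 (by simpa using i1)
    have h4 : u1 * κ - s2 = 0 := hC.ind i2
    refine ⟨⟨hs1, h3.1, h3.2⟩, ⟨?_, h2.1, h2.2⟩⟩
    linear_combination κ * h3.2 - h4

end Vale.Agent.P287.H674
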