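import Vale.Agent.P287.H674.Alg

/-!
The scalar analysis of the case (2,1,1).
-/

namespace Vale.Agent.P287.H674

/-- smoothness of the cubic with the given coefficients -/
def Sc3 (f0 f1 f2 f3 n0 b0 d0 n1 b1 d1 l0 l1 k0 k1 : ℂ) : Prop :=
  ∀ x x' y y' z w : ℂ,
    f0 * x ^ 2 + 2 * f1 * x * x' + f2 * x' ^ 2 + n0 * y ^ 2 + 2 * b0 * y * y' + d0 * y' ^ 2
      + l0 * z ^ 2 + k0 * w ^ 2 = 0 →
    f1 * x ^ 2 + 2 * f2 * x * x' + f3 * x' ^ 2 + n1 * y ^ 2 + 2 * b1 * y * y' + d1 * y' ^ 2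
      + l1 * z ^ 2 + k1 * w ^ 2 = 0 →
    x * (n0 * y + b0 * y') + x' * (n1 * y + b1 * y') = 0 →
    x * (b0 * y + d0 * y') + x' * (b1 * y + d1 * y') + z * w = 0 →
    z * (l0 * x + l1 * x') + w * y' = 0 →
    w * (k0 * x + k1 * x') + z * y' = 0 →
    x = 0 ∧ x' = 0 ∧ y = 0 ∧ y' = 0 ∧ z = 0 ∧ w = 0

namespace Sc3

variable {f0 f1 f2 f3 n0 b0 d0 n1 b1 d1 l0 l1 k0 k1 : ℂ}

theorem swap (h : Sc3 f0 f1 f2 f3 n0 b0 d0 n1 b1 d1 l0 l1 k0 k1) :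
    Sc3 f0 f1 f2 f3 n0 b0 d0 n1 b1 d1 k0 k1 l0 l1 := by
  intro x x' y y' z w e1 e2 e3 e4 e5 e6
  have := h x x' y y' w z (by linear_combination e1) (by linear_combination e2) e3
    (by linear_combination e4) e6 e5
  exact ⟨this.1, this.2.1, this.2.2.1, this.2.2.2.1, this.2.2.2.2.2, this.2.2.2.2.1⟩

theorem l1_ne (h : Sc3 f0 f1 f2 f3 n0 b0 d0 n1 b1 d1 l0 l1 k0 k1) (hl : l0 = 0) : l1 ≠ 0 := by
  rintro h1
  have := h 0 0 0 0 1 0 (by rw [hl]; ring) (by rw [h1]; ring) (by ring) (by ring)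
    (by ring) (by ring)
  exact one_ne_zero this.2.2.2.2.1

theorem f0_ne (h : Sc3 f0 f1 f2 f3 n0 b0 d0 n1 b1 d1 l0 l1 k0 k1) (hl : l0 = 0) : f0 ≠ 0 := by
  rintro hf
  have h1 := h.l1_ne hl
  obtain ⟨t, ht⟩ := exists_sq (-f1 / l1)
  have ht' : l1 * t ^ 2 = -f1 := by rw [ht]; field_simp
  have := h 1 0 0 0 t 0 (by rw [hl, hf]; ring) (by linear_combination ht') (by ring)
    (by ring) (by rw [hl]; ring) (by ring)
  exact one_ne_zero this.1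

theorem n0_ne (h : Sc3 f0 f1 f2 f3 n0 b0 d0 n1 b1 d1 l0 l1 k0 k1) (hl : l0 = 0) : n0 ≠ 0 := by
  rintro hn
  have h1 := h.l1_ne hl
  obtain ⟨s, hs⟩ := exists_sq l1
  obtain ⟨t, ht⟩ := exists_sq (-n1)
  have := h 0 0 s 0 t 0 (by rw [hl, hn]; ring) (by linear_combination n1 * hs + l1 * ht) (by ring)
    (by ring) (by ring) (by ring)
  apply h1
  rw [← hs, this.2.2.1]; ring

theorem l0_ne (h : Sc3 f0 f1 f2 f3 n0 b0 d0 n1 b1 d1 l0 l1 k0 k1)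
    (hR : 3 * l0 * k0 * (n0 * d0 - b0 ^ 2) + f0 * n0 = 0) : l0 ≠ 0 := by
  intro hl
  have h1 := h.f0_ne hl
  have h2 := h.n0_ne hl
  rw [hl] at hR
  have : f0 * n0 = 0 := by linear_combination hR
  exact mul_ne_zero h1 h2 this

theorem k0_ne (h : Sc3 f0 f1 f2 f3 n0 b0 d0 n1 b1 d1 l0 l1 k0 k1)
    (hR : 3 * l0 * k0 * (n0 * d0 - b0 ^ 2) + f0 * n0 = 0) : k0 ≠ 0 :=
  h.swap.l0_ne (by linear_combination hR)

theorem coprime (h : Sc3 f0 f1 f2 f3 n0 b0 d0 n1 b1 d1 l0 l1 k0 k1) {y y' : ℂ}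
    (h1 : n0 * y ^ 2 + 2 * b0 * y * y' + d0 * y' ^ 2 = 0)
    (h2 : n1 * y ^ 2 + 2 * b1 * y * y' + d1 * y' ^ 2 = 0) : y = 0 ∧ y' = 0 := by
  have := h 0 0 y y' 0 0 (by linear_combination h1) (by linear_combination h2) (by ring)
    (by ring) (by ring) (by ring)
  exact ⟨this.2.2.1, this.2.2.2.1⟩

/-- the root of the quartic is simple -/
theorem R1_ne (h : Sc3 f0 f1 f2 f3 n0 b0 d0 n1 b1 d1 l0 l1 k0 k1)
    (hR : 3 * l0 * k0 * (n0 * d0 - b0 ^ 2) + f0 * n0 = 0) :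
    3 * (l0 * k0 * (n0 * d1 + n1 * d0 - 2 * b0 * b1) + (l0 * k1 + l1 * k0) * (n0 * d0 - b0 ^ 2))
      + f0 * n1 + 3 * f1 * n0 ≠ 0 := by
  intro hR1
  have hl := h.l0_ne hR
  have hk := h.k0_ne hR
  obtain ⟨z0, hz0⟩ := exists_sq (-f0 / (3 * l0))
  have hf0 : f0 = -3 * l0 * z0 ^ 2 := by rw [hz0]; field_simp
  have hG : k0 * (n0 * d0 - b0 ^ 2) = z0 ^ 2 * n0 := by
    apply mul_left_cancel₀ (mul_ne_zero three_ne_zero hl)
    linear_combination hR - n0 * hf0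
  by_cases hn : n0 = 0
  · have hb : b0 = 0 := by
      rw [hn] at hG
      have : k0 * b0 ^ 2 = 0 := by linear_combination -hG
      rcases mul_eq_zero.mp this with h1 | h1
      · exact absurd h1 hk
      · exact pow_eq_zero_iff (two_ne_zero) |>.mp h1
    have hn1 : n1 ≠ 0 := by
      intro h1
      have := h.coprime (y := 1) (y' := 0) (by rw [hn]; ring) (by rw [h1]; ring)
      exact one_ne_zero this.1
    have hs : d0 * k0 = z0 ^ 2 := by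
      apply mul_left_cancel₀ (mul_ne_zero (mul_ne_zero three_ne_zero hl) hn1)
      rw [hn, hb] at hR1
      linear_combination hR1 - n1 * hf0
    obtain ⟨α, hα⟩ := exists_sq k0
    obtain ⟨γ, hγ⟩ := exists_sq l0
    obtain ⟨β, hβ⟩ := root2 (2 * b1 * γ * k0)
      (f1 * α ^ 2 + d1 * γ ^ 2 * k0 ^ 2 + l1 * α ^ 2 * z0 ^ 2 + k1 * γ ^ 2 * z0 ^ 2) hn1
    have := h α 0 β (γ * k0) (α * z0) (-γ * z0)
      (by rw [hn, hb, hf0]; linear_combination (-2 * l0 * z0 ^ 2) * hα + 2 * k0 * z0 ^ 2 * hγ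
            + γ ^ 2 * k0 * hs)
      (by linear_combination hβ)
      (by rw [hn, hb]; ring)
      (by rw [hb]; linear_combination α * γ * hs)
      (by linear_combination z0 * l0 * hα - z0 * k0 * hγ)
      (by ring)
    apply hk
    rw [← hα, this.1]; ring
  · obtain ⟨α, hα⟩ := exists_sq n0
    obtain ⟨β, hβ⟩ := exists_sq (l0 / (n0 * k0))
    have hβ' : n0 * k0 * β ^ 2 = l0 := by rw [hβ]; field_simp
    have hE2 : f1 * α ^ 2 + n1 * β ^ 2 * b0 ^ 2 * k0 ^ 2 - 2 * b1 * β ^ 2 * b0 * n0 * k0 ^ 2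
        + d1 * β ^ 2 * n0 ^ 2 * k0 ^ 2 + l1 * α ^ 2 * z0 ^ 2 + k1 * β ^ 2 * z0 ^ 2 * n0 ^ 2 = 0 := by
      apply mul_left_cancel₀ (mul_ne_zero three_ne_zero hk)
      linear_combination k0 * hR1 + 3 * k0 * (f1 + l1 * z0 ^ 2) * hα
        + (-6 * b1 * b0 * k0 ^ 2 + 3 * d1 * n0 * k0 ^ 2 + 3 * k1 * z0 ^ 2 * n0
          + 3 * n1 * k0 * (k0 * d0 - z0 ^ 2)) * hβ'
        + (-3 * n1 * k0 ^ 2 * β ^ 2 - 3 * (l0 * k1 + l1 * k0)) * hG - k0 * n1 * hf0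
    have := h α 0 (-β * b0 * k0) (β * n0 * k0) (α * z0) (-β * z0 * n0)
      (by linear_combination (-2 * l0 * z0 ^ 2) * hα + β ^ 2 * k0 * n0 * hG
            + 2 * n0 * z0 ^ 2 * hβ' + α ^ 2 * hf0)
      (by linear_combination hE2)
      (by ring)
      (by linear_combination α * β * hG)
      (by linear_combination z0 * l0 * hα - z0 * n0 * hβ')
      (by ring)
    apply hn
    rw [← hα, this.1]; ring

end Sc3

end Vale.Agent.P287.H674
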