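import Vale.Agent.P287.H674.Planes
import Vale.Agent.P287.H674.Sc3

/-!
The case (2,1,1).
-/

namespace Vale.Agent.P287.H674

variable {V : Type*} [AddCommGroup V] [Module ℂ V]

/-- a basis of two vectors -/
structure IsB2 (S : Submodule ℂ V) (a b : V) : Prop where
  ha : a ∈ S
  hb : b ∈ S
  ind : ∀ s t : ℂ, s • a + t • b = 0 → s = 0 ∧ t = 0
  span : ∀ x ∈ S, ∃ s t : ℂ, x = s • a + t • b

/-- a basis of one vector -/
structure IsB1 (S : Submodule ℂ V) (e : V) : Prop where
  he : e ∈ S
  ne : e ≠ 0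
  span : ∀ x ∈ S, ∃ s : ℂ, x = s • e

theorem IsB1.ind {S : Submodule ℂ V} {e : V} (h : IsB1 S e) {s : ℂ} (hs : s • e = 0) : s = 0 := by
  rcases smul_eq_zero.mp hs with h1 | h1
  · exact h1
  · exact absurd h1 h.ne

theorem IsB2.swap {S : Submodule ℂ V} {a b : V} (h : IsB2 S a b) : IsB2 S b a where
  ha := h.hb
  hb := h.ha
  ind s t e := by
    have := h.ind t s (by rw [← e]; abel)
    exact ⟨this.2, this.1⟩
  span x hx := by
    obtain ⟨s, t, e⟩ := h.span x hx
    exact ⟨t, s, by rw [e]; abel⟩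

theorem IsB2.shift {S : Submodule ℂ V} {a b : V} (h : IsB2 S a b) (r : ℂ) :
    IsB2 S (r • a + b) a where
  ha := S.add_mem (S.smul_mem _ h.ha) h.hb
  hb := h.ha
  ind s t e := by
    have := h.ind (s * r + t) s (by rw [← e]; module)
    exact ⟨this.2, by linear_combination this.1 - r * this.2⟩
  span x hx := by
    obtain ⟨s, t, e⟩ := h.span x hx
    exact ⟨t, s - t * r, by rw [e]; module⟩

theorem IsB2.smul {S : Submodule ℂ V} {a b : V} (h : IsB2 S a b) {r : ℂ} (hr : r ≠ 0) :
    IsB2 S a (r • b) where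
  ha := h.ha
  hb := S.smul_mem _ h.hb
  ind s t e := by
    have := h.ind s (t * r) (by rw [← e]; module)
    refine ⟨this.1, ?_⟩
    rcases mul_eq_zero.mp this.2 with h1 | h1
    · exact h1
    · exact absurd h1 hr
  span x hx := by
    obtain ⟨s, t, e⟩ := h.span x hx
    refine ⟨s, t / r, ?_⟩
    rw [e, smul_smul, div_mul_cancel₀ _ hr]

variable {T : V →ₗ[ℂ] V →ₗ[ℂ] V →ₗ[ℂ] ℂ} {S : Fin 4 → Submodule ℂ V}

theorem sc3_of (h : Kl T S) {a a' m n e g : V} (hA : IsB2 (S 0) a a') (hB : IsB2 (S 1) m n)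
    (hC : IsB1 (S 2) e) (hD : IsB1 (S 3) g) (hm : T m e g = 0) (hn : T n e g = 1) :
    Sc3 (T a a a) (T a a a') (T a a' a') (T a' a' a') (T a m m) (T a m n) (T a n n)
      (T a' m m) (T a' m n) (T a' n n) (T a e e) (T a' e e) (T a g g) (T a' g g) := by
  intro x x' y y' z w E1 E2 E3 E4 E5 E6
  have hX : x • a + x' • a' ∈ S 0 := (S 0).add_mem ((S 0).smul_mem _ hA.ha) ((S 0).smul_mem _ hA.hb)
  have hY : y • m + y' • n ∈ S 1 := (S 1).add_mem ((S 1).smul_mem _ hB.ha) ((S 1).smul_mem _ hB.hb)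
  have hZ : z • e ∈ S 2 := (S 2).smul_mem _ hC.he
  have hW : w • g ∈ S 3 := (S 3).smul_mem _ hD.he
  have c1 : T a' a a' = T a a' a' := h.s1 _ _ _
  have c2 : T a' a a = T a a a' := by rw [h.s1, h.s2]
  have c3 : T a a' a = T a a a' := h.s2 _ _ _
  have c4 : T a' a' a = T a a' a' := by rw [h.s2, h.s1]
  have c5 : T n m a = T a m n := by rw [h.s2, h.s1, h.s2]
  have c6 : T m n a = T a m n := by rw [h.s2, h.s1]
  have c7 : T m m a = T a m m := by rw [h.s2, h.s1]
  have c8 : T n n a = T a n n := by rw [h.s2, h.s1]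
  have c9 : T n m a' = T a' m n := by rw [h.s2, h.s1, h.s2]
  have c10 : T m n a' = T a' m n := by rw [h.s2, h.s1]
  have c11 : T m m a' = T a' m m := by rw [h.s2, h.s1]
  have c12 : T n n a' = T a' n n := by rw [h.s2, h.s1]
  have c13 : T e e a = T a e e := by rw [h.s2, h.s1]
  have c14 : T e e a' = T a' e e := by rw [h.s2, h.s1]
  have c15 : T g g a = T a g g := by rw [h.s2, h.s1]
  have c16 : T g g a' = T a' g g := by rw [h.s2, h.s1]
  have c17 : T a n m = T a m n := h.s2 _ _ _
  have c18 : T a' n m = T a' m n := h.s2 _ _ _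
  have c19 : T e m g = 0 := by rw [h.s1]; exact hm
  have c20 : T e n g = 1 := by rw [h.s1]; exact hn
  have c21 : T g m e = 0 := by rw [h.s1, h.s2]; exact hm
  have c22 : T g n e = 1 := by rw [h.s1, h.s2]; exact hn
  have key := h.sing hX hY hZ hW ?_ ?_ ?_ ?_
  · obtain ⟨k1, k2, k3, k4⟩ := key
    have k1' := hA.ind _ _ k1
    have k2' := hB.ind _ _ k2
    exact ⟨k1'.1, k1'.2, k2'.1, k2'.2, hC.ind k3, hD.ind k4⟩
  · intro x0 hx0
    obtain ⟨s, t, rfl⟩ := hA.span x0 hx0
    simp only [map_add, map_smul, LinearMap.add_apply, LinearMap.smul_apply, smul_eq_mul,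
      c1, c2, c3, c4, c5, c6, c7, c8, c9, c10, c11, c12, c13, c14, c15, c16]
    linear_combination s * E1 + t * E2
  · intro x0 hx0
    obtain ⟨s, t, rfl⟩ := hB.span x0 hx0
    simp only [map_add, map_smul, LinearMap.add_apply, LinearMap.smul_apply, smul_eq_mul,
      c17, c18, hm, hn]
    linear_combination s * E3 + t * E4
  · intro x0 hx0
    obtain ⟨s, rfl⟩ := hC.span x0 hx0
    simp only [map_add, map_smul, LinearMap.add_apply, LinearMap.smul_apply, smul_eq_mul,
      c19, c20]
    linear_combination s * E5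
  · intro x0 hx0
    obtain ⟨s, rfl⟩ := hD.span x0 hx0
    simp only [map_add, map_smul, LinearMap.add_apply, LinearMap.smul_apply, smul_eq_mul,
      c21, c22]
    linear_combination s * E6

/-- normalisation of the basis of `S 1` -/
theorem norm3 (h : Kl T S) {a a' m n e g : V} (hA : IsB2 (S 0) a a') (hB : IsB2 (S 1) m n)
    (hC : IsB1 (S 2) e) (hD : IsB1 (S 3) g) :
    ∃ m' n' : V, IsB2 (S 1) m' n' ∧ T m' e g = 0 ∧ T n' e g = 1 := by
  by_cases hm : T m e g = 0
  · by_cases hn : T n e g = 0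
    · exfalso
      have hM : ∀ y ∈ S 1, T y e g = 0 := by
        intro y hy
        obtain ⟨s, t, rfl⟩ := hB.span y hy
        simp [hm, hn]
      obtain ⟨y, z, w, hne, e1, e2⟩ := two_sq (T m m a) (T e e a) (T g g a)
        (T m m a') (T e e a') (T g g a')
      have := h.sing (S 0).zero_mem ((S 1).smul_mem y hB.ha) ((S 2).smul_mem z hC.he)
        ((S 3).smul_mem w hD.he) ?_ ?_ ?_ ?_
      · apply hne
        refine ⟨?_, hC.ind this.2.2.1, hD.ind this.2.2.2⟩
        exact (hB.ind y 0 (by rw [this.2.1]; simp)).1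
      · intro x0 hx0
        obtain ⟨s, t, rfl⟩ := hA.span x0 hx0
        simp only [map_add, map_smul, LinearMap.smul_apply, smul_eq_mul, map_zero,
          LinearMap.zero_apply]
        linear_combination s * e1 + t * e2
      · intro x0 hx0
        simp only [map_zero, map_smul, LinearMap.smul_apply, LinearMap.zero_apply, hM x0 hx0]
        simp
      · intro x0 hx0
        obtain ⟨s, rfl⟩ := hC.span x0 hx0
        have : T e m g = 0 := by rw [h.s1]; exact hm
        simp [this]
      · intro x0 hx0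
        obtain ⟨s, rfl⟩ := hD.span x0 hx0
        have : T g m e = 0 := by rw [h.s1, h.s2]; exact hm
        simp [this]
    · refine ⟨m, (T n e g)⁻¹ • n, hB.smul (inv_ne_zero hn), hm, ?_⟩
      simp [hn]
  · refine ⟨(-(T n e g) / T m e g) • m + n, (T m e g)⁻¹ • m,
      (hB.shift _).smul (inv_ne_zero hm), ?_, ?_⟩
    · simp only [map_add, map_smul, LinearMap.add_apply, LinearMap.smul_apply, smul_eq_mul]
      field_simp
      ring
    · simp [hm]

/-- the quartic -/
noncomputable def RR (T : V →ₗ[ℂ] V →ₗ[ℂ] V →ₗ[ℂ] ℂ) (m n e g a : V) : ℂ :=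
  3 * T a e e * T a g g * (T a m m * T a n n - T a m n ^ 2) + T a a a * T a m m

theorem RR_shift (h : Kl T S) (m n e g a a' : V) (s : ℂ) :
    RR T m n e g (s • a + a') = RR T m n e g a * s ^ 4 +
      (3 * (T a e e * T a g g * (T a m m * T a' n n + T a' m m * T a n n
          - 2 * T a m n * T a' m n)
        + (T a e e * T a' g g + T a' e e * T a g g) * (T a m m * T a n n - T a m n ^ 2))
        + T a a a * T a' m m + 3 * T a a a' * T a m m) * s ^ 3 +
      (3 * (T a e e * T a g g * (T a' m m * T a' n n - T a' m n ^ 2)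
        + (T a e e * T a' g g + T a' e e * T a g g) * (T a m m * T a' n n + T a' m m * T a n n
          - 2 * T a m n * T a' m n)
        + T a' e e * T a' g g * (T a m m * T a n n - T a m n ^ 2))
        + 3 * T a a a' * T a' m m + 3 * T a a' a' * T a m m) * s ^ 2 +
      (3 * ((T a e e * T a' g g + T a' e e * T a g g) * (T a' m m * T a' n n - T a' m n ^ 2)
        + T a' e e * T a' g g * (T a m m * T a' n n + T a' m m * T a n n
          - 2 * T a m n * T a' m n))
        + 3 * T a a' a' * T a' m m + T a' a' a' * T a m m) * s +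
      RR T m n e g a' := by
  have c1 : T a' a a' = T a a' a' := h.s1 _ _ _
  have c2 : T a' a a = T a a a' := by rw [h.s1, h.s2]
  have c3 : T a a' a = T a a a' := h.s2 _ _ _
  have c4 : T a' a' a = T a a' a' := by rw [h.s2, h.s1]
  simp only [RR, map_add, map_smul, LinearMap.add_apply, LinearMap.smul_apply, smul_eq_mul,
    c1, c2, c3, c4]
  ring

theorem exists_root_RR (h : Kl T S) (m n e g : V) {a a' : V} (hA : IsB2 (S 0) a a') :
    ∃ b b' : V, IsB2 (S 0) b b' ∧ RR T m n e g b = 0 := by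
  by_cases h0 : RR T m n e g a = 0
  · exact ⟨a, a', hA, h0⟩
  · obtain ⟨s, hs⟩ := root4 _ _ _ _ h0
    refine ⟨s • a + a', a, hA.shift s, ?_⟩
    rw [RR_shift h]
    exact hs

/-- the cubic on a plane of the first type -/
theorem plane3 (h : Kl T S) {a m n e g : V} (ha : a ∈ S 0) (hm : m ∈ S 1) (hn : n ∈ S 1)
    (he : e ∈ S 2) (hg : g ∈ S 3) (hM : T m e g = 0) (hN : T n e g = 1)
    {z α β : ℂ} (hz : T a a a + 3 * T a e e * z ^ 2 = 0)
    (hq : ∀ y y' : ℂ, T a m m * y ^ 2 + 2 * T a m n * y * y' + T a n n * y' ^ 2 +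
      T a g g * (α * y + β * y') ^ 2 + 2 * z * y' * (α * y + β * y') = 0) (s t u : ℂ) :
    T (s • (a + z • e) + t • (m + α • g) + u • (n + β • g))
      (s • (a + z • e) + t • (m + α • g) + u • (n + β • g))
      (s • (a + z • e) + t • (m + α • g) + u • (n + β • g)) = 0 := by
  have e0 : s • (a + z • e) + t • (m + α • g) + u • (n + β • g) =
      s • a + (t • m + u • n) + (s * z) • e + (α * t + β * u) • g := by module
  rw [e0, h.exF ((S 0).smul_mem _ ha) ((S 1).add_mem ((S 1).smul_mem _ hm) ((S 1).smul_mem _ hn))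
    ((S 2).smul_mem _ he) ((S 3).smul_mem _ hg)]
  have c1 : T a n m = T a m n := h.s2 _ _ _
  simp only [map_add, map_smul, LinearMap.add_apply, LinearMap.smul_apply, smul_eq_mul, c1, hM, hN]
  linear_combination s ^ 3 * hz + 3 * s * hq t u

theorem case3 (h : Kl T S) {a a' m n e g : V} (hA : IsB2 (S 0) a a') (hB : IsB2 (S 1) m n)
    (hC : IsB1 (S 2) e) (hD : IsB1 (S 3) g) : TwoPl T := by
  obtain ⟨m, n, hB, hm, hn⟩ := norm3 h hA hB hC hD
  obtain ⟨a, a', hA, hR⟩ := exists_root_RR h m n e g hA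
  have sc := sc3_of h hA hB hC hD hm hn
  unfold RR at hR
  have hR1 := sc.R1_ne hR
  obtain ⟨s, hs⟩ := root3 (3 * (T a e e * T a g g * (T a' m m * T a' n n - T a' m n ^ 2)
        + (T a e e * T a' g g + T a' e e * T a g g) * (T a m m * T a' n n + T a' m m * T a n n
          - 2 * T a m n * T a' m n)
        + T a' e e * T a' g g * (T a m m * T a n n - T a m n ^ 2))
        + 3 * T a a a' * T a' m m + 3 * T a a' a' * T a m m)
      (3 * ((T a e e * T a' g g + T a' e e * T a g g) * (T a' m m * T a' n n - T a' m n ^ 2)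
        + T a' e e * T a' g g * (T a m m * T a' n n + T a' m m * T a n n
          - 2 * T a m n * T a' m n))
        + 3 * T a a' a' * T a' m m + T a' a' a' * T a m m) (RR T m n e g a') hR1
  have hRb : RR T m n e g (s • a + a') = 0 := by
    rw [RR_shift h]
    have : RR T m n e g a = 0 := hR
    rw [this]
    linear_combination hs
  have hA' := hA.shift s
  have sc' := sc3_of h hA' hB hC hD hm hn
  have hsb : s • a + a' ∈ S 0 := hA'.ha
  unfold RR at hRb
  have l0 := sc.l0_ne hR
  have k0 := sc.k0_ne hR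
  have l0' := sc'.l0_ne hRb
  have k0' := sc'.k0_ne hRb
  obtain ⟨z, hz⟩ := exists_sq (-(T a a a) / (3 * T a e e))
  have hz' : T a a a + 3 * T a e e * z ^ 2 = 0 := by
    rw [hz]; field_simp; ring
  have hdet : T a m m * (T a n n * T a g g - z ^ 2) - T a m n ^ 2 * T a g g = 0 := by
    apply mul_left_cancel₀ (mul_ne_zero three_ne_zero l0)
    linear_combination hR - T a m m * hz'
  obtain ⟨α, β, hq⟩ := degenerate k0 hdet
  obtain ⟨w, hw⟩ := exists_sq (-(T (s • a + a') (s • a + a') (s • a + a')) /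
    (3 * T (s • a + a') g g))
  have hw' : T (s • a + a') (s • a + a') (s • a + a') + 3 * T (s • a + a') g g * w ^ 2 = 0 := by
    rw [hw]; field_simp; ring
  have hcop : ∀ y y' : ℂ, T a m m * y ^ 2 + 2 * T a m n * y * y' + T a n n * y' ^ 2 = 0 →
      T (s • a + a') m m * y ^ 2 + 2 * T (s • a + a') m n * y * y'
        + T (s • a + a') n n * y' ^ 2 = 0 → y = 0 ∧ y' = 0 :=
    fun y y' h1 h2 => sc'.coprime h2 h1
  generalize hb : s • a + a' = b at *
  have hdet' : T b m m * (T b n n * T b e e - w ^ 2) - T b m n ^ 2 * T b e e = 0 := by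
    apply mul_left_cancel₀ (mul_ne_zero three_ne_zero k0')
    linear_combination hRb - T b m m * hw'
  obtain ⟨γ, δ, hq'⟩ := degenerate l0' hdet'
  refine twoPl_of ![a + z • e, m + α • g, n + β • g] ![b + w • g, m + γ • e, n + δ • e] ?_ ?_ ?_
  · intro s t u
    exact plane3 h hA.ha hB.ha hB.hb hC.he hD.he hm hn hz' hq s t u
  · intro s t u
    exact plane3 h.swap23 (a := b) hsb hB.ha hB.hb hD.he hC.he (by rw [h.s2]; exact hm)
      (by rw [h.s2]; exact hn) hw' hq' s t u
  · intro s1 t1 u1 s2 t2 u2 heq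
    simp only [Matrix.cons_val_zero, Matrix.cons_val_one, Matrix.cons_val] at heq
    have e1 : ((s1 - s2 * s) • a + (-s2) • a') + ((t1 - t2) • m + (u1 - u2) • n) +
        (s1 * z - (t2 * γ + u2 * δ)) • e + (t1 * α + u1 * β - s2 * w) • g = 0 := by
      rw [← sub_eq_zero] at heq
      rw [← heq, ← hb]
      module
    have e2 := h.ind _ ((S 0).add_mem ((S 0).smul_mem _ hA.ha) ((S 0).smul_mem _ hA.hb))
      _ ((S 1).add_mem ((S 1).smul_mem _ hB.ha) ((S 1).smul_mem _ hB.hb))
      _ ((S 2).smul_mem _ hC.he) _ ((S 3).smul_mem _ hD.he) e1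
    obtain ⟨i0, i1, i2, i3⟩ := e2
    have j0 := hA.ind _ _ i0
    have j1 := hB.ind _ _ i1
    have j2 := hC.ind i2
    have j3 := hD.ind i3
    have hs2 : s2 = 0 := neg_eq_zero.mp j0.2
    have hs1 : s1 = 0 := by linear_combination j0.1 + s * hs2
    have ht : t2 = t1 := by linear_combination -j1.1
    have hu : u2 = u1 := by linear_combination -j1.2
    rw [hs1, ht, hu] at j2
    rw [hs2] at j3
    have q1 := hq t1 u1
    have q2 := hq' t1 u1
    have z1 : α * t1 + β * u1 = 0 := by linear_combination j3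
    have z2 : γ * t1 + δ * u1 = 0 := by linear_combination -j2
    rw [z1] at q1
    rw [z2] at q2
    have := hcop t1 u1 (by linear_combination q1) (by linear_combination q2)
    exact ⟨⟨hs1, this.1, this.2⟩, ⟨hs2, by rw [ht, this.1], by rw [hu, this.2]⟩⟩

end Vale.Agent.P287.H674
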