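import Vale.Agent.P287.H674.Klein
import Vale.Agent.P287.H674.Alg

/-!
Pairs of disjoint planes.
-/

namespace Vale.Agent.P287.H674

variable {V : Type*} [AddCommGroup V] [Module ℂ V]

/-- two complementary isotropic subspaces of dimension three -/
def TwoPl (T : V →ₗ[ℂ] V →ₗ[ℂ] V →ₗ[ℂ] ℂ) : Prop :=
  ∃ W₁ W₂ : Submodule ℂ V, (Module.finrank ℂ W₁ = 3 ∧ ∀ w ∈ W₁, T w w w = 0) ∧
    (Module.finrank ℂ W₂ = 3 ∧ ∀ w ∈ W₂, T w w w = 0) ∧ W₁ ⊓ W₂ = ⊥

theorem twoPl_of {T : V →ₗ[ℂ] V →ₗ[ℂ] V →ₗ[ℂ] ℂ} (v w : Fin 3 → V)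
    (hv : ∀ s t u : ℂ, T (s • v 0 + t • v 1 + u • v 2) (s • v 0 + t • v 1 + u • v 2)
      (s • v 0 + t • v 1 + u • v 2) = 0)
    (hw : ∀ s t u : ℂ, T (s • w 0 + t • w 1 + u • w 2) (s • w 0 + t • w 1 + u • w 2)
      (s • w 0 + t • w 1 + u • w 2) = 0)
    (hind : ∀ s t u s' t' u' : ℂ, s • v 0 + t • v 1 + u • v 2 = s' • w 0 + t' • w 1 + u' • w 2 →
      (s = 0 ∧ t = 0 ∧ u = 0) ∧ (s' = 0 ∧ t' = 0 ∧ u' = 0)) : TwoPl T := by
  have lv : LinearIndependent ℂ v := by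
    rw [Fintype.linearIndependent_iff]
    intro g hg i
    rw [Fin.sum_univ_three] at hg
    have := (hind (g 0) (g 1) (g 2) 0 0 0 (by rw [hg]; simp)).1
    fin_cases i
    · exact this.1
    · exact this.2.1
    · exact this.2.2
  have lw : LinearIndependent ℂ w := by
    rw [Fintype.linearIndependent_iff]
    intro g hg i
    rw [Fin.sum_univ_three] at hg
    have := (hind 0 0 0 (g 0) (g 1) (g 2) (by rw [hg]; simp)).2
    fin_cases i
    · exact this.1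
    · exact this.2.1
    · exact this.2.2
  refine ⟨Submodule.span ℂ (Set.range v), Submodule.span ℂ (Set.range w), ⟨?_, ?_⟩, ⟨?_, ?_⟩, ?_⟩
  · rw [finrank_span_eq_card lv]; simp
  · intro x hx
    rw [Submodule.mem_span_range_iff_exists_fun] at hx
    obtain ⟨c, rfl⟩ := hx
    rw [Fin.sum_univ_three]
    exact hv _ _ _
  · rw [finrank_span_eq_card lw]; simp
  · intro x hx
    rw [Submodule.mem_span_range_iff_exists_fun] at hx
    obtain ⟨c, rfl⟩ := hx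
    rw [Fin.sum_univ_three]
    exact hw _ _ _
  · rw [Submodule.eq_bot_iff]
    rintro x ⟨h1, h2⟩
    have h1' : x ∈ Submodule.span ℂ (Set.range v) := h1
    have h2' : x ∈ Submodule.span ℂ (Set.range w) := h2
    rw [Submodule.mem_span_range_iff_exists_fun] at h1' h2'
    obtain ⟨c, hc⟩ := h1'
    obtain ⟨d, hd⟩ := h2'
    rw [Fin.sum_univ_three] at hc hd
    have := (hind (c 0) (c 1) (c 2) (d 0) (d 1) (d 2) (by rw [hc, hd])).1
    rw [← hc, this.1, this.2.1, this.2.2]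
    simp

end Vale.Agent.P287.H674
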