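import Vale.Agent.P287.H674.CubConic
import Vale.Agent.P287.H674.Planes

/-!
The special cubics with the symmetric group on three letters acting with (1,1,2).
-/

namespace Vale.Agent.P287.H674

variable {V : Type*} [AddCommGroup V] [Module ℂ V]

/-- linear combination of six vectors -/
def cmb (x0 x1 y1 y2 z1 z2 : V) (a b p1 p2 q1 q2 : ℂ) : V :=
  a • x0 + b • x1 + p1 • y1 + p2 • y2 + q1 • z1 + q2 • z2

/-- the special cubics in an adapted basis -/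
structure CB (T : V →ₗ[ℂ] V →ₗ[ℂ] V →ₗ[ℂ] ℂ) (x0 x1 y1 y2 z1 z2 : V)
    (α β κ A B C : ℂ) : Prop where
  ev : ∀ a b p1 p2 q1 q2 : ℂ, T (cmb x0 x1 y1 y2 z1 z2 a b p1 p2 q1 q2)
    (cmb x0 x1 y1 y2 z1 z2 a b p1 p2 q1 q2) (cmb x0 x1 y1 y2 z1 z2 a b p1 p2 q1 q2) =
      α * a ^ 3 + 3 * β * a * b ^ 2 + 6 * a * (A * p1 * q1 + B * (p1 * q2 + p2 * q1) + C * p2 * q2)
      + 6 * κ * b * (p1 * q2 - p2 * q1) + p1 ^ 3 + p2 ^ 3 + q1 ^ 3 + q2 ^ 3
  sm : ∀ a b p1 p2 q1 q2 : ℂ,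
    α * a ^ 2 + β * b ^ 2 + 2 * (A * p1 * q1 + B * (p1 * q2 + p2 * q1) + C * p2 * q2) = 0 →
    2 * β * a * b + 2 * κ * (p1 * q2 - p2 * q1) = 0 →
    2 * (a * (A * q1 + B * q2) + b * κ * q2) + p1 ^ 2 = 0 →
    2 * (a * (B * q1 + C * q2) - b * κ * q1) + p2 ^ 2 = 0 →
    2 * (a * (A * p1 + B * p2) - b * κ * p2) + q1 ^ 2 = 0 →
    2 * (a * (B * p1 + C * p2) + b * κ * p1) + q2 ^ 2 = 0 →
    a = 0 ∧ b = 0 ∧ p1 = 0 ∧ p2 = 0 ∧ q1 = 0 ∧ q2 = 0
  ind : ∀ a b p1 p2 q1 q2 : ℂ, cmb x0 x1 y1 y2 z1 z2 a b p1 p2 q1 q2 = 0 →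
    a = 0 ∧ b = 0 ∧ p1 = 0 ∧ p2 = 0 ∧ q1 = 0 ∧ q2 = 0

/-- isotropic plane of a degenerate ternary form which does not contain the first vector -/
theorem degenerate' {k m1 m2 n r d : ℂ} (hk : k ≠ 0)
    (h : k * (n * d - r ^ 2) - m1 ^ 2 * d + 2 * m1 * m2 * r - m2 ^ 2 * n = 0) :
    ∃ μ ν : ℂ, ∀ v w : ℂ, k * (μ * v + ν * w) ^ 2 + 2 * (μ * v + ν * w) * (m1 * v + m2 * w)
      + n * v ^ 2 + 2 * r * v * w + d * w ^ 2 = 0 := by
  have h1 : (k * r - m1 * m2) ^ 2 = (k * n - m1 ^ 2) * (k * d - m2 ^ 2) := by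
    linear_combination -k * h
  obtain ⟨p, q, e1, e2, e3⟩ := perfect_sq h1
  obtain ⟨i, hi⟩ := exists_sq (-1)
  refine ⟨(i * p - m1) / k, (i * q - m2) / k, fun v w => ?_⟩
  apply mul_left_cancel₀ hk
  have f1 : k * ((i * p - m1) / k * v + (i * q - m2) / k * w) =
      i * (p * v + q * w) - (m1 * v + m2 * w) := by
    field_simp
    ring
  have f2 : k * (k * ((i * p - m1) / k * v + (i * q - m2) / k * w) ^ 2
      + 2 * ((i * p - m1) / k * v + (i * q - m2) / k * w) * (m1 * v + m2 * w)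
      + n * v ^ 2 + 2 * r * v * w + d * w ^ 2) =
      (k * ((i * p - m1) / k * v + (i * q - m2) / k * w)) ^ 2
      + 2 * (k * ((i * p - m1) / k * v + (i * q - m2) / k * w)) * (m1 * v + m2 * w)
      + k * (n * v ^ 2 + 2 * r * v * w + d * w ^ 2) := by ring
  rw [f2, f1]
  linear_combination (p * v + q * w) ^ 2 * hi + v ^ 2 * e1 + 2 * v * w * e2 + w ^ 2 * e3

namespace CB

variable {T : V →ₗ[ℂ] V →ₗ[ℂ] V →ₗ[ℂ] ℂ} {x0 x1 y1 y2 z1 z2 : V} {α β κ A B C : ℂ}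

theorem beta_ne (h : CB T x0 x1 y1 y2 z1 z2 α β κ A B C) : β ≠ 0 := by
  rintro rfl
  exact one_ne_zero (h.sm 0 1 0 0 0 0 (by ring) (by ring) (by ring) (by ring) (by ring)
    (by ring)).2.1

/-- the common point of the conic and the cubic -/
theorem exists_pt (T : V →ₗ[ℂ] V →ₗ[ℂ] V →ₗ[ℂ] ℂ) (α β κ A B C : ℂ) :
    ∃ a u v : ℂ, ¬ (a = 0 ∧ u = 0 ∧ v = 0) ∧
      α * a ^ 3 + 2 * (u ^ 3 + v ^ 3) + 6 * a * (A * u ^ 2 + 2 * B * u * v + C * v ^ 2) = 0 ∧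
      β * ((u - a * A) * (v - a * C) - a ^ 2 * B ^ 2)
        + 8 * κ ^ 2 * (A * u ^ 2 + 2 * B * u * v + C * v ^ 2) + κ ^ 2 * α * a ^ 2 = 0 := by
  let b : (Fin 3 → ℂ) →ₗ[ℂ] (Fin 3 → ℂ) →ₗ[ℂ] ℂ := LinearMap.mk₂ ℂ
    (fun x y => β * ((x 1 * y 2 + x 2 * y 1) / 2 - (x 1 * y 0 + x 0 * y 1) / 2 * C
      - (x 2 * y 0 + x 0 * y 2) / 2 * A + x 0 * y 0 * (A * C - B ^ 2))
      + 8 * κ ^ 2 * (A * x 1 * y 1 + B * (x 1 * y 2 + x 2 * y 1) + C * x 2 * y 2)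
      + κ ^ 2 * α * x 0 * y 0)
    (fun x x' y => by simp only [Pi.add_apply]; ring)
    (fun c x y => by simp only [Pi.smul_apply, smul_eq_mul]; ring)
    (fun x y y' => by simp only [Pi.add_apply]; ring)
    (fun c x y => by simp only [Pi.smul_apply, smul_eq_mul]; ring)
  let p : Fin 3 → ((Fin 3 → ℂ) →ₗ[ℂ] ℂ) := fun i => LinearMap.proj i
  let D : (Fin 3 → ℂ) →ₗ[ℂ] (Fin 3 → ℂ) →ₗ[ℂ] (Fin 3 → ℂ) →ₗ[ℂ] ℂ := LinearMap.mk₂ ℂ
    (fun x y => (α * x 0 * y 0 + 2 * (A * x 1 * y 1 + B * (x 1 * y 2 + x 2 * y 1)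
        + C * x 2 * y 2)) • p 0
      + (2 * x 1 * y 1 + 2 * A * (x 0 * y 1 + x 1 * y 0) + 2 * B * (x 0 * y 2 + x 2 * y 0)) • p 1
      + (2 * x 2 * y 2 + 2 * B * (x 0 * y 1 + x 1 * y 0) + 2 * C * (x 0 * y 2 + x 2 * y 0)) • p 2)
    (fun x x' y => by
      ext i; simp only [Pi.add_apply, LinearMap.add_apply, LinearMap.smul_apply,
        LinearMap.comp_apply, smul_eq_mul]; ring)
    (fun c x y => by
      ext i; simp only [Pi.smul_apply, LinearMap.add_apply, LinearMap.smul_apply,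
        LinearMap.comp_apply, smul_eq_mul]; ring)
    (fun x y y' => by
      ext i; simp only [Pi.add_apply, LinearMap.add_apply, LinearMap.smul_apply,
        LinearMap.comp_apply, smul_eq_mul]; ring)
    (fun c x y => by
      ext i; simp only [Pi.smul_apply, LinearMap.add_apply, LinearMap.smul_apply,
        LinearMap.comp_apply, smul_eq_mul]; ring)
  have hb : ∀ x y, b x y = β * ((x 1 * y 2 + x 2 * y 1) / 2 - (x 1 * y 0 + x 0 * y 1) / 2 * C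
      - (x 2 * y 0 + x 0 * y 2) / 2 * A + x 0 * y 0 * (A * C - B ^ 2))
      + 8 * κ ^ 2 * (A * x 1 * y 1 + B * (x 1 * y 2 + x 2 * y 1) + C * x 2 * y 2)
      + κ ^ 2 * α * x 0 * y 0 := fun x y => rfl
  have hD : ∀ x y z, D x y z = (α * x 0 * y 0 + 2 * (A * x 1 * y 1 + B * (x 1 * y 2 + x 2 * y 1)
        + C * x 2 * y 2)) * z 0
      + (2 * x 1 * y 1 + 2 * A * (x 0 * y 1 + x 1 * y 0) + 2 * B * (x 0 * y 2 + x 2 * y 0)) * z 1
      + (2 * x 2 * y 2 + 2 * B * (x 0 * y 1 + x 1 * y 0) + 2 * C * (x 0 * y 2 + x 2 * y 0))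
        * z 2 := fun x y z => rfl
  obtain ⟨v, -, hv, h1, h2⟩ := conic_cubic (V := Fin 3 → ℂ) (U := ⊤) (by simp) (b := b)
    (fun x y => by rw [hb, hb]; ring) (C := D) (fun x y z => by rw [hD, hD]; ring)
    (fun x y z => by rw [hD, hD]; ring)
  rw [hb] at h1
  rw [hD] at h2
  refine ⟨v 0, v 1, v 2, ?_, ?_, ?_⟩
  · rintro ⟨k0, k1, k2⟩
    apply hv
    funext i
    fin_cases i
    · exact k0
    · exact k1
    · exact k2
  · linear_combination h2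
  · linear_combination h1

/-- the common point is not on the special line -/
theorem a_ne (h : CB T x0 x1 y1 y2 z1 z2 α β κ A B C) {a u v : ℂ}
    (hne : ¬ (a = 0 ∧ u = 0 ∧ v = 0))
    (h1 : α * a ^ 3 + 2 * (u ^ 3 + v ^ 3)
      + 6 * a * (A * u ^ 2 + 2 * B * u * v + C * v ^ 2) = 0)
    (h2 : β * ((u - a * A) * (v - a * C) - a ^ 2 * B ^ 2)
        + 8 * κ ^ 2 * (A * u ^ 2 + 2 * B * u * v + C * v ^ 2) + κ ^ 2 * α * a ^ 2 = 0) :
    a ≠ 0 := by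
  rintro rfl
  have e1 : u ^ 3 + v ^ 3 = 0 := by linear_combination h1 / 2
  have e2 : β * u * v + 8 * κ ^ 2 * (A * u ^ 2 + 2 * B * u * v + C * v ^ 2) = 0 := by
    linear_combination h2
  have hv : v ≠ 0 := by
    rintro rfl
    have : u ^ 3 = 0 := by linear_combination e1
    exact hne ⟨rfl, pow_eq_zero_iff three_ne_zero |>.mp this, rfl⟩
  obtain ⟨l, hl⟩ := exists_sq (-3 * κ ^ 2 * u ^ 2)
  have := h.sm 0 (v ^ 2) ((l + κ * u) * u) ((l + κ * u) * v) ((l - κ * u) * u) ((l - κ * u) * v)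
    (by linear_combination (2 * (A * u ^ 2 + 2 * B * u * v + C * v ^ 2)) * hl - u ^ 2 * e2
          + β * v * e1)
    (by ring)
    (by linear_combination u ^ 2 * hl + 2 * κ * (l - κ * u) * e1)
    (by linear_combination v ^ 2 * hl)
    (by linear_combination u ^ 2 * hl - 2 * κ * (l + κ * u) * e1)
    (by linear_combination v ^ 2 * hl)
  exact hv (pow_eq_zero_iff two_ne_zero |>.mp this.2.1)

/-- the special cubics contain two disjoint planes -/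
theorem twoPl (h : CB T x0 x1 y1 y2 z1 z2 α β κ A B C) : TwoPl T := by
  obtain ⟨a, u, v, hne, h1, h2⟩ := exists_pt T α β κ A B C
  have ha := h.a_ne hne h1 h2
  have hβ := h.beta_ne
  obtain ⟨μ, ν, hμ⟩ := degenerate' (k := a * β) (m1 := 2 * κ * v) (m2 := -2 * κ * u)
    (n := 2 * u - 2 * a * A) (r := -2 * a * B) (d := 2 * v - 2 * a * C) (mul_ne_zero ha hβ)
    (by linear_combination 4 * a * h2 - 4 * κ ^ 2 * h1)
  obtain ⟨ω, hω, hω1⟩ : ∃ ω : ℂ, ω ^ 3 = 1 ∧ ω ≠ 1 := by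
    obtain ⟨ω, hω⟩ := root2 1 1 one_ne_zero
    refine ⟨ω, by linear_combination (ω - 1) * hω, ?_⟩
    rintro rfl
    norm_num at hω
  refine twoPl_of ![a • x0 + u • (y1 + z1) + v • (y2 + z2), μ • x1 + (y1 - z1), ν • x1 + (y2 - z2)]
    ![x1, y1 - ω • z1, y2 - ω • z2] ?_ ?_ ?_
  · intro s t r
    simp only [Matrix.cons_val_zero, Matrix.cons_val_one, Matrix.cons_val]
    have e0 : s • (a • x0 + u • (y1 + z1) + v • (y2 + z2)) + t • (μ • x1 + (y1 - z1))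
        + r • (ν • x1 + (y2 - z2)) = cmb x0 x1 y1 y2 z1 z2 (s * a) (μ * t + ν * r) (s * u + t)
          (s * v + r) (s * u - t) (s * v - r) := by
      rw [cmb]; module
    rw [e0, h.ev]
    linear_combination s ^ 3 * h1 + 3 * s * hμ t r
  · intro s t r
    simp only [Matrix.cons_val_zero, Matrix.cons_val_one, Matrix.cons_val]
    have e0 : s • x1 + t • (y1 - ω • z1) + r • (y2 - ω • z2) =
        cmb x0 x1 y1 y2 z1 z2 0 s t r (-ω * t) (-ω * r) := by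
      rw [cmb]; module
    rw [e0, h.ev]
    linear_combination (-(t ^ 3) - r ^ 3) * hω
  · intro s1 t1 r1 s2 t2 r2 heq
    simp only [Matrix.cons_val_zero, Matrix.cons_val_one, Matrix.cons_val] at heq
    have e1 : cmb x0 x1 y1 y2 z1 z2 (s1 * a) (μ * t1 + ν * r1 - s2) (s1 * u + t1 - t2)
        (s1 * v + r1 - r2) (s1 * u - t1 + ω * t2) (s1 * v - r1 + ω * r2) = 0 := by
      refine Eq.trans ?_ (sub_eq_zero.mpr heq)
      rw [cmb]; module
    obtain ⟨k1, k2, k3, k4, k5, k6⟩ := h.ind _ _ _ _ _ _ e1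
    have hs1 : s1 = 0 := by
      rcases mul_eq_zero.mp k1 with h3 | h3
      · exact h3
      · exact absurd h3 ha
    have hw : ω - 1 ≠ 0 := sub_ne_zero.mpr hω1
    have ht2 : t2 = 0 := by
      apply mul_left_cancel₀ hw
      linear_combination k3 + k5 - 2 * u * hs1
    have hr2 : r2 = 0 := by
      apply mul_left_cancel₀ hw
      linear_combination k4 + k6 - 2 * v * hs1
    have ht1 : t1 = 0 := by linear_combination k3 - u * hs1 + ht2
    have hr1 : r1 = 0 := by linear_combination k4 - v * hs1 + hr2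
    refine ⟨⟨hs1, ht1, hr1⟩, ⟨?_, ht2, hr2⟩⟩
    linear_combination μ * ht1 + ν * hr1 - k2

end CB

end Vale.Agent.P287.H674
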