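import Vale.Agent.P287.H674.Skew2

/-!
On a smooth cubic surface every line has a skew line.
-/

namespace Vale.Agent.P287.H674

variable {V : Type*} [AddCommGroup V] [Module ℂ V]
variable {T : V →ₗ[ℂ] V →ₗ[ℂ] V →ₗ[ℂ] ℂ}

theorem IsB4.perm {a b c d : V} (h : IsB4 a b c d) : IsB4 a b d c where
  ind s t p q e := by
    have := h.ind s t q p (by rw [← e]; abel)
    exact ⟨this.1, this.2.1, this.2.2.2, this.2.2.1⟩
  span x := by
    obtain ⟨s, t, p, q, e⟩ := h.span x
    exact ⟨s, t, q, p, by rw [e]; abel⟩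

theorem IsB4.perm2 {a b c d : V} (h : IsB4 a b c d) : IsB4 a c b d where
  ind s t p q e := by
    have := h.ind s p t q (by rw [← e]; abel)
    exact ⟨this.1, this.2.2.1, this.2.1, this.2.2.2⟩
  span x := by
    obtain ⟨s, t, p, q, e⟩ := h.span x
    exact ⟨s, p, t, q, by rw [e]; abel⟩

/-- adding multiples of the other vectors to the third one -/
theorem IsB4.shift {a b c d : V} (h : IsB4 a b c d) (r1 r2 r3 : ℂ) :
    IsB4 a b (c + (r1 • a + r2 • b + r3 • d)) d where
  ind s t p q e := by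
    have := h.ind (s + p * r1) (t + p * r2) p (q + p * r3) (by rw [← e]; module)
    obtain ⟨k1, k2, k3, k4⟩ := this
    refine ⟨?_, ?_, k3, ?_⟩
    · linear_combination k1 - r1 * k3
    · linear_combination k2 - r2 * k3
    · linear_combination k4 - r3 * k3
  span x := by
    obtain ⟨s, t, p, q, e⟩ := h.span x
    exact ⟨s - p * r1, t - p * r2, p, q - p * r3, by rw [e]; module⟩

/-- changing the first two vectors -/
theorem IsB4.change {a b c d a' b' : V} {L : Submodule ℂ V} (h : IsB4 a b c d) (hL : IsB2 L a b)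
    (hL' : IsB2 L a' b') : IsB4 a' b' c d where
  ind s t p q e := by
    obtain ⟨x1, y1, e1⟩ := hL.span a' hL'.ha
    obtain ⟨x2, y2, e2⟩ := hL.span b' hL'.hb
    have := h.ind (s * x1 + t * x2) (s * y1 + t * y2) p q (by
      rw [← e, e1, e2]; module)
    obtain ⟨k1, k2, k3, k4⟩ := this
    have h0 : s • a' + t • b' = 0 := by
      rw [e1, e2]
      have : s • (x1 • a + y1 • b) + t • (x2 • a + y2 • b) =
          (s * x1 + t * x2) • a + (s * y1 + t * y2) • b := by module
      rw [this, k1, k2]; simp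
    have := hL'.ind s t h0
    exact ⟨this.1, this.2, k3, k4⟩
  span x := by
    obtain ⟨s, t, p, q, e⟩ := h.span x
    obtain ⟨x1, y1, e1⟩ := hL'.span a hL.ha
    obtain ⟨x2, y2, e2⟩ := hL'.span b hL.hb
    refine ⟨s * x1 + t * x2, s * y1 + t * y2, p, q, ?_⟩
    rw [e, e1, e2]; module

theorem IsB4.of_line (hV : Module.finrank ℂ V = 4) {L : Submodule ℂ V}
    (hL : Module.finrank ℂ L = 2) {a b : V} (hab : IsB2 L a b) : ∃ c d, IsB4 a b c d := by
  have hfin : Module.Finite ℂ V := Module.finite_of_finrank_pos (by omega)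
  obtain ⟨C, hC⟩ := Submodule.exists_isCompl L
  have hC2 : Module.finrank ℂ C = 2 := by
    have := Submodule.finrank_add_eq_of_isCompl hC
    omega
  obtain ⟨c, d, hcd⟩ := exists_IsB2 hC2
  refine ⟨c, d, ?_, ?_⟩
  · intro s t p q e
    have h1 : s • a + t • b ∈ L := L.add_mem (L.smul_mem _ hab.ha) (L.smul_mem _ hab.hb)
    have h2 : p • c + q • d ∈ C := C.add_mem (C.smul_mem _ hcd.ha) (C.smul_mem _ hcd.hb)
    have h3 : s • a + t • b = -(p • c + q • d) := by
      rw [← sub_eq_zero, ← e]; abel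
    have h4 : s • a + t • b ∈ C := by rw [h3]; exact C.neg_mem h2
    have h5 : s • a + t • b = 0 := by
      have : s • a + t • b ∈ L ⊓ C := ⟨h1, h4⟩
      rw [hC.inf_eq_bot] at this
      exact (Submodule.mem_bot ℂ).mp this
    have h6 : p • c + q • d = 0 := by
      rw [h5] at h3
      exact neg_eq_zero.mp h3.symm
    have k1 := hab.ind s t h5
    have k2 := hcd.ind p q h6
    exact ⟨k1.1, k1.2, k2.1, k2.2⟩
  · intro x
    have hx : x ∈ L ⊔ C := by rw [hC.sup_eq_top]; trivial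
    obtain ⟨y, hy, z, hz, rfl⟩ := Submodule.mem_sup.mp hx
    obtain ⟨s, t, rfl⟩ := hab.span y hy
    obtain ⟨p, q, rfl⟩ := hcd.span z hz
    exact ⟨s, t, p, q, by abel⟩

theorem line_sub (s1 : ∀ x y z, T x y z = T y x z) (s2 : ∀ x y z, T x y z = T x z y) {p q : V}
    (hind : ∀ s t : ℂ, s • p + t • q = 0 → s = 0 ∧ t = 0) (h1 : T p p p = 0) (h2 : T p p q = 0)
    (h3 : T p q q = 0) (h4 : T q q q = 0) :
    ∃ M : Submodule ℂ V, Module.finrank ℂ M = 2 ∧ (∀ w ∈ M, T w w w = 0) ∧ IsB2 M p q := by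
  have hli : LinearIndependent ℂ ![p, q] := by
    rw [Fintype.linearIndependent_iff]
    intro g hg i
    rw [Fin.sum_univ_two] at hg
    have := hind (g 0) (g 1) hg
    fin_cases i
    · exact this.1
    · exact this.2
  have hsp : ∀ x ∈ Submodule.span ℂ (Set.range ![p, q]), ∃ s t : ℂ, x = s • p + t • q := by
    intro x hx
    rw [Submodule.mem_span_range_iff_exists_fun] at hx
    obtain ⟨c, hc⟩ := hx
    rw [Fin.sum_univ_two] at hc
    exact ⟨c 0, c 1, hc.symm⟩
  refine ⟨Submodule.span ℂ (Set.range ![p, q]), ?_, ?_, ?_, ?_, hind, hsp⟩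
  · rw [finrank_span_eq_card hli]; simp
  · intro x hx
    obtain ⟨s, t, rfl⟩ := hsp x hx
    have c1 : T p q p = 0 := by rw [s2]; exact h2
    have c2 : T q p p = 0 := by rw [s1]; exact c1
    have c3 : T q p q = 0 := by rw [s1]; exact h3
    have c4 : T q q p = 0 := by rw [s2]; exact c3
    simp only [map_add, map_smul, LinearMap.add_apply, LinearMap.smul_apply, smul_eq_mul,
      h1, h2, h3, h4, c1, c2, c3, c4]
    ring
  · exact Submodule.subset_span ⟨0, rfl⟩
  · exact Submodule.subset_span ⟨1, rfl⟩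

/-- the line residual to a degenerate conic, in a convenient basis -/
theorem residual (h : Sm T) {L : Submodule ℂ V} (hLT : ∀ w ∈ L, T w w w = 0) {u1 u2 w w' : V}
    (hL : IsB2 L u1 u2) (hB : IsB4 u1 u2 w w') (hd : disc T u1 u2 w = 0) :
    ∃ u u' v, IsB2 L u u' ∧ IsB4 u u' v w' ∧ IsB4 u u' v w' ∧ T u u v = 0 ∧ T u v v = 0 ∧
      T v v v = 0 ∧ (∃ t ∈ L, v = w + t) := by
  have hz : ∀ {a b c : V}, a ∈ L → b ∈ L → c ∈ L → T a b c = 0 :=
    fun ha hb hc => tri_zero_of_self h.s1 h.s2 hLT ha hb hc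
  obtain ⟨y1, y2, t1, t2, hy, e1, e2, e3⟩ := line_of_root h hB (hz hL.ha hL.ha hL.ha)
    (hz hL.ha hL.ha hL.hb) (hz hL.ha hL.hb hL.hb) (hz hL.hb hL.hb hL.hb) hd
  set u := y1 • u1 + y2 • u2 with hu
  set v := w + (t1 • u1 + t2 • u2) with hv
  have hut : t1 • u1 + t2 • u2 ∈ L := L.add_mem (L.smul_mem _ hL.ha) (L.smul_mem _ hL.hb)
  have huL : u ∈ L := L.add_mem (L.smul_mem _ hL.ha) (L.smul_mem _ hL.hb)
  have hex : ∃ u', IsB2 L u u' := by
    by_cases h1 : y1 = 0
    · have h2 : y2 ≠ 0 := by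
        intro h2; exact hy (by rw [h1, h2]; rfl)
      refine ⟨u1, huL, hL.ha, ?_, ?_⟩
      · intro s t e
        have := hL.ind t (s * y2) (by rw [← e, hu, h1]; module)
        refine ⟨?_, this.1⟩
        rcases mul_eq_zero.mp this.2 with h3 | h3
        · exact h3
        · exact absurd h3 h2
      · intro x hx
        obtain ⟨s, t, rfl⟩ := hL.span x hx
        refine ⟨t / y2, s, ?_⟩
        rw [hu, h1, zero_smul, zero_add, smul_smul, div_mul_cancel₀ _ h2]
        abel
    · refine ⟨u2, huL, hL.hb, ?_, ?_⟩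
      · intro s t e
        have := hL.ind (s * y1) (s * y2 + t) (by rw [← e, hu]; module)
        have hs : s = 0 := by
          rcases mul_eq_zero.mp this.1 with h3 | h3
          · exact h3
          · exact absurd h3 h1
        exact ⟨hs, by linear_combination this.2 - y2 * hs⟩
      · intro x hx
        obtain ⟨s, t, rfl⟩ := hL.span x hx
        refine ⟨s / y1, t - s / y1 * y2, ?_⟩
        rw [hu, smul_add, smul_smul, div_mul_cancel₀ _ h1]
        module
  obtain ⟨u', hu'⟩ := hex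
  have hB1 := hB.change hL hu'
  have hB2 : IsB4 u u' v w' := by
    obtain ⟨x, y, exy⟩ := hu'.span _ hut
    have := hB1.shift x y 0
    rw [zero_smul, add_zero, ← exy] at this
    exact this
  have e4 : T u u v = 0 := by
    rw [hv, map_add, e1, hz huL huL hut, add_zero]
  exact ⟨u, u', v, hu', hB2, hB2, e4, e2, e3, _, hut, hv⟩

/-- every line on a smooth cubic surface has a skew line -/
theorem exists_skew (h : Sm T) (hV : Module.finrank ℂ V = 4) {L : Submodule ℂ V}
    (hL : Module.finrank ℂ L = 2) (hLT : ∀ w ∈ L, T w w w = 0) :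
    ∃ M : Submodule ℂ V, Module.finrank ℂ M = 2 ∧ (∀ w ∈ M, T w w w = 0) ∧ L ⊓ M = ⊥ := by
  obtain ⟨u1, u2, h12⟩ := exists_IsB2 hL
  obtain ⟨w, w', hB⟩ := IsB4.of_line hV hL h12
  have hz : ∀ {a b c : V}, a ∈ L → b ∈ L → c ∈ L → T a b c = 0 :=
    fun ha hb hc => tri_zero_of_self h.s1 h.s2 hLT ha hb hc
  -- a first degenerate conic
  obtain ⟨x, x', hBx, hdx⟩ : ∃ x x', IsB4 u1 u2 x x' ∧ disc T u1 u2 x = 0 := by
    by_cases h0 : disc T u1 u2 w = 0
    · exact ⟨w, w', hB, h0⟩
    · obtain ⟨s, hs⟩ := first_root h u1 u2 w w' h0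
      refine ⟨w' + s • w, w, ?_, hs⟩
      have := hB.perm.shift 0 0 s
      rw [zero_smul, zero_smul, add_zero, zero_add] at this
      exact this
  obtain ⟨u, u', v, huu, hB1, -, e1, e2, e3, -⟩ := residual h hLT h12 hBx hdx
  -- the first line
  obtain ⟨N, hN, hNT, hNb⟩ := line_sub h.s1 h.s2 (p := u) (q := v) (fun s t e => by
    have := hB1.ind s 0 t 0 (by rw [zero_smul, zero_smul, add_zero, add_zero]; exact e)
    exact ⟨this.1, this.2.2.1⟩) (hz huu.ha huu.ha huu.ha) e1 e2 e3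
  have hB2 : IsB4 u v u' x' := hB1.perm2
  obtain ⟨s, hs⟩ := second_root h hB2 (hz huu.ha huu.ha huu.ha) e1 (hz huu.ha huu.ha huu.hb)
    (hz huu.ha huu.hb huu.hb) (hz huu.hb huu.hb huu.hb)
  have hB3 : IsB4 u v (x' + s • u') u' := by
    have := hB2.perm.shift 0 0 s
    rw [zero_smul, zero_smul, add_zero, zero_add] at this
    exact this
  obtain ⟨p, p', q, hpp, hB4, -, f1, f2, f3, t, ht, hq⟩ := residual h hNT hNb hB3 hs
  have hzN : ∀ {a b c : V}, a ∈ N → b ∈ N → c ∈ N → T a b c = 0 :=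
    fun ha hb hc => tri_zero_of_self h.s1 h.s2 hNT ha hb hc
  obtain ⟨M, hM, hMT, hMb⟩ := line_sub h.s1 h.s2 (p := p) (q := q) (fun s t e => by
    have := hB4.ind s 0 t 0 (by rw [zero_smul, zero_smul, add_zero, add_zero]; exact e)
    exact ⟨this.1, this.2.2.1⟩) (hzN hpp.ha hpp.ha hpp.ha) f1 f2 f3
  refine ⟨M, hM, hMT, ?_⟩
  rw [Submodule.eq_bot_iff]
  rintro y ⟨hyL, hyM⟩
  obtain ⟨α, β, hy1⟩ := huu.span y hyL
  obtain ⟨γ, δ, hy2⟩ := hMb.span y hyM
  obtain ⟨a1, a2, ha⟩ := hNb.span p hpp.ha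
  obtain ⟨b1, b2, hb⟩ := hNb.span t ht
  have hrel : (γ * a1 + δ * b1 - α) • u + (γ * a2 + δ * b2) • v + (δ * s - β) • u' + δ • x' = 0 := by
    have h0 : γ • p + δ • q - (α • u + β • u') = 0 := by rw [← hy2, ← hy1, sub_self]
    rw [hq, ha, hb] at h0
    rw [← h0]
    module
  obtain ⟨k1, k2, k3, k4⟩ := hB2.ind _ _ _ _ hrel
  have hδ : δ = 0 := k4
  have hβ : β = 0 := by linear_combination s * hδ - k3
  have hγ : γ = 0 := by
    by_contra hγ
    have ha2 : a2 = 0 := by
      have : γ * a2 = 0 := by linear_combination k2 - b2 * hδ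
      rcases mul_eq_zero.mp this with h1 | h1
      · exact absurd h1 hγ
      · exact h1
    have ha1 : a1 ≠ 0 := by
      intro h1
      have hp0 : p = 0 := by rw [ha, h1, ha2]; simp
      exact one_ne_zero (hpp.ind 1 0 (by rw [hp0]; simp)).1
    have hp1 : p = a1 • u := by rw [ha, ha2, zero_smul, add_zero]
    have g1 : T u u q = 0 := by
      rw [hp1] at f1
      simp only [map_smul, LinearMap.smul_apply, smul_eq_mul] at f1
      rcases mul_eq_zero.mp f1 with h1 | h1
      · exact absurd h1 ha1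
      · rcases mul_eq_zero.mp h1 with h2 | h2
        · exact absurd h2 ha1
        · exact h2
    have g2 : T u u x' = 0 := by
      rw [hq, map_add, map_add, map_smul, smul_eq_mul, hz huu.ha huu.ha huu.hb,
        hzN hNb.ha hNb.ha ht] at g1
      simpa using g1
    have hu0 : u ≠ 0 := by
      intro h1
      exact one_ne_zero (huu.ind 1 0 (by rw [h1]; simp)).1
    exact h.nonsing hB2 hu0 (hz huu.ha huu.ha huu.ha) e1 (hz huu.ha huu.ha huu.hb) g2
  rw [hy2, hγ, hδ]
  simp

end Vale.Agent.P287.H674
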