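import Vale.Agent.P287.H674.CaseB
import Vale.Agent.P287.H674.Skew3

/-!
The special cubics: from an automorphism of order three to the adapted basis.
-/

namespace Vale.Agent.P287.H674

variable {V : Type*} [AddCommGroup V] [Module ℂ V]
variable {T : V →ₗ[ℂ] V →ₗ[ℂ] V →ₗ[ℂ] ℂ}

/-- weights -/
theorem wt {ρ : V →ₗ[ℂ] V} (hρT : ∀ x y z, T (ρ x) (ρ y) (ρ z) = T x y z) {x y z : V}
    {a b c : ℂ} (hx : ρ x = a • x) (hy : ρ y = b • y) (hz : ρ z = c • z) (h : a * b * c ≠ 1) :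
    T x y z = 0 := by
  have h1 := hρT x y z
  rw [hx, hy, hz] at h1
  simp only [map_smul, LinearMap.smul_apply, smul_eq_mul] at h1
  have h2 : (a * b * c - 1) * T x y z = 0 := by linear_combination h1
  rcases mul_eq_zero.mp h2 with h3 | h3
  · exact absurd (sub_eq_zero.mp h3) h
  · exact h3

section

variable {ρ : V →ₗ[ℂ] V} {χ : ℂ}

theorem gr3_ev (h : Sm T) (hρT : ∀ x y z, T (ρ x) (ρ y) (ρ z) = T x y z) (hχ3 : χ ^ 3 = 1)
    (hχ : χ ≠ 1) {x y z : V} (hx : ρ x = x) (hy : ρ y = χ • y) (hz : ρ z = χ ^ 2 • z) :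
    T (x + y + z) (x + y + z) (x + y + z) =
      T x x x + T y y y + T z z z + 6 * T x y z := by
  have hx' : ρ x = (1 : ℂ) • x := by rw [one_smul]; exact hx
  have hχ2 : χ ^ 2 ≠ 1 := by
    intro h2
    apply hχ
    linear_combination hχ3 - χ * h2
  have hχ4 : χ ^ 2 * χ ^ 2 ≠ 1 := by
    intro h2
    apply hχ
    linear_combination h2 - χ * hχ3
  have c1 : T x x y = 0 := wt hρT hx' hx' hy (by simpa using hχ)
  have c2 : T x x z = 0 := wt hρT hx' hx' hz (by simpa using hχ2)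
  have c3 : T x y x = 0 := by rw [h.s2]; exact c1
  have c4 : T x z x = 0 := by rw [h.s2]; exact c2
  have c5 : T y x x = 0 := by rw [h.s1]; exact c3
  have c6 : T z x x = 0 := by rw [h.s1]; exact c4
  have c7 : T x y y = 0 := wt hρT hx' hy hy (by rw [one_mul, ← pow_two]; exact hχ2)
  have c8 : T x z z = 0 := wt hρT hx' hz hz (by rw [one_mul]; exact hχ4)
  have c9 : T y x y = 0 := by rw [h.s1]; exact c7
  have c10 : T y y x = 0 := by rw [h.s2]; exact c9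
  have c11 : T z x z = 0 := by rw [h.s1]; exact c8
  have c12 : T z z x = 0 := by rw [h.s2]; exact c11
  have c13 : T y y z = 0 := wt hρT hy hy hz (by
    intro h2; apply hχ; linear_combination h2 - χ * hχ3)
  have c14 : T y z y = 0 := by rw [h.s2]; exact c13
  have c15 : T z y y = 0 := by rw [h.s1]; exact c14
  have c16 : T y z z = 0 := wt hρT hy hz hz (by
    intro h2; apply hχ2; linear_combination h2 - χ ^ 2 * hχ3)
  have c17 : T z y z = 0 := by rw [h.s1]; exact c16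
  have c18 : T z z y = 0 := by rw [h.s2]; exact c17
  have d1 : T x z y = T x y z := h.s2 _ _ _
  have d2 : T y x z = T x y z := h.s1 _ _ _
  have d3 : T y z x = T x y z := by rw [h.s2, h.s1]
  have d4 : T z x y = T x y z := by rw [h.s1, h.s2]
  have d5 : T z y x = T x y z := by rw [h.s2, d4]
  simp only [map_add, LinearMap.add_apply, c1, c2, c3, c4, c5, c6, c7, c8, c9, c10, c11, c12, c13,
    c14, c15, c16, c17, c18, d1, d2, d3, d4, d5]
  ring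

theorem gr3_x (h : Sm T) (hρT : ∀ x y z, T (ρ x) (ρ y) (ρ z) = T x y z) (hχ3 : χ ^ 3 = 1)
    (hχ : χ ≠ 1) {x y z u : V} (hx : ρ x = x) (hy : ρ y = χ • y) (hz : ρ z = χ ^ 2 • z)
    (hu : ρ u = u) : T (x + y + z) (x + y + z) u = T x x u + 2 * T u y z := by
  have hx' : ρ x = (1 : ℂ) • x := by rw [one_smul]; exact hx
  have hu' : ρ u = (1 : ℂ) • u := by rw [one_smul]; exact hu
  have hχ2 : χ ^ 2 ≠ 1 := by
    intro h2
    apply hχ
    linear_combination hχ3 - χ * h2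
  have c1 : T x y u = 0 := wt hρT hx' hy hu' (by simpa using hχ)
  have c2 : T x z u = 0 := wt hρT hx' hz hu' (by simpa using hχ2)
  have c3 : T y x u = 0 := by rw [h.s1]; exact c1
  have c4 : T z x u = 0 := by rw [h.s1]; exact c2
  have c5 : T y y u = 0 := wt hρT hy hy hu' (by rw [mul_one, ← pow_two]; exact hχ2)
  have c6 : T z z u = 0 := wt hρT hz hz hu' (by
    intro h2; apply hχ; linear_combination h2 - χ * hχ3)
  have d1 : T y z u = T u y z := by rw [h.s2, h.s1]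
  have d2 : T z y u = T u y z := by rw [h.s1]; exact d1
  simp only [map_add, LinearMap.add_apply, c1, c2, c3, c4, c5, c6, d1, d2]
  ring

theorem gr3_y (h : Sm T) (hρT : ∀ x y z, T (ρ x) (ρ y) (ρ z) = T x y z) (hχ3 : χ ^ 3 = 1)
    (hχ : χ ≠ 1) {x y z u : V} (hx : ρ x = x) (hy : ρ y = χ • y) (hz : ρ z = χ ^ 2 • z)
    (hu : ρ u = χ • u) : T (x + y + z) (x + y + z) u = T y y u + 2 * T x u z := by
  have hx' : ρ x = (1 : ℂ) • x := by rw [one_smul]; exact hx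
  have hχ2 : χ ^ 2 ≠ 1 := by
    intro h2
    apply hχ
    linear_combination hχ3 - χ * h2
  have c1 : T x x u = 0 := wt hρT hx' hx' hu (by simpa using hχ)
  have c2 : T x y u = 0 := wt hρT hx' hy hu (by rw [one_mul, ← pow_two]; exact hχ2)
  have c3 : T y x u = 0 := by rw [h.s1]; exact c2
  have c4 : T y z u = 0 := wt hρT hy hz hu (by
    intro h2; apply hχ; linear_combination h2 - χ * hχ3)
  have c5 : T z y u = 0 := by rw [h.s1]; exact c4
  have c6 : T z z u = 0 := wt hρT hz hz hu (by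
    intro h2; apply hχ2; linear_combination h2 - χ ^ 2 * hχ3)
  have d1 : T x z u = T x u z := h.s2 _ _ _
  have d2 : T z x u = T x u z := by rw [h.s1]; exact d1
  simp only [map_add, LinearMap.add_apply, c1, c2, c3, c4, c5, c6, d1, d2]
  ring

theorem gr3_z (h : Sm T) (hρT : ∀ x y z, T (ρ x) (ρ y) (ρ z) = T x y z) (hχ3 : χ ^ 3 = 1)
    (hχ : χ ≠ 1) {x y z u : V} (hx : ρ x = x) (hy : ρ y = χ • y) (hz : ρ z = χ ^ 2 • z)
    (hu : ρ u = χ ^ 2 • u) : T (x + y + z) (x + y + z) u = T z z u + 2 * T x y u := by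
  have hx' : ρ x = (1 : ℂ) • x := by rw [one_smul]; exact hx
  have hχ2 : χ ^ 2 ≠ 1 := by
    intro h2
    apply hχ
    linear_combination hχ3 - χ * h2
  have c1 : T x x u = 0 := wt hρT hx' hx' hu (by simpa using hχ2)
  have c2 : T x z u = 0 := wt hρT hx' hz hu (by
    intro h2; apply hχ; linear_combination h2 - χ * hχ3)
  have c3 : T z x u = 0 := by rw [h.s1]; exact c2
  have c4 : T y y u = 0 := wt hρT hy hy hu (by
    intro h2; apply hχ; linear_combination h2 - χ * hχ3)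
  have c5 : T y z u = 0 := wt hρT hy hz hu (by
    intro h2; apply hχ2; linear_combination h2 - χ ^ 2 * hχ3)
  have c6 : T z y u = 0 := by rw [h.s1]; exact c5
  have d1 : T y x u = T x y u := h.s1 _ _ _
  simp only [map_add, LinearMap.add_apply, c1, c2, c3, c4, c5, c6, d1]
  ring

end

/-- the adapted basis -/
structure Pre (T : V →ₗ[ℂ] V →ₗ[ℂ] V →ₗ[ℂ] ℂ) (ρ : V →ₗ[ℂ] V) (χ : ℂ)
    (x0 x1 y1 y2 z1 z2 : V) : Prop where
  r0 : ρ x0 = x0
  r1 : ρ x1 = x1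
  ry1 : ρ y1 = χ • y1
  ry2 : ρ y2 = χ • y2
  rz1 : ρ z1 = χ ^ 2 • z1
  rz2 : ρ z2 = χ ^ 2 • z2
  t001 : T x0 x0 x1 = 0
  t111 : T x1 x1 x1 = 0
  tsym : T x0 y2 z1 = T x0 y1 z2
  ta1 : T x1 y1 z1 = 0
  ta2 : T x1 y2 z2 = 0
  tanti : T x1 y2 z1 = - T x1 y1 z2
  y111 : T y1 y1 y1 = 1
  y112 : T y1 y1 y2 = 0
  y122 : T y1 y2 y2 = 0
  y222 : T y2 y2 y2 = 1
  z111 : T z1 z1 z1 = 1
  z112 : T z1 z1 z2 = 0
  z122 : T z1 z2 z2 = 0
  z222 : T z2 z2 z2 = 1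
  ind : ∀ a b p1 p2 q1 q2 : ℂ, cmb x0 x1 y1 y2 z1 z2 a b p1 p2 q1 q2 = 0 →
    a = 0 ∧ b = 0 ∧ p1 = 0 ∧ p2 = 0 ∧ q1 = 0 ∧ q2 = 0
  span : ∀ v, ∃ a b p1 p2 q1 q2 : ℂ, v = cmb x0 x1 y1 y2 z1 z2 a b p1 p2 q1 q2

theorem cb_of (h : Sm T) {ρ : V →ₗ[ℂ] V} {χ : ℂ}
    (hρT : ∀ x y z, T (ρ x) (ρ y) (ρ z) = T x y z) (hχ3 : χ ^ 3 = 1) (hχ : χ ≠ 1)
    {x0 x1 y1 y2 z1 z2 : V} (p : Pre T ρ χ x0 x1 y1 y2 z1 z2) :
    CB T x0 x1 y1 y2 z1 z2 (T x0 x0 x0) (T x0 x1 x1) (T x1 y1 z2) (T x0 y1 z1) (T x0 y1 z2)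
      (T x0 y2 z2) := by
  have hcm : ∀ a b p1 p2 q1 q2 : ℂ, cmb x0 x1 y1 y2 z1 z2 a b p1 p2 q1 q2 =
      (a • x0 + b • x1) + (p1 • y1 + p2 • y2) + (q1 • z1 + q2 • z2) := by
    intro a b p1 p2 q1 q2
    rw [cmb]; abel
  have hX : ∀ a b : ℂ, ρ (a • x0 + b • x1) = a • x0 + b • x1 := by
    intro a b
    rw [map_add, map_smul, map_smul, p.r0, p.r1]
  have hY : ∀ a b : ℂ, ρ (a • y1 + b • y2) = χ • (a • y1 + b • y2) := by
    intro a b
    rw [map_add, map_smul, map_smul, p.ry1, p.ry2]; module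
  have hZ : ∀ a b : ℂ, ρ (a • z1 + b • z2) = χ ^ 2 • (a • z1 + b • z2) := by
    intro a b
    rw [map_add, map_smul, map_smul, p.rz1, p.rz2]; module
  have d1 : T x0 x1 x0 = 0 := by rw [h.s2]; exact p.t001
  have d2 : T x1 x0 x0 = 0 := by rw [h.s1]; exact d1
  have d3 : T x1 x0 x1 = T x0 x1 x1 := h.s1 _ _ _
  have d4 : T x1 x1 x0 = T x0 x1 x1 := by rw [h.s2]; exact d3
  have d5 : T y1 y2 y1 = 0 := by rw [h.s2]; exact p.y112
  have d6 : T y2 y1 y1 = 0 := by rw [h.s1]; exact d5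
  have d7 : T y2 y1 y2 = 0 := by rw [h.s1]; exact p.y122
  have d8 : T y2 y2 y1 = 0 := by rw [h.s2]; exact d7
  have e5 : T z1 z2 z1 = 0 := by rw [h.s2]; exact p.z112
  have e6 : T z2 z1 z1 = 0 := by rw [h.s1]; exact e5
  have e7 : T z2 z1 z2 = 0 := by rw [h.s1]; exact p.z122
  have e8 : T z2 z2 z1 = 0 := by rw [h.s2]; exact e7
  refine ⟨?_, ?_, p.ind⟩
  · intro a b p1 p2 q1 q2
    rw [hcm, gr3_ev h hρT hχ3 hχ (hX a b) (hY p1 p2) (hZ q1 q2)]
    simp only [map_add, map_smul, LinearMap.add_apply, LinearMap.smul_apply, smul_eq_mul,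
      d1, d2, d3, d4, d5, d6, d7, d8, e5, e6, e7, e8, p.t001, p.t111, p.tsym, p.ta1, p.ta2,
      p.tanti, p.y111, p.y112, p.y122, p.y222, p.z111, p.z112, p.z122, p.z222]
    ring
  · intro a b p1 p2 q1 q2 E1 E2 E3 E4 E5 E6
    apply p.ind
    by_contra hne
    obtain ⟨w, hw⟩ := h.smooth _ hne
    apply hw
    obtain ⟨a', b', p1', p2', q1', q2', rfl⟩ := p.span w
    rw [hcm a b p1 p2 q1 q2]
    have f1 := gr3_x h hρT hχ3 hχ (hX a b) (hY p1 p2) (hZ q1 q2) p.r0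
    have f2 := gr3_x h hρT hχ3 hχ (hX a b) (hY p1 p2) (hZ q1 q2) p.r1
    have f3 := gr3_y h hρT hχ3 hχ (hX a b) (hY p1 p2) (hZ q1 q2) p.ry1
    have f4 := gr3_y h hρT hχ3 hχ (hX a b) (hY p1 p2) (hZ q1 q2) p.ry2
    have f5 := gr3_z h hρT hχ3 hχ (hX a b) (hY p1 p2) (hZ q1 q2) p.rz1
    have f6 := gr3_z h hρT hχ3 hχ (hX a b) (hY p1 p2) (hZ q1 q2) p.rz2
    generalize hv : (a • x0 + b • x1) + (p1 • y1 + p2 • y2) + (q1 • z1 + q2 • z2) = v at *
    simp only [map_add, map_smul, LinearMap.add_apply, LinearMap.smul_apply, smul_eq_mul,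
      d1, d2, d3, d4, d5, d6, d7, d8, e5, e6, e7, e8, p.t001, p.t111, p.tsym, p.ta1, p.ta2,
      p.tanti, p.y111, p.y112, p.y122, p.y222, p.z111, p.z112, p.z122, p.z222] at f1 f2 f3 f4 f5 f6
    simp only [cmb, map_add, map_smul, smul_eq_mul, f1, f2, f3, f4, f5, f6]
    linear_combination a' * E1 + b' * E2 + p1' * E3 + p2' * E4 + q1' * E5 + q2' * E6

end Vale.Agent.P287.H674
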