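import Vale.Agent.P287.H674.Gq3

/-!
The number of points of a star.
-/

namespace Vale.Agent.P287.H674

namespace Gq

variable {P : Type*} {adj : P → P → Prop} {res : P → P → P}

/-- a star with at most `K` lines has at most `2 K + 1` points -/
theorem star_card (h : Gq adj res) {p : P} (hp : ∀ u, u ≠ p → adj p u) {K : ℕ}
    (hK : ∀ U : Finset P, (∀ u ∈ U, u ≠ p) → (∀ u ∈ U, ∀ v ∈ U, u ≠ v → ¬ adj u v) →
      U.card ≤ K) (S : Finset P) : S.card ≤ 2 * K + 1 := by
  classical
  let F : Finset (Finset P) := ((S.erase p).powerset).filter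
    (fun U => ∀ u ∈ U, ∀ v ∈ U, u ≠ v → ¬ adj u v)
  have hF : F.Nonempty := ⟨∅, by simp [F]⟩
  obtain ⟨U, hU, hmax⟩ := F.exists_max_image Finset.card hF
  rw [Finset.mem_filter, Finset.mem_powerset] at hU
  have hUp : ∀ u ∈ U, u ≠ p := fun u hu => Finset.ne_of_mem_erase (hU.1 hu)
  have hUK := hK U hUp hU.2
  have hsub : S.erase p ⊆ U ∪ U.image (res p) := by
    intro s hs
    by_contra hcon
    rw [Finset.mem_union, not_or] at hcon
    have h1 : ∀ u ∈ U, ¬ adj s u := by
      intro u hu hsu
      apply hcon.2
      rw [Finset.mem_image]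
      exact ⟨u, hu, (h.tri (hp u (hUp u hu)) (h.symm (hp s (Finset.ne_of_mem_erase hs)))
        hsu).symm⟩
    have h2 : insert s U ∈ F := by
      rw [Finset.mem_filter, Finset.mem_powerset]
      refine ⟨Finset.insert_subset hs hU.1, ?_⟩
      intro u hu v hv huv
      rw [Finset.mem_insert] at hu hv
      rcases hu with rfl | hu <;> rcases hv with rfl | hv
      · exact absurd rfl huv
      · exact h1 v hv
      · exact fun h3 => h1 u hu (h.symm h3)
      · exact hU.2 u hu v hv huv
    have h3 := hmax _ h2
    rw [Finset.card_insert_of_notMem hcon.1] at h3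
    omega
  have h1 := Finset.card_le_card hsub
  have h2 := Finset.card_union_le U (U.image (res p))
  have h3 := Finset.card_image_le (s := U) (f := res p)
  have h4 := Finset.pred_card_le_card_erase (s := S) (a := p)
  omega

end Gq

end Vale.Agent.P287.H674
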