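import Vale.Agent.P287.H674.Res7

/-!
Planes meeting in points: the pairing in arbitrary frames, and the bound.
-/

namespace Vale.Agent.P287.H674

open Module

variable {V : Type*} [AddCommGroup V] [Module ℂ V]
variable {T : V →ₗ[ℂ] V →ₗ[ℂ] V →ₗ[ℂ] ℂ}

theorem exists_basis_last {S : Submodule ℂ V} (hS : Module.finrank ℂ S = 3) {p : V} (hp : p ∈ S)
    (hp0 : p ≠ 0) : ∃ a b, IsB3 S ![a, b, p] := by
  obtain ⟨a, b, h, -⟩ := exists_basis_quad hS 0 (fun _ _ => rfl) hp hp0
  exact ⟨a, b, h⟩

theorem exists_basis_two {S : Submodule ℂ V} (hS : Module.finrank ℂ S = 3) {a b : V} (ha : a ∈ S)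
    (hb : b ∈ S) (hab : ∀ s t : ℂ, s • a + t • b = 0 → s = 0 ∧ t = 0) :
    ∃ g, IsB3 S ![a, b, g] := by
  have hfin : Module.Finite ℂ S := Module.finite_of_finrank_pos (by omega)
  obtain ⟨g, hg, hgn⟩ : ∃ g ∈ S, g ∉ Submodule.span ℂ {a, b} := by
    by_contra hcon
    push Not at hcon
    have h1 : S ≤ Submodule.span ℂ {a, b} := hcon
    have h0 : Module.Finite ℂ (Submodule.span ℂ ({a, b} : Set V)) :=
      Module.Finite.span_of_finite ℂ (by simp)
    have h2 := Submodule.finrank_mono h1
    have h3 : Module.finrank ℂ (Submodule.span ℂ ({a, b} : Set V)) ≤ 2 := by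
      have := finrank_range_le_card (R := ℂ) ![a, b]
      rw [Matrix.range_cons_cons_empty] at this
      simpa [Set.finrank] using this
    omega
  refine ⟨g, IsB3.of_ind hS ?_ ?_⟩
  · intro i
    fin_cases i
    · exact ha
    · exact hb
    · exact hg
  · intro c hc
    simp only [vec, Matrix.cons_val_zero, Matrix.cons_val_one, Matrix.cons_val] at hc
    have h2 : c 2 = 0 := by
      by_contra h2
      apply hgn
      rw [Submodule.mem_span_pair]
      refine ⟨-((c 2)⁻¹ * c 0), -((c 2)⁻¹ * c 1), ?_⟩
      have : (c 2)⁻¹ • (c 0 • a + c 1 • b + c 2 • g) = 0 := by rw [hc, smul_zero]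
      rw [smul_add, smul_add, smul_smul, smul_smul, smul_smul, inv_mul_cancel₀ h2, one_smul]
        at this
      rw [neg_smul, neg_smul, ← neg_add]
      exact (eq_neg_of_add_eq_zero_right this).symm
    rw [h2, zero_smul, add_zero] at hc
    obtain ⟨h3, h4⟩ := hab _ _ hc
    funext i
    fin_cases i
    · exact h3
    · exact h4
    · exact h2

variable {W W' C' : Submodule ℂ V} {lam : (V → ℂ) →ₗ[ℂ] ℂ}

/-- the residue pairing of two planes meeting in a point -/
theorem Res.pair (hR : Res T W lam) (hS : Sm T) (hV : Module.finrank ℂ V = 6)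
    (hW : IsPl T W) (hW' : IsPl T W') (hd : Module.finrank ℂ (W ⊓ W' : Submodule ℂ V) = 1)
    (hC : IsCompl W' C') {b e b' e' : Fin 3 → V} (hF : Fr W b e) (hF' : Fr W' b' e')
    (he' : ∀ j, e' j ∈ C') (β : Basis (Fin 3 ⊕ Fin 3) ℂ V) :
    lam (fun v => dd T b' e' (v + W'.projection C' hC v)) * vol β b e =
      2 * lam (dd T b e) * vol β b' e' := by
  have hfin : Module.Finite ℂ V := Module.finite_of_finrank_pos (by omega)
  have hC3 : Module.finrank ℂ C' = 3 := by
    have := Submodule.finrank_add_eq_of_isCompl hC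
    have := hW'.1
    omega
  set π := W'.projection C' hC with hπdef
  have hπ : ∀ w ∈ W', π w = w := by
    intro w hw
    rw [hπdef, Submodule.projection_apply, Submodule.projectionOnto_apply_of_mem_left hC hw]
  have hπm : ∀ v, π v ∈ W' := by
    intro v
    rw [hπdef, Submodule.projection_apply]
    exact (W'.projectionOnto C' hC v).2
  have hπc : ∀ v, v - π v ∈ C' := by
    intro v
    have hv : v ∈ W' ⊔ C' := by rw [hC.sup_eq_top]; trivial
    obtain ⟨w, hw, c, hc, rfl⟩ := Submodule.mem_sup.mp hv
    have h1 : π c = 0 := by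
      rw [hπdef, Submodule.projection_apply, Submodule.projectionOnto_apply_of_mem_right hC hc]
      rfl
    rw [map_add, hπ w hw, h1, add_zero, add_sub_cancel_left]
    exact hc
  have hπ0 : ∀ c ∈ C', π c = 0 := by
    intro c hc
    rw [hπdef, Submodule.projection_apply, Submodule.projectionOnto_apply_of_mem_right hC hc]
    rfl
  obtain ⟨p, hp⟩ := exists_IsB1 hd
  have hpW : p ∈ W := hp.he.1
  have hpW' : p ∈ W' := hp.he.2
  obtain ⟨b0, b1, hb⟩ := exists_basis_last hW'.1 hpW' hp.ne
  obtain ⟨a3, a4, ha⟩ := exists_basis_last hW.1 hpW hp.ne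
  have ha3 : a3 ∈ W := ha.mem 0
  have ha4 : a4 ∈ W := ha.mem 1
  obtain ⟨g, hg⟩ := exists_basis_two hC3 (hπc a3) (hπc a4) (by
    intro s t hst
    have h1 : s • a3 + t • a4 = s • π a3 + t • π a4 := by
      rw [← sub_eq_zero, ← hst]; module
    have h2 : s • a3 + t • a4 ∈ W ⊓ W' := ⟨W.add_mem (W.smul_mem _ ha3) (W.smul_mem _ ha4), by
      rw [h1]; exact W'.add_mem (W'.smul_mem _ (hπm _)) (W'.smul_mem _ (hπm _))⟩
    obtain ⟨r, hr⟩ := hp.span _ h2
    have h3 := ha.ind ![s, t, -r] (by
      simp only [vec, Matrix.cons_val_zero, Matrix.cons_val_one, Matrix.cons_val, neg_smul]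
      rw [hr]; abel)
    exact ⟨by simpa using congrFun h3 0, by simpa using congrFun h3 1⟩)
  have hFB : Fr W' ![b0, b1, p] ![a3 - π a3, a4 - π a4, g] := Fr.of_compl hC hb hg
  obtain ⟨m, hm⟩ := hb.span _ (hπm a3)
  obtain ⟨n, hn⟩ := hb.span _ (hπm a4)
  have hFA : Fr W ![a3, a4, p] ![b0, b1, g] := by
    refine ⟨ha, fun v => ?_⟩
    obtain ⟨r, s, rfl⟩ := hFB.span v
    refine ⟨![s 0, s 1, r 2 - s 0 * m 2 - s 1 * n 2],
      ![r 0 - s 0 * m 0 - s 1 * n 0, r 1 - s 0 * m 1 - s 1 * n 1, s 2], ?_⟩
    rw [hm, hn]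
    simp only [vec, Matrix.cons_val_zero, Matrix.cons_val_one, Matrix.cons_val]
    module
  have hvol := vol_swap β (b0 := b0) (b1 := b1) (p := p) (e0 := a3 - π a3) (e1 := a4 - π a4)
    (g := g) (a3 := a3) (a4 := a4) (s := m) (t := n) (by rw [← hm]; abel) (by rw [← hn]; abel)
  have hcore := hR.pair_core hS hW hW' hπ (b0 := b0) (b1 := b1) (p := p) (e0 := a3 - π a3)
    (e1 := a4 - π a4) (g := g) (a3 := a3) (a4 := a4) (w0 := π a3) (w1 := π a4)
    (hπ0 _ (hπc a3)) (hπ0 _ (hπc a4)) (by abel) (by abel) (hπm _) (hπm _) (hb.mem 0) (hb.mem 1)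
    hpW' ha hFA
  -- change of frames
  have k1 := hR.res (vol β ![b0, b1, p] ![a3 - π a3, a4 - π a4, g] •
      fun v => dd T b' e' (v + π v))
    (vol β b' e' • fun v => dd T ![b0, b1, p] ![a3 - π a3, a4 - π a4, g] (v + π v))
    (fun v _ => by
      have := hFB.dd_eq' (T := T) hF' hC (hg.mem) he' β (v + π v)
      simp only [Pi.smul_apply, smul_eq_mul]
      linear_combination this)
  have k2 := hR.res (vol β b e • dd T ![a3, a4, p] ![b0, b1, g])
    (vol β ![a3, a4, p] ![b0, b1, g] • dd T b e) (fun v hv => by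
      have := hFA.dd_eq hF hS hW β hv
      simp only [Pi.smul_apply, smul_eq_mul]
      linear_combination -this)
  rw [map_smul, map_smul, smul_eq_mul, smul_eq_mul] at k1 k2
  rw [hvol] at k2
  have hne := hFB.vol_ne β
  apply mul_left_cancel₀ hne
  linear_combination vol β b e * k1 + vol β b e * vol β b' e' * hcore +
    2 * vol β b' e' * k2

/-- the pairing of a plane with itself -/
theorem Res.self (hR : Res T W lam) {C : Submodule ℂ V} (hC : IsCompl W C)
    {b e : Fin 3 → V} :
    lam (fun v => dd T b e (v + W.projection C hC v)) = 8 * lam (dd T b e) := by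
  have := hR.res (fun v => dd T b e (v + W.projection C hC v)) ((8 : ℂ) • dd T b e)
    (fun v hv => by
      have hπ : W.projection C hC v = v := by
        rw [Submodule.projection_apply, Submodule.projectionOnto_apply_of_mem_left hC hv]
      rw [hπ]
      simp only [dd, mt, Matrix.det_fin_three, Matrix.of_apply, map_add, LinearMap.add_apply,
        Pi.smul_apply, smul_eq_mul]
      ring)
  rw [this, map_smul, smul_eq_mul]

theorem dd_mem (b e : Fin 3 → V) (π : V →ₗ[ℂ] V) :
    (fun v => dd T b e (v + π v)) ∈ cubS V := by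
  let N : Fin 3 → Fin 3 → (V →ₗ[ℂ] ℂ) := fun j k => tl T (b j) (e k) ∘ₗ (LinearMap.id + π)
  have hN : ∀ j k v, T (v + π v) (b j) (e k) = N j k v := fun j k v => rfl
  have : (fun v => dd T b e (v + π v)) =
      (fun v => N 0 0 v * N 1 1 v * N 2 2 v) - (fun v => N 0 0 v * N 1 2 v * N 2 1 v) -
      (fun v => N 0 1 v * N 1 0 v * N 2 2 v) + (fun v => N 0 1 v * N 1 2 v * N 2 0 v) +
      (fun v => N 0 2 v * N 1 0 v * N 2 1 v) - fun v => N 0 2 v * N 1 1 v * N 2 0 v := by
    funext v
    simp only [dd, mt, Matrix.det_fin_three, Matrix.of_apply, Pi.add_apply, Pi.sub_apply, hN]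
  rw [this]
  refine Submodule.sub_mem _ (Submodule.add_mem _ (Submodule.add_mem _ (Submodule.sub_mem _
    (Submodule.sub_mem _ ?_ ?_) ?_) ?_) ?_) ?_ <;> exact mul3_mem _ _ _

/-- planes of a smooth cubic fourfold which meet pairwise in points: there are at most twenty -/
theorem card_le_twenty (hS : Sm T) (hV : Module.finrank ℂ V = 6) {ι : Type*} [Fintype ι]
    (W : ι → Submodule ℂ V) (hW : ∀ i, IsPl T (W i))
    (hd : ∀ i j, i ≠ j → Module.finrank ℂ (W i ⊓ W j : Submodule ℂ V) = 1) :
    Fintype.card ι ≤ 20 := by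
  classical
  have hfin : Module.Finite ℂ V := Module.finite_of_finrank_pos (by omega)
  obtain ⟨β⟩ := exists_frame_basis hV
  choose C hC using fun i => Submodule.exists_isCompl (W i)
  have hC3 : ∀ i, Module.finrank ℂ (C i) = 3 := by
    intro i
    have := Submodule.finrank_add_eq_of_isCompl (hC i)
    have := (hW i).1
    omega
  choose b hb using fun i => exists_IsB3 (hW i).1
  choose e he using fun i => exists_IsB3 (hC3 i)
  have hF : ∀ i, Fr (W i) (b i) (e i) := fun i => Fr.of_compl (hC i) (hb i) (he i)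
  choose lam hR using fun i => exists_res hS hV (hW i)
  let P : ι → V → ℂ := fun i v => dd T (b i) (e i) (v + (W i).projection (C i) (hC i) v)
  -- the linear map
  let F : (Module.End ℂ V × (ι → ℂ)) →ₗ[ℂ] (V → ℂ) :=
    { toFun := fun q => (fun v => T v v (q.1 v)) + ∑ i, q.2 i • P i
      map_add' := by
        intro q q'
        funext v
        simp only [Prod.fst_add, Prod.snd_add, Pi.add_apply, LinearMap.add_apply, map_add,
          Finset.sum_apply, Pi.smul_apply, smul_eq_mul, add_mul, Finset.sum_add_distrib]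
        ring
      map_smul' := by
        intro r q
        funext v
        simp only [Prod.smul_fst, Prod.smul_snd, Pi.add_apply, LinearMap.smul_apply, map_smul,
          Finset.sum_apply, Pi.smul_apply, smul_eq_mul, RingHom.id_apply, mul_add,
          Finset.mul_sum, mul_assoc] }
  have hFr : LinearMap.range F ≤ cubS V := by
    rintro _ ⟨q, rfl⟩
    refine Submodule.add_mem _ (der_mem T q.1) (Submodule.sum_mem _ fun i _ =>
      Submodule.smul_mem _ _ (dd_mem _ _ _))
  have hinj : Function.Injective F := by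
    rw [← LinearMap.ker_eq_bot, LinearMap.ker_eq_bot']
    rintro ⟨A, c⟩ hq
    have hq' : (fun v => T v v (A v)) + ∑ i, c i • P i = 0 := hq
    have h1 : ∀ i, ∑ j, c j * lam i (P j) = 0 := by
      intro i
      have := congrArg (lam i) hq'
      rw [map_add, (hR i).der A, zero_add, map_sum, map_zero] at this
      simpa only [map_smul, smul_eq_mul] using this
    set J : ι → ℂ := fun i => lam i (dd T (b i) (e i)) with hJ
    set v : ι → ℂ := fun i => vol β (b i) (e i) with hv
    have hJne : ∀ i, J i ≠ 0 := fun i => (hR i).dd_ne hS hV (hW i) (hF i)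
    have hvne : ∀ i, v i ≠ 0 := fun i => (hF i).vol_ne β
    have h2 : ∀ i j, lam i (P j) * v i = 2 * J i * v j + if i = j then 6 * J i * v j else 0 := by
      intro i j
      by_cases hij : i = j
      · subst hij
        rw [if_pos rfl]
        have := (hR i).self (b := b i) (e := e i) (hC i)
        simp only [P]
        rw [this]
        simp only [hJ]
        ring
      · rw [if_neg hij, add_zero]
        exact (hR i).pair hS hV (hW i) (hW j) (hd i j hij) (hC j) (hF i) (hF j) ((he j).mem) β
    set S : ℂ := ∑ j, c j * v j with hSdef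
    have h3 : ∀ i, S + 3 * (c i * v i) = 0 := by
      intro i
      have h4 : (∑ j, c j * lam i (P j)) * v i = 2 * J i * S + 6 * J i * (c i * v i) := by
        rw [Finset.sum_mul, hSdef, Finset.mul_sum]
        have : ∀ j, c j * lam i (P j) * v i = 2 * J i * (c j * v j) +
            if i = j then 6 * J i * (c i * v i) else 0 := by
          intro j
          have := h2 i j
          by_cases hij : i = j
          · subst hij
            rw [if_pos rfl] at this ⊢
            linear_combination c i * this
          · rw [if_neg hij] at this ⊢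
            linear_combination c j * this
        rw [Finset.sum_congr rfl fun j _ => this j, Finset.sum_add_distrib,
          Finset.sum_ite_eq Finset.univ i, if_pos (Finset.mem_univ i)]
      rw [h1 i, zero_mul] at h4
      have h5 : J i * (S + 3 * (c i * v i)) = 0 := by linear_combination -h4 / 2
      exact (mul_eq_zero.mp h5).resolve_left (hJne i)
    have h6 : S = 0 := by
      have h7 : ∑ i, (S + 3 * (c i * v i)) = 0 := Finset.sum_eq_zero fun i _ => h3 i
      rw [Finset.sum_add_distrib, Finset.sum_const, Finset.card_univ, ← Finset.mul_sum,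
        ← hSdef, nsmul_eq_mul] at h7
      have h8 : ((Fintype.card ι + 3 : ℕ) : ℂ) * S = 0 := by push_cast; linear_combination h7
      rcases mul_eq_zero.mp h8 with h9 | h9
      · exact absurd h9 (Nat.cast_ne_zero.mpr (by omega))
      · exact h9
    have h10 : ∀ i, c i = 0 := by
      intro i
      have := h3 i
      rw [h6, zero_add] at this
      have h11 : c i * v i = 0 := by linear_combination this / 3
      exact (mul_eq_zero.mp h11).resolve_right (hvne i)
    have hc : c = 0 := funext h10
    subst hc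
    have hA : ∀ v, T v v (A v) = 0 := by
      intro v
      have := congrFun hq' v
      simpa using this
    have := der_zero hS hA
    rw [this]
    rfl
  have h1 := LinearMap.finrank_range_of_inj hinj
  obtain ⟨hc1, hc2⟩ := finite_cubS hV
  have h2 := Submodule.finrank_mono hFr
  rw [h1, Module.finrank_prod, Module.finrank_linearMap, hV,
    Module.finrank_fintype_fun_eq_card] at h2
  omega

end Vale.Agent.P287.H674
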