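import Vale.Agent.P287.H674.PlaneGeo3
import Vale.Agent.P287.H674.Gq4
import Vale.Agent.P287.H674.Res8

/-!
The number of planes of a smooth cubic fourfold without two disjoint planes.
-/

namespace Vale.Agent.P287.H674

open MvPolynomial Module

section

variable {V : Type*} [AddCommGroup V] [Module ℂ V]
variable {T : V →ₗ[ℂ] V →ₗ[ℂ] V →ₗ[ℂ] ℂ}

theorem finrank_inf_one (hV : Module.finrank ℂ V = 6)
    (hno : ∀ A B : Submodule ℂ V, IsPl T A → IsPl T B → A ⊓ B ≠ ⊥)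
    {A B : {W : Submodule ℂ V // IsPl T W}} (hne : A ≠ B) (h : ¬ AdjP T A B) :
    Module.finrank ℂ (A.1 ⊓ B.1 : Submodule ℂ V) = 1 := by
  have hfin : Module.Finite ℂ V := Module.finite_of_finrank_pos (by omega)
  have d3 : Module.finrank ℂ (A.1 ⊓ B.1 : Submodule ℂ V) < Module.finrank ℂ A.1 := by
    apply Submodule.finrank_lt_finrank_of_lt
    refine lt_of_le_of_ne inf_le_left fun e => hne (Subtype.ext ?_)
    apply Submodule.eq_of_le_of_finrank_eq
    · rw [← e]; exact inf_le_right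
    · rw [A.2.1, B.2.1]
  rw [A.2.1] at d3
  have h0 : Module.finrank ℂ (A.1 ⊓ B.1 : Submodule ℂ V) ≠ 0 := by
    intro h0
    exact hno A.1 B.1 A.2 B.2 (Submodule.finrank_eq_zero.mp h0)
  have h2 : Module.finrank ℂ (A.1 ⊓ B.1 : Submodule ℂ V) ≠ 2 := fun h2 => h ⟨hne, h2⟩
  omega

/-- planes no two of which meet along a line -/
theorem card_far (hS : Sm T) (hV : Module.finrank ℂ V = 6)
    (hno : ∀ A B : Submodule ℂ V, IsPl T A → IsPl T B → A ⊓ B ≠ ⊥)
    (U : Finset {W : Submodule ℂ V // IsPl T W})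
    (hU : ∀ u ∈ U, ∀ v ∈ U, u ≠ v → ¬ AdjP T u v) : U.card ≤ 20 := by
  have := card_le_twenty hS hV (ι := U) (fun u => u.1.1) (fun u => u.1.2) (fun u v huv =>
    finrank_inf_one hV hno (fun e => huv (Subtype.ext e))
      (hU u.1 u.2 v.1 v.2 fun e => huv (Subtype.ext e)))
  simpa using this

theorem finite_of_card {P : Type*} {K : ℕ} (h : ∀ S : Finset P, S.card ≤ K) :
    Finite P := by
  by_contra hcon
  rw [not_finite_iff_infinite] at hcon
  obtain ⟨S, hS⟩ := Infinite.exists_subset_card_eq P (K + 1)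
  have := h S
  omega

end

/-- The planes of a smooth cubic fourfold `V(F)`, where `K` bounds the number of lines of a
star: two disjoint planes, or at most twenty planes meeting pairwise in points, or a plane
meeting all others along lines, or 9, 15 or 27 planes. -/
theorem planes_all {F : MvPolynomial (Fin 6) ℂ} (hF : SmoothCubic F) {K : ℕ}
    (hK : ¬ TwoDisjointPlanes F → ∀ (p : {W // IsPl (tri F) W}) (U : Finset {W // IsPl (tri F) W}),
      (∀ u, u ≠ p → AdjP (tri F) p u) → (∀ u ∈ U, u ≠ p) →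
      (∀ u ∈ U, ∀ v ∈ U, u ≠ v → ¬ AdjP (tri F) u v) → U.card ≤ K) :
    TwoDisjointPlanes F ∨
    ({Q | PlaneIn F Q}.Finite ∧ {Q | PlaneIn F Q}.ncard ≤ 20 ∧
      ∀ Q R, PlaneIn F Q → PlaneIn F R → Q ≠ R →
        Module.finrank ℂ (Q ⊓ R : Submodule ℂ (Fin 6 → ℂ)) = 1) ∨
    (∃ P, PlaneIn F P ∧
      (∀ Q, PlaneIn F Q → Q ≠ P → Module.finrank ℂ (P ⊓ Q : Submodule ℂ (Fin 6 → ℂ)) = 2) ∧
      {Q | PlaneIn F Q}.Finite ∧ Odd {Q | PlaneIn F Q}.ncard ∧
      {Q | PlaneIn F Q}.ncard ≤ 2 * K + 1) ∨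
    {Q | PlaneIn F Q}.ncard = 9 ∨ {Q | PlaneIn F Q}.ncard = 15 ∨
      {Q | PlaneIn F Q}.ncard = 27 := by
  by_cases hd : TwoDisjointPlanes F
  · exact Or.inl hd
  right
  have hS : Sm (tri F) := ⟨tri_comm1 F, tri_comm2 F, fun v hv => smooth_tri hF hv⟩
  have hV : Module.finrank ℂ (Fin 6 → ℂ) = 6 := by simp
  have hpl : ∀ Q : Submodule ℂ (Fin 6 → ℂ), IsPl (tri F) Q ↔ PlaneIn F Q := by
    intro Q
    constructor
    · rintro ⟨h3, h4⟩
      refine ⟨h3, fun w hw => ?_⟩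
      have := h4 w hw
      rw [tri_self hF.1] at this
      simpa using this
    · rintro ⟨h3, h4⟩
      refine ⟨h3, fun w hw => ?_⟩
      rw [tri_self hF.1, h4 w hw]
  have hno : ∀ A B : Submodule ℂ (Fin 6 → ℂ), IsPl (tri F) A → IsPl (tri F) B → A ⊓ B ≠ ⊥ := by
    intro A B hA hB e
    exact hd ⟨A, B, (hpl A).mp hA, (hpl B).mp hB, e⟩
  have hcard : ∀ {N : ℕ}, (∀ S : Finset {Q // IsPl (tri F) Q}, S.card ≤ N) →
      {Q | PlaneIn F Q}.Finite ∧ {Q | PlaneIn F Q}.ncard ≤ N := by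
    intro N hN
    have hf2 : Finite {Q // IsPl (tri F) Q} := finite_of_card hN
    have := Fintype.ofFinite {Q // IsPl (tri F) Q}
    have e : {Q | PlaneIn F Q} = ((↑) : {Q // IsPl (tri F) Q} → _) ''
        ((Finset.univ : Finset {Q // IsPl (tri F) Q}) : Set _) := by
      ext Q
      constructor
      · intro hQ
        exact ⟨⟨Q, (hpl Q).mpr hQ⟩, by simp, rfl⟩
      · rintro ⟨R, -, rfl⟩
        exact (hpl _).mp R.2
    rw [e, Set.ncard_image_of_injective _ Subtype.val_injective, Set.ncard_coe_finset]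
    exact ⟨(Finset.finite_toSet _).image _, hN _⟩
  by_cases hadj : ∃ a b, AdjP (tri F) a b
  · right
    obtain ⟨a, b, hab⟩ := hadj
    rcases planes_main hF ((hpl _).mp a.2) ((hpl _).mp b.2) (fun e => hab.1 (Subtype.ext e))
      hab.2 with h | ⟨P, hP, h1, h2⟩ | h
    · exact absurd h hd
    · left
      have G := gqP hS hV hno
      let p : {Q // IsPl (tri F) Q} := ⟨P, (hpl P).mpr hP⟩
      have hp : ∀ u, u ≠ p → AdjP (tri F) p u := fun u hu =>
        ⟨hu.symm, h1 u.1 ((hpl _).mp u.2) fun e => hu (Subtype.ext e)⟩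
      have h3 := hcard (G.star_card hp (K := K) fun U hU1 hU2 => hK hd p U hp hU1 hU2)
      exact ⟨P, hP, h1, h3.1, h2 h3.1, h3.2⟩
    · exact Or.inr h
  · left
    push Not at hadj
    have h3 := hcard (fun S => card_far hS hV hno S fun u _ v _ _ => hadj u v)
    refine ⟨h3.1, h3.2, fun Q R hQ hR hne => ?_⟩
    exact finrank_inf_one (A := ⟨Q, (hpl Q).mpr hQ⟩) (B := ⟨R, (hpl R).mpr hR⟩) hV hno
      (fun e => hne (congrArg Subtype.val e)) (hadj _ _)

end Vale.Agent.P287.H674
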