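import Vale.Agent.P287.H674.Der

/-!
The space of cubic forms, as functions, on a space of dimension six.
-/

namespace Vale.Agent.P287.H674

open Module

variable {V : Type*} [AddCommGroup V] [Module ℂ V]

/-- cubic forms as functions -/
def cubS (V : Type*) [AddCommGroup V] [Module ℂ V] : Submodule ℂ (V → ℂ) :=
  Submodule.span ℂ {f | ∃ φ ψ χ : V →ₗ[ℂ] ℂ, f = fun v => φ v * ψ v * χ v}

theorem mul3_mem (φ ψ χ : V →ₗ[ℂ] ℂ) : (fun v => φ v * ψ v * χ v) ∈ cubS V :=
  Submodule.subset_span ⟨φ, ψ, χ, rfl⟩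

/-- the monomials -/
noncomputable def mon (b : Basis (Fin 6) ℂ V) (s : Sym (Fin 6) 3) : V → ℂ := fun v =>
  ((s : Multiset (Fin 6)).map (fun i => b.coord i v)).prod

theorem sum3 {ι : Type*} [Fintype ι] (a b c : ι → ℂ) :
    (∑ i, a i) * (∑ j, b j) * (∑ k, c k) = ∑ i, ∑ j, ∑ k, a i * b j * c k := by
  rw [Finset.sum_mul_sum, Finset.sum_mul]
  refine Finset.sum_congr rfl fun i _ => ?_
  rw [Finset.sum_mul]
  refine Finset.sum_congr rfl fun j _ => ?_
  rw [Finset.mul_sum]

theorem lin_exp {ι : Type*} [Fintype ι] (b : Basis ι ℂ V) {M : Type*} [AddCommGroup M]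
    [Module ℂ M] (φ : V →ₗ[ℂ] M) (v : V) : φ v = ∑ i, b.coord i v • φ (b i) := by
  conv_lhs => rw [← b.sum_repr v]
  rw [map_sum]
  refine Finset.sum_congr rfl fun i _ => ?_
  rw [map_smul]; rfl

theorem cubS_le (b : Basis (Fin 6) ℂ V) : cubS V ≤ Submodule.span ℂ (Set.range (mon b)) := by
  unfold cubS
  rw [Submodule.span_le]
  rintro f ⟨φ, ψ, χ, rfl⟩
  have hφ : ∀ (φ : V →ₗ[ℂ] ℂ) (v : V), φ v = ∑ i, φ (b i) * b.coord i v := by
    intro φ v
    conv_lhs => rw [← b.sum_repr v]
    rw [map_sum]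
    refine Finset.sum_congr rfl fun i _ => ?_
    rw [map_smul, smul_eq_mul, mul_comm]; rfl
  have h1 : (fun v => φ v * ψ v * χ v) = ∑ i, ∑ j, ∑ k, (φ (b i) * ψ (b j) * χ (b k)) •
      mon b ⟨{i, j, k}, rfl⟩ := by
    funext v
    rw [hφ φ v, hφ ψ v, hφ χ v, sum3]
    simp only [Finset.sum_apply, Pi.smul_apply, smul_eq_mul, mon, Sym.coe_mk,
      Multiset.insert_eq_cons, Multiset.map_cons, Multiset.map_singleton, Multiset.prod_cons,
      Multiset.prod_singleton]
    refine Finset.sum_congr rfl fun i _ => ?_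
    refine Finset.sum_congr rfl fun j _ => ?_
    refine Finset.sum_congr rfl fun k _ => ?_
    ring
  rw [SetLike.mem_coe, h1]
  refine Submodule.sum_mem _ fun i _ => Submodule.sum_mem _ fun j _ =>
    Submodule.sum_mem _ fun k _ => Submodule.smul_mem _ _ (Submodule.subset_span ⟨_, rfl⟩)

theorem card_sym : Fintype.card (Sym (Fin 6) 3) = 56 := by
  rw [Sym.card_sym_eq_choose]
  decide

theorem finite_cubS (hV : Module.finrank ℂ V = 6) :
    Module.Finite ℂ (cubS V) ∧ Module.finrank ℂ (cubS V) ≤ 56 := by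
  have hfin : Module.Finite ℂ V := Module.finite_of_finrank_pos (by omega)
  let b := Module.finBasisOfFinrankEq ℂ V hV
  have h1 := cubS_le b
  have h2 : Module.Finite ℂ (Submodule.span ℂ (Set.range (mon b))) :=
    Module.Finite.span_of_finite ℂ (Set.finite_range _)
  have h3 : Module.finrank ℂ (Submodule.span ℂ (Set.range (mon b))) ≤ 56 := by
    rw [← card_sym]
    exact finrank_range_le_card (R := ℂ) (mon b)
  have h4 : Module.Finite ℂ (cubS V) := Submodule.finiteDimensional_of_le h1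
  exact ⟨h4, (Submodule.finrank_mono h1).trans h3⟩

/-- `T v v (A v)` is a cubic form -/
theorem der_mem [FiniteDimensional ℂ V] (T : V →ₗ[ℂ] V →ₗ[ℂ] V →ₗ[ℂ] ℂ) (A : V →ₗ[ℂ] V) :
    (fun v => T v v (A v)) ∈ cubS V := by
  let b := Module.finBasis ℂ V
  have h1 : (fun v => T v v (A v)) = ∑ i, ∑ j,
      fun v => b.coord i v * b.coord j v * (T (b i) (b j) ∘ₗ A) v := by
    funext v
    rw [Finset.sum_apply]
    simp only [Finset.sum_apply, LinearMap.comp_apply]
    have e1 : T v v (A v) = ∑ i, b.coord i v * T (b i) v (A v) := by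
      have := congrArg (fun g => g v (A v)) (lin_exp b T v)
      simpa [LinearMap.sum_apply] using this
    rw [e1]
    refine Finset.sum_congr rfl fun i _ => ?_
    have e2 : T (b i) v (A v) = ∑ j, b.coord j v * T (b i) (b j) (A v) := by
      have := congrArg (fun g => g (A v)) (lin_exp b (T (b i)) v)
      simpa [LinearMap.sum_apply] using this
    rw [e2, Finset.mul_sum]
    refine Finset.sum_congr rfl fun j _ => ?_
    ring
  rw [h1]
  exact Submodule.sum_mem _ fun i _ => Submodule.sum_mem _ fun j _ => mul3_mem _ _ _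

end Vale.Agent.P287.H674
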