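import Vale.Agent.P287.H674.Iso

/-!
A plane conic and a plane cubic have a common point.
-/

namespace Vale.Agent.P287.H674

variable {V : Type*} [AddCommGroup V] [Module ℂ V]

/-- a cubic form on a parametrised conic -/
theorem sextic {C : V →ₗ[ℂ] V →ₗ[ℂ] V →ₗ[ℂ] ℂ} (s1 : ∀ x y z, C x y z = C y x z)
    (s2 : ∀ x y z, C x y z = C x z y) (X1 X2 X3 : V) (h : C X1 X1 X1 ≠ 0) :
    ∃ p : ℂ, C (p ^ 2 • X1 + p • X2 + X3) (p ^ 2 • X1 + p • X2 + X3)
      (p ^ 2 • X1 + p • X2 + X3) = 0 := by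
  obtain ⟨p, hp⟩ := root6 (3 * C X1 X1 X2) (3 * C X1 X1 X3 + 3 * C X1 X2 X2)
        (6 * C X1 X2 X3 + C X2 X2 X2) (3 * C X1 X3 X3 + 3 * C X2 X2 X3)
        (3 * C X2 X3 X3) (C X3 X3 X3) h
  refine ⟨p, ?_⟩
  have c1 : C X1 X2 X1 = C X1 X1 X2 := s2 _ _ _
  have c2 : C X2 X1 X1 = C X1 X1 X2 := by rw [s1, s2]
  have c3 : C X1 X3 X1 = C X1 X1 X3 := s2 _ _ _
  have c4 : C X3 X1 X1 = C X1 X1 X3 := by rw [s1, s2]
  have c5 : C X2 X1 X2 = C X1 X2 X2 := s1 _ _ _
  have c6 : C X2 X2 X1 = C X1 X2 X2 := by rw [s2, s1]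
  have c7 : C X1 X3 X2 = C X1 X2 X3 := s2 _ _ _
  have c8 : C X2 X1 X3 = C X1 X2 X3 := s1 _ _ _
  have c9 : C X2 X3 X1 = C X1 X2 X3 := by rw [s2, s1]
  have c10 : C X3 X1 X2 = C X1 X2 X3 := by rw [s1, s2]
  have c11 : C X3 X2 X1 = C X1 X2 X3 := by rw [s2, s1, s2]
  have c12 : C X3 X1 X3 = C X1 X3 X3 := s1 _ _ _
  have c13 : C X3 X3 X1 = C X1 X3 X3 := by rw [s2, s1]
  have c14 : C X2 X3 X2 = C X2 X2 X3 := s2 _ _ _
  have c15 : C X3 X2 X2 = C X2 X2 X3 := by rw [s1, s2]
  have c16 : C X3 X2 X3 = C X2 X3 X3 := s1 _ _ _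
  have c17 : C X3 X3 X2 = C X2 X3 X3 := by rw [s2, s1]
  simp only [map_add, map_smul, LinearMap.add_apply, LinearMap.smul_apply, smul_eq_mul,
    c1, c2, c3, c4, c5, c6, c7, c8, c9, c10, c11, c12, c13, c14, c15, c16, c17]
  linear_combination hp

/-- a plane conic and a plane cubic have a common point -/
theorem conic_cubic {U : Submodule ℂ V} (hU : Module.finrank ℂ U = 3)
    {b : V →ₗ[ℂ] V →ₗ[ℂ] ℂ} (hb : ∀ x y, b x y = b y x)
    {C : V →ₗ[ℂ] V →ₗ[ℂ] V →ₗ[ℂ] ℂ} (s1 : ∀ x y z, C x y z = C y x z)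
    (s2 : ∀ x y z, C x y z = C x z y) :
    ∃ u ∈ U, u ≠ 0 ∧ b u u = 0 ∧ C u u u = 0 := by
  by_cases hdeg : ∃ u ∈ U, u ≠ 0 ∧ ∀ y ∈ U, b y u = 0
  · obtain ⟨u, hu, hu0, hrad⟩ := hdeg
    obtain ⟨l, hl⟩ : ∃ l : V →ₗ[ℂ] ℂ, l u ≠ 0 := by
      by_contra hcon
      push Not at hcon
      exact hu0 ((Module.forall_dual_apply_eq_zero_iff ℂ u).mp hcon)
    have hK := finrank_inf_ker hU l hu hl
    obtain ⟨v, w, hvw⟩ := exists_IsB2 hK
    obtain ⟨s, t, hst, hq⟩ := binary_quad (b v v) (b v w) (b w w)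
    set y := s • v + t • w with hy
    have hyK : y ∈ U ⊓ LinearMap.ker l :=
      Submodule.add_mem _ (Submodule.smul_mem _ _ hvw.ha) (Submodule.smul_mem _ _ hvw.hb)
    have hyU : y ∈ U := hyK.1
    have hyl : l y = 0 := hyK.2
    have hy0 : y ≠ 0 := by
      intro e
      have := hvw.ind s t e
      exact hst (by rw [this.1, this.2]; rfl)
    have hyy : b y y = 0 := by
      simp only [hy, map_add, map_smul, LinearMap.add_apply, LinearMap.smul_apply, smul_eq_mul,
        hb w v]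
      linear_combination hq
    by_cases h0 : C u u u = 0
    · exact ⟨u, hu, hu0, hrad u hu, h0⟩
    · obtain ⟨c, hc⟩ := root3 (3 * C u u y) (3 * C u y y) (C y y y) h0
      refine ⟨c • u + y, U.add_mem (U.smul_mem _ hu) hyU, ?_, ?_, ?_⟩
      · intro e
        have e1 := congrArg l e
        rw [map_add, map_smul, hyl, map_zero, smul_eq_mul, add_zero] at e1
        have hc0 : c = 0 := by
          rcases mul_eq_zero.mp e1 with h | h
          · exact h
          · exact absurd h hl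
        rw [hc0, zero_smul, zero_add] at e
        exact hy0 e
      · simp only [map_add, map_smul, LinearMap.add_apply, LinearMap.smul_apply, smul_eq_mul,
          hb u y, hrad y hyU, hrad u hu, hyy]
        ring
      · have c1 : C u y u = C u u y := s2 _ _ _
        have c2 : C y u u = C u u y := by rw [s1, s2]
        have c3 : C y u y = C u y y := s1 _ _ _
        have c4 : C y y u = C u y y := by rw [s2, s1]
        simp only [map_add, map_smul, LinearMap.add_apply, LinearMap.smul_apply, smul_eq_mul,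
          c1, c2, c3, c4]
        linear_combination hc
  · push Not at hdeg
    -- an isotropic vector
    obtain ⟨e1, he1, he10, hiso, -⟩ := common_zero hU b b hb hb
    obtain ⟨x, hx, hbx⟩ := hdeg e1 he1 he10
    have hbx' : b e1 x ≠ 0 := by rw [hb]; exact hbx
    set e3 := x - (b x x / (2 * b e1 x)) • e1 with he3
    have he3U : e3 ∈ U := U.sub_mem hx (U.smul_mem _ he1)
    have h13 : b e1 e3 = b e1 x := by
      rw [he3, map_sub, map_smul, hiso, smul_zero, sub_zero]
    have h31 : b e3 e1 = b e1 x := by rw [hb, h13]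
    have h33 : b e3 e3 = 0 := by
      simp only [he3, map_sub, map_smul, LinearMap.sub_apply, LinearMap.smul_apply, smul_eq_mul,
        hiso, hb x e1]
      field_simp
      ring
    -- the orthogonal vector
    have hK1 := finrank_inf_ker hU (b e1) he3U (by rw [h13]; exact hbx')
    have hK2 := finrank_inf_ker hK1 (b e3) (x := e1) ⟨he1, hiso⟩ (by rw [h31]; exact hbx')
    obtain ⟨e2, he2⟩ := exists_IsB1 hK2
    have he2U : e2 ∈ U := he2.he.1.1
    have h12 : b e1 e2 = 0 := he2.he.1.2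
    have h32 : b e3 e2 = 0 := he2.he.2
    have h21 : b e2 e1 = 0 := by rw [hb]; exact h12
    have h23 : b e2 e3 = 0 := by rw [hb]; exact h32
    have hdec : ∀ y ∈ U, ∃ α β γ : ℂ, y = α • e1 + β • e2 + γ • e3 := by
      intro y hy
      have hmem : y - (b e3 y / b e1 x) • e1 - (b e1 y / b e1 x) • e3 ∈
          U ⊓ LinearMap.ker (b e1) ⊓ LinearMap.ker (b e3) := by
        refine ⟨⟨U.sub_mem (U.sub_mem hy (U.smul_mem _ he1)) (U.smul_mem _ he3U), ?_⟩, ?_⟩
        · rw [SetLike.mem_coe, LinearMap.mem_ker, map_sub, map_sub, map_smul, map_smul, hiso, h13,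
            smul_eq_mul, smul_eq_mul]
          field_simp
          ring
        · rw [SetLike.mem_coe, LinearMap.mem_ker, map_sub, map_sub, map_smul, map_smul, h31, h33,
            smul_eq_mul, smul_eq_mul]
          field_simp
          ring
      obtain ⟨β, hβ⟩ := he2.span _ hmem
      refine ⟨b e3 y / b e1 x, β, b e1 y / b e1 x, ?_⟩
      rw [← hβ]; abel
    have h22 : b e2 e2 ≠ 0 := by
      intro h0
      obtain ⟨y, hy, hby⟩ := hdeg e2 he2U he2.ne
      apply hby
      obtain ⟨α, β, γ, rfl⟩ := hdec y hy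
      simp [h12, h32, h0]
    by_cases h0 : C e1 e1 e1 = 0
    · exact ⟨e1, he1, he10, hiso, h0⟩
    · set r := -(b e2 e2) / (2 * b e1 x) with hr
      obtain ⟨p, hp⟩ := sextic s1 s2 e1 e2 (r • e3) h0
      refine ⟨p ^ 2 • e1 + p • e2 + r • e3, U.add_mem (U.add_mem (U.smul_mem _ he1)
        (U.smul_mem _ he2U)) (U.smul_mem _ he3U), ?_, ?_, hp⟩
      · intro e
        have e4 := congrArg (b e1) e
        simp only [map_add, map_smul, hiso, h12, h13, smul_eq_mul, mul_zero, map_zero,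
          zero_add] at e4
        have : r * b e1 x = -(b e2 e2) / 2 := by rw [hr]; field_simp
        rw [this] at e4
        apply h22
        linear_combination -2 * e4
      · simp only [map_add, map_smul, LinearMap.add_apply, LinearMap.smul_apply, smul_eq_mul,
          hiso, h12, h13, h21, h23, h31, h32, h33, hr]
        field_simp
        ring

end Vale.Agent.P287.H674
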