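import Mathlib

/-!
Cubic fourfolds in coordinates: smoothness, planes, rationality.
-/

namespace Vale.Agent.P287.H674

open MvPolynomial

/-- The cubic form `F` defines a smooth cubic fourfold `V(F)` in `P^5`: it is homogeneous
of degree three and its six partial derivatives have no common zero except the origin. -/
def SmoothCubic (F : MvPolynomial (Fin 6) ℂ) : Prop :=
  F.IsHomogeneous 3 ∧ ∀ v : Fin 6 → ℂ, v ≠ 0 → ∃ i, eval v (pderiv i F) ≠ 0

/-- The projective plane of the three-dimensional subspace `W` lies in `V(F)`. -/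
def PlaneIn (F : MvPolynomial (Fin 6) ℂ) (W : Submodule ℂ (Fin 6 → ℂ)) : Prop :=
  Module.finrank ℂ W = 3 ∧ ∀ w ∈ W, eval w F = 0

/-- `V(F)` contains two disjoint planes. -/
def TwoDisjointPlanes (F : MvPolynomial (Fin 6) ℂ) : Prop :=
  ∃ W₁ W₂ : Submodule ℂ (Fin 6 → ℂ), PlaneIn F W₁ ∧ PlaneIn F W₂ ∧ W₁ ⊓ W₂ = ⊥

/-- `V(F)` in `P^5` is rational: there are rational maps `φ : P^4 ⇢ V(F)` and
`ψ : V(F) ⇢ P^4`, given by homogeneous polynomials, which are inverse to each other: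
`ψ ∘ φ` is the identity where the nonzero polynomial `h` does not vanish, and `φ ∘ ψ` is the
identity at the points of `V(F)` at which `g`, not identically zero on `V(F)`, does not
vanish. -/
def RationalHypersurface (F : MvPolynomial (Fin 6) ℂ) : Prop :=
  ∃ (d e : ℕ) (φ : Fin 6 → MvPolynomial (Fin 5) ℂ) (ψ : Fin 5 → MvPolynomial (Fin 6) ℂ)
    (h : MvPolynomial (Fin 5) ℂ) (g : MvPolynomial (Fin 6) ℂ),
    (∀ i, (φ i).IsHomogeneous d) ∧ (∀ j, (ψ j).IsHomogeneous e) ∧
    aeval φ F = 0 ∧ h ≠ 0 ∧ ¬ F ∣ g ∧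
    (∀ j, aeval φ (ψ j) = h * X j) ∧ (∀ i, F ∣ aeval ψ (φ i) - g * X i)

end Vale.Agent.P287.H674
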