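import Vale.Agent.P287.H674.Skew

/-!
A smooth cubic form has no infinitesimal automorphisms.
-/

namespace Vale.Agent.P287.H674

open Module

variable {V : Type*} [AddCommGroup V] [Module ℂ V]
variable {T : V →ₗ[ℂ] V →ₗ[ℂ] V →ₗ[ℂ] ℂ}

/-- polarization of `T v v (A v) = 0` -/
theorem der_pol (hS : Sm T) {A : V →ₗ[ℂ] V} (hA : ∀ v, T v v (A v) = 0) (x y z : V) :
    T x y (A z) + T x z (A y) + T y z (A x) = 0 := by
  have e1 := hA (x + y + z)
  have e2 := hA (x + y)
  have e3 := hA (x + z)
  have e4 := hA (y + z)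
  have e5 := hA x
  have e6 := hA y
  have e7 := hA z
  simp only [map_add, LinearMap.add_apply] at e1 e2 e3 e4
  have s1 : ∀ w, T y x w = T x y w := fun w => hS.s1 _ _ _
  have s2 : ∀ w, T z x w = T x z w := fun w => hS.s1 _ _ _
  have s3 : ∀ w, T z y w = T y z w := fun w => hS.s1 _ _ _
  simp only [s1, s2, s3] at e1 e2 e3 e4
  linear_combination (e1 - e2 - e3 - e4 + e5 + e6 + e7) / 2

/-- eigenvalues are stable under multiplication by `-2` -/
theorem der_eig (hS : Sm T) [FiniteDimensional ℂ V] {A : Module.End ℂ V}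
    (hA : ∀ v, T v v (A v) = 0) {μ : ℂ} (hμ : A.HasEigenvalue μ) :
    A.HasEigenvalue (-2 * μ) := by
  obtain ⟨v, hv⟩ := hμ.exists_hasEigenvector
  have hAv := hv.apply_eq_smul
  obtain ⟨w, hw⟩ := hS.smooth v hv.2
  have h1 : ∀ z, T v v (A z) = -2 * μ * T v v z := by
    intro z
    have := der_pol hS hA v v z
    rw [hAv] at this
    simp only [map_smul, smul_eq_mul] at this
    have s : T v z v = T v v z := hS.s2 _ _ _
    rw [s] at this
    linear_combination this
  by_contra hcon
  have hinj : Function.Injective (A - algebraMap ℂ (Module.End ℂ V) (-2 * μ)) := by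
    rw [← LinearMap.ker_eq_bot]
    by_contra hk
    exact hcon (Module.End.hasEigenvalue_iff.mpr (by
      rw [Module.End.eigenspace_def]
      exact hk))
  have hsurj := (LinearMap.injective_iff_surjective).mp hinj
  obtain ⟨z, hz⟩ := hsurj w
  apply hw
  rw [← hz]
  simp only [LinearMap.sub_apply, Module.algebraMap_end_apply, map_sub, map_smul, h1 z,
    smul_eq_mul, sub_self]

theorem der_eig_zero (hS : Sm T) [FiniteDimensional ℂ V] {A : Module.End ℂ V}
    (hA : ∀ v, T v v (A v) = 0) {μ : ℂ} (hμ : A.HasEigenvalue μ) : μ = 0 := by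
  by_contra hne
  have hall : ∀ k : ℕ, A.HasEigenvalue ((-2) ^ k * μ) := by
    intro k
    induction k with
    | zero => simpa using hμ
    | succ k ih =>
      have := der_eig hS hA ih
      have e : (-2 : ℂ) ^ (k + 1) * μ = -2 * ((-2) ^ k * μ) := by ring
      rw [e]; exact this
  have hfin : Set.Finite {x | A.HasEigenvalue x} := by
    have : {x | A.HasEigenvalue x} = (minpoly ℂ A).rootSet ℂ := by
      ext x
      rw [Set.mem_setOf_eq, Module.End.hasEigenvalue_iff_isRoot, Polynomial.mem_rootSet]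
      constructor
      · intro h
        exact ⟨minpoly.ne_zero (Algebra.IsIntegral.isIntegral A), by simpa using h⟩
      · intro h
        simpa using h.2
    rw [this]
    exact Polynomial.rootSet_finite _ _
  have hinj : Function.Injective (fun k : ℕ => ((-2 : ℂ)) ^ k * μ) := by
    intro k l hkl
    have h2 : ((-2 : ℂ)) ^ k = (-2) ^ l := mul_right_cancel₀ hne hkl
    have h3 := congrArg norm h2
    rw [norm_pow, norm_pow] at h3
    have h4 : ‖(-2 : ℂ)‖ = 2 := by simp
    rw [h4] at h3
    exact pow_right_injective₀ (by norm_num) (by norm_num) h3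
  exact Set.infinite_of_injective_forall_mem hinj hall hfin

theorem der_nil (hS : Sm T) [FiniteDimensional ℂ V] {A : Module.End ℂ V}
    (hA : ∀ v, T v v (A v) = 0) : IsNilpotent A := by
  have h0 : minpoly ℂ A ≠ 0 := minpoly.ne_zero (Algebra.IsIntegral.isIntegral A)
  have h1 : (minpoly ℂ A).roots = Multiset.replicate (minpoly ℂ A).roots.card 0 := by
    rw [Multiset.eq_replicate]
    refine ⟨rfl, fun b hb => ?_⟩
    exact der_eig_zero hS hA (Module.End.hasEigenvalue_iff_isRoot.mpr
      ((Polynomial.mem_roots h0).mp hb))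
  have h2 := (IsAlgClosed.splits (minpoly ℂ A)).eq_prod_roots_of_monic
    (minpoly.monic (Algebra.IsIntegral.isIntegral A))
  rw [h1] at h2
  simp only [Multiset.map_replicate, map_zero, sub_zero, Multiset.prod_replicate] at h2
  refine ⟨(minpoly ℂ A).roots.card, ?_⟩
  have h3 := minpoly.aeval ℂ A
  rw [h2, map_pow, Polynomial.aeval_X] at h3
  exact h3

theorem der_chain (hS : Sm T) {A : Module.End ℂ V}
    (hA : ∀ v, T v v (A v) = 0) {m : ℕ} (h0 : A ^ (m + 2) = 0) (a b : V) :
    T a ((A ^ (m + 1)) b) ((A ^ (m + 1)) b) = 0 := by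
  let t : ℕ → ℕ → ℕ → ℂ := fun i j l => T ((A ^ i) a) ((A ^ j) b) ((A ^ l) b)
  have hrel : ∀ i j l, t (i + 1) j l + t i (j + 1) l + t i j (l + 1) = 0 := by
    intro i j l
    have := der_pol hS hA ((A ^ i) a) ((A ^ j) b) ((A ^ l) b)
    have e : ∀ (n : ℕ) (x : V), A ((A ^ n) x) = (A ^ (n + 1)) x := by
      intro n x
      rw [pow_succ', Module.End.mul_apply]
    rw [e, e, e] at this
    have s1 : T ((A ^ i) a) ((A ^ l) b) ((A ^ (j + 1)) b) = t i (j + 1) l := hS.s2 _ _ _
    have s2 : T ((A ^ j) b) ((A ^ l) b) ((A ^ (i + 1)) a) = t (i + 1) j l := by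
      rw [hS.s2, hS.s1]
    rw [s1, s2] at this
    linear_combination this
  have hz1 : ∀ i j l, m + 2 ≤ i → t i j l = 0 := by
    intro i j l h
    simp only [t]
    rw [pow_eq_zero_of_le h h0]; simp
  have hz2 : ∀ i j l, m + 2 ≤ j → t i j l = 0 := by
    intro i j l h
    simp only [t]
    rw [pow_eq_zero_of_le h h0]; simp
  have hz3 : ∀ i j l, m + 2 ≤ l → t i j l = 0 := by
    intro i j l h
    simp only [t]
    rw [pow_eq_zero_of_le h h0]; simp
  have hα : ∀ s j, s + j = m + 1 → t s j (m + 1) = (-1) ^ s * t 0 (m + 1) (m + 1) := by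
    intro s
    induction s with
    | zero => intro j hj; rw [zero_add] at hj; rw [hj]; simp
    | succ s ih =>
      intro j hj
      have h1 := hrel s j (m + 1)
      rw [hz3 s j (m + 1 + 1) (by omega), ih (j + 1) (by omega)] at h1
      rw [pow_succ]
      linear_combination h1
  have hβ : ∀ s j, s + j = m + 1 →
      t (s + 1) j m = (-1) ^ (s + 1) * (s + 1) * t 0 (m + 1) (m + 1) := by
    intro s
    induction s with
    | zero =>
      intro j hj
      rw [zero_add] at hj
      have h1 := hrel 0 j m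
      rw [hz2 0 (j + 1) m (by omega), hj] at h1
      rw [hj]
      push_cast
      linear_combination h1
    | succ s ih =>
      intro j hj
      have h1 := hrel (s + 1) j m
      rw [ih (j + 1) (by omega), hα (s + 1) j hj] at h1
      push_cast
      rw [pow_succ (-1 : ℂ) (s + 1)]
      linear_combination h1
  have h1 := hβ (m + 1) 0 (by omega)
  rw [hz1 (m + 1 + 1) 0 m (by omega)] at h1
  have h2 : (-1 : ℂ) ^ (m + 1 + 1) ≠ 0 := pow_ne_zero _ (by norm_num)
  have h3 : ((m + 1 : ℕ) : ℂ) + 1 ≠ 0 := by exact_mod_cast Nat.succ_ne_zero (m + 1)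
  have h4 : t 0 (m + 1) (m + 1) = 0 := by
    rcases mul_eq_zero.mp h1.symm with h | h
    · rcases mul_eq_zero.mp h with h' | h'
      · exact absurd h' h2
      · exact absurd h' h3
    · exact h
  simpa [t] using h4

/-- a smooth cubic form has no infinitesimal automorphisms -/
theorem der_zero (hS : Sm T) [FiniteDimensional ℂ V] {A : Module.End ℂ V}
    (hA : ∀ v, T v v (A v) = 0) : A = 0 := by
  have hnil := der_nil hS hA
  by_contra hne
  have hnt : Nontrivial (Module.End ℂ V) := ⟨A, 0, hne⟩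
  have hn := pow_nilpotencyClass hnil
  have hpos : 1 < nilpotencyClass A := by
    by_contra hle
    have : nilpotencyClass A ≤ 1 := by omega
    exact hne (by simpa using pow_eq_zero_of_le this hn)
  obtain ⟨m, hm⟩ : ∃ m, nilpotencyClass A = m + 2 := ⟨nilpotencyClass A - 2, by omega⟩
  have h1 : A ^ (m + 1) ≠ 0 := by
    intro h
    have := pow_pred_nilpotencyClass hnil
    rw [hm] at this
    exact this h
  rw [hm] at hn
  obtain ⟨b, hb⟩ : ∃ b, (A ^ (m + 1)) b ≠ 0 := by
    by_contra hcon
    push Not at hcon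
    exact h1 (LinearMap.ext hcon)
  obtain ⟨w, hw⟩ := hS.smooth _ hb
  apply hw
  rw [hS.s2, hS.s1]
  exact der_chain hS hA hn w b

end Vale.Agent.P287.H674
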