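import Vale.Agent.P287.H674.Lin

/-!
Isotropic subspaces of smooth cubic forms.
-/

namespace Vale.Agent.P287.H674

variable {V : Type*} [AddCommGroup V] [Module ℂ V]

theorem exists_sub {W : Submodule ℂ V} {k : ℕ} (hW : Module.Finite ℂ W)
    (hk : k ≤ Module.finrank ℂ W) : ∃ U ≤ W, Module.finrank ℂ U = k := by
  let B := Module.finBasis ℂ W
  let f : Fin k → V := fun i => (B (Fin.castLE hk i) : V)
  have hf : LinearIndependent ℂ f := by
    have h1 : LinearIndependent ℂ (fun i => (B i : V)) :=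
      B.linearIndependent.map' W.subtype (Submodule.ker_subtype W)
    exact h1.comp _ (Fin.castLE_injective hk)
  refine ⟨Submodule.span ℂ (Set.range f), ?_, ?_⟩
  · rw [Submodule.span_le]
    rintro _ ⟨i, rfl⟩
    exact (B (Fin.castLE hk i)).2
  · rw [finrank_span_eq_card hf]; simp

/-- the radical vector in a pencil of symmetric forms -/
theorem pencil_radical {U : Submodule ℂ V} (hU : Module.finrank ℂ U = 3)
    (b1 b2 : V →ₗ[ℂ] V →ₗ[ℂ] ℂ) :
    (∃ u ∈ U, u ≠ 0 ∧ ∀ y ∈ U, b2 y u = 0) ∨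
      ∃ μ : ℂ, ∃ u ∈ U, u ≠ 0 ∧ ∀ y ∈ U, b1 y u = μ * b2 y u := by
  have hfin : Module.Finite ℂ U := Module.finite_of_finrank_pos (by omega)
  let B := Module.finBasisOfFinrankEq ℂ U hU
  let M1 : Matrix (Fin 3) (Fin 3) ℂ := fun i j => b1 (B i) (B j)
  let M2 : Matrix (Fin 3) (Fin 3) ℂ := fun i j => b2 (B i) (B j)
  have hexp : ∀ (b : V →ₗ[ℂ] V →ₗ[ℂ] ℂ) (c : Fin 3 → ℂ) (y : V), y ∈ U →
      (∀ i, ∑ j, b (B i) (B j) * c j = 0) → b y (∑ j, c j • (B j : V)) = 0 := by
    intro b c y hy hc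
    have h1 := congrArg Subtype.val (B.sum_repr ⟨y, hy⟩)
    simp only [Submodule.coe_sum, Submodule.coe_smul] at h1
    rw [← h1]
    have h0 := hc 0
    have h1' := hc 1
    have h2' := hc 2
    simp only [Fin.sum_univ_three, map_add, map_smul, LinearMap.add_apply, LinearMap.smul_apply,
      smul_eq_mul] at h0 h1' h2' ⊢
    linear_combination (B.repr ⟨y, hy⟩ 0) * h0 + (B.repr ⟨y, hy⟩ 1) * h1'
      + (B.repr ⟨y, hy⟩ 2) * h2'
  have hne : ∀ c : Fin 3 → ℂ, c ≠ 0 → ∑ j, c j • (B j : V) ≠ 0 := by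
    intro c hc h0
    apply hc
    have h1 : ∑ j, c j • B j = 0 := Subtype.ext (by simpa using h0)
    funext j
    exact (Fintype.linearIndependent_iff.mp B.linearIndependent) c h1 j
  have hmem : ∀ c : Fin 3 → ℂ, ∑ j, c j • (B j : V) ∈ U := fun c =>
    Submodule.sum_mem _ fun j _ => U.smul_mem _ (B j).2
  by_cases hdet : M2.det = 0
  · left
    obtain ⟨c, hc, hc2⟩ := Matrix.exists_mulVec_eq_zero_iff.mpr hdet
    exact ⟨_, hmem c, hne c hc, fun y hy => hexp b2 c y hy fun i => congrFun hc2 i⟩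
  · right
    obtain ⟨μ, hμ⟩ := Module.End.exists_eigenvalue (Matrix.toLin' (M2⁻¹ * M1))
    obtain ⟨c, hc⟩ := hμ.exists_hasEigenvector
    have h1 : (M2⁻¹ * M1).mulVec c = μ • c := by
      have := hc.apply_eq_smul
      rwa [Matrix.toLin'_apply] at this
    have h2 : M1.mulVec c = μ • M2.mulVec c := by
      have := congrArg M2.mulVec h1
      rw [Matrix.mulVec_mulVec, ← Matrix.mul_assoc,
        Matrix.mul_nonsing_inv _ (isUnit_iff_ne_zero.mpr hdet), Matrix.one_mul,
        Matrix.mulVec_smul] at this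
      exact this
    refine ⟨μ, _, hmem c, hne c hc.2, fun y hy => ?_⟩
    have h3 := hexp (b1 - μ • b2) c y hy (fun i => by
      have := congrFun h2 i
      simp only [Matrix.mulVec, dotProduct, Pi.smul_apply, smul_eq_mul, M1, M2] at this
      simp only [LinearMap.sub_apply, LinearMap.smul_apply, smul_eq_mul, sub_mul,
        Finset.sum_sub_distrib]
      rw [this, Finset.mul_sum, sub_eq_zero]
      exact Finset.sum_congr rfl fun j _ => by ring)
    rw [LinearMap.sub_apply, LinearMap.smul_apply, LinearMap.sub_apply, LinearMap.smul_apply,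
      smul_eq_mul, sub_eq_zero] at h3
    exact h3

/-- two quadratic forms on a space of dimension three have a common zero -/
theorem common_zero {U : Submodule ℂ V} (hU : Module.finrank ℂ U = 3)
    (b1 b2 : V →ₗ[ℂ] V →ₗ[ℂ] ℂ) (h1 : ∀ x y, b1 x y = b1 y x) (h2 : ∀ x y, b2 x y = b2 y x) :
    ∃ u ∈ U, u ≠ 0 ∧ b1 u u = 0 ∧ b2 u u = 0 := by
  -- reduce to a degenerate form and another one
  have main : ∀ b b' : V →ₗ[ℂ] V →ₗ[ℂ] ℂ, (∀ x y, b x y = b y x) → (∀ x y, b' x y = b' y x) →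
      (∃ u ∈ U, u ≠ 0 ∧ ∀ y ∈ U, b y u = 0) → ∃ u ∈ U, u ≠ 0 ∧ b u u = 0 ∧ b' u u = 0 := by
    intro b b' hb hb' ⟨u, hu, hu0, hrad⟩
    obtain ⟨l, hl⟩ : ∃ l : V →ₗ[ℂ] ℂ, l u ≠ 0 := by
      by_contra hcon
      push Not at hcon
      exact hu0 ((Module.forall_dual_apply_eq_zero_iff ℂ u).mp hcon)
    have hK := finrank_inf_ker hU l hu hl
    obtain ⟨v, w, hvw⟩ := exists_IsB2 hK
    obtain ⟨s, t, hst, hq⟩ := binary_quad (b v v) (b v w) (b w w)
    set y := s • v + t • w with hy
    have hyK : y ∈ U ⊓ LinearMap.ker l :=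
      Submodule.add_mem _ (Submodule.smul_mem _ _ hvw.ha) (Submodule.smul_mem _ _ hvw.hb)
    have hyU : y ∈ U := hyK.1
    have hyl : l y = 0 := hyK.2
    have hy0 : y ≠ 0 := by
      intro e
      have := hvw.ind s t e
      exact hst (by rw [this.1, this.2]; rfl)
    have hyy : b y y = 0 := by
      simp only [hy, map_add, map_smul, LinearMap.add_apply, LinearMap.smul_apply, smul_eq_mul,
        hb w v]
      linear_combination hq
    obtain ⟨s', t', hst', hq'⟩ := binary_quad (b' u u) (b' u y) (b' y y)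
    refine ⟨s' • u + t' • y, U.add_mem (U.smul_mem _ hu) (U.smul_mem _ hyU), ?_, ?_, ?_⟩
    · intro e
      have e1 := congrArg l e
      rw [map_add, map_smul, map_smul, hyl, map_zero, smul_eq_mul, smul_zero, add_zero] at e1
      have hs' : s' = 0 := by
        rcases mul_eq_zero.mp e1 with h | h
        · exact h
        · exact absurd h hl
      rw [hs', zero_smul, zero_add] at e
      rcases smul_eq_zero.mp e with h | h
      · exact hst' (by rw [hs', h]; rfl)
      · exact hy0 h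
    · simp only [map_add, map_smul, LinearMap.add_apply, LinearMap.smul_apply, smul_eq_mul,
        hb u y, hrad y hyU, hrad u hu, hyy]
      ring
    · simp only [map_add, map_smul, LinearMap.add_apply, LinearMap.smul_apply, smul_eq_mul,
        hb' y u]
      linear_combination hq'
  rcases pencil_radical hU b1 b2 with h | ⟨μ, u, hu, hu0, h⟩
  · obtain ⟨u, hu, hu0, e1, e2⟩ := main b2 b1 h2 h1 h
    exact ⟨u, hu, hu0, e2, e1⟩
  · obtain ⟨u, hu, hu0, e1, e2⟩ := main (b1 - μ • b2) b2 (fun x y => by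
      simp only [LinearMap.sub_apply, LinearMap.smul_apply, h1 x y, h2 x y]) h2
      ⟨u, hu, hu0, fun y hy => by
        simp only [LinearMap.sub_apply, LinearMap.smul_apply, smul_eq_mul, h y hy, sub_self]⟩
    simp only [LinearMap.sub_apply, LinearMap.smul_apply, smul_eq_mul, e2, mul_zero,
      sub_zero] at e1
    exact ⟨u, hu, hu0, e1, e2⟩

/-- isotropic subspaces of a smooth cubic form in six variables have dimension at most three -/
theorem isotropic_le {T : V →ₗ[ℂ] V →ₗ[ℂ] V →ₗ[ℂ] ℂ} (hV : Module.finrank ℂ V = 6)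
    (s1 : ∀ x y z, T x y z = T y x z) (s2 : ∀ x y z, T x y z = T x z y)
    (hs : ∀ v, v ≠ 0 → ∃ w, T v v w ≠ 0) {W : Submodule ℂ V} (hW : ∀ w ∈ W, T w w w = 0) :
    Module.finrank ℂ W ≤ 3 := by
  by_contra hcon
  push Not at hcon
  have hfin : Module.Finite ℂ V := Module.finite_of_finrank_pos (by omega)
  obtain ⟨W', hW', hW4⟩ := exists_sub (W := W) (k := 4) inferInstance (by omega)
  have hWiso : ∀ w ∈ W', T w w w = 0 := fun w hw => hW w (hW' hw)
  obtain ⟨U, hUW, hU⟩ := exists_sub (W := W') (k := 3) inferInstance (by omega)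
  obtain ⟨C, hC⟩ := Submodule.exists_isCompl W'
  have hC2 : Module.finrank ℂ C = 2 := by
    have := Submodule.finrank_add_eq_of_isCompl hC
    omega
  obtain ⟨a, b, hab⟩ := exists_IsB2 hC2
  obtain ⟨u, hu, hu0, e1, e2⟩ := common_zero hU (T a) (T b) (fun x y => s2 _ _ _)
    (fun x y => s2 _ _ _)
  obtain ⟨w, hw⟩ := hs u hu0
  apply hw
  have hmem : w ∈ W' ⊔ C := by rw [hC.sup_eq_top]; trivial
  obtain ⟨x, hx, y, hy, rfl⟩ := Submodule.mem_sup.mp hmem
  obtain ⟨s, t, rfl⟩ := hab.span y hy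
  have h3 : T u u x = 0 := tri_zero_of_self s1 s2 hWiso (hUW hu) (hUW hu) hx
  have h4 : T u u a = 0 := by rw [s2, s1]; exact e1
  have h5 : T u u b = 0 := by rw [s2, s1]; exact e2
  simp only [map_add, map_smul, smul_eq_mul, h3, h4, h5]
  ring

end Vale.Agent.P287.H674
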