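import Vale.Agent.P287.H674.Skew3
import Vale.Agent.P287.H674.Iso

/-!
Cubic fourfolds with an Eckardt point and a plane which does not contain it.
-/

namespace Vale.Agent.P287.H674

variable {V : Type*} [AddCommGroup V] [Module ℂ V]
variable {T : V →ₗ[ℂ] V →ₗ[ℂ] V →ₗ[ℂ] ℂ}

/-- restriction of a trilinear form to a subspace -/
noncomputable def restr (T : V →ₗ[ℂ] V →ₗ[ℂ] V →ₗ[ℂ] ℂ) (K : Submodule ℂ V) :
    K →ₗ[ℂ] K →ₗ[ℂ] K →ₗ[ℂ] ℂ :=
  LinearMap.mk₂ ℂ (fun x y => (T (x : V) (y : V)).domRestrict K)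
    (fun x x' y => by ext z; simp) (fun c x y => by ext z; simp)
    (fun x y y' => by ext z; simp) (fun c x y => by ext z; simp)

theorem restr_apply (T : V →ₗ[ℂ] V →ₗ[ℂ] V →ₗ[ℂ] ℂ) (K : Submodule ℂ V) (x y z : K) :
    restr T K x y z = T (x : V) (y : V) (z : V) := rfl

/-- an Eckardt point `e` of the cubic `T`: the space is the sum of the line of `e` and a
hyperplane `U`, with the parity of the reflection -/
structure Eck (T : V →ₗ[ℂ] V →ₗ[ℂ] V →ₗ[ℂ] ℂ) (e : V) (U : Submodule ℂ V) : Prop extends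
    Sm T where
  ne : e ≠ 0
  eee : T e e e = 0
  uue : ∀ x ∈ U, ∀ y ∈ U, T x y e = 0
  ind : ∀ x ∈ U, ∀ s : ℂ, x + s • e = 0 → x = 0 ∧ s = 0
  span : ∀ v, ∃ x ∈ U, ∃ s : ℂ, v = x + s • e

namespace Eck

variable {e : V} {U : Submodule ℂ V}

theorem finrank_U (h : Eck T e U) (hV : Module.finrank ℂ V = 6) : Module.finrank ℂ U = 5 := by
  have hfin : Module.Finite ℂ V := Module.finite_of_finrank_pos (by omega)
  have hc : IsCompl U (Submodule.span ℂ {e}) := by
    refine IsCompl.of_eq ?_ ?_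
    · rw [Submodule.eq_bot_iff]
      rintro x ⟨h1, h2⟩
      obtain ⟨s, hs⟩ := Submodule.mem_span_singleton.mp h2
      exact (h.ind x h1 (-s) (by rw [← hs]; simp)).1
    · rw [Submodule.eq_top_iff']
      intro v
      obtain ⟨x, hx, s, rfl⟩ := h.span v
      exact Submodule.add_mem_sup hx (Submodule.mem_span_singleton.mpr ⟨s, rfl⟩)
  have h1 := Submodule.finrank_add_eq_of_isCompl hc
  rw [finrank_span_singleton h.ne, hV] at h1
  omega

/-- the tangent hyperplane is not the whole of `U` -/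
theorem exists_L (h : Eck T e U) : ∃ x ∈ U, T e e x ≠ 0 := by
  obtain ⟨w, hw⟩ := h.smooth e h.ne
  obtain ⟨x, hx, s, rfl⟩ := h.span w
  refine ⟨x, hx, fun h0 => hw ?_⟩
  simp [h0, h.eee]

/-- the base of the cone -/
def K (_ : Eck T e U) : Submodule ℂ V := U ⊓ LinearMap.ker (T e e)

theorem memK (h : Eck T e U) {x : V} (hx : x ∈ h.K) : x ∈ U ∧ T e e x = 0 := hx

theorem finrank_K (h : Eck T e U) (hV : Module.finrank ℂ V = 6) :
    Module.finrank ℂ h.K = 4 := by
  obtain ⟨x, hx, hx2⟩ := h.exists_L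
  exact finrank_inf_ker (h.finrank_U hV) (T e e) hx hx2

/-- the cubic surface is smooth -/
theorem smK (h : Eck T e U) : Sm (restr T h.K) where
  s1 x y z := h.s1 _ _ _
  s2 x y z := h.s2 _ _ _
  smooth := by
    intro r hr
    by_contra hcon
    push Not at hcon
    obtain ⟨x, hx, hx2⟩ := h.exists_L
    obtain ⟨z, hz⟩ := exists_sq (-(T (r : V) r x) / T e e x)
    have hz' : T (r : V) r x + z ^ 2 * T e e x = 0 := by rw [hz]; field_simp; ring
    have hrK := h.memK r.2
    have hre : T (r : V) e e = 0 := by rw [h.s1, h.s2]; exact hrK.2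
    have hrre : T (r : V) r e = 0 := h.uue _ hrK.1 _ hrK.1
    have hne : (r : V) + z • e ≠ 0 := by
      intro h0
      exact hr (Subtype.ext (h.ind _ hrK.1 z h0).1)
    obtain ⟨w, hw⟩ := h.smooth _ hne
    apply hw
    obtain ⟨y, hy, s, rfl⟩ := h.span w
    set c := T e e y / T e e x with hc
    have hk : y - c • x ∈ h.K := by
      refine ⟨U.sub_mem hy (U.smul_mem _ hx), LinearMap.mem_ker.mpr ?_⟩
      rw [map_sub, map_smul, smul_eq_mul, hc]; field_simp; ring
    have e1 : T (r : V) r (y - c • x) = 0 := hcon ⟨_, hk⟩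
    rw [map_sub, map_smul, smul_eq_mul] at e1
    have e2 : T e e y = c * T e e x := by rw [hc]; field_simp
    have e3 : T e (r : V) y = 0 := by rw [h.s1, h.s2]; exact h.uue _ hrK.1 _ hy
    have e4 : T (r : V) e y = 0 := by rw [h.s2]; exact h.uue _ hrK.1 _ hy
    have e5 : T e (r : V) e = 0 := by rw [h.s1]; exact hre
    simp only [map_add, map_smul, LinearMap.add_apply, LinearMap.smul_apply, smul_eq_mul, e3, e4,
      e5, hre, hrre, h.eee, e2]
    linear_combination e1 + c * hz'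

/-- the cone over a line of the surface -/
theorem cone (h : Eck T e U) {M : Submodule ℂ h.K} (hM : Module.finrank ℂ M = 2)
    (hMT : ∀ w ∈ M, restr T h.K w w w = 0) :
    ∃ P : Submodule ℂ V, Module.finrank ℂ P = 3 ∧ (∀ w ∈ P, T w w w = 0) ∧
      (∀ w ∈ P, ∃ m ∈ M, ∃ s : ℂ, w = (m : V) + s • e) := by
  have hfin : Module.Finite ℂ M := Module.finite_of_finrank_pos (by omega)
  have hfin2 : Module.Finite ℂ (M.map h.K.subtype) := inferInstance
  have hmem : ∀ w ∈ M.map h.K.subtype ⊔ Submodule.span ℂ {e}, ∃ m ∈ M, ∃ s : ℂ,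
      w = (m : V) + s • e := by
    intro w hw
    obtain ⟨x, hx, y, hy, rfl⟩ := Submodule.mem_sup.mp hw
    obtain ⟨m, hm, rfl⟩ := hx
    obtain ⟨s, rfl⟩ := Submodule.mem_span_singleton.mp hy
    exact ⟨m, hm, s, rfl⟩
  refine ⟨M.map h.K.subtype ⊔ Submodule.span ℂ {e}, ?_, ?_, hmem⟩
  · have hinf : M.map h.K.subtype ⊓ Submodule.span ℂ {e} = ⊥ := by
      rw [Submodule.eq_bot_iff]
      rintro x ⟨h1, h2⟩
      obtain ⟨m, hm, rfl⟩ := h1
      obtain ⟨s, hs⟩ := Submodule.mem_span_singleton.mp h2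
      exact (h.ind _ (h.memK m.2).1 (-s) (by rw [neg_smul, hs]; simp)).1
    have h1 := Submodule.finrank_sup_add_finrank_inf_eq (M.map h.K.subtype)
      (Submodule.span ℂ {e})
    rw [hinf, finrank_bot, add_zero, finrank_span_singleton h.ne,
      Submodule.finrank_map_subtype_eq, hM] at h1
    exact h1
  · intro w hw
    obtain ⟨m, hm, s, rfl⟩ := hmem w hw
    have hmK := h.memK m.2
    have f1 : T (m : V) m m = 0 := hMT m hm
    have f2 : T (m : V) m e = 0 := h.uue _ hmK.1 _ hmK.1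
    have f3 : T (m : V) e m = 0 := by rw [h.s2]; exact f2
    have f4 : T e (m : V) m = 0 := by rw [h.s1]; exact f3
    have f5 : T e e (m : V) = 0 := hmK.2
    have f6 : T e (m : V) e = 0 := by rw [h.s2]; exact f5
    have f7 : T (m : V) e e = 0 := by rw [h.s1]; exact f6
    simp only [map_add, map_smul, LinearMap.add_apply, LinearMap.smul_apply, smul_eq_mul,
      f1, f2, f3, f4, f5, f6, f7, h.eee]
    ring

/-- a plane which does not contain the Eckardt point has a disjoint plane -/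
theorem twoPl_of_plane (h : Eck T e U) (hV : Module.finrank ℂ V = 6) {W : Submodule ℂ V}
    (hW : Module.finrank ℂ W = 3) (hWT : ∀ w ∈ W, T w w w = 0) (heW : e ∉ W) : TwoPl T := by
  have hfin : Module.Finite ℂ V := Module.finite_of_finrank_pos (by omega)
  -- W is not contained in the tangent hyperplane
  have hWL : ∃ w ∈ W, T e e w ≠ 0 := by
    by_contra hcon
    push Not at hcon
    have hinf : W ⊓ Submodule.span ℂ {e} = ⊥ := by
      rw [Submodule.eq_bot_iff]
      rintro x ⟨h1, h2⟩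
      obtain ⟨s, rfl⟩ := Submodule.mem_span_singleton.mp h2
      by_contra hne
      have hs : s ≠ 0 := by
        rintro rfl
        exact hne (zero_smul _ _)
      apply heW
      have := W.smul_mem s⁻¹ h1
      rwa [smul_smul, inv_mul_cancel₀ hs, one_smul] at this
    have h1 := Submodule.finrank_sup_add_finrank_inf_eq W (Submodule.span ℂ {e})
    rw [hinf, finrank_bot, add_zero, finrank_span_singleton h.ne, hW] at h1
    have h2 := isotropic_le hV h.s1 h.s2 h.smooth (W := W ⊔ Submodule.span ℂ {e}) (by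
      intro x hx
      obtain ⟨w, hw, y, hy, rfl⟩ := Submodule.mem_sup.mp hx
      obtain ⟨s, rfl⟩ := Submodule.mem_span_singleton.mp hy
      obtain ⟨u, hu, t, rfl⟩ := h.span w
      have g0 := hcon _ hw
      rw [map_add, map_smul, h.eee, smul_zero, add_zero] at g0
      have g1 : T u u e = 0 := h.uue _ hu _ hu
      have g2 : T u e u = 0 := by rw [h.s2]; exact g1
      have g3 : T e u u = 0 := by rw [h.s1]; exact g2
      have g4 : T e u e = 0 := by rw [h.s2]; exact g0
      have g5 : T u e e = 0 := by rw [h.s1]; exact g4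
      have g6 := hWT _ hw
      simp only [map_add, map_smul, LinearMap.add_apply, LinearMap.smul_apply, smul_eq_mul,
        g0, g1, g2, g3, g4, g5, h.eee] at g6 ⊢
      linear_combination g6)
    omega
  obtain ⟨w1, hw1, hw1L⟩ := hWL
  have hW0 := finrank_inf_ker hW (T e e) hw1 hw1L
  -- the projection of the intersection to the surface
  have hproj : ∀ w ∈ W ⊓ LinearMap.ker (T e e), ∃ k ∈ h.K, ∃ s : ℂ, w = k + s • e ∧
      T k k k = 0 := by
    rintro w ⟨hw, hwL⟩
    obtain ⟨u, hu, t, rfl⟩ := h.span w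
    have g0 : T e e (u + t • e) = 0 := hwL
    rw [map_add, map_smul, h.eee, smul_zero, add_zero] at g0
    have g1 : T u u e = 0 := h.uue _ hu _ hu
    have g2 : T u e u = 0 := by rw [h.s2]; exact g1
    have g3 : T e u u = 0 := by rw [h.s1]; exact g2
    have g4 : T e u e = 0 := by rw [h.s2]; exact g0
    have g5 : T u e e = 0 := by rw [h.s1]; exact g4
    have g6 := hWT _ hw
    refine ⟨u, ⟨hu, LinearMap.mem_ker.mpr g0⟩, t, rfl, ?_⟩
    simp only [map_add, map_smul, LinearMap.add_apply, LinearMap.smul_apply, smul_eq_mul,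
      g0, g1, g2, g3, g4, g5, h.eee] at g6
    linear_combination g6
  obtain ⟨a, b, hab⟩ := exists_IsB2 hW0
  obtain ⟨k1, hk1, c1, ea, -⟩ := hproj a hab.ha
  obtain ⟨k2, hk2, c2, eb, -⟩ := hproj b hab.hb
  have hindk : ∀ s t : ℂ, s • k1 + t • k2 = 0 → s = 0 ∧ t = 0 := by
    intro s t h0
    apply hab.ind
    have h1 : s • a + t • b = (s * c1 + t * c2) • e := by
      have : s • a + t • b = (s • k1 + t • k2) + (s * c1 + t * c2) • e := by
        rw [ea, eb]; module
      rw [this, h0, zero_add]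
    have h2 : s • a + t • b ∈ W :=
      W.add_mem (W.smul_mem _ hab.ha.1) (W.smul_mem _ hab.hb.1)
    rw [h1] at h2 ⊢
    by_cases hc : s * c1 + t * c2 = 0
    · rw [hc, zero_smul]
    · exfalso
      apply heW
      have := W.smul_mem (s * c1 + t * c2)⁻¹ h2
      rwa [smul_smul, inv_mul_cancel₀ hc, one_smul] at this
  have hiso : ∀ s t : ℂ, T (s • k1 + t • k2) (s • k1 + t • k2) (s • k1 + t • k2) = 0 := by
    intro s t
    obtain ⟨k, hk, c, e1, e2⟩ := hproj (s • a + t • b)
      (Submodule.add_mem _ (Submodule.smul_mem _ _ hab.ha) (Submodule.smul_mem _ _ hab.hb))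
    have e3 : (s • k1 + t • k2 - k) + (s * c1 + t * c2 - c) • e = 0 := by
      rw [ea, eb] at e1
      rw [← sub_eq_zero] at e1
      rw [← e1]; module
    have hmem : s • k1 + t • k2 - k ∈ U :=
      U.sub_mem (U.add_mem (U.smul_mem _ (h.memK hk1).1) (U.smul_mem _ (h.memK hk2).1))
        (h.memK hk).1
    have e4 := (h.ind _ hmem _ e3).1
    rw [sub_eq_zero.mp e4]
    exact e2
  -- the line on the surface
  let p1 : h.K := ⟨k1, hk1⟩
  let p2 : h.K := ⟨k2, hk2⟩
  have hpi : LinearIndependent ℂ ![p1, p2] := by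
    rw [Fintype.linearIndependent_iff]
    intro g hg i
    rw [Fin.sum_univ_two] at hg
    have h1 : g 0 • k1 + g 1 • k2 = 0 := congrArg Subtype.val hg
    have := hindk _ _ h1
    fin_cases i
    · exact this.1
    · exact this.2
  obtain ⟨M, hM, hMT, hdis⟩ := exists_skew h.smK (h.finrank_K hV)
    (L := Submodule.span ℂ (Set.range ![p1, p2]))
    (by rw [finrank_span_eq_card hpi]; simp) (by
      intro w hw
      rw [Submodule.mem_span_range_iff_exists_fun] at hw
      obtain ⟨c, hc⟩ := hw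
      rw [Fin.sum_univ_two] at hc
      rw [← hc]
      exact hiso (c 0) (c 1))
  obtain ⟨P, hP, hPT, hPm⟩ := h.cone hM hMT
  refine ⟨W, P, ⟨hW, hWT⟩, ⟨hP, hPT⟩, ?_⟩
  rw [Submodule.eq_bot_iff]
  rintro x ⟨hxW, hxP⟩
  obtain ⟨m, hm, s, hx⟩ := hPm x hxP
  have hmK := h.memK m.2
  have hxL : T e e x = 0 := by
    rw [hx, map_add, map_smul, h.eee, smul_zero, add_zero]; exact hmK.2
  obtain ⟨c, d, hcd⟩ := hab.span x ⟨hxW, LinearMap.mem_ker.mpr hxL⟩
  have e1 : ((m : V) - (c • k1 + d • k2)) + (s - (c * c1 + d * c2)) • e = 0 := by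
    rw [hx, ea, eb] at hcd
    rw [← sub_eq_zero] at hcd
    rw [← hcd]; module
  have hmem : (m : V) - (c • k1 + d • k2) ∈ U :=
    U.sub_mem hmK.1 (U.add_mem (U.smul_mem _ (h.memK hk1).1) (U.smul_mem _ (h.memK hk2).1))
  have e2 := sub_eq_zero.mp (h.ind _ hmem _ e1).1
  have e3 : m ∈ Submodule.span ℂ (Set.range ![p1, p2]) ⊓ M := by
    refine ⟨?_, hm⟩
    have : m = c • p1 + d • p2 := Subtype.ext e2
    rw [this]
    exact Submodule.add_mem _ (Submodule.smul_mem _ _ (Submodule.subset_span ⟨0, rfl⟩))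
      (Submodule.smul_mem _ _ (Submodule.subset_span ⟨1, rfl⟩))
  rw [hdis] at e3
  have e4 : m = 0 := (Submodule.mem_bot ℂ).mp e3
  rw [e4] at hx
  simp only [ZeroMemClass.coe_zero, zero_add] at hx
  by_cases hs : s = 0
  · rw [hx, hs, zero_smul]
  · exfalso
    apply heW
    rw [hx] at hxW
    have := W.smul_mem s⁻¹ hxW
    rwa [smul_smul, inv_mul_cancel₀ hs, one_smul] at this

end Eck

end Vale.Agent.P287.H674
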