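import Mathlib

/-!
Generalised quadrangles with three points on a line, finite or not.
-/

namespace Vale.Agent.P287.H674

/-- points, adjacency, and the third point on the line through two adjacent points; a point
outside a line is adjacent to exactly one point of the line -/
structure Gq {P : Type*} (adj : P → P → Prop) (res : P → P → P) : Prop where
  symm : ∀ {a b}, adj a b → adj b a
  irr : ∀ a, ¬ adj a a
  res1 : ∀ {a b}, adj a b → adj a (res a b)
  res2 : ∀ {a b}, adj a b → adj b (res a b)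
  resr : ∀ {a b}, adj a b → res a (res a b) = b
  resc : ∀ {a b}, adj a b → res a b = res b a
  tri : ∀ {a b w}, adj a b → adj w a → adj w b → w = res a b
  ex : ∀ {a b w}, adj a b → ¬ adj w a → ¬ adj w b → w ≠ a → w ≠ b → w ≠ res a b →
    adj w (res a b)

namespace Gq

variable {P : Type*} {adj : P → P → Prop} {res : P → P → P}

theorem ne (h : Gq adj res) {a b : P} (hab : adj a b) : a ≠ b := by
  rintro rfl
  exact h.irr a hab

/-- `res (res a b) a = b` -/
theorem r1 (h : Gq adj res) {a b : P} (hab : adj a b) : res (res a b) a = b := by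
  rw [← h.resc (h.res1 hab), h.resr hab]

theorem r2 (h : Gq adj res) {a b : P} (hab : adj a b) : res (res a b) b = a := by
  rw [h.resc hab, h.r1 (h.symm hab)]

theorem r3 (h : Gq adj res) {a b : P} (hab : adj a b) : res b (res a b) = a := by
  rw [h.resc hab, h.resr (h.symm hab)]

/-- two points which are not adjacent -/
structure Two (adj : P → P → Prop) (x y : P) : Prop where
  ne : x ≠ y
  na : ¬ adj x y
  na' : ¬ adj y x

/-- common neighbours -/
def Cm (adj : P → P → Prop) (x y z : P) : Prop := adj x z ∧ adj y z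

variable {x y z z' z'' : P}

theorem Two.swap (t : Two adj x y) : Two adj y x := ⟨t.ne.symm, t.na', t.na⟩

theorem l1 (h : Gq adj res) (t : Two adj x y) {u : P} (hu : adj x u) (hn : ¬ adj y u) :
    Cm adj x y (res x u) ∧ res x (res x u) = u := by
  have h1 : y ≠ u := by rintro rfl; exact t.na hu
  have h2 : y ≠ res x u := by
    intro e; apply t.na; rw [e]; exact h.res1 hu
  exact ⟨⟨h.res1 hu, h.ex hu t.na' hn t.ne.symm h1 h2⟩, h.resr hu⟩

theorem l2 (h : Gq adj res) (t : Two adj x y) (hz : Cm adj x y z) : ¬ adj y (res x z) := by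
  intro h1
  have h2 := h.tri (h.res2 hz.1) hz.2 h1
  rw [h.r3 hz.1] at h2
  exact t.ne h2.symm

theorem l3 (h : Gq adj res) (t : Two adj x y) (hz : Cm adj x y z) (hz' : Cm adj x y z') :
    ¬ adj z z' := by
  intro h1
  exact t.ne ((h.tri h1 hz.1 hz'.1).trans (h.tri h1 hz.2 hz'.2).symm)

theorem l4 (h : Gq adj res) (hz : Cm adj x y z) (hz' : Cm adj x y z')
    (hne : z ≠ z') : ¬ adj (res x z) z' := by
  intro h1
  have h2 := h.tri h1 (h.res1 hz.1) hz'.1
  have h3 := h.resr h1
  rw [← h2, h.r1 hz.1] at h3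
  exact hne h3

theorem l5 (h : Gq adj res) (t : Two adj x y) (hz : Cm adj x y z) (hz' : Cm adj x y z') :
    ¬ adj (res x z) (res x z') := by
  intro h1
  have h2 := h.tri h1 (h.res1 hz.1) (h.res1 hz'.1)
  have h3 := h.resr h1
  rw [← h2, h.r1 hz.1] at h3
  apply h.l2 t hz'
  rw [← h3]
  exact hz.2

theorem l6 (h : Gq adj res) (t : Two adj x y) (hz : Cm adj x y z) :
    ¬ adj (res x z) (res y z) := by
  intro h1
  have h2 := h.tri h1 (h.res2 hz.1) (h.res2 hz.2)
  have h3 := h.resr h1
  rw [← h2, h.r2 hz.1] at h3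
  apply t.na'
  rw [h3]
  exact h.res1 hz.2

theorem Cm.swap (hz : Cm adj x y z) : Cm adj y x z := ⟨hz.2, hz.1⟩

theorem l7 (h : Gq adj res) (t : Two adj x y) (hz : Cm adj x y z) (hz' : Cm adj x y z')
    (hne : z ≠ z') : adj (res x z) (res y z') := by
  have a1 : ¬ adj (res x z) y := fun h1 => h.l2 t hz (h.symm h1)
  have a2 : ¬ adj (res x z) z' := h.l4 hz hz' hne
  refine h.ex hz'.2 a1 a2 ?_ ?_ ?_
  · intro e
    apply t.na
    rw [← e]
    exact h.res1 hz.1
  · intro e
    apply a1
    rw [e]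
    exact h.symm hz'.2
  · intro e
    apply a1
    rw [e]
    exact h.symm (h.res1 hz'.2)

/-- points far from `x` and `y` -/
structure Far (adj : P → P → Prop) (x y w : P) : Prop where
  nx : ¬ adj x w
  ny : ¬ adj y w
  ex : w ≠ x
  ey : w ≠ y

/-- the properties of the points `c` -/
theorem l8 (h : Gq adj res) (t : Two adj x y) (hz : Cm adj x y z) (hz' : Cm adj x y z')
    (hne : z ≠ z') : Far adj x y (res (res x z) (res y z')) ∧
      adj (res (res x z) (res y z')) (res x z) ∧ adj (res (res x z) (res y z')) (res y z') ∧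
      ¬ adj (res (res x z) (res y z')) z ∧ ¬ adj (res (res x z) (res y z')) z' ∧
      adj (res (res x z) (res y z')) (res x z') ∧ adj (res (res x z) (res y z')) (res y z) ∧
      ∀ z'', Cm adj x y z'' → z'' ≠ z → z'' ≠ z' →
        adj (res (res x z) (res y z')) z'' := by
  have hab := h.l7 t hz hz' hne
  have c1 := h.res1 hab
  have c2 := h.res2 hab
  have r1 := h.r1 hab
  have r2 := h.r2 hab
  have r3 := h.r3 hab
  have r4 := h.resr hab
  set c := res (res x z) (res y z') with hc
  have n1 : ¬ adj x c := by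
    intro h1
    have h2 := h.tri c1 (h.res1 hz.1) h1
    rw [r4] at h2
    apply t.na'
    rw [h2]
    exact h.res1 hz'.2
  have n2 : ¬ adj y c := by
    intro h1
    have h2 := h.tri c2 (h.res1 hz'.2) h1
    rw [r3] at h2
    apply t.na
    rw [h2]
    exact h.res1 hz.1
  have n3 : c ≠ x := by
    intro e
    apply h.l2 t.swap hz'.swap
    rw [← e]
    exact h.symm c2
  have n4 : c ≠ y := by
    intro e
    apply h.l2 t hz
    rw [← e]
    exact h.symm c1
  have n5 : ¬ adj c z := by
    intro h1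
    have h2 := h.tri (h.res2 hz.1) h1 (h.symm c1)
    rw [h.r3 hz.1] at h2
    exact n3 h2
  have n6 : ¬ adj c z' := by
    intro h1
    have h2 := h.tri (h.res2 hz'.2) h1 (h.symm c2)
    rw [h.r3 hz'.2] at h2
    exact n4 h2
  have m1 : ¬ adj c x := fun h1 => n1 (h.symm h1)
  have m2 : ¬ adj c y := fun h1 => n2 (h.symm h1)
  have q1 : adj c (res x z') := by
    refine h.ex hz'.1 m1 n6 n3 ?_ ?_
    · intro e; apply n1; rw [e]; exact hz'.1
    · intro e; apply n1; rw [e]; exact h.res1 hz'.1
  have q2 : adj c (res y z) := by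
    refine h.ex hz.2 m2 n5 n4 ?_ ?_
    · intro e; apply n1; rw [e]; exact hz.1
    · intro e; apply n2; rw [e]; exact h.res1 hz.2
  refine ⟨⟨n1, n2, n3, n4⟩, h.symm c1, h.symm c2, n5, n6, q1, q2, ?_⟩
  intro z'' hz'' e1 e2
  have p1 : ¬ adj c (res x z'') := by
    intro h1
    have h2 := h.tri c2 (h.l7 t hz'' hz' e2) (h.symm h1)
    rw [r3] at h2
    apply e1
    rw [← h.resr hz''.1, h2, h.resr hz.1]
  have h3 := h.ex (h.res1 hz''.1) m1 p1 n3 ?_ ?_
  · rwa [h.resr hz''.1] at h3
  · intro e; apply n1; rw [e]; exact h.res1 hz''.1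
  · rw [h.resr hz''.1]
    intro e; apply n1; rw [e]; exact hz''.1

theorem l9 (h : Gq adj res) (t : Two adj x y) {w : P} (hw : Far adj x y w)
    (hz : Cm adj x y z) (hn : ¬ adj w z) :
    ∃ z', Cm adj x y z' ∧ z ≠ z' ∧ w = res (res x z) (res y z') := by
  have m1 : ¬ adj w x := fun h1 => hw.nx (h.symm h1)
  have a1 : adj w (res x z) := by
    refine h.ex hz.1 m1 hn hw.ex ?_ ?_
    · intro e; apply hw.nx; rw [e]; exact hz.1
    · intro e; apply hw.nx; rw [e]; exact h.res1 hz.1
  -- the third point `u`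
  have hyu : adj y (res w (res x z)) := by
    refine h.ex a1 hw.ny (h.l2 t hz) hw.ey.symm ?_ ?_
    · intro e; apply t.na; rw [e]; exact h.res1 hz.1
    · intro e
      have h1 := h.res1 a1
      rw [← e] at h1
      exact hw.ny (h.symm h1)
  have hnx : ¬ adj x (res w (res x z)) := by
    intro h1
    have h2 := h.tri (h.res2 a1) (h.res1 hz.1) h1
    rw [h.r3 a1] at h2
    exact hw.ex h2.symm
  obtain ⟨hz', e⟩ := h.l1 t.swap hyu hnx
  refine ⟨_, hz'.swap, ?_, ?_⟩
  · intro e2
    apply hnx
    exfalso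
    have h1 := e
    rw [← e2] at h1
    have h2 := h.l6 t hz
    rw [h1] at h2
    exact h2 (h.res2 a1)
  · rw [e, h.resc (h.res2 a1), h.r2 a1]

theorem l10 (h : Gq adj res) (t : Two adj x y) (hz : Cm adj x y z) (hz' : Cm adj x y z')
    (hne : z ≠ z') : res (res x z) (res y z') = res (res x z') (res y z) := by
  obtain ⟨-, -, -, -, -, q1, q2, -⟩ := h.l8 t hz' hz hne.symm
  exact (h.tri (h.l7 t hz hz' hne) q1 q2).symm

theorem l11 (h : Gq adj res) (t : Two adj x y) {w : P} (hw : Far adj x y w)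
    (hz'' : Cm adj x y z'') (ha : adj w z'') : Far adj x y (res z'' w) ∧
      adj (res z'' w) z'' ∧ ∀ z, Cm adj x y z → z ≠ z'' →
        (adj (res z'' w) z ↔ ¬ adj w z) := by
  have ha' := h.symm ha
  have n1 : ¬ adj x (res z'' w) := by
    intro h1
    have h2 := h.tri (h.res1 ha') hz''.1 h1
    rw [h.resr ha'] at h2
    exact hw.ex h2.symm
  have n2 : ¬ adj y (res z'' w) := by
    intro h1
    have h2 := h.tri (h.res1 ha') hz''.2 h1
    rw [h.resr ha'] at h2
    exact hw.ey h2.symm
  refine ⟨⟨n1, n2, ?_, ?_⟩, h.symm (h.res1 ha'), ?_⟩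
  · intro e
    have h1 := h.res2 ha'
    rw [e] at h1
    exact hw.nx (h.symm h1)
  · intro e
    have h1 := h.res2 ha'
    rw [e] at h1
    exact hw.ny (h.symm h1)
  · intro z hz hne
    have h0 : ¬ adj z z'' := h.l3 t hz hz''
    constructor
    · intro h1 h2
      have h3 := h.tri (h.res2 ha') (h.symm h2) (h.symm h1)
      rw [h.r3 ha'] at h3
      exact hne h3
    · intro h1
      refine h.symm (h.ex ha' h0 (fun h2 => h1 (h.symm h2)) hne ?_ ?_)
      · intro e; apply hw.nx; rw [← e]; exact hz.1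
      · intro e; apply n1; rw [← e]; exact hz.1

end Gq

end Vale.Agent.P287.H674
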