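import Vale.Agent.P287.H674.Gq

/-!
The number of points of a generalised quadrangle with three points on a line.
-/

namespace Vale.Agent.P287.H674

namespace Gq

variable {P : Type*} {adj : P → P → Prop} {res : P → P → P} {x y : P}

/-- the number of common neighbours -/
theorem exists_Z (h : Gq adj res) (t : Two adj x y) {z1 z2 : P} (h1 : Cm adj x y z1)
    (h2 : Cm adj x y z2) (hne : z1 ≠ z2) : ∃ Z : Finset P, (∀ z, z ∈ Z ↔ Cm adj x y z) ∧
      (Z.card = 2 ∨ Z.card = 3 ∨ Z.card = 5) := by
  classical
  by_cases h3 : ∃ z3, Cm adj x y z3 ∧ z3 ≠ z1 ∧ z3 ≠ z2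
  · obtain ⟨z3, c3, n31, n32⟩ := h3
    obtain ⟨f, -, -, a1, a2, -, -, a3⟩ := h.l8 t h1 h2 hne
    set c := res (res x z1) (res y z2) with hc
    obtain ⟨fd, ad, hd⟩ := h.l11 t f c3 (a3 z3 c3 n31 n32)
    set d := res z3 c with hdd
    have d1 : adj d z1 := (hd z1 h1 n31.symm).mpr a1
    have d2 : adj d z2 := (hd z2 h2 n32.symm).mpr a2
    by_cases h4 : ∃ z4, Cm adj x y z4 ∧ z4 ≠ z1 ∧ z4 ≠ z2 ∧ z4 ≠ z3
    · obtain ⟨z4, c4, n41, n42, n43⟩ := h4
      have d4 : ¬ adj d z4 := fun h5 => (hd z4 c4 n43).mp h5 (a3 z4 c4 n41 n42)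
      obtain ⟨z5, c5, n45, e5⟩ := h.l9 t fd c4 d4
      obtain ⟨-, -, -, -, b5, -, -, b6⟩ := h.l8 t c4 c5 n45
      rw [← e5] at b5 b6
      have n51 : z5 ≠ z1 := by rintro rfl; exact b5 d1
      have n52 : z5 ≠ z2 := by rintro rfl; exact b5 d2
      have n53 : z5 ≠ z3 := by rintro rfl; exact b5 ad
      refine ⟨{z1, z2, z3, z4, z5}, ?_, ?_⟩
      · intro z
        simp only [Finset.mem_insert, Finset.mem_singleton]
        constructor
        · rintro (rfl | rfl | rfl | rfl | rfl)
          · exact h1
          · exact h2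
          · exact c3
          · exact c4
          · exact c5
        · intro hz
          by_contra hcon
          push Not at hcon
          obtain ⟨m1, m2, m3, m4, m5⟩ := hcon
          exact (hd z hz m3).mp (b6 z hz m4 m5) (a3 z hz m1 m2)
      · right; right
        rw [Finset.card_insert_of_notMem, Finset.card_insert_of_notMem,
          Finset.card_insert_of_notMem, Finset.card_insert_of_notMem, Finset.card_singleton]
        all_goals simp only [Finset.mem_insert, Finset.mem_singleton, not_or]
        · exact n45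
        · exact ⟨n43.symm, n53.symm⟩
        · exact ⟨n32.symm, n42.symm, n52.symm⟩
        · exact ⟨hne, n31.symm, n41.symm, n51.symm⟩
    · push Not at h4
      refine ⟨{z1, z2, z3}, ?_, ?_⟩
      · intro z
        simp only [Finset.mem_insert, Finset.mem_singleton]
        constructor
        · rintro (rfl | rfl | rfl)
          · exact h1
          · exact h2
          · exact c3
        · intro hz
          by_contra hcon
          push Not at hcon
          exact hcon.2.2 (h4 z hz hcon.1 hcon.2.1)
      · right; left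
        rw [Finset.card_insert_of_notMem, Finset.card_insert_of_notMem, Finset.card_singleton]
        all_goals simp only [Finset.mem_insert, Finset.mem_singleton, not_or]
        · exact n32.symm
        · exact ⟨hne, n31.symm⟩
  · push Not at h3
    refine ⟨{z1, z2}, ?_, ?_⟩
    · intro z
      simp only [Finset.mem_insert, Finset.mem_singleton]
      constructor
      · rintro (rfl | rfl)
        · exact h1
        · exact h2
      · intro hz
        by_contra hcon
        push Not at hcon
        exact hcon.2 (h3 z hz hcon.1)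
    · left
      rw [Finset.card_insert_of_notMem, Finset.card_singleton]
      simp only [Finset.mem_singleton]
      exact hne

/-- far points adjacent to all common neighbours -/
theorem full (h : Gq adj res) (t : Two adj x y) {Z : Finset P}
    (hZ : ∀ z, z ∈ Z ↔ Cm adj x y z) {z1 z2 : P} (h1 : Cm adj x y z1) (h2 : Cm adj x y z2)
    (hne : z1 ≠ z2) :
    ∃ N : Finset P, (∀ w, w ∈ N ↔ Far adj x y w ∧ ∀ z ∈ Z, adj w z) ∧
      N.card = if Z.card = 3 then 1 else 0 := by
  classical
  -- a full point forces three common neighbours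
  have key : ∀ w, Far adj x y w → (∀ z ∈ Z, adj w z) → ∀ z3, Cm adj x y z3 → ∃ z z' : P,
      z ≠ z' ∧ z3 ≠ z ∧ z3 ≠ z' ∧ Z = {z3, z, z'} ∧
        res z3 w = res (res x z) (res y z') := by
    intro w hw hfull z3 hz3
    obtain ⟨fd, ad, hd⟩ := h.l11 t hw hz3 (hfull z3 ((hZ z3).mpr hz3))
    obtain ⟨z, hz, hzn⟩ : ∃ z, Cm adj x y z ∧ z ≠ z3 := by
      by_cases h5 : z1 = z3
      · exact ⟨z2, h2, by rw [← h5]; exact hne.symm⟩
      · exact ⟨z1, h1, h5⟩
    have hdz : ¬ adj (res z3 w) z := fun h6 => (hd z hz hzn).mp h6 (hfull z ((hZ z).mpr hz))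
    obtain ⟨z', hz', hzz', e⟩ := h.l9 t fd hz hdz
    obtain ⟨-, -, -, -, b5, -, -, b6⟩ := h.l8 t hz hz' hzz'
    rw [← e] at b5 b6
    have hz'n : z3 ≠ z' := by rintro rfl; exact b5 ad
    refine ⟨z, z', hzz', hzn.symm, hz'n, ?_, e⟩
    ext u
    simp only [Finset.mem_insert, Finset.mem_singleton]
    constructor
    · intro hu
      by_contra hcon
      push Not at hcon
      have hu' := (hZ u).mp hu
      exact (hd u hu' hcon.1).mp (b6 u hu' hcon.2.1 hcon.2.2) (hfull u hu)
    · rintro (rfl | rfl | rfl)
      · exact (hZ _).mpr hz3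
      · exact (hZ _).mpr hz
      · exact (hZ _).mpr hz'
  by_cases h3 : Z.card = 3
  · rw [if_pos h3]
    obtain ⟨z3, c3, n31, n32⟩ : ∃ z3, Cm adj x y z3 ∧ z3 ≠ z1 ∧ z3 ≠ z2 := by
      by_contra hcon
      push Not at hcon
      have : Z ⊆ {z1, z2} := by
        intro z hz
        simp only [Finset.mem_insert, Finset.mem_singleton]
        by_contra hc
        push Not at hc
        exact hc.2 (hcon z ((hZ z).mp hz) hc.1)
      have h5 := Finset.card_le_card this
      have h6 := Finset.card_le_two (a := z1) (b := z2)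
      omega
    have hZe : Z = {z1, z2, z3} := by
      symm
      apply Finset.eq_of_subset_of_card_le
      · intro z
        simp only [Finset.mem_insert, Finset.mem_singleton]
        rintro (rfl | rfl | rfl)
        · exact (hZ _).mpr h1
        · exact (hZ _).mpr h2
        · exact (hZ _).mpr c3
      · rw [h3, Finset.card_insert_of_notMem, Finset.card_insert_of_notMem,
          Finset.card_singleton]
        all_goals simp only [Finset.mem_insert, Finset.mem_singleton, not_or]
        · exact n32.symm
        · exact ⟨hne, n31.symm⟩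
    obtain ⟨f, -, -, a1, a2, -, -, a3⟩ := h.l8 t h1 h2 hne
    have hcz3 := a3 z3 c3 n31 n32
    obtain ⟨fd, ad, hd⟩ := h.l11 t f c3 hcz3
    refine ⟨{res z3 (res (res x z1) (res y z2))}, ?_, Finset.card_singleton _⟩
    intro w
    rw [Finset.mem_singleton]
    constructor
    · rintro rfl
      refine ⟨fd, ?_⟩
      intro z hz
      rw [hZe] at hz
      simp only [Finset.mem_insert, Finset.mem_singleton] at hz
      rcases hz with rfl | rfl | rfl
      · exact (hd _ h1 n31.symm).mpr a1
      · exact (hd _ h2 n32.symm).mpr a2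
      · exact ad
    · rintro ⟨hw, hfull⟩
      obtain ⟨z, z', q1, q2, q3, q4, q5⟩ := key w hw hfull z3 c3
      have hwz3 : adj z3 w := h.symm (hfull z3 ((hZ z3).mpr c3))
      have hd' : res z3 w = res (res x z1) (res y z2) := by
        have m1 : z1 ∈ ({z3, z, z'} : Finset P) := by rw [← q4]; exact (hZ _).mpr h1
        have m2 : z2 ∈ ({z3, z, z'} : Finset P) := by rw [← q4]; exact (hZ _).mpr h2
        simp only [Finset.mem_insert, Finset.mem_singleton] at m1 m2
        rcases m1 with m1 | m1 | m1
        · exact absurd m1.symm n31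
        · rcases m2 with m2 | m2 | m2
          · exact absurd m2.symm n32
          · exact absurd (m1.trans m2.symm) hne
          · rw [q5, m1, m2]
        · rcases m2 with m2 | m2 | m2
          · exact absurd m2.symm n32
          · rw [q5, m1, m2, h.l10 t]
            · rw [← m2]; exact h2
            · rw [← m1]; exact h1
            · exact q1
          · exact absurd (m1.trans m2.symm) hne
      rw [← hd', h.resr hwz3]
  · rw [if_neg h3]
    refine ⟨∅, ?_, rfl⟩
    intro w
    constructor
    · intro hw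
      exact absurd hw (Finset.notMem_empty w)
    · rintro ⟨hw, hfull⟩
      exfalso
      obtain ⟨z, z', q1, q2, q3, q4, -⟩ := key w hw hfull z1 h1
      apply h3
      rw [q4, Finset.card_insert_of_notMem, Finset.card_insert_of_notMem, Finset.card_singleton]
      all_goals simp only [Finset.mem_insert, Finset.mem_singleton, not_or]
      · exact q1
      · exact ⟨q2, q3⟩

/-- far points not adjacent to all common neighbours -/
theorem part (h : Gq adj res) (t : Two adj x y) {Z : Finset P}
    (hZ : ∀ z, z ∈ Z ↔ Cm adj x y z) :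
    ∃ N : Finset P, (∀ w, w ∈ N ↔ Far adj x y w ∧ ∃ z ∈ Z, ¬ adj w z) ∧
      N.card = Z.card.choose 2 := by
  classical
  let N : Finset P := Z.offDiag.image fun p => res (res x p.1) (res y p.2)
  have hN : ∀ w, w ∈ N ↔ ∃ z z', z ∈ Z ∧ z' ∈ Z ∧ z ≠ z' ∧ w = res (res x z) (res y z') := by
    intro w
    simp only [N, Finset.mem_image, Finset.mem_offDiag, Prod.exists]
    constructor
    · rintro ⟨z, z', ⟨a, b, c⟩, e⟩
      exact ⟨z, z', a, b, c, e.symm⟩
    · rintro ⟨z, z', a, b, c, e⟩
      exact ⟨z, z', ⟨a, b, c⟩, e.symm⟩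
  have hfil : ∀ z z', z ∈ Z → z' ∈ Z → z ≠ z' →
      Z.filter (fun u => ¬ adj (res (res x z) (res y z')) u) = {z, z'} := by
    intro z z' hz hz' hne
    obtain ⟨-, -, -, b4, b5, -, -, b6⟩ := h.l8 t ((hZ z).mp hz) ((hZ z').mp hz') hne
    ext u
    simp only [Finset.mem_filter, Finset.mem_insert, Finset.mem_singleton]
    constructor
    · rintro ⟨hu, hu2⟩
      by_contra hcon
      push Not at hcon
      exact hu2 (b6 u ((hZ u).mp hu) hcon.1 hcon.2)
    · rintro (rfl | rfl)
      · exact ⟨hz, b4⟩
      · exact ⟨hz', b5⟩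
  refine ⟨N, ?_, ?_⟩
  · intro w
    rw [hN]
    constructor
    · rintro ⟨z, z', hz, hz', hne, rfl⟩
      obtain ⟨f, -, -, b4, -⟩ := h.l8 t ((hZ z).mp hz) ((hZ z').mp hz') hne
      exact ⟨f, z, hz, b4⟩
    · rintro ⟨f, z, hz, hn⟩
      obtain ⟨z', hz', hne, e⟩ := h.l9 t f ((hZ z).mp hz) hn
      exact ⟨z, z', hz, (hZ z').mpr hz', hne, e⟩
  · rw [← Finset.card_powersetCard]
    refine Finset.card_bij (fun w _ => Z.filter (fun u => ¬ adj w u)) ?_ ?_ ?_
    · intro w hw
      obtain ⟨z, z', hz, hz', hne, rfl⟩ := (hN w).mp hw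
      rw [hfil z z' hz hz' hne, Finset.mem_powersetCard]
      refine ⟨?_, Finset.card_pair hne⟩
      intro u hu
      simp only [Finset.mem_insert, Finset.mem_singleton] at hu
      rcases hu with rfl | rfl
      · exact hz
      · exact hz'
    · intro w hw w' hw' e
      obtain ⟨z, z', hz, hz', hne, rfl⟩ := (hN w).mp hw
      obtain ⟨u, u', hu, hu', hne', rfl⟩ := (hN w').mp hw'
      simp only [hfil z z' hz hz' hne, hfil u u' hu hu' hne'] at e
      have m1 : u ∈ ({z, z'} : Finset P) := by rw [e]; simp
      have m2 : u' ∈ ({z, z'} : Finset P) := by rw [e]; simp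
      simp only [Finset.mem_insert, Finset.mem_singleton] at m1 m2
      rcases m1 with rfl | rfl <;> rcases m2 with rfl | rfl
      · exact absurd rfl hne'
      · rfl
      · exact h.l10 t ((hZ _).mp hz) ((hZ _).mp hz') hne
      · exact absurd rfl hne'
    · intro s hs
      rw [Finset.mem_powersetCard, Finset.card_eq_two] at hs
      obtain ⟨hsub, z, z', hne, rfl⟩ := hs
      have hz : z ∈ Z := hsub (by simp)
      have hz' : z' ∈ Z := hsub (by simp)
      exact ⟨_, (hN _).mpr ⟨z, z', hz, hz', hne, rfl⟩, hfil z z' hz hz' hne⟩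

end Gq

end Vale.Agent.P287.H674
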