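import Vale.Agent.P287.H674.Gq2

/-!
Counting the points of a generalised quadrangle with three points on a line.
-/

namespace Vale.Agent.P287.H674

namespace Gq

variable {P : Type*} {adj : P → P → Prop} {res : P → P → P} {x y : P}

theorem count (h : Gq adj res) (t : Two adj x y) {z1 z2 : P} (h1 : Cm adj x y z1)
    (h2 : Cm adj x y z2) (hne : z1 ≠ z2) :
    ∃ U : Finset P, (∀ w, w ∈ U) ∧ (U.card = 9 ∨ U.card = 15 ∨ U.card = 27) := by
  classical
  obtain ⟨Z, hZ, hk⟩ := h.exists_Z t h1 h2 hne
  obtain ⟨N, hN, hNc⟩ := h.full t hZ h1 h2 hne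
  obtain ⟨M, hM, hMc⟩ := h.part t hZ
  have hA : ∀ w, w ∈ Z.image (res x) ↔ adj x w ∧ ¬ adj y w := by
    intro w
    rw [Finset.mem_image]
    constructor
    · rintro ⟨z, hz, rfl⟩
      exact ⟨h.res1 ((hZ z).mp hz).1, h.l2 t ((hZ z).mp hz)⟩
    · rintro ⟨a, b⟩
      obtain ⟨c, d⟩ := h.l1 t a b
      exact ⟨_, (hZ _).mpr c, d⟩
  have hB : ∀ w, w ∈ Z.image (res y) ↔ adj y w ∧ ¬ adj x w := by
    intro w
    rw [Finset.mem_image]
    constructor
    · rintro ⟨z, hz, rfl⟩
      exact ⟨h.res1 ((hZ z).mp hz).2, h.l2 t.swap ((hZ z).mp hz).swap⟩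
    · rintro ⟨a, b⟩
      obtain ⟨c, d⟩ := h.l1 t.swap a b
      exact ⟨_, (hZ _).mpr c.swap, d⟩
  have hAc : (Z.image (res x)).card = Z.card := by
    apply Finset.card_image_of_injOn
    intro z hz z' hz' e
    have e' : res x z = res x z' := e
    have a1 := h.resr ((hZ z).mp hz).1
    rw [e', h.resr ((hZ z').mp hz').1] at a1
    exact a1.symm
  have hBc : (Z.image (res y)).card = Z.card := by
    apply Finset.card_image_of_injOn
    intro z hz z' hz' e
    have e' : res y z = res y z' := e
    have a1 := h.resr ((hZ z).mp hz).2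
    rw [e', h.resr ((hZ z').mp hz').2] at a1
    exact a1.symm
  have hxx : ¬ adj x x := h.irr x
  have hyy : ¬ adj y y := h.irr y
  refine ⟨{x, y} ∪ Z ∪ Z.image (res x) ∪ Z.image (res y) ∪ M ∪ N, ?_, ?_⟩
  · intro w
    simp only [Finset.mem_union, hA, hB, hM, hN, Finset.mem_insert, Finset.mem_singleton, hZ]
    by_cases a : adj x w <;> by_cases b : adj y w
    · left; left; left; left; right; exact ⟨a, b⟩
    · left; left; left; right; exact ⟨a, b⟩
    · left; left; right; exact ⟨b, a⟩
    · by_cases e1 : w = x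
      · left; left; left; left; left; left; exact e1
      · by_cases e2 : w = y
        · left; left; left; left; left; right; exact e2
        · by_cases e3 : ∃ z ∈ Z, ¬ adj w z
          · left; right
            obtain ⟨z, hz, hn⟩ := e3
            exact ⟨⟨a, b, e1, e2⟩, z, (hZ z).mp hz, hn⟩
          · right
            push Not at e3
            exact ⟨⟨a, b, e1, e2⟩, fun z hz => e3 z ((hZ z).mpr hz)⟩
  · have d1 : Disjoint ({x, y} : Finset P) Z := by
      rw [Finset.disjoint_left]
      intro w hw hw2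
      have := (hZ w).mp hw2
      simp only [Finset.mem_insert, Finset.mem_singleton] at hw
      rcases hw with rfl | rfl
      · exact hxx this.1
      · exact hyy this.2
    have d2 : Disjoint ({x, y} ∪ Z) (Z.image (res x)) := by
      rw [Finset.disjoint_left]
      intro w hw hw2
      have := (hA w).mp hw2
      simp only [Finset.mem_union, Finset.mem_insert, Finset.mem_singleton, hZ] at hw
      rcases hw with (rfl | rfl) | hw
      · exact hxx this.1
      · exact t.na this.1
      · exact this.2 hw.2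
    have d3 : Disjoint ({x, y} ∪ Z ∪ Z.image (res x)) (Z.image (res y)) := by
      rw [Finset.disjoint_left]
      intro w hw hw2
      have := (hB w).mp hw2
      simp only [Finset.mem_union, Finset.mem_insert, Finset.mem_singleton, hZ, hA] at hw
      rcases hw with ((rfl | rfl) | hw) | hw
      · exact t.na' this.1
      · exact hyy this.1
      · exact this.2 hw.1
      · exact this.2 hw.1
    have d4 : Disjoint ({x, y} ∪ Z ∪ Z.image (res x) ∪ Z.image (res y)) M := by
      rw [Finset.disjoint_left]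
      intro w hw hw2
      have := ((hM w).mp hw2).1
      simp only [Finset.mem_union, Finset.mem_insert, Finset.mem_singleton, hZ, hA, hB] at hw
      rcases hw with (((rfl | rfl) | hw) | hw) | hw
      · exact this.ex rfl
      · exact this.ey rfl
      · exact this.nx hw.1
      · exact this.nx hw.1
      · exact this.ny hw.1
    have d5 : Disjoint ({x, y} ∪ Z ∪ Z.image (res x) ∪ Z.image (res y) ∪ M) N := by
      rw [Finset.disjoint_left]
      intro w hw hw2
      have h5 := (hN w).mp hw2
      have := h5.1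
      simp only [Finset.mem_union, Finset.mem_insert, Finset.mem_singleton, hZ, hA, hB, hM] at hw
      rcases hw with ((((rfl | rfl) | hw) | hw) | hw) | hw
      · exact this.ex rfl
      · exact this.ey rfl
      · exact this.nx hw.1
      · exact this.nx hw.1
      · exact this.ny hw.1
      · obtain ⟨-, z, hz, hn⟩ := hw
        exact hn (h5.2 z ((hZ z).mpr hz))
    rw [Finset.card_union_of_disjoint d5, Finset.card_union_of_disjoint d4,
      Finset.card_union_of_disjoint d3, Finset.card_union_of_disjoint d2,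
      Finset.card_union_of_disjoint d1, hAc, hBc, hMc, hNc, Finset.card_pair t.ne]
    rcases hk with hk | hk | hk <;> rw [hk] <;> simp [Nat.choose]

theorem star_aux (h : Gq adj res)
    (hno : ∀ x y z1 z2, Two adj x y → Cm adj x y z1 → Cm adj x y z2 → z1 = z2) {p q w : P}
    (hpq : adj p q) (hpw : adj p w) (h1 : w ≠ q) (h2 : w ≠ res p q) (u : P) (hu : u ≠ p) :
    adj p u := by
  by_contra hn
  have hn' : ¬ adj u p := fun h3 => hn (h.symm h3)
  have t : Two adj p u := ⟨hu.symm, hn, hn'⟩
  have g : ∀ r, adj p r → ∃ z, Cm adj p u z ∧ (z = r ∨ z = res p r) := by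
    intro r hr
    by_cases h3 : adj u r
    · exact ⟨r, ⟨hr, h3⟩, Or.inl rfl⟩
    · refine ⟨res p r, ⟨h.res1 hr, h.ex hr hn' h3 hu ?_ ?_⟩, Or.inr rfl⟩
      · rintro rfl; exact hn hr
      · rintro rfl; exact hn (h.res1 hr)
  obtain ⟨z1, c1, e1⟩ := g q hpq
  obtain ⟨z2, c2, e2⟩ := g w hpw
  have e := hno p u z1 z2 t c1 c2
  rcases e1 with rfl | rfl <;> rcases e2 with e2 | e2
  · exact h1 (e2 ▸ e ▸ rfl)
  · apply h2
    rw [e, e2, h.resr hpw]
  · exact h2 (by rw [e, e2])
  · apply h1
    rw [← h.resr hpq, e, e2, h.resr hpw]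

theorem star (h : Gq adj res)
    (hno : ∀ x y z1 z2, Two adj x y → Cm adj x y z1 → Cm adj x y z2 → z1 = z2) {a b : P}
    (hab : adj a b) : ∃ p, ∀ u, u ≠ p → adj p u := by
  by_cases hall : ∃ w, w ≠ a ∧ w ≠ b ∧ w ≠ res a b
  · obtain ⟨w, n1, n2, n3⟩ := hall
    by_cases c1 : adj w a
    · exact ⟨a, h.star_aux hno hab (h.symm c1) n2 n3⟩
    · by_cases c2 : adj w b
      · exact ⟨b, h.star_aux hno (h.symm hab) (h.symm c2) n1 (by rw [← h.resc hab]; exact n3)⟩
      · have c3 := h.ex hab c1 c2 n1 n2 n3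
        exact ⟨res a b, h.star_aux hno (h.symm (h.res1 hab)) (h.symm c3) n1
          (by rw [h.r1 hab]; exact n2)⟩
  · push Not at hall
    refine ⟨a, fun u hu => ?_⟩
    by_cases hb : u = b
    · rw [hb]; exact hab
    · rw [hall u hu hb]; exact h.res1 hab

theorem star_odd (h : Gq adj res) {p : P} (hp : ∀ u, u ≠ p → adj p u) (U : Finset P)
    (hU : ∀ w, w ∈ U) : Odd U.card := by
  classical
  have h1 : ∏ _x ∈ U.erase p, (-1 : ℤ) = 1 := by
    refine Finset.prod_involution (fun u _ => res p u) ?_ ?_ ?_ ?_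
    · intro a ha; norm_num
    · intro a ha _ e
      have h3 := h.res2 (hp a (Finset.ne_of_mem_erase ha))
      rw [e] at h3
      exact h.irr _ h3
    · intro a ha
      refine Finset.mem_erase.mpr ⟨?_, hU _⟩
      intro e
      have h3 := h.res1 (hp a (Finset.ne_of_mem_erase ha))
      rw [e] at h3
      exact h.irr _ h3
    · intro a ha
      exact h.resr (hp a (Finset.ne_of_mem_erase ha))
  rw [Finset.prod_const] at h1
  have h2 : Even (U.erase p).card := by
    by_contra hcon
    rw [Nat.not_even_iff_odd] at hcon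
    rw [hcon.neg_one_pow] at h1
    norm_num at h1
  rw [← Finset.card_erase_add_one (hU p)]
  exact h2.add_one

/-- the dichotomy -/
theorem main (h : Gq adj res) {a b : P} (hab : adj a b) :
    (∃ p, (∀ u, u ≠ p → adj p u) ∧ ∀ U : Finset P, (∀ w, w ∈ U) → Odd U.card) ∨
      ∃ U : Finset P, (∀ w, w ∈ U) ∧ (U.card = 9 ∨ U.card = 15 ∨ U.card = 27) := by
  by_cases hno : ∀ x y z1 z2, Two adj x y → Cm adj x y z1 → Cm adj x y z2 → z1 = z2
  · left
    obtain ⟨p, hp⟩ := h.star hno hab
    exact ⟨p, hp, h.star_odd hp⟩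
  · right
    push Not at hno
    obtain ⟨x, y, z1, z2, t, c1, c2, hne⟩ := hno
    exact h.count t c1 c2 hne

end Gq

end Vale.Agent.P287.H674
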