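import Vale.Agent.P287.H674.Pf4
import Vale.Agent.P287.H674.Anti

/-!
Cubic fourfolds with an involution whose `-1`-eigenspace has dimension three are rational.
-/

namespace Vale.Agent.P287.H674.Pf

open MvPolynomial

/-- the skew-symmetric matrix of the cross product -/
def sk (v : Fin 3 → ℂ) : Fin 3 → Fin 3 → ℂ :=
  ![![0, -v 2, v 1], ![v 2, 0, -v 0], ![-v 1, v 0, 0]]

theorem pf_skew {a : Fin 3 → Fin 3 → ℂ} (ha : ∀ i j, a i j = a j i) (ρ : ℂ) (v y : Fin 3 → ℂ) :
    pf (fun i j => ρ * a i j + sk v i j) y =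
      ρ * (ρ ^ 2 * dd a + dt v (mv a v) + dt y (mv a y)) := by
  have h1 := ha 1 0
  have h2 := ha 2 0
  have h3 := ha 2 1
  simp [pf, dd, dt, mv, sk, h1, h2, h3]
  ring

/-- a cubic with an involution whose `-1`-eigenspace has dimension three -/
theorem rational_phi {F : MvPolynomial (Fin 6) ℂ} (hF : SmoothCubic F)
    {A B : Submodule ℂ (Fin 6 → ℂ)} (h : Phi (tri F) A B)
    (hQ1 : ∀ (f : MvPolynomial (Fin 3) ℂ) (_ : f.IsHomogeneous 3)
      (A : Fin 3 → Matrix (Fin 3) (Fin 3) ℂ) (_ : ∀ k, (A k).IsSymm)
      (_ : ∀ p : Fin 3 → ℂ, p ≠ 0 → ∃ k, p ⬝ᵥ (A k).mulVec p ≠ 0),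
      ∃ (r : ℂ) (c : Matrix (Fin 3) (Fin 3) ℂ), ∀ x : Fin 3 → ℂ, eval x f =
        r ^ 2 * (∑ k, x k • A k).det + (c.mulVec x) ⬝ᵥ (∑ k, x k • A k).mulVec (c.mulVec x)) :
    RationalHypersurface F := by
  classical
  obtain ⟨e, he⟩ := exists_IsB3 h.finA
  obtain ⟨b, hb⟩ := exists_IsB3 h.finB
  have hF3 := hF.1
  set M : Fin 3 → Matrix (Fin 3) (Fin 3) ℂ := fun k i j => 3 * tri F (b i) (b j) (e k) with hM
  have hMs : ∀ k i j, M k i j = M k j i := fun k i j => by
    simp only [hM]; rw [h.s1]
  have hMb : ∀ p : Fin 3 → ℂ, p ≠ 0 → ∃ k, p ⬝ᵥ (M k).mulVec p ≠ 0 := by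
    intro p hp
    obtain ⟨x, hx, hx2⟩ := h.nzB (hb.vec_mem p) (fun h0 => hp (hb.ind p h0))
    obtain ⟨κ, rfl⟩ := he.span x hx
    by_contra hcon
    push Not at hcon
    apply hx2
    have e1 : ∀ k, tri F (vec b p) (vec b p) (e k) = (p ⬝ᵥ (M k).mulVec p) / 3 := by
      intro k
      have e2 : tri F (vec b p) (vec b p) (e k) = tri F (e k) (vec b p) (vec b p) := by
        rw [h.s2, h.s1]
      rw [e2, bil_vec]
      have e3 : ∀ i j, tri F (e k) (b i) (b j) = tri F (b i) (b j) (e k) := fun i j => by
        rw [h.s1, h.s2]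
      simp only [e3, hM, dotProduct, Matrix.mulVec, Fin.sum_univ_three]
      ring
    simp only [vec, map_add, map_smul, smul_eq_mul] at e1 ⊢
    rw [e1, e1, e1, hcon, hcon, hcon]
    ring
  have hcub : (cubP (tri F) e).IsHomogeneous 3 := by
    unfold cubP
    refine IsHomogeneous.sum _ _ _ fun i _ => IsHomogeneous.sum _ _ _ fun j _ => ?_
    have hl : (lin e (tri F (e i) (e j))).IsHomogeneous 1 := by
      unfold lin
      refine ((IsHomogeneous.add ?_ ?_).add ?_) <;>
        exact (isHomogeneous_X _ _).C_mul _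
    exact (isHomogeneous_X _ _).mul ((isHomogeneous_X _ _).mul hl)
  obtain ⟨r, c, hc⟩ := hQ1 (cubP (tri F) e) hcub M (fun k => Matrix.ext fun i j => hMs k j i) hMb
  -- the symmetric matrix at a point
  set a : (Fin 3 → ℂ) → Fin 3 → Fin 3 → ℂ := fun x i j => Nx (fun k i j => M k i j) x i j with ha
  have ha_s : ∀ x i j, a x i j = a x j i := fun x i j => by
    simp only [ha, Nx]; rw [hMs 0 i j, hMs 1 i j, hMs 2 i j]
  set v : (Fin 3 → ℂ) → Fin 3 → ℂ := fun x i => c i 0 * x 0 + c i 1 * x 1 + c i 2 * x 2 with hv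
  have hsum : ∀ x, (∑ k, x k • M k) = Matrix.of (a x) := by
    intro x
    ext i j
    simp only [Fin.sum_univ_three, Matrix.add_apply, Matrix.smul_apply, smul_eq_mul,
      Matrix.of_apply, ha, Nx]
  have hcv : ∀ x, c.mulVec x = v x := by
    intro x
    funext i
    simp only [Matrix.mulVec, dotProduct, Fin.sum_univ_three, hv]
  have hf : ∀ x, tri F (vec e x) (vec e x) (vec e x) = r ^ 2 * dd (a x) + dt (v x) (mv (a x) (v x)) := by
    intro x
    rw [← eval_cubP, hc x, hsum, hcv, Matrix.det_fin_three]
    simp only [Matrix.of_apply, dd, dt, mv, dotProduct, Matrix.mulVec, Fin.sum_univ_three]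
    ring
  have hFxy : ∀ x y, eval (vec e x + vec b y) F =
      r ^ 2 * dd (a x) + dt (v x) (mv (a x) (v x)) + dt y (mv (a x) y) := by
    intro x y
    rw [← tri_self hF3, ← hf x]
    have hx := he.vec_mem x
    have hy := hb.vec_mem y
    have z1 : tri F (vec e x) (vec e x) (vec b y) = 0 := h.aab _ hx _ hx _ hy
    have z2 : tri F (vec e x) (vec b y) (vec e x) = 0 := by rw [h.s2]; exact z1
    have z3 : tri F (vec b y) (vec e x) (vec e x) = 0 := by rw [h.s1]; exact z2
    have z4 : tri F (vec b y) (vec b y) (vec b y) = 0 := h.bbb _ hy _ hy _ hy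
    have z5 : tri F (vec b y) (vec e x) (vec b y) = tri F (vec e x) (vec b y) (vec b y) := h.s1 _ _ _
    have z6 : tri F (vec b y) (vec b y) (vec e x) = tri F (vec e x) (vec b y) (vec b y) := by
      rw [h.s2, h.s1]
    have z7 : dt y (mv (a x) y) = 3 * tri F (vec e x) (vec b y) (vec b y) := by
      rw [bil_vec]
      have e3 : ∀ i j, tri F (vec e x) (b i) (b j) = tri F (b i) (b j) (vec e x) := fun i j => by
        rw [h.s1, h.s2]
      simp only [e3]
      simp only [vec, map_add, map_smul, smul_eq_mul, Fin.sum_univ_three, dt, mv, ha, Nx, hM]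
      ring
    simp only [map_add, LinearMap.add_apply, z1, z2, z3, z4, z5, z6, z7]
    ring
  by_cases hr : r = 0
  · -- two disjoint planes
    apply rational_of_two_planes hF
    let W : Submodule ℂ (Fin 6 → ℂ) := LinearMap.range
      ({ toFun := fun x => vec e x + vec b (fun i => Complex.I * v x i)
         map_add' := fun x x' => by
          simp only [vec, hv, Pi.add_apply]; module
         map_smul' := fun t x => by
          simp only [vec, hv, Pi.smul_apply, smul_eq_mul, RingHom.id_apply]; module } :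
        (Fin 3 → ℂ) →ₗ[ℂ] (Fin 6 → ℂ))
    refine ⟨W, B, ⟨?_, ?_⟩, ⟨h.finB, fun w hw => ?_⟩, ?_⟩
    · rw [LinearMap.finrank_range_of_inj]
      · simp
      · intro x x' hxx
        have h1 : vec e x + vec b (fun i => Complex.I * v x i) =
          vec e x' + vec b (fun i => Complex.I * v x' i) := hxx
        have h2 : vec e (x - x') = vec b (fun i => Complex.I * v x' i - Complex.I * v x i) := by
          have e1 : vec e (x - x') = vec e x - vec e x' := by
            simp only [vec, Pi.sub_apply]; module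
          have e2 : vec b (fun i => Complex.I * v x' i - Complex.I * v x i) =
              vec b (fun i => Complex.I * v x' i) - vec b (fun i => Complex.I * v x i) := by
            simp only [vec]; module
          rw [e1, e2, sub_eq_sub_iff_add_eq_add, h1, add_comm]
        have h3 : vec e (x - x') = 0 := h.bot _ (he.vec_mem _) (by rw [h2]; exact hb.vec_mem _)
        exact sub_eq_zero.mp (he.ind _ h3)
    · rintro w ⟨x, rfl⟩
      change eval (vec e x + vec b (fun i => Complex.I * v x i)) F = 0
      rw [hFxy, hr]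
      simp only [dt, mv]
      have hI : Complex.I ^ 2 = -1 := Complex.I_sq
      linear_combination (v x 0 * (a x 0 0 * v x 0 + a x 0 1 * v x 1 + a x 0 2 * v x 2)
        + v x 1 * (a x 1 0 * v x 0 + a x 1 1 * v x 1 + a x 1 2 * v x 2)
        + v x 2 * (a x 2 0 * v x 0 + a x 2 1 * v x 1 + a x 2 2 * v x 2)) * hI
    · rw [← tri_self hF3]
      exact h.bbb _ hw _ hw _ hw
    · rw [Submodule.eq_bot_iff]
      rintro w ⟨⟨x, hx⟩, hwB⟩
      change vec e x + vec b (fun i => Complex.I * v x i) = w at hx
      have h1 : vec e x = w - vec b (fun i => Complex.I * v x i) := by rw [← hx]; abel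
      have h2 : vec e x = 0 := h.bot _ (he.vec_mem _) (by
        rw [h1]; exact B.sub_mem hwB (hb.vec_mem _))
      have h3 := he.ind _ h2
      rw [← hx, h2, h3]
      simp [vec, hv]
  · -- the Pfaffian case
    have hli : LinearIndependent ℂ (Sum.elim e b) := by
      rw [Fintype.linearIndependent_iff]
      intro g hg
      rw [Fintype.sum_sum_type] at hg
      simp only [Sum.elim_inl, Sum.elim_inr, Fin.sum_univ_three] at hg
      have h1 : vec e (fun i => g (Sum.inl i)) = vec b (fun i => - g (Sum.inr i)) := by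
        simp only [vec]
        rw [← sub_eq_zero]
        rw [← hg]; module
      have h2 : vec e (fun i => g (Sum.inl i)) = 0 := h.bot _ (he.vec_mem _) (by
        rw [h1]; exact hb.vec_mem _)
      have h3 := he.ind _ h2
      rw [h2] at h1
      have h4 := hb.ind _ h1.symm
      rintro (i | i)
      · exact congrFun h3 i
      · have := congrFun h4 i
        simpa using this
    let bas : Module.Basis (Fin 3 ⊕ Fin 3) ℂ (Fin 6 → ℂ) :=
      basisOfLinearIndependentOfCardEqFinrank hli (by simp)
    have hbas : ∀ i, bas i = Sum.elim e b i := fun i => by simp [bas]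
    refine rational_pf hF bas (fun k i j => r * M k i j + sk (fun l => c l k) i j)
      (inv_ne_zero hr) ?_ ?_
    · intro w
      set x : Fin 3 → ℂ := fun i => bas.coord (Sum.inl i) w with hx
      set y : Fin 3 → ℂ := fun i => bas.coord (Sum.inr i) w with hy
      have hw : w = vec e x + vec b y := by
        conv_lhs => rw [← bas.sum_repr w]
        rw [Fintype.sum_sum_type]
        simp only [hbas, Sum.elim_inl, Sum.elim_inr, Fin.sum_univ_three, vec, hx, hy,
          Module.Basis.coord_apply]
      have hN : ∀ i j, Nx (fun k i j => r * M k i j + sk (fun l => c l k) i j) x i j =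
          r * a x i j + sk (v x) i j := by
        intro i j
        have hs : x 0 * sk (fun l => c l 0) i j + x 1 * sk (fun l => c l 1) i j
            + x 2 * sk (fun l => c l 2) i j = sk (v x) i j := by
          fin_cases i <;> fin_cases j <;> simp [sk, hv] <;> ring
        rw [← hs]
        simp only [Nx, ha]
        ring
      have hN' : Nx (fun k i j => r * M k i j + sk (fun l => c l k) i j) x =
          fun i j => r * a x i j + sk (v x) i j := funext fun i => funext fun j => hN i j
      rw [hN', pf_skew (ha_s x)]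
      conv_lhs => rw [hw]
      rw [hFxy]
      field_simp
    · intro p hp
      obtain ⟨k, hk⟩ := hMb p hp
      refine ⟨k, fun h0 => hk ?_⟩
      have h1 : dt p (mv ((fun i j => r * M k i j + sk (fun l => c l k) i j)) p) =
          r * (p ⬝ᵥ (M k).mulVec p) := by
        simp [dt, mv, sk, dotProduct, Matrix.mulVec, Fin.sum_univ_three]
        ring
      rw [h1] at h0
      exact (mul_eq_zero.mp h0).resolve_left hr

end Vale.Agent.P287.H674.Pf
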