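import Vale.Agent.P287.H674.Thm

/-!
Projective involutions of a cubic fourfold and their normalised lifts.
-/

namespace Vale.Agent.P287.H674

open MvPolynomial

/-- Two linear automorphisms of `ℂ⁶` induce the same automorphism of `P^5`. -/
def ProjEq (g h : (Fin 6 → ℂ) ≃ₗ[ℂ] (Fin 6 → ℂ)) : Prop :=
  ∃ κ : ℂ, ∀ v, g v = κ • h v

/-- The linear automorphism `g` of `ℂ⁶` induces an automorphism of `V(F)` of order two. -/
def Involution (F : MvPolynomial (Fin 6) ℂ) (g : (Fin 6 → ℂ) ≃ₗ[ℂ] (Fin 6 → ℂ)) : Prop :=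
  (∃ c : ℂ, ∀ v, eval (g v) F = c * eval v F) ∧ ProjEq (g * g) 1 ∧ ¬ ProjEq g 1

/-- The linear automorphism `g` of `ℂ⁶` with `F ∘ g = c F` induces an antisymplectic
automorphism of `V(F)`: it acts on `H^{3,1}`, spanned by the residue of `Ω / F²`, as
multiplication by `det g / c² = -1`. -/
def Antisymplectic (F : MvPolynomial (Fin 6) ℂ) (g : (Fin 6 → ℂ) ≃ₗ[ℂ] (Fin 6 → ℂ)) : Prop :=
  ∃ c : ℂ, (∀ v, eval (g v) F = c * eval v F) ∧
    LinearMap.det (g : (Fin 6 → ℂ) →ₗ[ℂ] (Fin 6 → ℂ)) = - c ^ 2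

theorem exists_eval_ne {F : MvPolynomial (Fin 6) ℂ} (hF : SmoothCubic F) :
    ∃ v, eval v F ≠ 0 := by
  by_contra hcon
  push Not at hcon
  have h0 : F = 0 := MvPolynomial.funext fun v => by rw [hcon v, map_zero]
  obtain ⟨i, hi⟩ := hF.2 (fun _ => 1) (fun h => one_ne_zero (congrFun h 0))
  apply hi
  rw [h0, map_zero, map_zero]

theorem eval_smul {F : MvPolynomial (Fin 6) ℂ} (hF : F.IsHomogeneous 3) (r : ℂ)
    (v : Fin 6 → ℂ) : eval (r • v) F = r ^ 3 * eval v F := by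
  rw [← tri_self hF, ← tri_self hF]
  simp only [map_smul, LinearMap.smul_apply, smul_eq_mul]
  ring

/-- the normalised lift of a projective involution -/
theorem exists_lift {F : MvPolynomial (Fin 6) ℂ} (hF : SmoothCubic F)
    {g : (Fin 6 → ℂ) ≃ₗ[ℂ] (Fin 6 → ℂ)} (hg : Involution F g) :
    ∃ μ : ℂ, μ ≠ 0 ∧ (∀ v, (μ • (g : (Fin 6 → ℂ) →ₗ[ℂ] (Fin 6 → ℂ)))
        ((μ • (g : (Fin 6 → ℂ) →ₗ[ℂ] (Fin 6 → ℂ))) v) = v) ∧
      (∀ v, eval ((μ • (g : (Fin 6 → ℂ) →ₗ[ℂ] (Fin 6 → ℂ))) v) F = eval v F) ∧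
      (Antisymplectic F g →
        LinearMap.det (μ • (g : (Fin 6 → ℂ) →ₗ[ℂ] (Fin 6 → ℂ))) = -1) := by
  obtain ⟨⟨c, hc⟩, ⟨l, hl⟩, -⟩ := hg
  obtain ⟨v0, hv0⟩ := exists_eval_ne hF
  have hl' : ∀ v, g (g v) = l • v := fun v => hl v
  have hv0' : v0 ≠ 0 := by
    rintro rfl
    apply hv0
    have := eval_smul hF.1 0 0
    simpa using this
  have hl0 : l ≠ 0 := by
    rintro rfl
    have := hl' v0
    rw [zero_smul] at this
    have h1 : g v0 = 0 := g.injective (by rw [this, map_zero])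
    exact hv0' (g.injective (by rw [h1, map_zero]))
  have hcl : c ^ 2 = l ^ 3 := by
    have h1 := hc (g v0)
    rw [hl', eval_smul hF.1, hc] at h1
    apply mul_right_cancel₀ hv0
    linear_combination -h1
  have hc0 : c ≠ 0 := by
    rintro rfl
    apply hl0
    have : l ^ 3 = 0 := by rw [← hcl]; ring
    exact pow_eq_zero_iff three_ne_zero |>.mp this
  refine ⟨c / l ^ 2, div_ne_zero hc0 (pow_ne_zero 2 hl0), ?_, ?_, ?_⟩
  · intro v
    simp only [LinearMap.smul_apply, LinearEquiv.coe_coe, map_smul, hl', smul_smul]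
    have : c / l ^ 2 * (c / l ^ 2) * l = 1 := by
      field_simp
      linear_combination hcl
    rw [← mul_assoc, this, one_smul]
  · intro v
    simp only [LinearMap.smul_apply, LinearEquiv.coe_coe]
    rw [eval_smul hF.1, hc]
    have : (c / l ^ 2) ^ 3 * c = 1 := by
      field_simp
      linear_combination (c ^ 2 + l ^ 3) * hcl
    rw [← mul_assoc, this, one_mul]
  · rintro ⟨c', hc', hdet⟩
    have hcc : c' = c := by
      apply mul_right_cancel₀ hv0
      rw [← hc', ← hc]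
    rw [LinearMap.det_smul, hdet, hcc]
    simp only [Module.finrank_fintype_fun_eq_card, Fintype.card_fin]
    field_simp
    linear_combination (-(c ^ 6) - c ^ 4 * l ^ 3 - c ^ 2 * l ^ 6 - l ^ 9) * hcl

/-- Two distinct commuting involutions of a smooth cubic fourfold, one of them
antisymplectic, force two disjoint planes. -/
theorem klein_proj {F : MvPolynomial (Fin 6) ℂ} (hF : SmoothCubic F)
    {σ τ : (Fin 6 → ℂ) ≃ₗ[ℂ] (Fin 6 → ℂ)} (hσ : Involution F σ) (hτ : Involution F τ)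
    (ha : Antisymplectic F σ) (hne : ¬ ProjEq σ τ) (hc : ProjEq (σ * τ) (τ * σ)) :
    TwoDisjointPlanes F := by
  obtain ⟨μ, hμ0, a1, a2, a3⟩ := exists_lift hF hσ
  obtain ⟨ν, hν0, b1, b2, -⟩ := exists_lift hF hτ
  obtain ⟨v0, hv0⟩ := exists_eval_ne hF
  have hv0' : v0 ≠ 0 := by
    rintro rfl
    apply hv0
    have := eval_smul hF.1 0 0
    simpa using this
  obtain ⟨κ, hκ⟩ := hc
  have hκ' : ∀ v, σ (τ v) = κ • τ (σ v) := fun v => hκ v
  set s := μ • (σ : (Fin 6 → ℂ) →ₗ[ℂ] (Fin 6 → ℂ)) with hs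
  set t := ν • (τ : (Fin 6 → ℂ) →ₗ[ℂ] (Fin 6 → ℂ)) with ht
  have hst : ∀ v, s (t v) = κ • t (s v) := by
    intro v
    simp only [hs, ht, LinearMap.smul_apply, LinearEquiv.coe_coe, map_smul, hκ', smul_smul]
    congr 1
    ring
  have k3 : κ ^ 3 = 1 := by
    have h1 := a2 (t v0)
    rw [hst, eval_smul hF.1, b2, b2, a2] at h1
    apply mul_right_cancel₀ hv0
    rw [h1, one_mul]
  have k2 : κ ^ 2 = 1 := by
    have h1 : s (t (s (s (t (s v0))))) = v0 := by rw [a1, b1, a1]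
    rw [hst (s (s (t (s v0)))), a1, hst, a1, map_smul, smul_smul, b1] at h1
    have h2 : (κ * κ - 1) • v0 = 0 := by rw [sub_smul, h1, one_smul, sub_self]
    rcases smul_eq_zero.mp h2 with h3 | h3
    · linear_combination h3
    · exact absurd h3 hv0'
  have k1 : κ = 1 := by linear_combination k3 - κ * k2
  apply twoPlanes_of hF.1
  refine klein hF (σ := s) (τ := t) a1 b1 (fun v => by rw [hst, k1, one_smul]) a2 b2 (a3 ha) ?_ ?_
  · by_contra hcon
    push Not at hcon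
    apply hτ.2.2
    refine ⟨ν⁻¹, fun v => ?_⟩
    have h1 := hcon v
    rw [ht, LinearMap.smul_apply, LinearEquiv.coe_coe] at h1
    change τ v = ν⁻¹ • v
    rw [← h1, smul_smul, h1, inv_mul_cancel₀ hν0, one_smul]
  · by_contra hcon
    push Not at hcon
    apply hne
    refine ⟨μ⁻¹ * ν, fun v => ?_⟩
    have h1 := hcon v
    rw [ht, hs, LinearMap.smul_apply, LinearMap.smul_apply, LinearEquiv.coe_coe,
      LinearEquiv.coe_coe] at h1
    rw [mul_smul, h1, smul_smul, inv_mul_cancel₀ hμ0, one_smul]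

end Vale.Agent.P287.H674
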