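import Vale.Agent.P287.H674.Odd5
import Vale.Agent.P287.H674.Proj
import Vale.Agent.P287.H673.FinOrd

/-!
An antisymplectic involution and another involution of a smooth cubic fourfold.
-/

namespace Vale.Agent.P287.H674

open MvPolynomial

/-- Two distinct involutions of a smooth cubic fourfold, one of them antisymplectic, force two
disjoint planes. -/
theorem pair_proj {F : MvPolynomial (Fin 6) ℂ} (hF : SmoothCubic F)
    {σ τ : (Fin 6 → ℂ) ≃ₗ[ℂ] (Fin 6 → ℂ)} (hσ : Involution F σ) (hτ : Involution F τ)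
    (ha : Antisymplectic F σ) (hne : ¬ ProjEq σ τ) : TwoDisjointPlanes F := by
  obtain ⟨μ, hμ0, a1, a2, a3⟩ := exists_lift hF hσ
  obtain ⟨ν, hν0, b1, b2, -⟩ := exists_lift hF hτ
  set s := μ • (σ : (Fin 6 → ℂ) →ₗ[ℂ] (Fin 6 → ℂ)) with hs
  set t := ν • (τ : (Fin 6 → ℂ) →ₗ[ℂ] (Fin 6 → ℂ)) with ht
  apply twoPlanes_of hF.1
  have hS : Sm (tri F) := ⟨tri_comm1 F, tri_comm2 F, fun v hv => smooth_tri hF hv⟩
  have hsT := tri_inv hF.1 a2
  have htT := tri_inv hF.1 b2
  refine absL hS (by simp) (σ := s) (τ := t) a1 b1 hsT htT (a3 ha) ?_ ?_ ?_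
  · by_contra hcon
    push Not at hcon
    apply hτ.2.2
    refine ⟨ν⁻¹, fun v => ?_⟩
    have h1 := hcon v
    rw [ht, LinearMap.smul_apply, LinearEquiv.coe_coe] at h1
    change τ v = ν⁻¹ • v
    rw [← h1, smul_smul, h1, inv_mul_cancel₀ hν0, one_smul]
  · by_contra hcon
    push Not at hcon
    apply hne
    refine ⟨μ⁻¹ * ν, fun v => ?_⟩
    have h1 := hcon v
    rw [ht, hs, LinearMap.smul_apply, LinearMap.smul_apply, LinearEquiv.coe_coe,
      LinearEquiv.coe_coe] at h1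
    rw [mul_smul, h1, smul_smul, inv_mul_cancel₀ hμ0, one_smul]
  · apply Vale.Agent.P287.H673.FinOrd.finite_order hS.smooth
    intro x y z
    rw [Module.End.mul_apply, Module.End.mul_apply, Module.End.mul_apply, hsT, htT]

end Vale.Agent.P287.H674
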