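import Vale.Agent.P287.H674.Sy3
import Vale.Agent.P287.H674.Pf5
import Vale.Agent.P287.H674.ThmL
import Vale.Agent.P287.H402.Q1

/-!
Involutions of smooth cubic fourfolds and rationality.
-/

namespace Vale.Agent.P287.H674

open MvPolynomial

/-- Theorem Q -/
theorem rational_anti3 {F : MvPolynomial (Fin 6) ℂ} (hF : SmoothCubic F)
    {s : (Fin 6 → ℂ) →ₗ[ℂ] (Fin 6 → ℂ)} (hs : ∀ v, s (s v) = v)
    (hsF : ∀ v, eval (s v) F = eval v F)
    (h3 : Module.finrank ℂ (LinearMap.ker (s + LinearMap.id)) = 3) : RationalHypersurface F :=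
  Pf.rational_phi hF (phi_of_inv ⟨tri_comm1 F, tri_comm2 F, fun v hv => smooth_tri hF hv⟩
    (by simp) hs (tri_inv hF.1 hsF) h3) Vale.Agent.P287.H402.exists_pfaffian_form

/-- Theorem R, linear form -/
theorem rational_moved {F : MvPolynomial (Fin 6) ℂ} (hF : SmoothCubic F)
    {s : (Fin 6 → ℂ) →ₗ[ℂ] (Fin 6 → ℂ)} (hs : ∀ v, s (s v) = v)
    (hsF : ∀ v, eval (s v) F = eval v F) {W : Submodule ℂ (Fin 6 → ℂ)} (hW : PlaneIn F W)
    {w : Fin 6 → ℂ} (hw : w ∈ W) (hsw : s w ∉ W) : RationalHypersurface F := by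
  have hS : Sm (tri F) := ⟨tri_comm1 F, tri_comm2 F, fun v hv => smooth_tri hF hv⟩
  have hsT := tri_inv hF.1 hsF
  have hV : Module.finrank ℂ (Fin 6 → ℂ) = 6 := by simp
  have mem : ∀ v, v ∈ LinearMap.ker (s + LinearMap.id) ↔ s v = - v := by
    intro v
    rw [LinearMap.mem_ker, LinearMap.add_apply, LinearMap.id_apply, add_eq_zero_iff_eq_neg]
  have iso : ∀ w, s w = - w → tri F w w w = 0 := by
    intro w hw
    have h1 := hsT w w w
    rw [hw] at h1
    simp only [map_neg, LinearMap.neg_apply, neg_neg] at h1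
    have : 2 * tri F w w w = 0 := by linear_combination -h1
    simpa using this
  have hle : Module.finrank ℂ (LinearMap.ker (s + LinearMap.id)) ≤ 3 :=
    isotropic_le hV hS.s1 hS.s2 hS.smooth fun w hw => iso w ((mem w).mp hw)
  have hdif : w - s w ∈ LinearMap.ker (s + LinearMap.id) := by
    rw [mem, map_sub, hs]; abel
  have hne : w - s w ≠ 0 := by
    intro h0
    apply hsw
    rw [← sub_eq_zero.mp h0]; exact hw
  rcases Nat.lt_or_ge 3 (Module.finrank ℂ (LinearMap.ker (s + LinearMap.id))) with h4 | h4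
  · omega
  have hcases : Module.finrank ℂ (LinearMap.ker (s + LinearMap.id)) = 0 ∨
      Module.finrank ℂ (LinearMap.ker (s + LinearMap.id)) = 1 ∨
      Module.finrank ℂ (LinearMap.ker (s + LinearMap.id)) = 2 ∨
      Module.finrank ℂ (LinearMap.ker (s + LinearMap.id)) = 3 := by omega
  rcases hcases with h0 | h1 | h2 | h3
  · exfalso
    have h5 := Submodule.finrank_eq_zero.mp h0
    rw [h5] at hdif
    exact hne ((Submodule.mem_bot ℂ).mp hdif)
  · -- a reflection
    obtain ⟨e, he⟩ := exists_IsB1 h1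
    obtain ⟨c, hc⟩ := he.span _ hdif
    have hc0 : c ≠ 0 := by
      rintro rfl
      rw [zero_smul] at hc
      exact hne hc
    have heW : e ∉ W := by
      intro h5
      apply hsw
      have : s w = w - c • e := by rw [← hc]; abel
      rw [this]
      exact W.sub_mem hw (W.smul_mem _ h5)
    have hE : Eck (tri F) e (LinearMap.ker (s - LinearMap.id)) :=
      eck_reflection hS hs hsT he.ne ((mem e).mp he.he) (fun v hv => he.span v ((mem v).mpr hv))
    exact rational_of_two_planes hF (twoPlanes_of hF.1 (hE.twoPl_of_plane hV hW.1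
      (fun w hw => by rw [tri_self hF.1]; exact hW.2 w hw) heW))
  · exact rational_symp hF hs hsF h2 hW hw hsw
  · exact rational_anti3 hF hs hsF h3

/-- Theorem R -/
theorem rational_of_moved_plane {F : MvPolynomial (Fin 6) ℂ} (hF : SmoothCubic F)
    {g : (Fin 6 → ℂ) ≃ₗ[ℂ] (Fin 6 → ℂ)} (hg : Involution F g) {W : Submodule ℂ (Fin 6 → ℂ)}
    (hW : PlaneIn F W) (hgW : W.map (g : (Fin 6 → ℂ) →ₗ[ℂ] (Fin 6 → ℂ)) ≠ W) :
    RationalHypersurface F := by
  obtain ⟨μ, hμ0, a1, a2, -⟩ := exists_lift hF hg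
  obtain ⟨w, hw, hgw⟩ : ∃ w ∈ W, g w ∉ W := by
    by_contra hcon
    push Not at hcon
    apply hgW
    apply Submodule.eq_of_le_of_finrank_eq
    · rintro _ ⟨w, hw, rfl⟩
      exact hcon w hw
    · exact LinearEquiv.finrank_map_eq g W
  refine rational_moved hF a1 a2 hW hw fun h => hgw ?_
  rw [LinearMap.smul_apply, LinearEquiv.coe_coe] at h
  have h2 := W.smul_mem μ⁻¹ h
  rwa [smul_smul, inv_mul_cancel₀ hμ0, one_smul] at h2

theorem Eck.point {F : MvPolynomial (Fin 6) ℂ} (hF : SmoothCubic F) {e : Fin 6 → ℂ}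
    {U : Submodule ℂ (Fin 6 → ℂ)} (h : Eck (tri F) e U) : EckardtPoint F e := by
  refine ⟨h.ne, by rw [← tri_self hF.1]; exact h.eee, fun v hv s => ?_⟩
  rw [sum_pderiv hF.1] at hv
  have hv' : tri F e e v = 0 := (mul_eq_zero.mp hv).resolve_left (by norm_num)
  obtain ⟨x, hx, c, rfl⟩ := h.span v
  rw [map_add, map_smul, h.eee, smul_zero, add_zero] at hv'
  have key : ∀ t : ℂ, tri F (x + t • e) (x + t • e) (x + t • e) = tri F x x x := by
    intro t
    have e1 : tri F x x e = 0 := h.uue x hx x hx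
    have e2 : tri F x e x = 0 := by rw [h.s2]; exact e1
    have e3 : tri F e x x = 0 := by rw [h.s1]; exact e2
    have e4 : tri F e x e = 0 := by rw [h.s2]; exact hv'
    have e5 : tri F x e e = 0 := by rw [h.s1]; exact e4
    simp only [map_add, map_smul, LinearMap.add_apply, LinearMap.smul_apply, smul_eq_mul, e1, e2,
      e3, e4, e5, hv', h.eee]
    ring
  rw [← tri_self hF.1, ← tri_self hF.1, key c, add_assoc, ← add_smul, key]

/-- an antisymplectic involution: the cubic is rational, or the involution is the reflection in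
an Eckardt point, it is the only involution, and all planes contain the Eckardt point -/
theorem rational_of_anti {F : MvPolynomial (Fin 6) ℂ} (hF : SmoothCubic F)
    {g : (Fin 6 → ℂ) ≃ₗ[ℂ] (Fin 6 → ℂ)} (hg : Involution F g) (ha : Antisymplectic F g) :
    RationalHypersurface F ∨ ∃ e, EckardtPoint F e ∧
      (∀ h : (Fin 6 → ℂ) ≃ₗ[ℂ] (Fin 6 → ℂ), Involution F h → ProjEq g h) ∧
      ∀ W, PlaneIn F W → e ∈ W := by
  by_cases hpair : ∀ h : (Fin 6 → ℂ) ≃ₗ[ℂ] (Fin 6 → ℂ), Involution F h → ProjEq g h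
  swap
  · left
    push Not at hpair
    obtain ⟨h, hh, hne⟩ := hpair
    exact rational_of_two_planes hF (pair_proj hF hg hh ha hne)
  obtain ⟨μ, hμ0, a1, a2, a3⟩ := exists_lift hF hg
  set s := μ • (g : (Fin 6 → ℂ) →ₗ[ℂ] (Fin 6 → ℂ)) with hsdef
  have hS : Sm (tri F) := ⟨tri_comm1 F, tri_comm2 F, fun v hv => smooth_tri hF hv⟩
  have hsT := tri_inv hF.1 a2
  have hV : Module.finrank ℂ (Fin 6 → ℂ) = 6 := by simp
  have mem : ∀ v, v ∈ LinearMap.ker (s + LinearMap.id) ↔ s v = - v := by
    intro v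
    rw [LinearMap.mem_ker, LinearMap.add_apply, LinearMap.id_apply, add_eq_zero_iff_eq_neg]
  have iso : ∀ w, s w = - w → tri F w w w = 0 := by
    intro w hw
    have h1 := hsT w w w
    rw [hw] at h1
    simp only [map_neg, LinearMap.neg_apply, neg_neg] at h1
    have : 2 * tri F w w w = 0 := by linear_combination -h1
    simpa using this
  have hle : Module.finrank ℂ (LinearMap.ker (s + LinearMap.id)) ≤ 3 :=
    isotropic_le hV hS.s1 hS.s2 hS.smooth fun w hw => iso w ((mem w).mp hw)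
  have hdet := det_inv hS a1 hsT
  rw [a3 ha] at hdet
  have hd : Module.finrank ℂ (LinearMap.ker (s + LinearMap.id)) = 1 ∨
      Module.finrank ℂ (LinearMap.ker (s + LinearMap.id)) = 3 := by
    generalize Module.finrank ℂ (LinearMap.ker (s + LinearMap.id)) = d at *
    interval_cases d
    · norm_num at hdet
    · exact Or.inl rfl
    · norm_num at hdet
    · exact Or.inr rfl
  rcases hd with hd | hd
  · obtain ⟨e, he⟩ := exists_IsB1 hd
    have hEck : Eck (tri F) e (LinearMap.ker (s - LinearMap.id)) :=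
      eck_reflection hS a1 hsT he.ne ((mem e).mp he.he) (fun v hv => he.span v ((mem v).mpr hv))
    have hE := hEck.point hF
    by_cases hpl : ∀ W, PlaneIn F W → e ∈ W
    · exact Or.inr ⟨e, hE, hpair, hpl⟩
    · left
      push Not at hpl
      obtain ⟨W, hW, heW⟩ := hpl
      exact rational_of_two_planes hF (eckardt_plane hF hE hW heW)
  · exact Or.inl (rational_anti3 hF a1 a2 hd)

end Vale.Agent.P287.H674
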