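import Vale.Agent.P287.H674.Ratl

/-!
Trilinear forms with a grading by the Klein four-group.
-/

namespace Vale.Agent.P287.H674

variable {V : Type*} [AddCommGroup V] [Module ℂ V]

/-- a smooth symmetric trilinear form graded by the Klein four-group -/
structure Kl (T : V →ₗ[ℂ] V →ₗ[ℂ] V →ₗ[ℂ] ℂ) (S : Fin 4 → Submodule ℂ V) : Prop where
  s1 : ∀ x y z, T x y z = T y x z
  s2 : ∀ x y z, T x y z = T x z y
  smooth : ∀ v, v ≠ 0 → ∃ w, T v v w ≠ 0
  grad : ∀ i j k : Fin 4, i ^^^ j ^^^ k ≠ 0 → ∀ x ∈ S i, ∀ y ∈ S j, ∀ z ∈ S k, T x y z = 0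
  ind : ∀ x ∈ S 0, ∀ y ∈ S 1, ∀ z ∈ S 2, ∀ w ∈ S 3, x + y + z + w = 0 →
    x = 0 ∧ y = 0 ∧ z = 0 ∧ w = 0
  span : ∀ v, ∃ x ∈ S 0, ∃ y ∈ S 1, ∃ z ∈ S 2, ∃ w ∈ S 3, v = x + y + z + w

namespace Kl

variable {T : V →ₗ[ℂ] V →ₗ[ℂ] V →ₗ[ℂ] ℂ} {S : Fin 4 → Submodule ℂ V}

theorem exA (h : Kl T S) {x y z w x0 : V} (hx : x ∈ S 0) (hy : y ∈ S 1) (hz : z ∈ S 2)
    (hw : w ∈ S 3) (h0 : x0 ∈ S 0) : T (x + y + z + w) (x + y + z + w) x0 =
      T x x x0 + T y y x0 + T z z x0 + T w w x0 := by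
  simp only [map_add, LinearMap.add_apply]
  rw [h.grad 0 1 0 (by decide) x hx y hy x0 h0, h.grad 0 2 0 (by decide) x hx z hz x0 h0,
    h.grad 0 3 0 (by decide) x hx w hw x0 h0, h.grad 1 0 0 (by decide) y hy x hx x0 h0,
    h.grad 1 2 0 (by decide) y hy z hz x0 h0, h.grad 1 3 0 (by decide) y hy w hw x0 h0,
    h.grad 2 0 0 (by decide) z hz x hx x0 h0, h.grad 2 1 0 (by decide) z hz y hy x0 h0,
    h.grad 2 3 0 (by decide) z hz w hw x0 h0, h.grad 3 0 0 (by decide) w hw x hx x0 h0,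
    h.grad 3 1 0 (by decide) w hw y hy x0 h0, h.grad 3 2 0 (by decide) w hw z hz x0 h0]
  ring

theorem exB (h : Kl T S) {x y z w x0 : V} (hx : x ∈ S 0) (hy : y ∈ S 1) (hz : z ∈ S 2)
    (hw : w ∈ S 3) (h0 : x0 ∈ S 1) : T (x + y + z + w) (x + y + z + w) x0 =
      2 * T x y x0 + 2 * T x0 z w := by
  simp only [map_add, LinearMap.add_apply]
  have e1 : T y x x0 = T x y x0 := h.s1 _ _ _
  have e2 : T z w x0 = T x0 z w := by rw [h.s2, h.s1]
  have e3 : T w z x0 = T x0 z w := by rw [h.s1, e2]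
  rw [h.grad 0 0 1 (by decide) x hx x hx x0 h0, h.grad 0 2 1 (by decide) x hx z hz x0 h0,
    h.grad 0 3 1 (by decide) x hx w hw x0 h0, h.grad 1 1 1 (by decide) y hy y hy x0 h0,
    h.grad 1 2 1 (by decide) y hy z hz x0 h0, h.grad 1 3 1 (by decide) y hy w hw x0 h0,
    h.grad 2 0 1 (by decide) z hz x hx x0 h0, h.grad 2 1 1 (by decide) z hz y hy x0 h0,
    h.grad 2 2 1 (by decide) z hz z hz x0 h0, h.grad 3 0 1 (by decide) w hw x hx x0 h0,
    h.grad 3 1 1 (by decide) w hw y hy x0 h0, h.grad 3 3 1 (by decide) w hw w hw x0 h0,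
    e1, e2, e3]
  ring

/-- permuting the nontrivial characters -/
theorem swap12 (h : Kl T S) : Kl T ![S 0, S 2, S 1, S 3] where
  s1 := h.s1
  s2 := h.s2
  smooth := h.smooth
  grad := by
    intro i j k hijk x hx y hy z hz
    fin_cases i <;> fin_cases j <;> fin_cases k <;>
      first
      | exact absurd hijk (by decide)
      | exact h.grad _ _ _ (by decide) x hx y hy z hz
  ind := by
    intro x hx y hy z hz w hw e
    have := h.ind x hx z hz y hy w hw (by rw [← e]; abel)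
    exact ⟨this.1, this.2.2.1, this.2.1, this.2.2.2⟩
  span := by
    intro v
    obtain ⟨x, hx, y, hy, z, hz, w, hw, e⟩ := h.span v
    exact ⟨x, hx, z, hz, y, hy, w, hw, by rw [e]; abel⟩

theorem swap23 (h : Kl T S) : Kl T ![S 0, S 1, S 3, S 2] where
  s1 := h.s1
  s2 := h.s2
  smooth := h.smooth
  grad := by
    intro i j k hijk x hx y hy z hz
    fin_cases i <;> fin_cases j <;> fin_cases k <;>
      first
      | exact absurd hijk (by decide)
      | exact h.grad _ _ _ (by decide) x hx y hy z hz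
  ind := by
    intro x hx y hy z hz w hw e
    have := h.ind x hx y hy w hw z hz (by rw [← e]; abel)
    exact ⟨this.1, this.2.1, this.2.2.2, this.2.2.1⟩
  span := by
    intro v
    obtain ⟨x, hx, y, hy, z, hz, w, hw, e⟩ := h.span v
    exact ⟨x, hx, y, hy, w, hw, z, hz, by rw [e]; abel⟩

theorem exC (h : Kl T S) {x y z w x0 : V} (hx : x ∈ S 0) (hy : y ∈ S 1) (hz : z ∈ S 2)
    (hw : w ∈ S 3) (h0 : x0 ∈ S 2) : T (x + y + z + w) (x + y + z + w) x0 =
      2 * T x z x0 + 2 * T x0 y w := by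
  have := h.swap12.exB (x := x) (y := z) (z := y) (w := w) (x0 := x0) hx hz hy hw h0
  rw [← this]
  have e : x + z + y + w = x + y + z + w := by abel
  rw [e]

theorem exD (h : Kl T S) {x y z w x0 : V} (hx : x ∈ S 0) (hy : y ∈ S 1) (hz : z ∈ S 2)
    (hw : w ∈ S 3) (h0 : x0 ∈ S 3) : T (x + y + z + w) (x + y + z + w) x0 =
      2 * T x w x0 + 2 * T x0 y z := by
  have := h.swap23.exC (x := x) (y := y) (z := w) (w := z) (x0 := x0) hx hy hw hz h0
  rw [← this]
  have e : x + y + w + z = x + y + z + w := by abel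
  rw [e]

/-- the cubic form in graded coordinates -/
theorem exF (h : Kl T S) {x y z w : V} (hx : x ∈ S 0) (hy : y ∈ S 1) (hz : z ∈ S 2)
    (hw : w ∈ S 3) : T (x + y + z + w) (x + y + z + w) (x + y + z + w) =
      T x x x + 3 * T x y y + 3 * T x z z + 3 * T x w w + 6 * T y z w := by
  have eA := h.exA hx hy hz hw hx
  have eB := h.exB hx hy hz hw hy
  have eC := h.exC hx hy hz hw hz
  have eD := h.exD hx hy hz hw hw
  have e1 : T y y x = T x y y := by rw [h.s2, h.s1]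
  have e2 : T z z x = T x z z := by rw [h.s2, h.s1]
  have e3 : T w w x = T x w w := by rw [h.s2, h.s1]
  have e4 : T z y w = T y z w := h.s1 _ _ _
  have e5 : T w y z = T y z w := by rw [h.s1, h.s2]
  rw [e1, e2, e3] at eA
  rw [e4] at eC
  rw [e5] at eD
  generalize hv : x + y + z + w = v at *
  have : T v v v = T v v x + T v v y + T v v z + T v v w := by
    have e6 : T v v v = T v v (x + y + z + w) := by rw [hv]
    rw [e6]
    simp only [map_add]
  rw [this, eA, eB, eC, eD]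
  ring

/-- the singular points in graded coordinates -/
theorem sing (h : Kl T S) {x y z w : V} (hx : x ∈ S 0) (hy : y ∈ S 1) (hz : z ∈ S 2)
    (hw : w ∈ S 3) (e0 : ∀ x0 ∈ S 0, T x x x0 + T y y x0 + T z z x0 + T w w x0 = 0)
    (e1 : ∀ x0 ∈ S 1, T x y x0 + T x0 z w = 0)
    (e2 : ∀ x0 ∈ S 2, T x z x0 + T x0 y w = 0)
    (e3 : ∀ x0 ∈ S 3, T x w x0 + T x0 y z = 0) : x = 0 ∧ y = 0 ∧ z = 0 ∧ w = 0 := by
  apply h.ind x hx y hy z hz w hw
  by_contra hne
  obtain ⟨u, hu⟩ := h.smooth _ hne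
  apply hu
  obtain ⟨a, ha, b, hb, c, hc, d, hd, rfl⟩ := h.span u
  have f0 := h.exA hx hy hz hw ha
  have f1 := h.exB hx hy hz hw hb
  have f2 := h.exC hx hy hz hw hc
  have f3 := h.exD hx hy hz hw hd
  have g0 := e0 a ha
  have g1 := e1 b hb
  have g2 := e2 c hc
  have g3 := e3 d hd
  generalize x + y + z + w = v at *
  rw [map_add, map_add, map_add, f0, f1, f2, f3]
  linear_combination g0 + 2 * g1 + 2 * g2 + 2 * g3

end Kl

end Vale.Agent.P287.H674
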