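import Vale.Agent.P287.H674.Case3

/-!
Linear algebra for the other cases.
-/

namespace Vale.Agent.P287.H674

variable {V : Type*} [AddCommGroup V] [Module ℂ V]

theorem finrank_inf_ker {S : Submodule ℂ V} {n : ℕ} (hS : Module.finrank ℂ S = n + 1)
    (l : V →ₗ[ℂ] ℂ) {x : V} (hx : x ∈ S) (hl : l x ≠ 0) :
    Module.finrank ℂ (S ⊓ LinearMap.ker l : Submodule ℂ V) = n := by
  have hfd : FiniteDimensional ℂ S := Module.finite_of_finrank_eq_succ hS
  have h1 := LinearMap.finrank_range_add_finrank_ker (l.domRestrict S)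
  have h2 : LinearMap.range (l.domRestrict S) = ⊤ := by
    rw [LinearMap.range_eq_top]
    intro c
    refine ⟨(c / l x) • ⟨x, hx⟩, ?_⟩
    simp [hl]
  rw [h2, finrank_top, hS, Module.finrank_self] at h1
  have h3 : Submodule.map S.subtype (LinearMap.ker (l.domRestrict S)) = S ⊓ LinearMap.ker l := by
    ext y
    simp only [Submodule.mem_map, LinearMap.mem_ker, LinearMap.domRestrict_apply,
      Submodule.subtype_apply, Submodule.mem_inf]
    constructor
    · rintro ⟨z, hz, rfl⟩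
      exact ⟨z.2, hz⟩
    · rintro ⟨hy, hz⟩
      exact ⟨⟨y, hy⟩, hz, rfl⟩
  rw [← h3, Submodule.finrank_map_subtype_eq]
  omega

theorem exists_IsB1 {S : Submodule ℂ V} (hS : Module.finrank ℂ S = 1) : ∃ e, IsB1 S e := by
  obtain ⟨v, hv, hv2⟩ := finrank_eq_one_iff'.mp hS
  refine ⟨v, v.2, fun h => hv (Subtype.ext h), fun x hx => ?_⟩
  obtain ⟨c, hc⟩ := hv2 ⟨x, hx⟩
  exact ⟨c, by simpa using (congrArg Subtype.val hc).symm⟩

theorem exists_IsB2 {S : Submodule ℂ V} (hS : Module.finrank ℂ S = 2) : ∃ a b, IsB2 S a b := by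
  have hfin : Module.Finite ℂ S := Module.finite_of_finrank_pos (by omega)
  let B := Module.finBasisOfFinrankEq ℂ S hS
  refine ⟨B 0, B 1, (B 0).2, (B 1).2, ?_, ?_⟩
  · intro s t h
    have h1 : s • B 0 + t • B 1 = 0 := Subtype.ext (by simpa using h)
    have h2 := (Fintype.linearIndependent_iff.mp B.linearIndependent) ![s, t]
      (by simpa [Fin.sum_univ_two] using h1)
    exact ⟨h2 0, h2 1⟩
  · intro x hx
    refine ⟨B.repr ⟨x, hx⟩ 0, B.repr ⟨x, hx⟩ 1, ?_⟩
    have := B.sum_repr ⟨x, hx⟩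
    rw [Fin.sum_univ_two] at this
    exact (congrArg Subtype.val this).symm

/-- three functionals with a common zero on a three-dimensional space are dependent -/
theorem dep3 {S : Submodule ℂ V} (hS : Module.finrank ℂ S = 3) (l : Fin 3 → (V →ₗ[ℂ] ℂ)) {x : V}
    (hx : x ∈ S) (hx0 : x ≠ 0) (hl : ∀ i, l i x = 0) :
    ∃ c : Fin 3 → ℂ, c ≠ 0 ∧ ∀ y ∈ S, c 0 * l 0 y + c 1 * l 1 y + c 2 * l 2 y = 0 := by
  have hfin : Module.Finite ℂ S := Module.finite_of_finrank_pos (by omega)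
  let B := Module.finBasisOfFinrankEq ℂ S hS
  let M : Matrix (Fin 3) (Fin 3) ℂ := fun i j => l i (B j)
  have hrep : ∀ y : S, ∀ i, l i y = ∑ j, M i j * B.repr y j := by
    intro y i
    conv_lhs => rw [← B.sum_repr y]
    simp only [Submodule.coe_sum, Submodule.coe_smul, map_sum, map_smul, smul_eq_mul, M]
    exact Finset.sum_congr rfl fun j _ => mul_comm _ _
  have hM : M.mulVec (B.repr ⟨x, hx⟩) = 0 := by
    funext i
    have := hrep ⟨x, hx⟩ i
    simp only [hl] at this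
    simp only [Matrix.mulVec, dotProduct, Pi.zero_apply]
    exact this.symm
  have hne : (B.repr ⟨x, hx⟩ : Fin 3 → ℂ) ≠ 0 := by
    intro h
    apply hx0
    have : (⟨x, hx⟩ : S) = 0 := by
      apply B.repr.injective
      ext i
      simpa using congrFun h i
    exact congrArg Subtype.val this
  have hdet : M.det = 0 := Matrix.exists_mulVec_eq_zero_iff.mp ⟨_, hne, hM⟩
  obtain ⟨c, hc, hc2⟩ := Matrix.exists_vecMul_eq_zero_iff.mpr hdet
  refine ⟨c, hc, fun y hy => ?_⟩
  have e : ∀ j, c 0 * M 0 j + c 1 * M 1 j + c 2 * M 2 j = 0 := by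
    intro j
    have := congrFun hc2 j
    simpa [Matrix.vecMul, dotProduct, Fin.sum_univ_three] using this
  rw [hrep ⟨y, hy⟩ 0, hrep ⟨y, hy⟩ 1, hrep ⟨y, hy⟩ 2]
  simp only [Fin.sum_univ_three]
  linear_combination (B.repr ⟨y, hy⟩ 0) * e 0 + (B.repr ⟨y, hy⟩ 1) * e 1
    + (B.repr ⟨y, hy⟩ 2) * e 2

variable {T : V →ₗ[ℂ] V →ₗ[ℂ] V →ₗ[ℂ] ℂ}

/-- two roots of a binary cubic form without multiple roots -/
theorem two_roots (s1 : ∀ x y z, T x y z = T y x z) (s2 : ∀ x y z, T x y z = T x z y)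
    {K : Submodule ℂ V} (hK : Module.finrank ℂ K = 2)
    (hs : ∀ r ∈ K, r ≠ 0 → T r r r = 0 → ∃ k ∈ K, T r r k ≠ 0) :
    ∃ r r', IsB2 K r r' ∧ T r r r = 0 ∧ T r' r' r' = 0 ∧ T r r r' ≠ 0 ∧ T r r' r' ≠ 0 := by
  obtain ⟨u, v, huv⟩ := exists_IsB2 hK
  have ne1 : ∀ {a b : V}, IsB2 K a b → a ≠ 0 := by
    intro a b h e
    have := (h.ind 1 0 (by rw [e]; simp)).1
    exact one_ne_zero this
  have hfirst : ∃ r r'', IsB2 K r r'' ∧ T r r r = 0 := by
    by_cases h0 : T u u u = 0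
    · exact ⟨u, v, huv, h0⟩
    · obtain ⟨s, hs⟩ := root3 (3 * T u u v) (3 * T u v v) (T v v v) h0
      refine ⟨s • u + v, u, huv.shift s, ?_⟩
      have c1 : T v u v = T u v v := s1 _ _ _
      have c2 : T v u u = T u u v := by rw [s1, s2]
      have c3 : T u v u = T u u v := s2 _ _ _
      have c4 : T v v u = T u v v := by rw [s2, s1]
      simp only [map_add, map_smul, LinearMap.add_apply, LinearMap.smul_apply, smul_eq_mul,
        c1, c2, c3, c4]
      linear_combination hs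
  have hsimple : ∀ {a b : V}, IsB2 K a b → T a a a = 0 → T a a b ≠ 0 := by
    intro a b h e1 e2
    obtain ⟨k, hk, hk2⟩ := hs a h.ha (ne1 h) e1
    obtain ⟨s, t, rfl⟩ := h.span k hk
    apply hk2
    simp [e1, e2]
  obtain ⟨r, r'', hr, hr0⟩ := hfirst
  obtain ⟨s, hs'⟩ := root2 (3 * T r r'' r'') (T r'' r'' r'')
    (mul_ne_zero three_ne_zero (hsimple hr hr0))
  have hr' : IsB2 K r (s • r + r'') := (hr.shift s).swap
  have hr2 : T (s • r + r'') (s • r + r'') (s • r + r'') = 0 := by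
    have c1 : T r'' r r'' = T r r'' r'' := s1 _ _ _
    have c2 : T r'' r r = T r r r'' := by rw [s1, s2]
    have c3 : T r r'' r = T r r r'' := s2 _ _ _
    have c4 : T r'' r'' r = T r r'' r'' := by rw [s2, s1]
    simp only [map_add, map_smul, LinearMap.add_apply, LinearMap.smul_apply, smul_eq_mul,
      c1, c2, c3, c4]
    linear_combination hs' + s ^ 3 * hr0
  refine ⟨r, s • r + r'', hr', hr0, hr2, hsimple hr' hr0, ?_⟩
  have := hsimple hr'.swap hr2
  have c : T (s • r + r'') (s • r + r'') r = T r (s • r + r'') (s • r + r'') := by rw [s2, s1]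
  rw [← c]; exact this

end Vale.Agent.P287.H674
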