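import Vale.Agent.P287.H674.Iso
import Vale.Agent.P287.H674.Case1
import Vale.Agent.P287.H674.Case2b

/-!
The Klein four-group theorem.
-/

namespace Vale.Agent.P287.H674

variable {V : Type*} [AddCommGroup V] [Module ℂ V]
variable {T : V →ₗ[ℂ] V →ₗ[ℂ] V →ₗ[ℂ] ℂ} {S : Fin 4 → Submodule ℂ V}

theorem Kl.finrank_sum (h : Kl T S) (hV : Module.finrank ℂ V = 6) :
    Module.finrank ℂ (S 0) + Module.finrank ℂ (S 1) + Module.finrank ℂ (S 2)
      + Module.finrank ℂ (S 3) = 6 := by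
  have hfin : Module.Finite ℂ V := Module.finite_of_finrank_pos (by omega)
  let Φ : (S 0 × S 1 × S 2 × S 3) →ₗ[ℂ] V :=
    (S 0).subtype.coprod ((S 1).subtype.coprod ((S 2).subtype.coprod (S 3).subtype))
  have hΦ : ∀ p, Φ p = (p.1 : V) + ((p.2.1 : V) + ((p.2.2.1 : V) + (p.2.2.2 : V))) := fun p => rfl
  have hinj : Function.Injective Φ := by
    rw [injective_iff_map_eq_zero]
    rintro ⟨x, y, z, w⟩ hp
    rw [hΦ] at hp
    have := h.ind x x.2 y y.2 z z.2 w w.2 (by rw [← hp]; abel)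
    obtain ⟨h1, h2, h3, h4⟩ := this
    ext
    · exact h1
    · exact h2
    · exact h3
    · exact h4
  have hsurj : Function.Surjective Φ := by
    intro v
    obtain ⟨x, hx, y, hy, z, hz, w, hw, rfl⟩ := h.span v
    exact ⟨⟨⟨x, hx⟩, ⟨y, hy⟩, ⟨z, hz⟩, ⟨w, hw⟩⟩, by rw [hΦ]; abel⟩
  have e := (LinearEquiv.ofBijective Φ ⟨hinj, hsurj⟩).finrank_eq
  rw [hV, Module.finrank_prod, Module.finrank_prod, Module.finrank_prod] at e
  omega

theorem Kl.pair (h : Kl T S) (hV : Module.finrank ℂ V = 6) :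
    Module.finrank ℂ (S 1) + Module.finrank ℂ (S 2) ≤ 3 := by
  have hfin : Module.Finite ℂ V := Module.finite_of_finrank_pos (by omega)
  have hinf : S 1 ⊓ S 2 = ⊥ := by
    rw [Submodule.eq_bot_iff]
    rintro x ⟨h1, h2⟩
    exact (h.ind 0 (S 0).zero_mem x h1 (-x) ((S 2).neg_mem h2) 0 (S 3).zero_mem (by simp)).2.1
  have h1 := Submodule.finrank_sup_add_finrank_inf_eq (S 1) (S 2)
  rw [hinf, finrank_bot, add_zero] at h1
  rw [← h1]
  refine isotropic_le hV h.s1 h.s2 h.smooth fun w hw => ?_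
  obtain ⟨y, hy, z, hz, rfl⟩ := Submodule.mem_sup.mp hw
  have := h.exF (S 0).zero_mem hy hz (S 3).zero_mem
  rw [zero_add, add_zero] at this
  rw [this]
  simp

theorem eq_zero_of_finrank [Module.Finite ℂ V] {W : Submodule ℂ V} (h : Module.finrank ℂ W = 0) :
    ∀ w ∈ W, w = 0 := by
  rw [Submodule.finrank_eq_zero] at h
  rw [h]
  intro w hw
  exact (Submodule.mem_bot ℂ).mp hw

/-- the theorem for sorted dimensions -/
theorem sorted (h : Kl T S) (hV : Module.finrank ℂ V = 6) (n1 n2 n3 : ℕ)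
    (a1 : Module.finrank ℂ (S 1) = n1) (a2 : Module.finrank ℂ (S 2) = n2)
    (a3 : Module.finrank ℂ (S 3) = n3) (h12 : n2 ≤ n1) (h23 : n3 ≤ n2) (hpos : 0 < n2)
    (hne : ¬ (n1 = 1 ∧ n2 = 1 ∧ n3 = 1)) : TwoPl T := by
  have hfin : Module.Finite ℂ V := Module.finite_of_finrank_pos (by omega)
  have e1 := h.finrank_sum hV
  have e2 := h.pair hV
  have hcases : (n1 = 1 ∧ n2 = 1 ∧ n3 = 0) ∨ (n1 = 2 ∧ n2 = 1 ∧ n3 = 0) ∨
      (n1 = 2 ∧ n2 = 1 ∧ n3 = 1) := by omega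
  rcases hcases with ⟨rfl, rfl, rfl⟩ | ⟨rfl, rfl, rfl⟩ | ⟨rfl, rfl, rfl⟩
  · obtain ⟨e, he⟩ := exists_IsB1 a1
    obtain ⟨g, hg⟩ := exists_IsB1 a2
    exact case1 h (by omega) he hg (eq_zero_of_finrank a3)
  · obtain ⟨m, n, hmn⟩ := exists_IsB2 a1
    obtain ⟨g, hg⟩ := exists_IsB1 a2
    exact case2 h (by omega) hmn hg (eq_zero_of_finrank a3)
  · have a0 : Module.finrank ℂ (S 0) = 2 := by omega
    obtain ⟨a, a', haa⟩ := exists_IsB2 a0
    obtain ⟨m, n, hmn⟩ := exists_IsB2 a1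
    obtain ⟨e, he⟩ := exists_IsB1 a2
    obtain ⟨g, hg⟩ := exists_IsB1 a3
    exact case3 h haa hmn he hg

/-- the theorem for a smooth graded form -/
theorem graded (h : Kl T S) (hV : Module.finrank ℂ V = 6)
    (h1 : 0 < Module.finrank ℂ (S 1) + Module.finrank ℂ (S 2))
    (h2 : 0 < Module.finrank ℂ (S 1) + Module.finrank ℂ (S 3))
    (h3 : 0 < Module.finrank ℂ (S 2) + Module.finrank ℂ (S 3))
    (hne : ¬ (Module.finrank ℂ (S 1) = 1 ∧ Module.finrank ℂ (S 2) = 1 ∧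
      Module.finrank ℂ (S 3) = 1)) : TwoPl T := by
  obtain ⟨n1, a1⟩ : ∃ n, Module.finrank ℂ (S 1) = n := ⟨_, rfl⟩
  obtain ⟨n2, a2⟩ : ∃ n, Module.finrank ℂ (S 2) = n := ⟨_, rfl⟩
  obtain ⟨n3, a3⟩ : ∃ n, Module.finrank ℂ (S 3) = n := ⟨_, rfl⟩
  rw [a1, a2] at h1
  rw [a1, a3] at h2
  rw [a2, a3] at h3
  rw [a1, a2, a3] at hne
  rcases le_total n1 n2 with a | a <;> rcases le_total n2 n3 with b | b <;>
  rcases le_total n1 n3 with c | c
  · exact sorted h.swap12.swap23.swap12 hV n3 n2 n1 a3 a2 a1 b a (by omega) (by omega)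
  · exact sorted h.swap12.swap23.swap12 hV n3 n2 n1 a3 a2 a1 b a (by omega) (by omega)
  · exact sorted h.swap12.swap23 hV n2 n3 n1 a2 a3 a1 b c (by omega) (by omega)
  · exact sorted h.swap12 hV n2 n1 n3 a2 a1 a3 a c (by omega) (by omega)
  · exact sorted h.swap23.swap12 hV n3 n1 n2 a3 a1 a2 c a (by omega) (by omega)
  · exact sorted h.swap23 hV n1 n3 n2 a1 a3 a2 c b (by omega) (by omega)
  · exact sorted h hV n1 n2 n3 a1 a2 a3 a b (by omega) hne
  · exact sorted h hV n1 n2 n3 a1 a2 a3 a b (by omega) hne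

/-- signs of the two involutions on the four eigenspaces -/
def es : Fin 4 → ℤ := ![1, -1, 1, -1]
/-- signs of the second involution -/
def et : Fin 4 → ℤ := ![1, 1, -1, -1]

theorem signs : ∀ i j k : Fin 4, i ^^^ j ^^^ k ≠ 0 →
    es i * es j * es k = -1 ∨ et i * et j * et k = -1 := by decide

/-- the common eigenspaces -/
def eig (σ τ : V →ₗ[ℂ] V) (i : Fin 4) : Submodule ℂ V where
  carrier := {v | σ v = (es i : ℂ) • v ∧ τ v = (et i : ℂ) • v}
  add_mem' := by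
    rintro a b ⟨h1, h2⟩ ⟨h3, h4⟩
    exact ⟨by rw [map_add, h1, h3, smul_add], by rw [map_add, h2, h4, smul_add]⟩
  zero_mem' := ⟨by simp, by simp⟩
  smul_mem' := by
    rintro c a ⟨h1, h2⟩
    exact ⟨by rw [map_smul, h1, smul_comm], by rw [map_smul, h2, smul_comm]⟩

theorem mem_eig {σ τ : V →ₗ[ℂ] V} {i : Fin 4} {v : V} :
    v ∈ eig σ τ i ↔ σ v = (es i : ℂ) • v ∧ τ v = (et i : ℂ) • v := Iff.rfl

theorem kl_of (s1 : ∀ x y z, T x y z = T y x z) (s2 : ∀ x y z, T x y z = T x z y)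
    (hs : ∀ v, v ≠ 0 → ∃ w, T v v w ≠ 0) {σ τ : V →ₗ[ℂ] V} (hσ : ∀ v, σ (σ v) = v)
    (hτ : ∀ v, τ (τ v) = v) (hc : ∀ v, σ (τ v) = τ (σ v))
    (hσT : ∀ x y z, T (σ x) (σ y) (σ z) = T x y z)
    (hτT : ∀ x y z, T (τ x) (τ y) (τ z) = T x y z) : Kl T (eig σ τ) where
  s1 := s1
  s2 := s2
  smooth := hs
  grad := by
    intro i j k hijk x hx y hy z hz
    rw [mem_eig] at hx hy hz
    rcases signs i j k hijk with h | h
    · have h1 := hσT x y z
      rw [hx.1, hy.1, hz.1] at h1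
      simp only [map_smul, LinearMap.smul_apply, smul_eq_mul] at h1
      have h2 : (es i : ℂ) * (es j : ℂ) * (es k : ℂ) = -1 := by exact_mod_cast h
      have h3 : 2 * T x y z = 0 := by linear_combination -h1 + T x y z * h2
      simpa using h3
    · have h1 := hτT x y z
      rw [hx.2, hy.2, hz.2] at h1
      simp only [map_smul, LinearMap.smul_apply, smul_eq_mul] at h1
      have h2 : (et i : ℂ) * (et j : ℂ) * (et k : ℂ) = -1 := by exact_mod_cast h
      have h3 : 2 * T x y z = 0 := by linear_combination -h1 + T x y z * h2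
      simpa using h3
  ind := by
    intro x hx y hy z hz w hw h
    rw [mem_eig] at hx hy hz hw
    simp [es, et] at hx hy hz hw
    have h1 := congrArg σ h
    have h2 := congrArg τ h
    have h3 := congrArg σ h2
    simp only [map_add, map_neg, map_zero, hx.1, hx.2, hy.1, hy.2, hz.1, hz.2, hw.1,
      hw.2] at h1 h2 h3
    have four : (4 : ℂ) ≠ 0 := by norm_num
    refine ⟨?_, ?_, ?_, ?_⟩
    · have : (4 : ℂ) • x = (x + y + z + w) + (x + -y + z + -w) + (x + y + -z + -w)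
          + (x + -y + -z + - -w) := by module
      rw [h, h1, h2, h3] at this
      simpa using this
    · have : (4 : ℂ) • y = (x + y + z + w) - (x + -y + z + -w) + (x + y + -z + -w)
          - (x + -y + -z + - -w) := by module
      rw [h, h1, h2, h3] at this
      simpa using this
    · have : (4 : ℂ) • z = (x + y + z + w) + (x + -y + z + -w) - (x + y + -z + -w)
          - (x + -y + -z + - -w) := by module
      rw [h, h1, h2, h3] at this
      simpa using this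
    · have : (4 : ℂ) • w = (x + y + z + w) - (x + -y + z + -w) - (x + y + -z + -w)
          + (x + -y + -z + - -w) := by module
      rw [h, h1, h2, h3] at this
      simpa using this
  span := by
    intro v
    refine ⟨(1 / 4 : ℂ) • (v + σ v + τ v + σ (τ v)), ?_,
      (1 / 4 : ℂ) • (v - σ v + τ v - σ (τ v)), ?_,
      (1 / 4 : ℂ) • (v + σ v - τ v - σ (τ v)), ?_,
      (1 / 4 : ℂ) • (v - σ v - τ v + σ (τ v)), ?_, by module⟩
    all_goals
      rw [mem_eig]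
      simp only [es, et, map_smul, map_add, map_sub, hσ, hτ, ← hc, Matrix.cons_val_zero,
        Matrix.cons_val_one, Matrix.cons_val, Int.cast_one, Int.cast_neg]
      constructor <;> module

theorem det_eig [Module.Finite ℂ V] {σ τ : V →ₗ[ℂ] V} (h : Kl T (eig σ τ)) :
    LinearMap.det σ =
      (-1) ^ (Module.finrank ℂ (eig σ τ 1) + Module.finrank ℂ (eig σ τ 3)) := by
  let Φ : (eig σ τ 0 × eig σ τ 1 × eig σ τ 2 × eig σ τ 3) →ₗ[ℂ] V :=
    (eig σ τ 0).subtype.coprod ((eig σ τ 1).subtype.coprod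
      ((eig σ τ 2).subtype.coprod (eig σ τ 3).subtype))
  have hΦ : ∀ p, Φ p = (p.1 : V) + ((p.2.1 : V) + ((p.2.2.1 : V) + (p.2.2.2 : V))) := fun p => rfl
  have hinj : Function.Injective Φ := by
    rw [injective_iff_map_eq_zero]
    rintro ⟨x, y, z, w⟩ hp
    rw [hΦ] at hp
    have := h.ind x x.2 y y.2 z z.2 w w.2 (by rw [← hp]; abel)
    obtain ⟨h1, h2, h3, h4⟩ := this
    ext
    · exact h1
    · exact h2
    · exact h3
    · exact h4
  have hsurj : Function.Surjective Φ := by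
    intro v
    obtain ⟨x, hx, y, hy, z, hz, w, hw, rfl⟩ := h.span v
    exact ⟨⟨⟨x, hx⟩, ⟨y, hy⟩, ⟨z, hz⟩, ⟨w, hw⟩⟩, by rw [hΦ]; abel⟩
  let e := LinearEquiv.ofBijective Φ ⟨hinj, hsurj⟩
  let D : (eig σ τ 0 × eig σ τ 1 × eig σ τ 2 × eig σ τ 3) →ₗ[ℂ]
      (eig σ τ 0 × eig σ τ 1 × eig σ τ 2 × eig σ τ 3) :=
    LinearMap.prodMap ((1 : ℂ) • LinearMap.id) (LinearMap.prodMap ((-1 : ℂ) • LinearMap.id)
      (LinearMap.prodMap ((1 : ℂ) • LinearMap.id) ((-1 : ℂ) • LinearMap.id)))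
  have hD : LinearMap.det D =
      (-1) ^ (Module.finrank ℂ (eig σ τ 1) + Module.finrank ℂ (eig σ τ 3)) := by
    simp only [D, LinearMap.det_prodMap, LinearMap.det_smul, LinearMap.det_id, one_pow, mul_one,
      one_mul, pow_add]
  rw [← hD, ← LinearMap.det_conj D e]
  congr 1
  ext v
  obtain ⟨p, rfl⟩ := e.surjective v
  simp only [LinearMap.comp_apply, LinearEquiv.coe_coe, LinearEquiv.symm_apply_apply]
  change σ (Φ p) = Φ (D p)
  rw [hΦ, hΦ]
  obtain ⟨⟨x, hx⟩, ⟨y, hy⟩, ⟨z, hz⟩, ⟨w, hw⟩⟩ := p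
  have hx' := (mem_eig.mp hx).1
  have hy' := (mem_eig.mp hy).1
  have hz' := (mem_eig.mp hz).1
  have hw' := (mem_eig.mp hw).1
  simp [es] at hx' hy' hz' hw'
  simp [D, hx', hy', hz', hw']

end Vale.Agent.P287.H674
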