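import Vale.Agent.P287.H674.AbsKlein

/-!
Dihedral groups of order `2 n`, `n` odd, acting on a smooth cubic fourfold, the involutions
being antisymplectic: the cases in which two planes are found without computation.
-/

namespace Vale.Agent.P287.H674

variable {V : Type*} [AddCommGroup V] [Module ℂ V]

/-- a smooth cubic with an action of the dihedral group of order `2 n`, `n` odd -/
structure Dih (T : V →ₗ[ℂ] V →ₗ[ℂ] V →ₗ[ℂ] ℂ) (s ρ : Module.End ℂ V) (n : ℕ) : Prop extends
    Sm T where
  ss : ∀ v, s (s v) = v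
  sT : ∀ x y z, T (s x) (s y) (s z) = T x y z
  rT : ∀ x y z, T (ρ x) (ρ y) (ρ z) = T x y z
  srsr : ∀ v, s (ρ (s (ρ v))) = v
  pow : ∀ v, (ρ ^ n) v = v
  odd : Odd n
  neid : ∃ v, ρ v ≠ v
  det : LinearMap.det s = -1

namespace Dih

variable {T : V →ₗ[ℂ] V →ₗ[ℂ] V →ₗ[ℂ] ℂ} {s ρ : Module.End ℂ V} {n : ℕ}

theorem rsrs (h : Dih T s ρ n) (v : V) : ρ (s (ρ (s v))) = v := by
  have h1 := congrArg s (h.srsr (s v))
  rwa [h.ss, h.ss] at h1

theorem half (h : Dih T s ρ n) {v : V} (hv : ρ (ρ v) = v) : ρ v = v := by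
  obtain ⟨m, hm⟩ := h.odd
  have h1 : ∀ k : ℕ, (ρ ^ (2 * k)) v = v := by
    intro k
    induction k with
    | zero => simp
    | succ k ih =>
      have : 2 * (k + 1) = 2 * k + 1 + 1 := by ring
      rw [this, pow_succ, pow_succ, Module.End.mul_apply, Module.End.mul_apply, hv, ih]
  have h2 := h.pow v
  rw [hm, pow_succ', Module.End.mul_apply, h1 m] at h2
  exact h2

/-- `s` and `ρ` do not commute -/
theorem ncomm (h : Dih T s ρ n) : ∃ v, s (ρ v) ≠ ρ (s v) := by
  by_contra hcon
  push Not at hcon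
  obtain ⟨v, hv⟩ := h.neid
  apply hv
  apply h.half
  have h1 := h.srsr v
  rw [← hcon (ρ v), h.ss] at h1
  exact h1

/-- the case of a reflection -/
theorem caseA (h : Dih T s ρ n) (hV : Module.finrank ℂ V = 6) {e : V} (he : e ≠ 0)
    (hse : s e = - e) (hU : ∀ v, s v = - v → ∃ c : ℂ, v = c • e) : TwoPl T := by
  have hE := eck_reflection h.toSm h.ss h.sT he hse hU
  have hE' := hE.transport (ρ := ρ) (ρ' := s * ρ * s)
    (fun v => h.rsrs v) (fun v => h.srsr v) h.rT
  apply hE.two' hV hE'
  intro c hc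
  -- `ρ e = e`
  have hρe : ρ e = e := by
    apply h.half
    have h1 := h.rsrs e
    rw [hse, map_neg, map_neg, map_neg] at h1
    -- `ρ (s (ρ e)) = - e`
    have h2 : c • (ρ (ρ e)) = ρ e := by rw [← map_smul, ← hc]
    have h3 : s (c • ρ e) = - (c • ρ e) := by rw [← hc, hse]
    have h4 : c • (s (ρ e) + ρ e) = 0 := by
      rw [smul_add, ← map_smul, h3]; simp
    rcases smul_eq_zero.mp h4 with h5 | h5
    · rw [h5, zero_smul] at hc
      exact absurd hc he
    · have h6 : s (ρ e) = - ρ e := eq_neg_of_add_eq_zero_left h5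
      rw [h6, map_neg, neg_neg] at h1
      exact h1
  obtain ⟨v, hv⟩ := h.ncomm
  apply hv
  -- the functional `T e e` is invariant
  have hL : ∀ u, T e e (ρ u) = T e e u := by
    intro u
    have := h.rT e e u
    rwa [hρe] at this
  have eee := hE.eee
  have mem : ∀ v, v ∈ LinearMap.ker (s - LinearMap.id) ↔ s v = v := by
    intro v
    rw [LinearMap.mem_ker, LinearMap.sub_apply, LinearMap.id_apply, sub_eq_zero]
  have uue : ∀ x y, s x = x → s y = y → T x y e = 0 := fun x y hx hy =>
    hE.uue x ((mem x).mpr hx) y ((mem y).mpr hy)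
  -- decomposition of `ρ u`
  have hdec : ∀ u, ∃ p : V, ∃ a : ℂ, s p = p ∧ ρ u = p + a • e := by
    intro u
    obtain ⟨p, hp, a, ha⟩ := hE.span (ρ u)
    exact ⟨p, a, (mem p).mp hp, ha⟩
  have hprod : ∀ u, s u = u → ∀ p : V, ∀ a : ℂ, s p = p → ρ u = p + a • e →
      a * T e e u = 0 := by
    intro u hu p a hp hr
    have h1 : T (ρ e) (ρ u) (ρ u) = T e u u := h.rT _ _ _
    have f0 : T e u u = 0 := by rw [h.s1, h.s2]; exact uue u u hu hu
    have f1 : T e p p = 0 := by rw [h.s1, h.s2]; exact uue p p hp hp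
    have f2 : T e p e = T e e p := h.s2 _ _ _
    have f3 : T e e p = T e e u := by
      rw [← hL u, hr, map_add, map_smul, eee]; simp
    rw [hρe, hr, f0] at h1
    simp only [map_add, map_smul, LinearMap.add_apply, LinearMap.smul_apply, smul_eq_mul,
      f1, f2, f3, eee] at h1
    linear_combination h1 / 2
  obtain ⟨x, hx, hx2⟩ := hE.exists_L
  have hsx : s x = x := (mem x).mp hx
  have hzero : ∀ u, s u = u → s (ρ u) = ρ u := by
    intro u hu
    obtain ⟨p, a, hp, hr⟩ := hdec u
    obtain ⟨p', a', hp', hr'⟩ := hdec x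
    have h1 := hprod u hu p a hp hr
    have h2 := hprod x hsx p' a' hp' hr'
    have h3 := hprod (u + x) (by rw [map_add, hu, hsx]) (p + p') (a + a')
      (by rw [map_add, hp, hp']) (by rw [map_add, hr, hr']; module)
    rw [map_add] at h3
    have ha' : a' = 0 := by
      rcases mul_eq_zero.mp h2 with h4 | h4
      · exact h4
      · exact absurd h4 hx2
    have ha : a = 0 := by
      have h4 : a * T e e x = 0 := by
        rw [ha'] at h3
        linear_combination h3 - h1
      rcases mul_eq_zero.mp h4 with h5 | h5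
      · exact h5
      · exact absurd h5 hx2
    rw [hr, ha, zero_smul, add_zero, hp]
  obtain ⟨u, hu, c', hc'⟩ := hE.span v
  have hu' := (mem u).mp hu
  rw [hc', map_add, map_add, map_add, map_add, map_smul, map_smul, map_smul, map_smul, hzero u hu',
    hu', hρe, hse, map_neg, hρe]

/-- the plane of antiinvariants and its image -/
theorem caseB0 (h : Dih T s ρ n) (hd : Module.finrank ℂ (LinearMap.ker (s + LinearMap.id)) = 3)
    (hN : ∀ v, s v = - v → ρ v = v → v = 0) : TwoPl T := by
  have mem : ∀ v, v ∈ LinearMap.ker (s + LinearMap.id) ↔ s v = - v := by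
    intro v
    rw [LinearMap.mem_ker, LinearMap.add_apply, LinearMap.id_apply, add_eq_zero_iff_eq_neg]
  have iso : ∀ w, s w = - w → T w w w = 0 := by
    intro w hw
    have h1 := h.sT w w w
    rw [hw] at h1
    simp only [map_neg, LinearMap.neg_apply, neg_neg] at h1
    have : 2 * T w w w = 0 := by linear_combination -h1
    simpa using this
  have hinj : Function.Injective ρ := by
    intro x y hxy
    rw [← h.srsr x, hxy, h.srsr]
  refine ⟨LinearMap.ker (s + LinearMap.id), (LinearMap.ker (s + LinearMap.id)).map ρ,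
    ⟨hd, fun w hw => iso w ((mem w).mp hw)⟩, ⟨?_, ?_⟩, ?_⟩
  · rw [← hd]
    exact (Submodule.equivMapOfInjective ρ hinj _).finrank_eq.symm
  · intro w hw
    obtain ⟨w, hw', rfl⟩ := Submodule.mem_map.mp hw
    rw [h.rT]
    exact iso w ((mem w).mp hw')
  · rw [Submodule.eq_bot_iff]
    rintro v ⟨h1, h2⟩
    obtain ⟨w, hw, rfl⟩ := Submodule.mem_map.mp h2
    have hw' := (mem w).mp hw
    have h3 := (mem _).mp h1
    have h4 := h.srsr w
    rw [h3, map_neg, map_neg] at h4
    -- `s (ρ (ρ w)) = - w`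
    have h5 : ρ (ρ w) = w := by
      have h6 := congrArg s h4
      rw [map_neg, h.ss, hw'] at h6
      exact neg_injective h6
    rw [hN w hw' (h.half h5), map_zero]

end Dih

end Vale.Agent.P287.H674
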