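import Vale.Agent.P287.H674.Odd1

/-!
Dihedral groups of order `2 n`, `n` odd: the projection to the invariants of `ρ` and the second
involution in the degenerate case.
-/

namespace Vale.Agent.P287.H674

variable {V : Type*} [AddCommGroup V] [Module ℂ V]

/-- averaging over the powers of `ρ` -/
noncomputable def avg (ρ : Module.End ℂ V) (n : ℕ) : Module.End ℂ V :=
  (1 / n : ℂ) • ∑ j ∈ Finset.range n, ρ ^ j

namespace Dih

variable {T : V →ₗ[ℂ] V →ₗ[ℂ] V →ₗ[ℂ] ℂ} {s ρ : Module.End ℂ V} {n : ℕ}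

theorem n_ne (h : Dih T s ρ n) : (n : ℂ) ≠ 0 := by
  obtain ⟨m, hm⟩ := h.odd
  exact Nat.cast_ne_zero.mpr (by omega)

theorem pow_eq (h : Dih T s ρ n) : ρ ^ n = 1 := by
  ext v
  exact h.pow v

theorem avg_fix (h : Dih T s ρ n) (v : V) : ρ (avg ρ n v) = avg ρ n v := by
  have h1 : (ρ - 1) * ∑ j ∈ Finset.range n, ρ ^ j = 0 := by
    rw [mul_geom_sum, h.pow_eq, sub_self]
  have h2 := LinearMap.congr_fun h1 v
  rw [Module.End.mul_apply, LinearMap.sub_apply, Module.End.one_apply, LinearMap.zero_apply,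
    sub_eq_zero] at h2
  rw [avg, LinearMap.smul_apply, map_smul, h2]

theorem avg_rho (h : Dih T s ρ n) (v : V) : avg ρ n (ρ v) = avg ρ n v := by
  have h1 : (∑ j ∈ Finset.range n, ρ ^ j) * (ρ - 1) = 0 := by
    rw [geom_sum_mul, h.pow_eq, sub_self]
  have h2 := LinearMap.congr_fun h1 v
  rw [Module.End.mul_apply, LinearMap.sub_apply, Module.End.one_apply, LinearMap.zero_apply,
    map_sub, sub_eq_zero] at h2
  rw [avg, LinearMap.smul_apply, LinearMap.smul_apply, h2]

theorem avg_of (h : Dih T s ρ n) {v : V} (hv : ρ v = v) : avg ρ n v = v := by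
  have h1 : ∀ j : ℕ, (ρ ^ j) v = v := by
    intro j
    induction j with
    | zero => simp
    | succ j ih => rw [pow_succ, Module.End.mul_apply, hv, ih]
  rw [avg, LinearMap.smul_apply, LinearMap.sum_apply, Finset.sum_congr rfl fun j _ => h1 j,
    Finset.sum_const, Finset.card_range, ← Nat.cast_smul_eq_nsmul ℂ, smul_smul,
    one_div_mul_cancel h.n_ne, one_smul]

theorem sub_avg (h : Dih T s ρ n) (v : V) : ∃ u, v - avg ρ n v = ρ u - u := by
  have h1 : ∀ j : ℕ, ∃ u, v - (ρ ^ j) v = ρ u - u := by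
    intro j
    refine ⟨- (∑ i ∈ Finset.range j, ρ ^ i) v, ?_⟩
    have h2 : (ρ - 1) * ∑ i ∈ Finset.range j, ρ ^ i = ρ ^ j - 1 := mul_geom_sum _ _
    have h3 := LinearMap.congr_fun h2 v
    rw [Module.End.mul_apply, LinearMap.sub_apply, Module.End.one_apply, LinearMap.sub_apply,
      Module.End.one_apply] at h3
    rw [map_neg]
    have h4 : v - (ρ ^ j) v = -((ρ ^ j) v - v) := by abel
    rw [h4, ← h3]; abel
  choose f hf using h1
  refine ⟨(1 / n : ℂ) • ∑ j ∈ Finset.range n, f j, ?_⟩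
  have h5 : v - avg ρ n v = (1 / n : ℂ) • ∑ j ∈ Finset.range n, (v - (ρ ^ j) v) := by
    rw [Finset.sum_sub_distrib, Finset.sum_const, Finset.card_range, smul_sub,
      ← Nat.cast_smul_eq_nsmul ℂ, smul_smul, one_div_mul_cancel h.n_ne, one_smul, avg,
      LinearMap.smul_apply, LinearMap.sum_apply]
  rw [h5, Finset.sum_congr rfl fun j _ => hf j, Finset.sum_sub_distrib, map_smul, map_sum,
    smul_sub]

theorem rho_s (h : Dih T s ρ n) {v : V} (hv : ρ v = v) : ρ (s v) = s v := by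
  have h1 := h.srsr v
  rw [hv] at h1
  rw [← h.ss (ρ (s v)), h1]

theorem avg_sub' (h : Dih T s ρ n) (u : V) : avg ρ n (ρ u - u) = 0 := by
  rw [map_sub, h.avg_rho, sub_self]

theorem avg_s (h : Dih T s ρ n) (v : V) : avg ρ n (s v) = s (avg ρ n v) := by
  obtain ⟨u, hu⟩ := h.sub_avg v
  have h1 : v = avg ρ n v + (ρ u - u) := by rw [← hu]; abel
  have h2 : ρ (s (avg ρ n v)) = s (avg ρ n v) := h.rho_s (h.avg_fix v)
  -- `s (ρ u - u) = - (ρ u' - u')` with `u' = s (ρ u)`
  have h3 : s (ρ u - u) = - (ρ (s (ρ u)) - s (ρ u)) := by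
    have h4 := h.srsr u
    have h5 := congrArg s h4
    rw [h.ss] at h5
    rw [h5, map_sub]; abel
  conv_lhs => rw [h1]
  rw [map_add, map_add, h3, map_neg, h.avg_sub', neg_zero, add_zero, h.avg_of h2]

/-- the degenerate case: a second involution -/
theorem caseB1 (h : Dih T s ρ n) (hV : Module.finrank ℂ V = 6) {a : V} (ha : a ≠ 0)
    (hsa : s a = - a) (hra : ρ a = a)
    (h0 : ∀ b, ρ b = b → ∀ u v, T (s b - b) (ρ u - u) (ρ v - v) = 0) : TwoPl T := by
  have hN : ∀ v, avg ρ n (avg ρ n v) = avg ρ n v := fun v => h.avg_of (h.avg_fix v)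
  let θ : V →ₗ[ℂ] V := LinearMap.id - avg ρ n + s * avg ρ n
  have hθ : ∀ v, θ v = v - avg ρ n v + s (avg ρ n v) := fun v => rfl
  have hθN : ∀ v, avg ρ n (θ v) = s (avg ρ n v) := by
    intro v
    rw [hθ, map_add, map_sub, hN, sub_self, zero_add, h.avg_s, hN]
  have NNR : ∀ x y u, ρ x = x → ρ y = y → T x y (ρ u - u) = 0 := by
    intro x y u hx hy
    have h1 := h.rT x y u
    rw [hx, hy] at h1
    rw [map_sub, h1, sub_self]
  refine absKlein h.toSm hV (σ := s) (τ := θ) h.ss ?_ ?_ h.sT ?_ h.det ?_ ?_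
  · intro v
    rw [hθ (θ v), hθN, hθ, h.ss]; abel
  · intro v
    rw [hθ, hθ, map_add, map_sub, h.avg_s]
  · intro x y z
    obtain ⟨u, hu⟩ := h.sub_avg x
    obtain ⟨v, hv⟩ := h.sub_avg y
    obtain ⟨w, hw⟩ := h.sub_avg z
    have hX := h.avg_fix x
    have hY := h.avg_fix y
    have hZ := h.avg_fix z
    have kX := h.rho_s hX
    have kY := h.rho_s hY
    have kZ := h.rho_s hZ
    have ex : x = avg ρ n x + (ρ u - u) := by rw [← hu]; abel
    have ey : y = avg ρ n y + (ρ v - v) := by rw [← hv]; abel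
    have ez : z = avg ρ n z + (ρ w - w) := by rw [← hw]; abel
    rw [hθ x, hθ y, hθ z, hu, hv, hw]
    conv_rhs => rw [ex, ey, ez]
    have g : ∀ b r r', ρ b = b → T (s b) (ρ r - r) (ρ r' - r') = T b (ρ r - r) (ρ r' - r') := by
      intro b r r' hb
      have := h0 b hb r r'
      rw [map_sub T (s b) b, LinearMap.sub_apply, LinearMap.sub_apply, sub_eq_zero] at this
      exact this
    have sT := h.sT (avg ρ n x) (avg ρ n y) (avg ρ n z)
    generalize avg ρ n x = X at *
    generalize avg ρ n y = Y at *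
    generalize avg ρ n z = Z at *
    have a1 := NNR (s X) (s Y) w kX kY
    have a2 : T (s X) (ρ v - v) (s Z) = 0 := by rw [h.s2]; exact NNR _ _ v kX kZ
    have a3 : T (ρ u - u) (s Y) (s Z) = 0 := by rw [h.s1, h.s2]; exact NNR _ _ u kY kZ
    have b1 := NNR X Y w hX hY
    have b2 : T X (ρ v - v) Z = 0 := by rw [h.s2]; exact NNR _ _ v hX hZ
    have b3 : T (ρ u - u) Y Z = 0 := by rw [h.s1, h.s2]; exact NNR _ _ u hY hZ
    have c1 := g X v w hX
    have c2 : T (ρ u - u) (s Y) (ρ w - w) = T (ρ u - u) Y (ρ w - w) := by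
      rw [h.s1, h.s1 _ Y]; exact g Y u w hY
    have c3 : T (ρ u - u) (ρ v - v) (s Z) = T (ρ u - u) (ρ v - v) Z := by
      rw [h.s2, h.s1, h.s2 _ _ Z, h.s1 _ Z]; exact g Z u v hZ
    generalize ρ u - u = x' at *
    generalize ρ v - v = y' at *
    generalize ρ w - w = z' at *
    simp only [map_add, LinearMap.add_apply, a1, a2, a3, b1, b2, b3, c1, c2, c3, sT]
    ring
  · refine ⟨a, ?_⟩
    rw [hθ, h.avg_of hra, hsa]
    intro h1
    have h2 : (2 : ℂ) • a = 0 := by
      have : (2 : ℂ) • a = a - (a - a + -a) := by module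
      rw [this, h1, sub_self]
    exact ha (by simpa using h2)
  · by_contra hcon
    push Not at hcon
    obtain ⟨v, hv⟩ := h.neid
    apply hv
    -- `s = id` on the range of `ρ - 1`
    have h1 : ∀ u, s (ρ u - u) = ρ u - u := by
      intro u
      rw [← hcon, hθ, h.avg_sub', map_zero, sub_zero, add_zero]
    have h2 : ∀ u, ρ (ρ u - u) = ρ (ρ u) - ρ u := fun u => map_sub _ _ _
    have h3 : ρ (ρ (ρ v - v)) = ρ v - v := by
      have h4 := h.srsr (ρ v - v)
      rw [h2, h1, h2, h1] at h4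
      rw [h2, h2]
      exact h4
    have h5 := h.avg_of (h.half h3)
    rw [h.avg_sub'] at h5
    exact sub_eq_zero.mp h5.symm

end Dih

end Vale.Agent.P287.H674
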