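import Vale.Agent.P287.H674.Odd2
import Vale.Agent.P287.H674.CaseB2

/-!
Dihedral groups of order `2 n`, `n` odd: reduction of the remaining case to the special cubics.
-/

namespace Vale.Agent.P287.H674

variable {V : Type*} [AddCommGroup V] [Module ℂ V]

/-- six independent vectors in dimension six -/
theorem span6 (hV : Module.finrank ℂ V = 6) {x0 x1 y1 y2 z1 z2 : V}
    (hind : ∀ a b p1 p2 q1 q2 : ℂ, cmb x0 x1 y1 y2 z1 z2 a b p1 p2 q1 q2 = 0 →
      a = 0 ∧ b = 0 ∧ p1 = 0 ∧ p2 = 0 ∧ q1 = 0 ∧ q2 = 0) (v : V) :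
    ∃ a b p1 p2 q1 q2 : ℂ, v = cmb x0 x1 y1 y2 z1 z2 a b p1 p2 q1 q2 := by
  have hfin : Module.Finite ℂ V := Module.finite_of_finrank_pos (by omega)
  have hl : LinearIndependent ℂ ![x0, x1, y1, y2, z1, z2] := by
    rw [Fintype.linearIndependent_iff]
    intro g hg i
    rw [Fin.sum_univ_six] at hg
    have := hind (g 0) (g 1) (g 2) (g 3) (g 4) (g 5) hg
    obtain ⟨k0, k1, k2, k3, k4, k5⟩ := this
    fin_cases i
    · exact k0
    · exact k1
    · exact k2
    · exact k3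
    · exact k4
    · exact k5
  have hs := hl.span_eq_top_of_card_eq_finrank' (by simp [hV])
  have hv : v ∈ Submodule.span ℂ (Set.range ![x0, x1, y1, y2, z1, z2]) := by
    rw [hs]; trivial
  rw [Submodule.mem_span_range_iff_exists_fun] at hv
  obtain ⟨c, hc⟩ := hv
  rw [Fin.sum_univ_six] at hc
  exact ⟨c 0, c 1, c 2, c 3, c 4, c 5, hc.symm⟩

theorem IsB2.finrank {K : Submodule ℂ V} {a b : V} (h : IsB2 K a b) :
    Module.finrank ℂ K = 2 := by
  have hl : LinearIndependent ℂ ![(⟨a, h.ha⟩ : K), ⟨b, h.hb⟩] := by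
    rw [Fintype.linearIndependent_iff]
    intro g hg i
    rw [Fin.sum_univ_two] at hg
    have := h.ind (g 0) (g 1) (by simpa using congrArg Subtype.val hg)
    fin_cases i
    · exact this.1
    · exact this.2
  have hs : ⊤ ≤ Submodule.span ℂ (Set.range ![(⟨a, h.ha⟩ : K), ⟨b, h.hb⟩]) := by
    rintro ⟨x, hx⟩ -
    obtain ⟨s, t, rfl⟩ := h.span x hx
    rw [Submodule.mem_span_range_iff_exists_fun]
    exact ⟨![s, t], by rw [Fin.sum_univ_two]; rfl⟩
  have := Module.finrank_eq_card_basis (Module.Basis.mk hl hs)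
  simpa using this

namespace Dih

variable {T : V →ₗ[ℂ] V →ₗ[ℂ] V →ₗ[ℂ] ℂ} {s ρ : Module.End ℂ V} {n : ℕ}

theorem iSup_top [Module.Finite ℂ V] (h : Dih T s ρ n) :
    ⨆ μ, Module.End.eigenspace ρ μ = ⊤ := by
  have h1 : Module.End.IsSemisimple ρ := by
    refine Module.End.isSemisimple_of_squarefree_aeval_eq_zero
      (p := Polynomial.X ^ n - Polynomial.C 1)
      (Polynomial.separable_X_pow_sub_C 1 h.n_ne one_ne_zero).squarefree ?_
    simp [h.pow_eq]
  exact h1.iSup_eigenspace_eq_top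

theorem eig_induction [Module.Finite ℂ V] (h : Dih T s ρ n) {P : V → Prop}
    (h1 : ∀ μ : ℂ, ∀ v, ρ v = μ • v → P v) (h0 : P 0) (h2 : ∀ x y, P x → P y → P (x + y))
    (v : V) : P v := by
  have hv : v ∈ ⨆ μ, Module.End.eigenspace ρ μ := by rw [h.iSup_top]; trivial
  exact Submodule.iSup_induction _ (motive := P) hv (fun μ x hx => h1 μ x (Module.End.mem_eigenspace_iff.mp hx))
    h0 h2

theorem exists_pair [Module.Finite ℂ V] (h : Dih T s ρ n) {a : V} (hra : ρ a = a) {u v : V}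
    (huv : T a (ρ u - u) v ≠ 0) : ∃ χ : ℂ, ∃ y w : V, χ ≠ 1 ∧ ρ y = χ • y ∧ ρ w = χ⁻¹ • w ∧
      T a y w ≠ 0 := by
  by_contra hcon
  push Not at hcon
  apply huv
  have hra' : ρ a = (1 : ℂ) • a := by rw [one_smul, hra]
  refine h.eig_induction (P := fun u => T a (ρ u - u) v = 0) ?_ (by simp) ?_ u
  · intro μ u hu
    by_cases hμ : μ = 1
    · rw [hu, hμ, one_smul, sub_self]; simp
    · have h3 : T a u v = 0 := by
        refine h.eig_induction (P := fun v => T a u v = 0) ?_ (by simp) ?_ v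
        · intro μ' w hw
          by_cases h4 : μ * μ' = 1
          · have h5 : μ' = μ⁻¹ := eq_inv_of_mul_eq_one_right h4
            rw [h5] at hw
            exact hcon μ u w hμ hu hw
          · exact wt h.rT hra' hu hw (by rwa [one_mul])
        · intro x y hx hy
          rw [map_add, hx, hy, add_zero]
      have h6 : ρ u - u = (μ - 1) • u := by rw [hu]; module
      rw [h6, map_smul, LinearMap.smul_apply, h3, smul_zero]
  · intro x y hx hy
    have : ρ (x + y) - (x + y) = (ρ x - x) + (ρ y - y) := by rw [map_add]; abel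
    rw [this, map_add, LinearMap.add_apply, hx, hy, add_zero]

theorem exists_x0 [Module.Finite ℂ V] (h : Dih T s ρ n) {a : V} (ha : a ≠ 0) (hra : ρ a = a)
    (hsa : s a = - a) : ∃ x0, ρ x0 = x0 ∧ s x0 = x0 ∧ T a a x0 ≠ 0 := by
  obtain ⟨w, hw⟩ := h.smooth a ha
  by_contra hcon
  push Not at hcon
  apply hw
  have hra' : ρ a = (1 : ℂ) • a := by rw [one_smul, hra]
  refine h.eig_induction (P := fun u => T a a u = 0) ?_ (by simp) ?_ w
  · intro μ u hu
    by_cases hμ : μ = 1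
    · rw [hμ, one_smul] at hu
      have h1 := hcon (u + s u) (by rw [map_add, hu, h.rho_s hu]) (by rw [map_add, h.ss, add_comm])
      have h2 := h.sT a a u
      rw [hsa] at h2
      simp only [map_neg, LinearMap.neg_apply, neg_neg] at h2
      rw [map_add, h2] at h1
      have : 2 * T a a u = 0 := by linear_combination h1
      simpa using this
    · exact wt h.rT hra' hra' hu (by rwa [one_mul, one_mul])
  · intro x y hx hy
    rw [map_add, hx, hy, add_zero]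

/-- vectors of different weights are independent -/
theorem eig_ind {ρ : Module.End ℂ V} {χ : ℂ} (c0 : χ ≠ 0) (c1 : χ ≠ 1) (c2 : χ ^ 2 ≠ 1)
    {X Y Z : V} (hX : ρ X = X) (hY : ρ Y = χ • Y) (hZ : ρ Z = χ⁻¹ • Z) (h0 : X + Y + Z = 0) :
    X = 0 ∧ Y = 0 ∧ Z = 0 := by
  have h1 := congrArg ρ h0
  rw [map_add, map_add, hX, hY, hZ, map_zero] at h1
  have h2 := congrArg ρ h1
  rw [map_add, map_add, map_smul, map_smul, hX, hY, hZ, map_zero, smul_smul, smul_smul] at h2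
  have d1 : χ - 1 ≠ 0 := sub_ne_zero.mpr c1
  have d2 : χ ^ 2 - 1 ≠ 0 := sub_ne_zero.mpr c2
  have hZ0 : Z = 0 := by
    have : ((χ⁻¹ * χ⁻¹ - 1) - (χ + 1) * (χ⁻¹ - 1)) • Z = 0 := by
      have e : ((χ⁻¹ * χ⁻¹ - 1) - (χ + 1) * (χ⁻¹ - 1)) • Z =
        ((X + (χ * χ) • Y + (χ⁻¹ * χ⁻¹) • Z) - (X + Y + Z))
          - (χ + 1) • ((X + χ • Y + χ⁻¹ • Z) - (X + Y + Z)) := by module
      rw [e, h2, h1, h0]; simp
    rcases smul_eq_zero.mp this with h3 | h3
    · exfalso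
      have h4 : (χ - 1) * (χ ^ 2 - 1) = 0 := by
        have : (χ⁻¹ * χ⁻¹ - 1 - (χ + 1) * (χ⁻¹ - 1)) * χ ^ 2 = (χ - 1) * (χ ^ 2 - 1) := by
          field_simp
          ring
        rw [← this, h3, zero_mul]
      rcases mul_eq_zero.mp h4 with h5 | h5
      · exact d1 h5
      · exact d2 h5
    · exact h3
  rw [hZ0, add_zero] at h0
  rw [hZ0, smul_zero, add_zero] at h1
  have hY0 : Y = 0 := by
    have : (χ - 1) • Y = 0 := by
      have e : (χ - 1) • Y = (X + χ • Y) - (X + Y) := by module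
      rw [e, h1, h0, sub_zero]
    rcases smul_eq_zero.mp this with h3 | h3
    · exact absurd h3 d1
    · exact h3
  refine ⟨?_, hY0, hZ0⟩
  rwa [hY0, add_zero] at h0

/-- a frame -/
structure Fr (s ρ : Module.End ℂ V) (χ : ℂ) (x0 x1 : V) : Prop where
  c0 : χ ≠ 0
  c1 : χ ≠ 1
  c2 : χ ^ 2 ≠ 1
  r0 : ρ x0 = x0
  r1 : ρ x1 = x1
  s0 : s x0 = x0
  s1 : s x1 = - x1
  n0 : x0 ≠ 0
  n1 : x1 ≠ 0

theorem rs_eig (h : Dih T s ρ n) {χ : ℂ} (c0 : χ ≠ 0) {y : V} (hy : ρ y = χ • y) :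
    ρ (s y) = χ⁻¹ • s y := by
  have h1 := h.srsr y
  rw [hy, map_smul, map_smul, map_smul] at h1
  have h2 := congrArg s h1
  rw [map_smul, h.ss] at h2
  conv_rhs => rw [← h2]
  rw [smul_smul, inv_mul_cancel₀ c0, one_smul]

theorem Fr.ind (h : Dih T s ρ n) {χ : ℂ} {x0 x1 : V} (f : Fr s ρ χ x0 x1) {y1 y2 : V}
    (hy1 : ρ y1 = χ • y1) (hy2 : ρ y2 = χ • y2)
    (hB : ∀ p q : ℂ, p • y1 + q • y2 = 0 → p = 0 ∧ q = 0) (a b p1 p2 q1 q2 : ℂ)
    (h0 : cmb x0 x1 y1 y2 (s y1) (s y2) a b p1 p2 q1 q2 = 0) :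
    a = 0 ∧ b = 0 ∧ p1 = 0 ∧ p2 = 0 ∧ q1 = 0 ∧ q2 = 0 := by
  have hX : ρ (a • x0 + b • x1) = a • x0 + b • x1 := by
    rw [map_add, map_smul, map_smul, f.r0, f.r1]
  have hY : ρ (p1 • y1 + p2 • y2) = χ • (p1 • y1 + p2 • y2) := by
    rw [map_add, map_smul, map_smul, hy1, hy2]; module
  have hZ : ρ (q1 • s y1 + q2 • s y2) = χ⁻¹ • (q1 • s y1 + q2 • s y2) := by
    rw [map_add, map_smul, map_smul, h.rs_eig f.c0 hy1, h.rs_eig f.c0 hy2]; module
  obtain ⟨k1, k2, k3⟩ := eig_ind f.c0 f.c1 f.c2 hX hY hZ (by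
    rw [← h0, cmb]; abel)
  obtain ⟨e3, e4⟩ := hB _ _ k2
  have k4 : q1 • y1 + q2 • y2 = 0 := by
    have := congrArg s k3
    rwa [map_add, map_smul, map_smul, h.ss, h.ss, map_zero] at this
  obtain ⟨e5, e6⟩ := hB _ _ k4
  have k5 := congrArg s k1
  rw [map_add, map_smul, map_smul, f.s0, f.s1, map_zero] at k5
  have k6 : a • x0 = 0 := by
    have : (2 : ℂ) • (a • x0) = (a • x0 + b • x1) + (a • x0 + b • -x1) := by module
    rw [k1, k5, add_zero] at this
    simpa using this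
  rw [k6, zero_add] at k1
  refine ⟨?_, ?_, e3, e4, e5, e6⟩
  · rcases smul_eq_zero.mp k6 with h5 | h5
    · exact h5
    · exact absurd h5 f.n0
  · rcases smul_eq_zero.mp k1 with h5 | h5
    · exact h5
    · exact absurd h5 f.n1

end Dih

end Vale.Agent.P287.H674
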