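import Vale.Agent.P287.H674.Odd3

/-!
Dihedral groups of order `2 n`, `n` odd: the remaining case and the theorem.
-/

namespace Vale.Agent.P287.H674

variable {V : Type*} [AddCommGroup V] [Module ℂ V]

/-- a binary cubic form with distinct roots is a sum of two cubes -/
theorem two_cubes {T : V →ₗ[ℂ] V →ₗ[ℂ] V →ₗ[ℂ] ℂ} (s1 : ∀ x y z, T x y z = T y x z)
    (s2 : ∀ x y z, T x y z = T x z y) {K : Submodule ℂ V} {r r' : V} (hK : IsB2 K r r')
    (h1 : T r r r = 0) (h2 : T r' r' r' = 0) (hA : T r r r' ≠ 0) (hB : T r r' r' ≠ 0) :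
    ∃ y1 y2, IsB2 K y1 y2 ∧ T y1 y1 y1 = 1 ∧ T y1 y1 y2 = 0 ∧ T y1 y2 y2 = 0 ∧
      T y2 y2 y2 = 1 := by
  obtain ⟨ω, hω⟩ := root2 1 1 one_ne_zero
  set A := T r r r' with hAdef
  set B := T r r' r' with hBdef
  obtain ⟨m, hm⟩ : ∃ m : ℂ, B * m = A := ⟨A / B, by field_simp⟩
  have hm0 : m ≠ 0 := by
    rintro rfl
    exact hA (by rw [← hm, mul_zero])
  have hmA : -3 * m * A ≠ 0 := mul_ne_zero (mul_ne_zero (by norm_num) hm0) hA
  obtain ⟨δ, hδ⟩ := IsAlgClosed.exists_pow_nat_eq ((-3 * m * A)⁻¹) (n := 3) (by norm_num)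
  have hδ1 : δ ^ 3 * (-3 * m * A) = 1 := by rw [hδ, inv_mul_cancel₀ hmA]
  have hδ0 : δ ≠ 0 := by
    rintro rfl
    norm_num at hδ1
  have hω0 : ω ≠ 0 := by
    rintro rfl
    norm_num at hω
  have hω1 : ω ≠ 1 := by
    rintro rfl
    norm_num at hω
  have hω1' : ω - 1 ≠ 0 := sub_ne_zero.mpr hω1
  have e1 : T r r' r = A := s2 _ _ _
  have e2 : T r' r r = A := by rw [s1, s2]
  have e3 : T r' r r' = B := s1 _ _ _
  have e4 : T r' r' r = B := by rw [s2, s1]
  have hg : ∀ μ ν κ : ℂ, T (r + μ • r') (r + ν • r') (r + κ • r') =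
      A * (μ + ν + κ) + B * (μ * ν + ν * κ + μ * κ) := by
    intro μ ν κ
    simp only [map_add, map_smul, LinearMap.add_apply, LinearMap.smul_apply, smul_eq_mul, h1, h2,
      e1, e2, e3, e4, ← hAdef, ← hBdef]
    ring
  have hg' : ∀ a μ ν κ : ℂ, T (a • (r + μ • r')) (a • (r + ν • r')) (a • (r + κ • r')) =
      a ^ 3 * (A * (μ + ν + κ) + B * (μ * ν + ν * κ + μ * κ)) := by
    intro a μ ν κ
    rw [← hg]
    simp only [map_smul, LinearMap.smul_apply, smul_eq_mul]
    ring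
  refine ⟨δ • (r + (m * ω) • r'), δ • (r + (m * ω ^ 2) • r'), ⟨?_, ?_, ?_, ?_⟩, ?_, ?_, ?_, ?_⟩
  · exact K.smul_mem _ (K.add_mem hK.ha (K.smul_mem _ hK.hb))
  · exact K.smul_mem _ (K.add_mem hK.ha (K.smul_mem _ hK.hb))
  · intro p q h0
    have h3 : (δ * (p + q)) • r + (δ * m * ω * (p + q * ω)) • r' = 0 := by
      rw [← h0]; module
    obtain ⟨k1, k2⟩ := hK.ind _ _ h3
    have k3 : p + q = 0 := by
      rcases mul_eq_zero.mp k1 with h | h
      · exact absurd h hδ0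
      · exact h
    have k4 : p + q * ω = 0 := by
      rcases mul_eq_zero.mp k2 with h | h
      · exact absurd h (mul_ne_zero (mul_ne_zero hδ0 hm0) hω0)
      · exact h
    have k5 : (ω - 1) * q = 0 := by linear_combination k4 - k3
    have k6 : q = 0 := by
      rcases mul_eq_zero.mp k5 with h | h
      · exact absurd h hω1'
      · exact h
    exact ⟨by rw [k6, add_zero] at k3; exact k3, k6⟩
  · intro x hx
    obtain ⟨P, Q, rfl⟩ := hK.span x hx
    refine ⟨P / δ - (Q / (δ * m * ω) - P / δ) / (ω - 1), (Q / (δ * m * ω) - P / δ) / (ω - 1), ?_⟩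
    have c1 : δ * ((P / δ - (Q / (δ * m * ω) - P / δ) / (ω - 1)) +
      (Q / (δ * m * ω) - P / δ) / (ω - 1)) = P := by field_simp; ring
    have c2 : δ * m * ω * ((P / δ - (Q / (δ * m * ω) - P / δ) / (ω - 1)) +
      (Q / (δ * m * ω) - P / δ) / (ω - 1) * ω) = Q := by field_simp; ring
    generalize P / δ - (Q / (δ * m * ω) - P / δ) / (ω - 1) = p at *
    generalize (Q / (δ * m * ω) - P / δ) / (ω - 1) = q at *
    rw [← c1, ← c2]
    module
  · rw [hg']
    linear_combination hδ1 + 3 * δ ^ 3 * m * ω ^ 2 * hm + 3 * δ ^ 3 * A * m * hω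
  · rw [hg']
    linear_combination δ ^ 3 * m * (ω ^ 2 + 2 * ω ^ 3) * hm + 2 * δ ^ 3 * A * m * ω * hω
  · rw [hg']
    linear_combination δ ^ 3 * m * (2 * ω ^ 3 + ω ^ 4) * hm
      + δ ^ 3 * A * m * ω * (1 + ω) * hω
  · rw [hg']
    linear_combination hδ1 + 3 * δ ^ 3 * m * ω ^ 4 * hm
      + 3 * δ ^ 3 * A * m * (ω ^ 2 - ω + 1) * hω

namespace Dih

variable {T : V →ₗ[ℂ] V →ₗ[ℂ] V →ₗ[ℂ] ℂ} {s ρ : Module.End ℂ V} {n : ℕ}

theorem caseB2 (h : Dih T s ρ n) (hV : Module.finrank ℂ V = 6) {a : V} (hra : ρ a = a)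
    (hsa : s a = - a) {u v : V} (huv : T a (ρ u - u) v ≠ 0) : TwoPl T := by
  have hfin : Module.Finite ℂ V := Module.finite_of_finrank_pos (by omega)
  have ha : a ≠ 0 := by rintro rfl; apply huv; simp
  obtain ⟨χ, y, w, c1, hy, hw, hayw⟩ := h.exists_pair hra huv
  have hy0 : y ≠ 0 := by rintro rfl; apply hayw; simp
  have c0 : χ ≠ 0 := by
    rintro rfl
    rw [zero_smul] at hy
    exact hy0 (by rw [← h.srsr y, hy]; simp)
  have c2 : χ ^ 2 ≠ 1 := by
    intro h2
    have h3 : ρ (ρ y) = y := by rw [hy, map_smul, hy, smul_smul, ← pow_two, h2, one_smul]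
    have h4 := h.half h3
    rw [hy] at h4
    have h5 : (χ - 1) • y = 0 := by rw [sub_smul, one_smul, h4, sub_self]
    rcases smul_eq_zero.mp h5 with h6 | h6
    · exact c1 (sub_eq_zero.mp h6)
    · exact hy0 h6
  obtain ⟨x0, r0, s0, hx0⟩ := h.exists_x0 ha hra hsa
  have n0 : x0 ≠ 0 := by rintro rfl; apply hx0; simp
  have f : Fr s ρ χ x0 a := ⟨c0, c1, c2, r0, hra, s0, hsa, n0, ha⟩
  have anti : ∀ p q, T a p (s q) = - T a q (s p) := by
    intro p q
    have h1 := h.sT a p (s q)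
    rw [hsa, h.ss] at h1
    simp only [map_neg, LinearMap.neg_apply] at h1
    rw [← h1, h.s2]
  have sym : ∀ p q, T x0 p (s q) = T x0 q (s p) := by
    intro p q
    have h1 := h.sT x0 p (s q)
    rw [s0, h.ss] at h1
    rw [← h1, h.s2]
  have anti0 : ∀ p, T a p (s p) = 0 := by
    intro p
    have h1 := anti p p
    have : 2 * T a p (s p) = 0 := by linear_combination h1
    simpa using this
  set y2 := s w with hy2def
  have hy2 : ρ y2 = χ • y2 := by
    have := h.rs_eig (inv_ne_zero c0) hw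
    rwa [inv_inv] at this
  have t2 : T a y (s y2) ≠ 0 := by rw [hy2def, h.ss]; exact hayw
  have t4 : T a y2 (s y) ≠ 0 := by rw [anti]; exact neg_ne_zero.mpr t2
  have hB : ∀ p q : ℂ, p • y + q • y2 = 0 → p = 0 ∧ q = 0 := by
    intro p q h0
    constructor
    · have h1 := congrArg (fun z => T a z (s y2)) h0
      simp only [map_add, map_smul, LinearMap.add_apply, LinearMap.smul_apply, smul_eq_mul,
        anti0, mul_zero, add_zero, map_zero, LinearMap.zero_apply] at h1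
      rcases mul_eq_zero.mp h1 with h2 | h2
      · exact h2
      · exact absurd h2 t2
    · have h1 := congrArg (fun z => T a z (s y)) h0
      simp only [map_add, map_smul, LinearMap.add_apply, LinearMap.smul_apply, smul_eq_mul,
        anti0, mul_zero, zero_add, map_zero, LinearMap.zero_apply] at h1
      rcases mul_eq_zero.mp h1 with h2 | h2
      · exact h2
      · exact absurd h2 t4
  have hspan := span6 hV (f.ind h hy hy2 hB)
  have memK : ∀ x, x ∈ Module.End.eigenspace ρ χ ↔ ρ x = χ • x := fun x =>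
    Module.End.mem_eigenspace_iff
  have hy' := h.rs_eig c0 hy
  have hy2' := h.rs_eig c0 hy2
  have hsum : ∀ v, ∃ X Y Z : V, ρ X = X ∧ (∃ p q : ℂ, Y = p • y + q • y2) ∧
      ρ Z = χ⁻¹ • Z ∧ v = X + Y + Z := by
    intro v
    obtain ⟨a', b', p1, p2, q1, q2, rfl⟩ := hspan v
    refine ⟨a' • x0 + b' • a, p1 • y + p2 • y2, q1 • s y + q2 • s y2, ?_, ⟨p1, p2, rfl⟩, ?_, ?_⟩
    · rw [map_add, map_smul, map_smul, r0, hra]
    · rw [map_add, map_smul, map_smul, hy', hy2']; module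
    · rw [cmb]; abel
  have hKB : IsB2 (Module.End.eigenspace ρ χ) y y2 := by
    refine ⟨(memK y).mpr hy, (memK y2).mpr hy2, hB, ?_⟩
    intro x hx
    have hx' := (memK x).mp hx
    obtain ⟨X, Y, Z, hX, ⟨p, q, rfl⟩, hZ, e⟩ := hsum x
    have hY : ρ (p • y + q • y2 - x) = χ • (p • y + q • y2 - x) := by
      rw [map_sub, map_add, map_smul, map_smul, hy, hy2, hx']; module
    have h1 := (eig_ind c0 c1 c2 hX hY hZ (by
      have : X + (p • y + q • y2 - x) + Z = X + (p • y + q • y2) + Z - x := by abel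
      rw [this, ← e, sub_self])).2.1
    exact ⟨p, q, (sub_eq_zero.mp h1).symm⟩
  have hw1 : ∀ {x : V}, ρ x = x → ρ x = (1 : ℂ) • x := fun h => by rw [one_smul]; exact h
  have hχ3 : χ ^ 3 = 1 := by
    by_contra hχ3
    obtain ⟨z, hz⟩ := h.smooth y hy0
    apply hz
    obtain ⟨X, Y, Z, hX, ⟨p, q, rfl⟩, hZ, rfl⟩ := hsum z
    have k1 : T y y X = 0 := wt h.rT hy hy (hw1 hX) (by rw [mul_one, ← pow_two]; exact c2)
    have k2 : T y y y = 0 := wt h.rT hy hy hy (by
      intro h1; apply hχ3; rw [← h1]; ring)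
    have k3 : T y y y2 = 0 := wt h.rT hy hy hy2 (by
      intro h1; apply hχ3; rw [← h1]; ring)
    have k4 : T y y Z = 0 := wt h.rT hy hy hZ (by
      rw [mul_assoc, mul_inv_cancel₀ c0, mul_one]; exact c1)
    simp [k1, k2, k3, k4]
  have hinv : χ⁻¹ = χ ^ 2 := by
    field_simp
    linear_combination -hχ3
  obtain ⟨r, r', hrB, e1, e2, e3, e4⟩ := two_roots h.s1 h.s2 hKB.finrank (by
    intro r hr hr0 _
    have hr' := (memK r).mp hr
    obtain ⟨z, hz⟩ := h.smooth r hr0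
    obtain ⟨X, Y, Z, hX, ⟨p, q, rfl⟩, hZ, rfl⟩ := hsum z
    have k1 : T r r X = 0 := wt h.rT hr' hr' (hw1 hX) (by rw [mul_one, ← pow_two]; exact c2)
    have k4 : T r r Z = 0 := wt h.rT hr' hr' hZ (by
      rw [mul_assoc, mul_inv_cancel₀ c0, mul_one]; exact c1)
    refine ⟨p • y + q • y2, Submodule.add_mem _ (Submodule.smul_mem _ _ hKB.ha) (Submodule.smul_mem _ _ hKB.hb), ?_⟩
    intro h0
    apply hz
    rw [map_add, map_add, h0, k1, k4]; ring)
  obtain ⟨y1', y2', hB', g1, g2, g3, g4⟩ := two_cubes h.s1 h.s2 hrB e1 e2 e3 e4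
  have m1 := (memK _).mp hB'.ha
  have m2 := (memK _).mp hB'.hb
  have hind' := f.ind h m1 m2 hB'.ind
  have pre : Pre T ρ χ x0 a y1' y2' (s y1') (s y2') := by
    refine ⟨r0, hra, m1, m2, ?_, ?_, ?_, ?_, sym _ _, anti0 _, anti0 _, ?_, g1, g2, g3, g4,
      ?_, ?_, ?_, ?_, hind', span6 hV hind'⟩
    · rw [← hinv]; exact h.rs_eig c0 m1
    · rw [← hinv]; exact h.rs_eig c0 m2
    · have h1 := h.sT x0 x0 a
      rw [s0, hsa, map_neg] at h1
      have : 2 * T x0 x0 a = 0 := by linear_combination -h1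
      simpa using this
    · have h1 := h.sT a a a
      rw [hsa] at h1
      simp only [map_neg, LinearMap.neg_apply, neg_neg] at h1
      have : 2 * T a a a = 0 := by linear_combination -h1
      simpa using this
    · exact anti _ _
    · rw [h.sT]; exact g1
    · rw [h.sT]; exact g2
    · rw [h.sT]; exact g3
    · rw [h.sT]; exact g4
  exact (cb_of h.toSm h.rT hχ3 c1 pre).twoPl

end Dih

end Vale.Agent.P287.H674
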