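import Vale.Agent.P287.H674.Crit

/-!
Algebraic identities for the skew-symmetric matrix `[[S_y, N], [-N^T, -S_y]]`, whose Pfaffian is
`det N + y^T N y`.
-/

namespace Vale.Agent.P287.H674.Pf

/-- cross product -/
def cr (a b : Fin 3 → ℂ) : Fin 3 → ℂ :=
  ![a 1 * b 2 - a 2 * b 1, a 2 * b 0 - a 0 * b 2, a 0 * b 1 - a 1 * b 0]

/-- dot product -/
def dt (a b : Fin 3 → ℂ) : ℂ := a 0 * b 0 + a 1 * b 1 + a 2 * b 2

/-- matrix times vector -/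
def mv (N : Fin 3 → Fin 3 → ℂ) (v : Fin 3 → ℂ) (i : Fin 3) : ℂ :=
  N i 0 * v 0 + N i 1 * v 1 + N i 2 * v 2

/-- transposed matrix times vector -/
def tv (N : Fin 3 → Fin 3 → ℂ) (v : Fin 3 → ℂ) (i : Fin 3) : ℂ :=
  N 0 i * v 0 + N 1 i * v 1 + N 2 i * v 2

/-- determinant -/
def dd (m : Fin 3 → Fin 3 → ℂ) : ℂ :=
  m 0 0 * (m 1 1 * m 2 2 - m 1 2 * m 2 1) - m 0 1 * (m 1 0 * m 2 2 - m 1 2 * m 2 0) +
    m 0 2 * (m 1 0 * m 2 1 - m 1 1 * m 2 0)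

/-- adjugate matrix -/
def aj (m : Fin 3 → Fin 3 → ℂ) : Fin 3 → Fin 3 → ℂ :=
  ![![m 1 1 * m 2 2 - m 1 2 * m 2 1, m 0 2 * m 2 1 - m 0 1 * m 2 2, m 0 1 * m 1 2 - m 0 2 * m 1 1],
    ![m 1 2 * m 2 0 - m 1 0 * m 2 2, m 0 0 * m 2 2 - m 0 2 * m 2 0, m 0 2 * m 1 0 - m 0 0 * m 1 2],
    ![m 1 0 * m 2 1 - m 1 1 * m 2 0, m 0 1 * m 2 0 - m 0 0 * m 2 1, m 0 0 * m 1 1 - m 0 1 * m 1 0]]

/-- the Pfaffian -/
def pf (N : Fin 3 → Fin 3 → ℂ) (y : Fin 3 → ℂ) : ℂ := dd N + dt y (mv N y)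

/-- first component of the matrix applied to `(p, q)` -/
def a1 (N : Fin 3 → Fin 3 → ℂ) (y p q : Fin 3 → ℂ) (i : Fin 3) : ℂ := cr y p i + mv N q i
/-- second component (up to sign) of the matrix applied to `(p, q)` -/
def a2 (N : Fin 3 → Fin 3 → ℂ) (y p q : Fin 3 → ℂ) (i : Fin 3) : ℂ := cr y q i + tv N p i

/-- first component of the adjoint matrix applied to `(g, k)` -/
def V1 (N : Fin 3 → Fin 3 → ℂ) (y g k : Fin 3 → ℂ) (i : Fin 3) : ℂ :=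
  cr (mv N y) g i + tv (aj N) k i + dt y k * y i
/-- second component -/
def V2 (N : Fin 3 → Fin 3 → ℂ) (y g k : Fin 3 → ℂ) (i : Fin 3) : ℂ :=
  -(mv (aj N) g i) - dt y g * y i - cr (tv N y) k i

theorem a1_V (N : Fin 3 → Fin 3 → ℂ) (y g k : Fin 3 → ℂ) (i : Fin 3) :
    a1 N y (V1 N y g k) (V2 N y g k) i = - pf N y * g i := by
  fin_cases i <;> simp [a1, V1, V2, pf, dd, dt, mv, tv, aj, cr] <;> ring

theorem a2_V (N : Fin 3 → Fin 3 → ℂ) (y g k : Fin 3 → ℂ) (i : Fin 3) :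
    a2 N y (V1 N y g k) (V2 N y g k) i = pf N y * k i := by
  fin_cases i <;> simp [a2, V1, V2, pf, dd, dt, mv, tv, aj, cr] <;> ring

theorem dot_V (N : Fin 3 → Fin 3 → ℂ) (y g k : Fin 3 → ℂ) :
    dt g (V1 N y g k) + dt k (V2 N y g k) = 0 := by
  simp [V1, V2, dd, dt, mv, tv, aj, cr]; ring

theorem pf_p (N : Fin 3 → Fin 3 → ℂ) (y p q : Fin 3 → ℂ) (i : Fin 3) :
    pf N y * p i = - cr (mv N y) (a1 N y p q) i + tv (aj N) (a2 N y p q) i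
      + dt y (a2 N y p q) * y i := by
  fin_cases i <;> simp [a1, a2, pf, dd, dt, mv, tv, aj, cr] <;> ring

theorem pf_q (N : Fin 3 → Fin 3 → ℂ) (y p q : Fin 3 → ℂ) (i : Fin 3) :
    pf N y * q i = mv (aj N) (a1 N y p q) i + dt y (a1 N y p q) * y i
      - cr (tv N y) (a2 N y p q) i := by
  fin_cases i <;> simp [a1, a2, pf, dd, dt, mv, tv, aj, cr] <;> ring

theorem pf_zero {N : Fin 3 → Fin 3 → ℂ} {y p q : Fin 3 → ℂ} (h1 : ∀ i, a1 N y p q i = 0)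
    (h2 : ∀ i, a2 N y p q i = 0) (h : p ≠ 0 ∨ q ≠ 0) : pf N y = 0 := by
  have e1 : a1 N y p q = 0 := funext h1
  have e2 : a2 N y p q = 0 := funext h2
  by_contra hpf
  rcases h with h | h
  · apply h
    funext i
    have h3 := pf_p N y p q i
    rw [e1, e2] at h3
    fin_cases i <;> simp [cr, tv, dt] at h3 <;>
      exact h3.resolve_left hpf
  · apply h
    funext i
    have h3 := pf_q N y p q i
    rw [e1, e2] at h3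
    fin_cases i <;> simp [cr, mv, dt] at h3 <;>
      exact h3.resolve_left hpf

section par

variable {N : Fin 3 → Fin 3 → ℂ} {y p q g k : Fin 3 → ℂ}

theorem par01 (A : ∀ i, a1 N y p q i = 0) (B : ∀ i, a2 N y p q i = 0)
    (H : dt g p + dt k q = 0) : V1 N y g k 0 * p 1 = V1 N y g k 1 * p 0 := by
  have A0 := A 0
  have A1 := A 1
  have A2 := A 2
  have B0 := B 0
  have B1 := B 1
  have B2 := B 2
  simp [a1, a2, cr, mv, tv, dt] at A0 A1 A2 B0 B1 B2 H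
  simp [V1, V2, cr, mv, tv, dt, aj]
  linear_combination (0 + k 0 * y 0 + k 1 * y 1 + k 2 * y 2)  *  A2 + (0 + g 2 * y 0 - k 1 * N 2 2 + k 2 * N 2 1)  *  B0 + (0 + g 2 * y 1 + k 0 * N 2 2 - k 2 * N 2 0)  *  B1 + (0 + g 2 * y 2 - k 0 * N 2 1 + k 1 * N 2 0)  *  B2 + (-((-(-(N 2 0 * y 0+N 2 1 * y 1+N 2 2 * y 2)))))  *  H

theorem par02 (A : ∀ i, a1 N y p q i = 0) (B : ∀ i, a2 N y p q i = 0)
    (H : dt g p + dt k q = 0) : V1 N y g k 0 * p 2 = V1 N y g k 2 * p 0 := by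
  have A0 := A 0
  have A1 := A 1
  have A2 := A 2
  have B0 := B 0
  have B1 := B 1
  have B2 := B 2
  simp [a1, a2, cr, mv, tv, dt] at A0 A1 A2 B0 B1 B2 H
  simp [V1, V2, cr, mv, tv, dt, aj]
  linear_combination (0 - k 0 * y 0 - k 1 * y 1 - k 2 * y 2)  *  A1 + (0 - g 1 * y 0 + k 1 * N 1 2 - k 2 * N 1 1)  *  B0 + (0 - g 1 * y 1 - k 0 * N 1 2 + k 2 * N 1 0)  *  B1 + (0 - g 1 * y 2 + k 0 * N 1 1 - k 1 * N 1 0)  *  B2 + (-((-((N 1 0 * y 0+N 1 1 * y 1+N 1 2 * y 2)))))  *  H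

theorem par03 (A : ∀ i, a1 N y p q i = 0) (B : ∀ i, a2 N y p q i = 0)
    (H : dt g p + dt k q = 0) : V1 N y g k 0 * q 0 = V2 N y g k 0 * p 0 := by
  have A0 := A 0
  have A1 := A 1
  have A2 := A 2
  have B0 := B 0
  have B1 := B 1
  have B2 := B 2
  simp [a1, a2, cr, mv, tv, dt] at A0 A1 A2 B0 B1 B2 H
  simp [V1, V2, cr, mv, tv, dt, aj]
  linear_combination (0 + g 2 * y 0 - k 1 * N 2 2 + k 2 * N 2 1)  *  A1 + (0 - g 1 * y 0 + k 1 * N 1 2 - k 2 * N 1 1)  *  A2 + (0 - g 1 * N 2 2 + g 2 * N 1 2 + k 2 * y 0)  *  B1 + (0 + g 1 * N 2 1 - g 2 * N 1 1 - k 1 * y 0)  *  B2 + (-((-((N 1 1 * N 2 2-N 1 2 * N 2 1)+y 0 * y 0))))  *  H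

theorem par04 (A : ∀ i, a1 N y p q i = 0) (B : ∀ i, a2 N y p q i = 0)
    (H : dt g p + dt k q = 0) : V1 N y g k 0 * q 1 = V2 N y g k 1 * p 0 := by
  have A0 := A 0
  have A1 := A 1
  have A2 := A 2
  have B0 := B 0
  have B1 := B 1
  have B2 := B 2
  simp [a1, a2, cr, mv, tv, dt] at A0 A1 A2 B0 B1 B2 H
  simp [V1, V2, cr, mv, tv, dt, aj]
  linear_combination (0 + g 2 * y 1 + k 0 * N 2 2 - k 2 * N 2 0)  *  A1 + (0 - g 1 * y 1 - k 0 * N 1 2 + k 2 * N 1 0)  *  A2 + (0 + g 1 * N 2 2 - g 2 * N 1 2 - k 2 * y 0)  *  B0 + (0 - g 1 * N 2 0 + g 2 * N 1 0 + k 0 * y 0)  *  B2 + (-((-(-(N 1 0 * N 2 2-N 1 2 * N 2 0)+y 0 * y 1))))  *  H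

theorem par05 (A : ∀ i, a1 N y p q i = 0) (B : ∀ i, a2 N y p q i = 0)
    (H : dt g p + dt k q = 0) : V1 N y g k 0 * q 2 = V2 N y g k 2 * p 0 := by
  have A0 := A 0
  have A1 := A 1
  have A2 := A 2
  have B0 := B 0
  have B1 := B 1
  have B2 := B 2
  simp [a1, a2, cr, mv, tv, dt] at A0 A1 A2 B0 B1 B2 H
  simp [V1, V2, cr, mv, tv, dt, aj]
  linear_combination (0 + g 2 * y 2 - k 0 * N 2 1 + k 1 * N 2 0)  *  A1 + (0 - g 1 * y 2 + k 0 * N 1 1 - k 1 * N 1 0)  *  A2 + (0 - g 1 * N 2 1 + g 2 * N 1 1 + k 1 * y 0)  *  B0 + (0 + g 1 * N 2 0 - g 2 * N 1 0 - k 0 * y 0)  *  B1 + (-((-((N 1 0 * N 2 1-N 1 1 * N 2 0)+y 0 * y 2))))  *  H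

theorem par12 (A : ∀ i, a1 N y p q i = 0) (B : ∀ i, a2 N y p q i = 0)
    (H : dt g p + dt k q = 0) : V1 N y g k 1 * p 2 = V1 N y g k 2 * p 1 := by
  have A0 := A 0
  have A1 := A 1
  have A2 := A 2
  have B0 := B 0
  have B1 := B 1
  have B2 := B 2
  simp [a1, a2, cr, mv, tv, dt] at A0 A1 A2 B0 B1 B2 H
  simp [V1, V2, cr, mv, tv, dt, aj]
  linear_combination (0 + k 0 * y 0 + k 1 * y 1 + k 2 * y 2)  *  A0 + (0 + g 0 * y 0 - k 1 * N 0 2 + k 2 * N 0 1)  *  B0 + (0 + g 0 * y 1 + k 0 * N 0 2 - k 2 * N 0 0)  *  B1 + (0 + g 0 * y 2 - k 0 * N 0 1 + k 1 * N 0 0)  *  B2 + (-((-(-(N 0 0 * y 0+N 0 1 * y 1+N 0 2 * y 2)))))  *  H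

theorem par13 (A : ∀ i, a1 N y p q i = 0) (B : ∀ i, a2 N y p q i = 0)
    (H : dt g p + dt k q = 0) : V1 N y g k 1 * q 0 = V2 N y g k 0 * p 1 := by
  have A0 := A 0
  have A1 := A 1
  have A2 := A 2
  have B0 := B 0
  have B1 := B 1
  have B2 := B 2
  simp [a1, a2, cr, mv, tv, dt] at A0 A1 A2 B0 B1 B2 H
  simp [V1, V2, cr, mv, tv, dt, aj]
  linear_combination (0 - g 2 * y 0 + k 1 * N 2 2 - k 2 * N 2 1)  *  A0 + (0 + g 0 * y 0 - k 1 * N 0 2 + k 2 * N 0 1)  *  A2 + (0 + g 0 * N 2 2 - g 2 * N 0 2 + k 2 * y 1)  *  B1 + (0 - g 0 * N 2 1 + g 2 * N 0 1 - k 1 * y 1)  *  B2 + (-((-(-(N 0 1 * N 2 2-N 0 2 * N 2 1)+y 1 * y 0))))  *  H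

theorem par14 (A : ∀ i, a1 N y p q i = 0) (B : ∀ i, a2 N y p q i = 0)
    (H : dt g p + dt k q = 0) : V1 N y g k 1 * q 1 = V2 N y g k 1 * p 1 := by
  have A0 := A 0
  have A1 := A 1
  have A2 := A 2
  have B0 := B 0
  have B1 := B 1
  have B2 := B 2
  simp [a1, a2, cr, mv, tv, dt] at A0 A1 A2 B0 B1 B2 H
  simp [V1, V2, cr, mv, tv, dt, aj]
  linear_combination (0 - g 2 * y 1 - k 0 * N 2 2 + k 2 * N 2 0)  *  A0 + (0 + g 0 * y 1 + k 0 * N 0 2 - k 2 * N 0 0)  *  A2 + (0 - g 0 * N 2 2 + g 2 * N 0 2 - k 2 * y 1)  *  B0 + (0 + g 0 * N 2 0 - g 2 * N 0 0 + k 0 * y 1)  *  B2 + (-((-((N 0 0 * N 2 2-N 0 2 * N 2 0)+y 1 * y 1))))  *  H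

theorem par15 (A : ∀ i, a1 N y p q i = 0) (B : ∀ i, a2 N y p q i = 0)
    (H : dt g p + dt k q = 0) : V1 N y g k 1 * q 2 = V2 N y g k 2 * p 1 := by
  have A0 := A 0
  have A1 := A 1
  have A2 := A 2
  have B0 := B 0
  have B1 := B 1
  have B2 := B 2
  simp [a1, a2, cr, mv, tv, dt] at A0 A1 A2 B0 B1 B2 H
  simp [V1, V2, cr, mv, tv, dt, aj]
  linear_combination (0 - g 2 * y 2 + k 0 * N 2 1 - k 1 * N 2 0)  *  A0 + (0 + g 0 * y 2 - k 0 * N 0 1 + k 1 * N 0 0)  *  A2 + (0 + g 0 * N 2 1 - g 2 * N 0 1 + k 1 * y 1)  *  B0 + (0 - g 0 * N 2 0 + g 2 * N 0 0 - k 0 * y 1)  *  B1 + (-((-(-(N 0 0 * N 2 1-N 0 1 * N 2 0)+y 1 * y 2))))  *  H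

theorem par23 (A : ∀ i, a1 N y p q i = 0) (B : ∀ i, a2 N y p q i = 0)
    (H : dt g p + dt k q = 0) : V1 N y g k 2 * q 0 = V2 N y g k 0 * p 2 := by
  have A0 := A 0
  have A1 := A 1
  have A2 := A 2
  have B0 := B 0
  have B1 := B 1
  have B2 := B 2
  simp [a1, a2, cr, mv, tv, dt] at A0 A1 A2 B0 B1 B2 H
  simp [V1, V2, cr, mv, tv, dt, aj]
  linear_combination (0 + g 1 * y 0 - k 1 * N 1 2 + k 2 * N 1 1)  *  A0 + (0 - g 0 * y 0 + k 1 * N 0 2 - k 2 * N 0 1)  *  A1 + (0 - g 0 * N 1 2 + g 1 * N 0 2 + k 2 * y 2)  *  B1 + (0 + g 0 * N 1 1 - g 1 * N 0 1 - k 1 * y 2)  *  B2 + (-((-((N 0 1 * N 1 2-N 0 2 * N 1 1)+y 2 * y 0))))  *  H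

theorem par24 (A : ∀ i, a1 N y p q i = 0) (B : ∀ i, a2 N y p q i = 0)
    (H : dt g p + dt k q = 0) : V1 N y g k 2 * q 1 = V2 N y g k 1 * p 2 := by
  have A0 := A 0
  have A1 := A 1
  have A2 := A 2
  have B0 := B 0
  have B1 := B 1
  have B2 := B 2
  simp [a1, a2, cr, mv, tv, dt] at A0 A1 A2 B0 B1 B2 H
  simp [V1, V2, cr, mv, tv, dt, aj]
  linear_combination (0 + g 1 * y 1 + k 0 * N 1 2 - k 2 * N 1 0)  *  A0 + (0 - g 0 * y 1 - k 0 * N 0 2 + k 2 * N 0 0)  *  A1 + (0 + g 0 * N 1 2 - g 1 * N 0 2 - k 2 * y 2)  *  B0 + (0 - g 0 * N 1 0 + g 1 * N 0 0 + k 0 * y 2)  *  B2 + (-((-(-(N 0 0 * N 1 2-N 0 2 * N 1 0)+y 2 * y 1))))  *  H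

theorem par25 (A : ∀ i, a1 N y p q i = 0) (B : ∀ i, a2 N y p q i = 0)
    (H : dt g p + dt k q = 0) : V1 N y g k 2 * q 2 = V2 N y g k 2 * p 2 := by
  have A0 := A 0
  have A1 := A 1
  have A2 := A 2
  have B0 := B 0
  have B1 := B 1
  have B2 := B 2
  simp [a1, a2, cr, mv, tv, dt] at A0 A1 A2 B0 B1 B2 H
  simp [V1, V2, cr, mv, tv, dt, aj]
  linear_combination (0 + g 1 * y 2 - k 0 * N 1 1 + k 1 * N 1 0)  *  A0 + (0 - g 0 * y 2 + k 0 * N 0 1 - k 1 * N 0 0)  *  A1 + (0 - g 0 * N 1 1 + g 1 * N 0 1 + k 1 * y 2)  *  B0 + (0 + g 0 * N 1 0 - g 1 * N 0 0 - k 0 * y 2)  *  B1 + (-((-((N 0 0 * N 1 1-N 0 1 * N 1 0)+y 2 * y 2))))  *  H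

theorem par34 (A : ∀ i, a1 N y p q i = 0) (B : ∀ i, a2 N y p q i = 0)
    (H : dt g p + dt k q = 0) : V2 N y g k 0 * q 1 = V2 N y g k 1 * q 0 := by
  have A0 := A 0
  have A1 := A 1
  have A2 := A 2
  have B0 := B 0
  have B1 := B 1
  have B2 := B 2
  simp [a1, a2, cr, mv, tv, dt] at A0 A1 A2 B0 B1 B2 H
  simp [V1, V2, cr, mv, tv, dt, aj]
  linear_combination (0 + g 1 * N 2 2 - g 2 * N 1 2 - k 2 * y 0)  *  A0 + (0 - g 0 * N 2 2 + g 2 * N 0 2 - k 2 * y 1)  *  A1 + (0 + g 0 * N 1 2 - g 1 * N 0 2 - k 2 * y 2)  *  A2 + (0 - g 0 * y 0 - g 1 * y 1 - g 2 * y 2)  *  B2 + (-((-(N 0 2 * y 0+N 1 2 * y 1+N 2 2 * y 2))))  *  H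

theorem par35 (A : ∀ i, a1 N y p q i = 0) (B : ∀ i, a2 N y p q i = 0)
    (H : dt g p + dt k q = 0) : V2 N y g k 0 * q 2 = V2 N y g k 2 * q 0 := by
  have A0 := A 0
  have A1 := A 1
  have A2 := A 2
  have B0 := B 0
  have B1 := B 1
  have B2 := B 2
  simp [a1, a2, cr, mv, tv, dt] at A0 A1 A2 B0 B1 B2 H
  simp [V1, V2, cr, mv, tv, dt, aj]
  linear_combination (0 - g 1 * N 2 1 + g 2 * N 1 1 + k 1 * y 0)  *  A0 + (0 + g 0 * N 2 1 - g 2 * N 0 1 + k 1 * y 1)  *  A1 + (0 - g 0 * N 1 1 + g 1 * N 0 1 + k 1 * y 2)  *  A2 + (0 + g 0 * y 0 + g 1 * y 1 + g 2 * y 2)  *  B1 + (-(((N 0 1 * y 0+N 1 1 * y 1+N 2 1 * y 2))))  *  H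

theorem par45 (A : ∀ i, a1 N y p q i = 0) (B : ∀ i, a2 N y p q i = 0)
    (H : dt g p + dt k q = 0) : V2 N y g k 1 * q 2 = V2 N y g k 2 * q 1 := by
  have A0 := A 0
  have A1 := A 1
  have A2 := A 2
  have B0 := B 0
  have B1 := B 1
  have B2 := B 2
  simp [a1, a2, cr, mv, tv, dt] at A0 A1 A2 B0 B1 B2 H
  simp [V1, V2, cr, mv, tv, dt, aj]
  linear_combination (0 + g 1 * N 2 0 - g 2 * N 1 0 - k 0 * y 0)  *  A0 + (0 - g 0 * N 2 0 + g 2 * N 0 0 - k 0 * y 1)  *  A1 + (0 + g 0 * N 1 0 - g 1 * N 0 0 - k 0 * y 2)  *  A2 + (0 - g 0 * y 0 - g 1 * y 1 - g 2 * y 2)  *  B0 + (-((-(N 0 0 * y 0+N 1 0 * y 1+N 2 0 * y 2))))  *  H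

end par

end Vale.Agent.P287.H674.Pf
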