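import Vale.Agent.P287.H674.Pf1

/-!
The parametrisation of a Pfaffian cubic of the form `det N(x) + y^T N(x) y`.
-/

namespace Vale.Agent.P287.H674.Pf

/-- the matrix at a point -/
def Nx (N : Fin 3 → Fin 3 → Fin 3 → ℂ) (x : Fin 3 → ℂ) (i j : Fin 3) : ℂ :=
  x 0 * N 0 i j + x 1 * N 1 i j + x 2 * N 2 i j

/-- `p^T N_k q` -/
def l1 (N : Fin 3 → Fin 3 → Fin 3 → ℂ) (p q : Fin 3 → ℂ) (k : Fin 3) : ℂ := dt p (mv (N k) q)
/-- `p^T N_k p + q^T N_k q` -/
def l2 (N : Fin 3 → Fin 3 → Fin 3 → ℂ) (p q : Fin 3 → ℂ) (k : Fin 3) : ℂ :=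
  dt p (mv (N k) p) + dt q (mv (N k) q)

/-- the point `x` of the kernel -/
def X' (N : Fin 3 → Fin 3 → Fin 3 → ℂ) (p q : Fin 3 → ℂ) : Fin 3 → ℂ := cr (l1 N p q) (l2 N p q)

/-- the point `y` of the kernel for a given matrix -/
def Yv (M : Fin 3 → Fin 3 → ℂ) (e p q : Fin 3 → ℂ) (i : Fin 3) : ℂ :=
  - dt p (mv M e) * p i + dt e (mv M q) * q i + dt p (mv M p) * e i

theorem dt_Nx (N : Fin 3 → Fin 3 → Fin 3 → ℂ) (x p q : Fin 3 → ℂ) :
    dt p (mv (Nx N x) q) = dt x (fun k => dt p (mv (N k) q)) := by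
  simp only [dt, mv, Nx]; ring

theorem Nx_smul (N : Fin 3 → Fin 3 → Fin 3 → ℂ) (c : ℂ) (x : Fin 3 → ℂ) (i j : Fin 3) :
    Nx N (fun k => c * x k) i j = c * Nx N x i j := by
  simp only [Nx]; ring

theorem ker1 {M : Fin 3 → Fin 3 → ℂ} {e p q : Fin 3 → ℂ} (h1 : dt p (mv M q) = 0)
    (h2 : dt p (mv M p) + dt q (mv M q) = 0) (i : Fin 3) :
    cr (Yv M e p q) p i + dt (cr p q) e * mv M q i = 0 := by
  have e1 : cr (Yv M e p q) p i + dt (cr p q) e * mv M q i =
      cr q e i * dt p (mv M q) + cr e p i * (dt p (mv M p) + dt q (mv M q)) := by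
    fin_cases i <;> simp [cr, Yv, dt, mv] <;> ring
  rw [e1, h1, h2]; ring

theorem ker2 {M : Fin 3 → Fin 3 → ℂ} {e p q : Fin 3 → ℂ} (h1 : dt p (mv M q) = 0) (i : Fin 3) :
    cr (Yv M e p q) q i + dt (cr p q) e * tv M p i = 0 := by
  have e1 : cr (Yv M e p q) q i + dt (cr p q) e * tv M p i = cr e p i * dt p (mv M q) := by
    fin_cases i <;> simp [cr, Yv, dt, mv, tv] <;> ring
  rw [e1, h1]; ring

theorem dt_cr_left (a b : Fin 3 → ℂ) : dt (cr a b) a = 0 := by
  simp [dt, cr]; ring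

theorem dt_cr_right (a b : Fin 3 → ℂ) : dt (cr a b) b = 0 := by
  simp [dt, cr]; ring

theorem cr_cr (a b x : Fin 3 → ℂ) (h1 : dt x a = 0) (h2 : dt x b = 0) (i j : Fin 3) :
    cr a b i * x j = cr a b j * x i := by
  simp only [dt] at h1 h2
  fin_cases i <;> fin_cases j <;> simp [cr]
  · linear_combination (b 2) * h1 - (a 2) * h2
  · linear_combination -(b 1) * h1 + (a 1) * h2
  · linear_combination -(b 2) * h1 + (a 2) * h2
  · linear_combination (b 0) * h1 - (a 0) * h2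
  · linear_combination (b 1) * h1 - (a 1) * h2
  · linear_combination -(b 0) * h1 + (a 0) * h2

section

variable (N : Fin 3 → Fin 3 → Fin 3 → ℂ) (e : Fin 3 → ℂ)

/-- the `x` coordinates of the parametrisation -/
def Wx (p q : Fin 3 → ℂ) (i : Fin 3) : ℂ := dt (cr p q) e * X' N p q i
/-- the `y` coordinates of the parametrisation -/
def Wy (p q : Fin 3 → ℂ) (i : Fin 3) : ℂ := Yv (Nx N (X' N p q)) e p q i

theorem X'_l1 (p q : Fin 3 → ℂ) : dt p (mv (Nx N (X' N p q)) q) = 0 := by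
  rw [dt_Nx]
  exact dt_cr_left _ _

theorem X'_l2 (p q : Fin 3 → ℂ) :
    dt p (mv (Nx N (X' N p q)) p) + dt q (mv (Nx N (X' N p q)) q) = 0 := by
  rw [dt_Nx, dt_Nx]
  have h : dt (X' N p q) (fun k => dt p (mv (N k) p)) + dt (X' N p q) (fun k => dt q (mv (N k) q))
      = dt (X' N p q) (l2 N p q) := by
    simp only [dt, l2]; ring
  rw [h]
  exact dt_cr_right _ _

theorem a1_W (p q : Fin 3 → ℂ) (i : Fin 3) : a1 (Nx N (Wx N e p q)) (Wy N e p q) p q i = 0 := by
  have h := ker1 (e := e) (X'_l1 N p q) (X'_l2 N p q) i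
  have h2 : mv (Nx N (Wx N e p q)) q i = dt (cr p q) e * mv (Nx N (X' N p q)) q i := by
    simp only [mv, Nx, Wx]; ring
  rw [a1, h2]
  exact h

theorem a2_W (p q : Fin 3 → ℂ) (i : Fin 3) : a2 (Nx N (Wx N e p q)) (Wy N e p q) p q i = 0 := by
  have h := ker2 (e := e) (X'_l1 N p q) i
  have h2 : tv (Nx N (Wx N e p q)) p i = dt (cr p q) e * tv (Nx N (X' N p q)) p i := by
    simp only [tv, Nx, Wx]; ring
  rw [a2, h2]
  exact h

variable {N e} in
theorem cramer {M : Fin 3 → Fin 3 → ℂ} {y p q : Fin 3 → ℂ} (h1 : ∀ i, a1 M y p q i = 0)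
    (h2 : ∀ i, a2 M y p q i = 0) (i : Fin 3) : dt (cr p q) e * y i = Yv M e p q i := by
  have A0 := h1 0
  have A1 := h1 1
  have A2 := h1 2
  have B0 := h2 0
  have B1 := h2 1
  have B2 := h2 2
  simp only [a1, a2, cr, mv, tv, Matrix.cons_val] at A0 A1 A2 B0 B1 B2
  fin_cases i <;> simp [Yv, dt, mv, cr]
  · linear_combination (p 0) * (e 0 * B0 + e 1 * B1 + e 2 * B2)
      - (q 0) * (e 0 * A0 + e 1 * A1 + e 2 * A2) - (e 0) * (p 0 * B0 + p 1 * B1 + p 2 * B2)
  · linear_combination (p 1) * (e 0 * B0 + e 1 * B1 + e 2 * B2)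
      - (q 1) * (e 0 * A0 + e 1 * A1 + e 2 * A2) - (e 1) * (p 0 * B0 + p 1 * B1 + p 2 * B2)
  · linear_combination (p 2) * (e 0 * B0 + e 1 * B1 + e 2 * B2)
      - (q 2) * (e 0 * A0 + e 1 * A1 + e 2 * A2) - (e 2) * (p 0 * B0 + p 1 * B1 + p 2 * B2)

variable {N} in
/-- the point of the kernel is unique -/
theorem W_par {x y p q : Fin 3 → ℂ} (h1 : ∀ i, a1 (Nx N x) y p q i = 0)
    (h2 : ∀ i, a2 (Nx N x) y p q i = 0) :
    (∀ i j, Wx N e p q i * x j = Wx N e p q j * x i) ∧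
    (∀ i j, Wx N e p q i * y j = Wy N e p q j * x i) ∧
    (∀ i j, Wy N e p q i * y j = Wy N e p q j * y i) := by
  have A0 := h1 0
  have A1 := h1 1
  have A2 := h1 2
  have B0 := h2 0
  have B1 := h2 1
  have B2 := h2 2
  have f1 : dt p (mv (Nx N x) q) = 0 := by
    simp only [a1, a2, cr, mv, tv, Matrix.cons_val] at A0 A1 A2
    simp only [dt, mv]
    linear_combination (p 0) * A0 + (p 1) * A1 + (p 2) * A2
  have f2 : dt p (mv (Nx N x) p) + dt q (mv (Nx N x) q) = 0 := by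
    simp only [a1, a2, cr, mv, tv, Matrix.cons_val] at A0 A1 A2 B0 B1 B2
    simp only [dt, mv]
    linear_combination (q 0) * A0 + (q 1) * A1 + (q 2) * A2
      + (p 0) * B0 + (p 1) * B1 + (p 2) * B2
  have g1 : dt x (l1 N p q) = 0 := by rw [dt_Nx] at f1; exact f1
  have g2 : dt x (l2 N p q) = 0 := by
    rw [dt_Nx, dt_Nx] at f2
    have : dt x (l2 N p q) = dt x (fun k => dt p (mv (N k) p)) +
        dt x (fun k => dt q (mv (N k) q)) := by
      simp only [dt, l2]; ring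
    rw [this, f2]
  have hX : ∀ i j, X' N p q i * x j = X' N p q j * x i := cr_cr _ _ _ g1 g2
  have hC := cramer (e := e) h1 h2
  have k1 : ∀ i j, Wx N e p q i * x j = Wx N e p q j * x i := by
    intro i j
    simp only [Wx]
    linear_combination (dt (cr p q) e) * hX i j
  have hY : ∀ i j, Yv (Nx N (X' N p q)) e p q j * x i = X' N p q i * Yv (Nx N x) e p q j := by
    intro i j
    have e0 := hX 0 i
    have e1 := hX 1 i
    have e2 := hX 2 i
    simp only [Yv, dt, mv, Nx]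
    generalize X' N p q = Z at *
    linear_combination (-(p 0 * (N 0 0 0 * e 0 + N 0 0 1 * e 1 + N 0 0 2 * e 2) + p 1 * (N 0 1 0 * e 0 + N 0 1 1 * e 1 + N 0 1 2 * e 2) + p 2 * (N 0 2 0 * e 0 + N 0 2 1 * e 1 + N 0 2 2 * e 2)) * p j
      + (e 0 * (N 0 0 0 * q 0 + N 0 0 1 * q 1 + N 0 0 2 * q 2) + e 1 * (N 0 1 0 * q 0 + N 0 1 1 * q 1 + N 0 1 2 * q 2) + e 2 * (N 0 2 0 * q 0 + N 0 2 1 * q 1 + N 0 2 2 * q 2)) * q j
      + (p 0 * (N 0 0 0 * p 0 + N 0 0 1 * p 1 + N 0 0 2 * p 2) + p 1 * (N 0 1 0 * p 0 + N 0 1 1 * p 1 + N 0 1 2 * p 2) + p 2 * (N 0 2 0 * p 0 + N 0 2 1 * p 1 + N 0 2 2 * p 2)) * e j) * e0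
      + (-(p 0 * (N 1 0 0 * e 0 + N 1 0 1 * e 1 + N 1 0 2 * e 2) + p 1 * (N 1 1 0 * e 0 + N 1 1 1 * e 1 + N 1 1 2 * e 2) + p 2 * (N 1 2 0 * e 0 + N 1 2 1 * e 1 + N 1 2 2 * e 2)) * p j
      + (e 0 * (N 1 0 0 * q 0 + N 1 0 1 * q 1 + N 1 0 2 * q 2) + e 1 * (N 1 1 0 * q 0 + N 1 1 1 * q 1 + N 1 1 2 * q 2) + e 2 * (N 1 2 0 * q 0 + N 1 2 1 * q 1 + N 1 2 2 * q 2)) * q j
      + (p 0 * (N 1 0 0 * p 0 + N 1 0 1 * p 1 + N 1 0 2 * p 2) + p 1 * (N 1 1 0 * p 0 + N 1 1 1 * p 1 + N 1 1 2 * p 2) + p 2 * (N 1 2 0 * p 0 + N 1 2 1 * p 1 + N 1 2 2 * p 2)) * e j) * e1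
      + (-(p 0 * (N 2 0 0 * e 0 + N 2 0 1 * e 1 + N 2 0 2 * e 2) + p 1 * (N 2 1 0 * e 0 + N 2 1 1 * e 1 + N 2 1 2 * e 2) + p 2 * (N 2 2 0 * e 0 + N 2 2 1 * e 1 + N 2 2 2 * e 2)) * p j
      + (e 0 * (N 2 0 0 * q 0 + N 2 0 1 * q 1 + N 2 0 2 * q 2) + e 1 * (N 2 1 0 * q 0 + N 2 1 1 * q 1 + N 2 1 2 * q 2) + e 2 * (N 2 2 0 * q 0 + N 2 2 1 * q 1 + N 2 2 2 * q 2)) * q j
      + (p 0 * (N 2 0 0 * p 0 + N 2 0 1 * p 1 + N 2 0 2 * p 2) + p 1 * (N 2 1 0 * p 0 + N 2 1 1 * p 1 + N 2 1 2 * p 2) + p 2 * (N 2 2 0 * p 0 + N 2 2 1 * p 1 + N 2 2 2 * p 2)) * e j) * e2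
  have k2 : ∀ i j, Wx N e p q i * y j = Wy N e p q j * x i := by
    intro i j
    rw [Wy, hY, ← hC]
    simp only [Wx]
    ring
  refine ⟨k1, k2, fun i j => ?_⟩
  by_cases hx : x = 0
  · -- then `p, q` are parallel to `y`, and `X' = 0`
    by_cases hy : y = 0
    · rw [hy]; simp
    · have hpq : ∀ i, cr (l1 N p q) (l2 N p q) i = 0 := by
        have hM : ∀ i j, Nx N x i j = 0 := by
          intro i j; rw [hx]; simp [Nx]
        simp only [a1, a2, mv, tv, hM, zero_mul, add_zero] at h1 h2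
        obtain ⟨m, hm⟩ : ∃ m, y m ≠ 0 := by
          by_contra hcon
          push Not at hcon
          exact hy (funext hcon)
        have par : ∀ v : Fin 3 → ℂ, (∀ i, cr y v i = 0) → ∀ i, y m * v i = v m * y i := by
          intro v hv i
          have c0 := hv 0
          have c1 := hv 1
          have c2 := hv 2
          simp only [cr, Matrix.cons_val] at c0 c1 c2
          fin_cases m <;> fin_cases i <;> simp <;> first
            | ring1
            | linear_combination c0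
            | linear_combination c1
            | linear_combination c2
            | linear_combination -c0
            | linear_combination -c1
            | linear_combination -c2
        have hp := par p h1
        have hq := par q h2
        have hl1 : ∀ k, y m ^ 2 * l1 N p q k = (p m * q m) * dt y (mv (N k) y) := by
          intro k
          simp only [l1, dt, mv]
          have a0 := hp 0
          have a1 := hp 1
          have a2 := hp 2
          have b0 := hq 0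
          have b1 := hq 1
          have b2 := hq 2
          have t : ∀ a b : Fin 3, y m ^ 2 * (p a * (N k a b * q b)) =
              (p m * q m) * (y a * (N k a b * y b)) := by
            intro a b
            linear_combination (y m * N k a b * q b) * hp a + (p m * y a * N k a b) * hq b
          linear_combination t 0 0 + t 0 1 + t 0 2 + t 1 0 + t 1 1 + t 1 2 + t 2 0 + t 2 1 + t 2 2
        have hl2 : ∀ k, y m ^ 2 * l2 N p q k = (p m ^ 2 + q m ^ 2) * dt y (mv (N k) y) := by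
          intro k
          simp only [l2, dt, mv]
          have t : ∀ a b : Fin 3, y m ^ 2 * (p a * (N k a b * p b) + q a * (N k a b * q b)) =
              (p m ^ 2 + q m ^ 2) * (y a * (N k a b * y b)) := by
            intro a b
            linear_combination (y m * N k a b * p b) * hp a + (p m * y a * N k a b) * hp b
              + (y m * N k a b * q b) * hq a + (q m * y a * N k a b) * hq b
          linear_combination t 0 0 + t 0 1 + t 0 2 + t 1 0 + t 1 1 + t 1 2 + t 2 0 + t 2 1 + t 2 2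
        have key : ∀ a b, l1 N p q a * l2 N p q b = l1 N p q b * l2 N p q a := by
          intro a b
          have h4 : (y m ^ 2) ^ 2 ≠ 0 := pow_ne_zero _ (pow_ne_zero _ hm)
          apply mul_left_cancel₀ h4
          have e1 := hl1 a
          have e2 := hl1 b
          have e3 := hl2 a
          have e4 := hl2 b
          calc (y m ^ 2) ^ 2 * (l1 N p q a * l2 N p q b)
              = (y m ^ 2 * l1 N p q a) * (y m ^ 2 * l2 N p q b) := by ring
            _ = (y m ^ 2 * l1 N p q b) * (y m ^ 2 * l2 N p q a) := by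
                rw [e1, e2, e3, e4]; ring
            _ = _ := by ring
        intro i
        fin_cases i <;> simp [cr]
        · linear_combination key 1 2
        · linear_combination key 2 0
        · linear_combination key 0 1
      have hX0 : X' N p q = 0 := funext hpq
      have hW : ∀ i, Wy N e p q i = 0 := by
        intro i
        simp [Wy, hX0, Yv, dt, mv, Nx]
      rw [hW, hW]; ring
  · obtain ⟨m, hm⟩ : ∃ m, x m ≠ 0 := by
      by_contra hcon
      push Not at hcon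
      exact hx (funext hcon)
    apply mul_left_cancel₀ hm
    have e1 := k2 m i
    have e2 := k2 m j
    linear_combination (y i) * e2 - (y j) * e1

end

end Vale.Agent.P287.H674.Pf
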