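import Vale.Agent.P287.H674.Pf2

/-!
Nondegeneracy of the parametrisation of a Pfaffian cubic.
-/

namespace Vale.Agent.P287.H674.Pf

theorem exists_ne {v : Fin 3 → ℂ} (h : v ≠ 0) : ∃ i, v i ≠ 0 := by
  by_contra hcon
  push Not at hcon
  exact h (funext hcon)

/-- directional derivative of the Pfaffian -/
theorem pf_diff (M M' : Fin 3 → Fin 3 → ℂ) (y y' : Fin 3 → ℂ) :
    pf (fun i j => M i j + M' i j) (fun i => y i + y' i)
      - pf (fun i j => M i j - M' i j) (fun i => y i - y' i) - 2 * pf M' y' =
    2 * (∑ i, ∑ j, (aj M j i + y i * y j) * M' i j + dt y' (mv M y) + dt y' (tv M y)) := by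
  simp [pf, dd, aj, dt, mv, tv, Fin.sum_univ_three]
  ring

theorem V_skew (M : Fin 3 → Fin 3 → ℂ) (y g k g' k' : Fin 3 → ℂ) :
    dt g' (V1 M y g k) + dt k' (V2 M y g k) = -(dt g (V1 M y g' k') + dt k (V2 M y g' k')) := by
  simp [V1, V2, dt, mv, tv, aj, cr]
  ring

theorem V1_lin (M : Fin 3 → Fin 3 → ℂ) (y g k g' k' : Fin 3 → ℂ) (s : ℂ) (i : Fin 3) :
    V1 M y (fun j => g j - s * g' j) (fun j => k j - s * k' j) i =
      V1 M y g k i - s * V1 M y g' k' i := by
  fin_cases i <;> simp [V1, dt, tv, aj, cr] <;> ring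

theorem V2_lin (M : Fin 3 → Fin 3 → ℂ) (y g k g' k' : Fin 3 → ℂ) (s : ℂ) (i : Fin 3) :
    V2 M y (fun j => g j - s * g' j) (fun j => k j - s * k' j) i =
      V2 M y g k i - s * V2 M y g' k' i := by
  fin_cases i <;> simp [V2, dt, mv, tv, aj, cr] <;> ring

theorem dt_single (a : Fin 3 → ℂ) (i : Fin 3) : dt (Pi.single i 1) a = a i := by
  fin_cases i <;> simp [dt, Pi.single_apply]

theorem dt_zero (a : Fin 3 → ℂ) : dt 0 a = 0 := by simp [dt]

/-- some vector orthogonal to `(p, q)` is not killed by the adjoint matrix -/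
theorem exists_gk {M : Fin 3 → Fin 3 → ℂ} {y p q : Fin 3 → ℂ} (hpq : p ≠ 0 ∨ q ≠ 0)
    (hM : ¬ ((∀ i, mv M y i = 0) ∧ (∀ i, tv M y i = 0) ∧ ∀ i j, aj M j i + y i * y j = 0)) :
    ∃ g k, dt g p + dt k q = 0 ∧ (V1 M y g k ≠ 0 ∨ V2 M y g k ≠ 0) := by
  by_contra hcon
  push Not at hcon
  apply hM
  obtain ⟨g₀, k₀, h1⟩ : ∃ g₀ k₀ : Fin 3 → ℂ, dt g₀ p + dt k₀ q = 1 := by
    rcases hpq with h | h
    · obtain ⟨i, hi⟩ := exists_ne h
      refine ⟨fun j => (Pi.single i 1 : Fin 3 → ℂ) j / p i, 0, ?_⟩
      rw [dt_zero, add_zero]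
      have := dt_single p i
      simp only [dt] at this ⊢
      field_simp
      linear_combination this
    · obtain ⟨i, hi⟩ := exists_ne h
      refine ⟨0, fun j => (Pi.single i 1 : Fin 3 → ℂ) j / q i, ?_⟩
      rw [dt_zero, zero_add]
      have := dt_single q i
      simp only [dt] at this ⊢
      field_simp
      linear_combination this
  have hlin : ∀ g k, (∀ i, V1 M y g k i = (dt g p + dt k q) * V1 M y g₀ k₀ i) ∧
      ∀ i, V2 M y g k i = (dt g p + dt k q) * V2 M y g₀ k₀ i := by
    intro g k
    set s := dt g p + dt k q with hs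
    have h2 : dt (fun j => g j - s * g₀ j) p + dt (fun j => k j - s * k₀ j) q = 0 := by
      have : dt (fun j => g j - s * g₀ j) p + dt (fun j => k j - s * k₀ j) q =
          (dt g p + dt k q) - s * (dt g₀ p + dt k₀ q) := by
        simp only [dt]; ring
      rw [this, h1, ← hs]; ring
    obtain ⟨h3, h4⟩ := hcon _ _ h2
    constructor
    · intro i
      have := congrFun h3 i
      rw [V1_lin] at this
      exact sub_eq_zero.mp this
    · intro i
      have := congrFun h4 i
      rw [V2_lin] at this
      exact sub_eq_zero.mp this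
  have hz : ∀ g k, dt g (V1 M y g₀ k₀) + dt k (V2 M y g₀ k₀) = 0 := by
    intro g k
    rw [V_skew]
    obtain ⟨h2, h3⟩ := hlin g k
    have h4 : V1 M y g k = fun i => (dt g p + dt k q) * V1 M y g₀ k₀ i := funext h2
    have h5 : V2 M y g k = fun i => (dt g p + dt k q) * V2 M y g₀ k₀ i := funext h3
    have h6 := dot_V M y g₀ k₀
    rw [h4, h5]
    simp only [dt] at h6 ⊢
    linear_combination (-(g 0 * p 0 + g 1 * p 1 + g 2 * p 2 + (k 0 * q 0 + k 1 * q 1 + k 2 * q 2)))
      * h6
  have hV1 : ∀ i, V1 M y g₀ k₀ i = 0 := by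
    intro i
    have := hz (Pi.single i 1) 0
    rw [dt_single, dt_zero, add_zero] at this
    exact this
  have hV2 : ∀ i, V2 M y g₀ k₀ i = 0 := by
    intro i
    have := hz 0 (Pi.single i 1)
    rw [dt_single, dt_zero, zero_add] at this
    exact this
  have hV1' : ∀ g k i, V1 M y g k i = 0 := fun g k i => by
    rw [(hlin g k).1 i, hV1, mul_zero]
  have hV2' : ∀ g k i, V2 M y g k i = 0 := fun g k i => by
    rw [(hlin g k).2 i, hV2, mul_zero]
  refine ⟨?_, ?_, ?_⟩
  · intro i
    have a := hV1' (Pi.single 0 1) 0 1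
    have b := hV1' (Pi.single 0 1) 0 2
    have c := hV1' (Pi.single 1 1) 0 2
    simp [V1, cr, dt, tv] at a b c
    fin_cases i
    · exact c
    · exact b
    · exact a
  · intro i
    have a := hV2' 0 (Pi.single 0 1) 1
    have b := hV2' 0 (Pi.single 0 1) 2
    have c := hV2' 0 (Pi.single 1 1) 2
    simp [V2, cr, dt, mv] at a b c
    fin_cases i
    · exact c
    · exact b
    · exact a
  · intro i j
    have a := hV1' 0 (Pi.single j 1) i
    simp only [V1] at a
    fin_cases i <;> fin_cases j <;> simp [cr, dt, tv] at a ⊢ <;> linear_combination a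

/-- the two linear forms cutting out the point `x` are independent for some `(p, q)` -/
theorem exists_pq {N : Fin 3 → Fin 3 → Fin 3 → ℂ}
    (hb : ∀ p : Fin 3 → ℂ, p ≠ 0 → ∃ k, dt p (mv (N k) p) ≠ 0) : ∃ p q, X' N p q ≠ 0 := by
  by_contra hcon
  push Not at hcon
  set a : (Fin 3 → ℂ) → Fin 3 → ℂ := fun p k => dt p (mv (N k) p) with ha
  have hX : ∀ p q i, cr (l1 N p q) (l2 N p q) i = 0 := fun p q i => congrFun (hcon p q) i
  -- l1 is parallel to a(p)
  have h1 : ∀ p r i, cr (l1 N p r) (a p) i = 0 := by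
    intro p r i
    have e1 := hX p r i
    have e2 := hX p (fun j => 2 * r j) i
    have l1s : l1 N p (fun j => 2 * r j) = fun k => 2 * l1 N p r k := by
      funext k; simp only [l1, dt, mv]; ring
    have l2s : l2 N p (fun j => 2 * r j) = fun k => a p k + 4 * a r k := by
      funext k; simp only [l2, ha, dt, mv]; ring
    have l2r : l2 N p r = fun k => a p k + a r k := rfl
    rw [l1s, l2s] at e2
    rw [l2r] at e1
    generalize l1 N p r = l at *
    generalize a p = u at *
    generalize a r = w at *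
    fin_cases i <;> simp [cr] at e1 e2 ⊢ <;> linear_combination (4 / 3) * e1 - (1 / 6) * e2
  have h2 : ∀ p r i, cr (l1 N p r) (a r) i = 0 := by
    intro p r i
    have e1 := hX p r i
    have e3 := h1 p r i
    have l2r : l2 N p r = fun k => a p k + a r k := rfl
    rw [l2r] at e1
    generalize l1 N p r = l at *
    generalize a p = u at *
    generalize a r = w at *
    fin_cases i <;> simp [cr] at e1 e3 ⊢ <;> linear_combination e1 - e3
  have hane : ∀ p : Fin 3 → ℂ, p ≠ 0 → a p ≠ 0 := by
    intro p hp h0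
    obtain ⟨k, hk⟩ := hb p hp
    exact hk (congrFun h0 k)
  -- a(r) is parallel to a(p)
  have h3 : ∀ p : Fin 3 → ℂ, p ≠ 0 → ∀ r i, cr (a r) (a p) i = 0 := by
    intro p hp r
    obtain ⟨m, hm⟩ := exists_ne (hane p hp)
    -- parallel vectors
    have par : ∀ v : Fin 3 → ℂ, (∀ i, cr v (a p) i = 0) → ∀ i, v i * a p m = v m * a p i := by
      intro v hv i
      have c0 := hv 0
      have c1 := hv 1
      have c2 := hv 2
      simp only [cr, Matrix.cons_val] at c0 c1 c2
      fin_cases m <;> fin_cases i <;> simp <;> first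
        | ring1
        | linear_combination c0
        | linear_combination c1
        | linear_combination c2
        | linear_combination -c0
        | linear_combination -c1
        | linear_combination -c2
    have hl := par _ (h1 p r)
    have key : ∀ t : ℂ, l1 N p r m + t * a p m ≠ 0 → ∀ i,
        cr (a fun j => r j + t * p j) (a p) i = 0 := by
      intro t ht i
      have e1 := h2 p (fun j => r j + t * p j)
      have l1t : l1 N p (fun j => r j + t * p j) = fun k => l1 N p r k + t * a p k := by
        funext k; simp only [l1, ha, dt, mv]; ring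
      rw [l1t] at e1
      generalize (a fun j => r j + t * p j) = w at *
      have e0 := e1 0
      have e2 := e1 1
      have e3 := e1 2
      have l0 := hl 0
      have l1' := hl 1
      have l2' := hl 2
      generalize l1 N p r = l at *
      generalize a p = u at *
      simp only [cr, Matrix.cons_val] at e0 e2 e3
      have f : ∀ i j, (l m + t * u m) * (w i * u j - w j * u i) = 
          u m * ((l j + t * u j) * w i - (l i + t * u i) * w j) := by
        intro i j
        linear_combination (-(w i)) * hl j + (w j) * hl i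
      fin_cases i <;> simp [cr] <;> apply mul_left_cancel₀ ht <;> rw [mul_zero]
      · rw [f 1 2]; linear_combination (-(u m)) * e0
      · rw [f 2 0]; linear_combination (-(u m)) * e2
      · rw [f 0 1]; linear_combination (-(u m)) * e3
    -- two values of t
    have hat : ∀ t k, a (fun j => r j + t * p j) k =
        a r k + t * (l1 N p r k + l1 N r p k) + t ^ 2 * a p k := by
      intro t k
      simp only [ha, l1, dt, mv]; ring
    obtain ⟨t₁, t₂, ht, ht1, ht2⟩ : ∃ t₁ t₂ : ℂ, t₁ ≠ t₂ ∧ l1 N p r m + t₁ * a p m ≠ 0 ∧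
        l1 N p r m + t₂ * a p m ≠ 0 := by
      refine ⟨(1 - l1 N p r m) / a p m, (2 - l1 N p r m) / a p m, ?_, ?_, ?_⟩
      · intro h
        rw [div_left_inj' hm] at h
        have : (1 : ℂ) = 2 := by linear_combination h
        norm_num at this
      · rw [div_mul_cancel₀ _ hm]; norm_num
      · rw [div_mul_cancel₀ _ hm]; norm_num
    intro i
    have k1 := key t₁ ht1 i
    have k2 := key t₂ ht2 i
    have ht' : t₂ - t₁ ≠ 0 := sub_ne_zero.mpr (Ne.symm ht)
    have e1 := hat t₁
    have e2 := hat t₂
    generalize a (fun j => r j + t₁ * p j) = w1 at *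
    generalize a (fun j => r j + t₂ * p j) = w2 at *
    generalize a p = u at *
    generalize a r = v at *
    fin_cases i <;> simp [cr] at k1 k2 ⊢ <;> simp only [e1, e2] at k1 k2 <;>
      apply mul_left_cancel₀ ht' <;> linear_combination t₂ * k1 - t₁ * k2
  -- conclusion
  have hp0 : (Pi.single 0 1 : Fin 3 → ℂ) ≠ 0 := by
    intro h
    have := congrFun h 0
    simp at this
  set u := a (Pi.single 0 1) with hu
  obtain ⟨m, hm⟩ := exists_ne (hane _ hp0)
  have par : ∀ v : Fin 3 → ℂ, (∀ i, cr v u i = 0) → ∀ i, v i * u m = v m * u i := by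
    intro v hv i
    have c0 := hv 0
    have c1 := hv 1
    have c2 := hv 2
    simp only [cr, Matrix.cons_val] at c0 c1 c2
    fin_cases m <;> fin_cases i <;> simp <;> first
      | ring1
      | linear_combination c0
      | linear_combination c1
      | linear_combination c2
      | linear_combination -c0
      | linear_combination -c1
      | linear_combination -c2
  have hpar : ∀ r i, a r i * u m = a r m * u i := fun r => par _ (h3 _ hp0 r)
  obtain ⟨r, hr, hr0⟩ : ∃ r : Fin 3 → ℂ, r ≠ 0 ∧ a r m = 0 := by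
    by_cases h11 : N m 1 1 = 0
    · refine ⟨Pi.single 1 1, ?_, ?_⟩
      · intro h
        have := congrFun h 1
        simp at this
      · simp [ha, dt, mv, Pi.single_apply, h11]
    · obtain ⟨s, hs⟩ := IsAlgClosed.exists_pow_nat_eq
        ((N m 0 1 + N m 1 0) ^ 2 - 4 * N m 1 1 * N m 0 0) (n := 2) (by norm_num)
      refine ⟨![1, (s - (N m 0 1 + N m 1 0)) / (2 * N m 1 1), 0], ?_, ?_⟩
      · intro h
        have := congrFun h 0
        simp at this
      · simp only [ha, dt, mv, Matrix.cons_val]
        field_simp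
        linear_combination hs
  obtain ⟨k, hk⟩ := hb r hr
  apply hk
  have := hpar r k
  rw [hr0, zero_mul] at this
  exact (mul_eq_zero.mp this).resolve_right hm

end Vale.Agent.P287.H674.Pf
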