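import Vale.Agent.P287.H674.Pf3

/-!
A smooth cubic of the form `det N(x) + y^T N(x) y` (a Pfaffian) is rational.
-/

namespace Vale.Agent.P287.H674.Pf

open MvPolynomial

theorem par_smul {ι : Type*} {A B : ι → ℂ} (h : ∀ a c, A a * B c = A c * B a) (hB : B ≠ 0) :
    ∃ s : ℂ, A = s • B := by
  obtain ⟨m, hm⟩ : ∃ m, B m ≠ 0 := by
    by_contra hcon
    push Not at hcon
    exact hB (funext hcon)
  refine ⟨A m / B m, funext fun a => ?_⟩
  rw [Pi.smul_apply, smul_eq_mul]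
  field_simp
  exact h a m

section HP

variable {n a b : ℕ}

theorem hp_dt {f g : (Fin n → ℂ) → Fin 3 → ℂ} (hf : ∀ i, IsHP n a (fun v => f v i))
    (hg : ∀ i, IsHP n b (fun v => g v i)) : IsHP n (a + b) (fun v => dt (f v) (g v)) :=
  (((hf 0).mul (hg 0)).add ((hf 1).mul (hg 1))).add ((hf 2).mul (hg 2))

theorem hp_cr {f g : (Fin n → ℂ) → Fin 3 → ℂ} (hf : ∀ i, IsHP n a (fun v => f v i))
    (hg : ∀ i, IsHP n b (fun v => g v i)) (i : Fin 3) :
    IsHP n (a + b) (fun v => cr (f v) (g v) i) := by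
  fin_cases i
  · exact (((hf 1).mul (hg 2)).sub ((hf 2).mul (hg 1)))
  · exact (((hf 2).mul (hg 0)).sub ((hf 0).mul (hg 2)))
  · exact (((hf 0).mul (hg 1)).sub ((hf 1).mul (hg 0)))

theorem hp_mv {M : (Fin n → ℂ) → Fin 3 → Fin 3 → ℂ} {g : (Fin n → ℂ) → Fin 3 → ℂ}
    (hM : ∀ i j, IsHP n a (fun v => M v i j)) (hg : ∀ i, IsHP n b (fun v => g v i)) (i : Fin 3) :
    IsHP n (a + b) (fun v => mv (M v) (g v) i) :=
  (((hM i 0).mul (hg 0)).add ((hM i 1).mul (hg 1))).add ((hM i 2).mul (hg 2))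

theorem hp_tv {M : (Fin n → ℂ) → Fin 3 → Fin 3 → ℂ} {g : (Fin n → ℂ) → Fin 3 → ℂ}
    (hM : ∀ i j, IsHP n a (fun v => M v i j)) (hg : ∀ i, IsHP n b (fun v => g v i)) (i : Fin 3) :
    IsHP n (a + b) (fun v => tv (M v) (g v) i) :=
  (((hM 0 i).mul (hg 0)).add ((hM 1 i).mul (hg 1))).add ((hM 2 i).mul (hg 2))

theorem hp_aj {M : (Fin n → ℂ) → Fin 3 → Fin 3 → ℂ}
    (hM : ∀ i j, IsHP n a (fun v => M v i j)) (i j : Fin 3) :
    IsHP n (a + a) (fun v => aj (M v) i j) := by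
  have t : ∀ p q r s p' q' r' s' : Fin 3, IsHP n (a + a)
      (fun v => M v p q * M v r s - M v p' q' * M v r' s') := fun p q r s p' q' r' s' =>
    ((hM p q).mul (hM r s)).sub ((hM p' q').mul (hM r' s'))
  fin_cases i <;> fin_cases j <;> exact t _ _ _ _ _ _ _ _

theorem hp_Nx (N : Fin 3 → Fin 3 → Fin 3 → ℂ) {x : (Fin n → ℂ) → Fin 3 → ℂ}
    (hx : ∀ i, IsHP n a (fun v => x v i)) (i j : Fin 3) : IsHP n a (fun v => Nx N (x v) i j) :=
  (((hx 0).mulc _).add ((hx 1).mulc _)).add ((hx 2).mulc _)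

theorem hp_X' (N : Fin 3 → Fin 3 → Fin 3 → ℂ) {p q : (Fin n → ℂ) → Fin 3 → ℂ}
    (hp : ∀ i, IsHP n 1 (fun v => p v i)) (hq : ∀ i, IsHP n 1 (fun v => q v i)) (i : Fin 3) :
    IsHP n 4 (fun v => X' N (p v) (q v) i) := by
  have c : ∀ k i j, IsHP n 0 (fun _ => N k i j) := fun k i j => IsHP.const _
  have e1 : ∀ k, IsHP n 2 (fun v => l1 N (p v) (q v) k) := fun k =>
    hp_dt hp (hp_mv (M := fun _ => N k) (c k) hq)
  have e2 : ∀ k, IsHP n 2 (fun v => l2 N (p v) (q v) k) := fun k =>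
    (hp_dt hp (hp_mv (M := fun _ => N k) (c k) hp)).add
      (hp_dt hq (hp_mv (M := fun _ => N k) (c k) hq))
  exact hp_cr e1 e2 i

theorem hp_Wx (N : Fin 3 → Fin 3 → Fin 3 → ℂ) (e : Fin 3 → ℂ) {p q : (Fin n → ℂ) → Fin 3 → ℂ}
    (hp : ∀ i, IsHP n 1 (fun v => p v i)) (hq : ∀ i, IsHP n 1 (fun v => q v i)) (i : Fin 3) :
    IsHP n 6 (fun v => Wx N e (p v) (q v) i) :=
  (hp_dt (hp_cr hp hq) (g := fun _ => e) (fun i => IsHP.const (e i))).mul (hp_X' N hp hq i)

theorem hp_Wy (N : Fin 3 → Fin 3 → Fin 3 → ℂ) (e : Fin 3 → ℂ) {p q : (Fin n → ℂ) → Fin 3 → ℂ}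
    (hp : ∀ i, IsHP n 1 (fun v => p v i)) (hq : ∀ i, IsHP n 1 (fun v => q v i)) (i : Fin 3) :
    IsHP n 6 (fun v => Wy N e (p v) (q v) i) := by
  have hM := hp_Nx N (hp_X' N hp hq)
  have he : ∀ i, IsHP n 0 (fun _ => e i) := fun i => IsHP.const (e i)
  have t1 := (hp_dt hp (hp_mv hM (g := fun _ => e) he)).neg.mul (hp i)
  have t2 := (hp_dt (f := fun _ => e) he (hp_mv hM hq)).mul (hq i)
  have t3 := (hp_dt hp (hp_mv hM hp)).mul (he i)
  exact (t1.add (t2.cast (by norm_num))).add (t3.cast (by norm_num))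

theorem hp_V1 (N : Fin 3 → Fin 3 → Fin 3 → ℂ) (g k : Fin 3 → ℂ) {x y : (Fin n → ℂ) → Fin 3 → ℂ}
    (hx : ∀ i, IsHP n 1 (fun v => x v i)) (hy : ∀ i, IsHP n 1 (fun v => y v i)) (i : Fin 3) :
    IsHP n 2 (fun v => V1 (Nx N (x v)) (y v) g k i) := by
  have hM := hp_Nx N hx
  have hg : ∀ i, IsHP n 0 (fun _ => g i) := fun i => IsHP.const (g i)
  have hk : ∀ i, IsHP n 0 (fun _ => k i) := fun i => IsHP.const (k i)
  have t1 := hp_cr (hp_mv hM hy) (g := fun _ => g) hg i
  have t2 := hp_tv (hp_aj hM) (g := fun _ => k) hk i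
  have t3 := (hp_dt hy (g := fun _ => k) hk).mul (hy i)
  exact (t1.add t2).add (t3.cast (by norm_num))

theorem hp_V2 (N : Fin 3 → Fin 3 → Fin 3 → ℂ) (g k : Fin 3 → ℂ) {x y : (Fin n → ℂ) → Fin 3 → ℂ}
    (hx : ∀ i, IsHP n 1 (fun v => x v i)) (hy : ∀ i, IsHP n 1 (fun v => y v i)) (i : Fin 3) :
    IsHP n 2 (fun v => V2 (Nx N (x v)) (y v) g k i) := by
  have hM := hp_Nx N hx
  have hg : ∀ i, IsHP n 0 (fun _ => g i) := fun i => IsHP.const (g i)
  have hk : ∀ i, IsHP n 0 (fun _ => k i) := fun i => IsHP.const (k i)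
  have t1 := hp_cr (hp_tv hM hy) (g := fun _ => k) hk i
  have t2 := hp_mv (hp_aj hM) (g := fun _ => g) hg i
  have t3 := (hp_dt hy (g := fun _ => g) hg).mul (hy i)
  exact (t2.neg.sub (t3.cast (by norm_num))).sub t1

end HP

theorem X'_of_par (N : Fin 3 → Fin 3 → Fin 3 → ℂ) {p q : Fin 3 → ℂ} (h : cr p q = 0) :
    X' N p q = 0 := by
  by_cases hp : p = 0
  · funext i
    rw [hp]
    fin_cases i <;> simp [X', cr, l1, dt]
  · obtain ⟨m, hm⟩ := exists_ne hp
    have hq : ∀ i, p m * q i = q m * p i := by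
      intro i
      have c0 := congrFun h 0
      have c1 := congrFun h 1
      have c2 := congrFun h 2
      simp only [cr, Matrix.cons_val, Pi.zero_apply] at c0 c1 c2
      fin_cases m <;> fin_cases i <;> simp <;> first
        | ring1
        | linear_combination c0
        | linear_combination c1
        | linear_combination c2
        | linear_combination -c0
        | linear_combination -c1
        | linear_combination -c2
    have hl1 : ∀ k, p m * l1 N p q k = q m * dt p (mv (N k) p) := by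
      intro k
      simp only [l1, dt, mv]
      linear_combination (p 0 * N k 0 0 + p 1 * N k 1 0 + p 2 * N k 2 0) * hq 0
        + (p 0 * N k 0 1 + p 1 * N k 1 1 + p 2 * N k 2 1) * hq 1
        + (p 0 * N k 0 2 + p 1 * N k 1 2 + p 2 * N k 2 2) * hq 2
    have hl2 : ∀ k, p m ^ 2 * l2 N p q k = (p m ^ 2 + q m ^ 2) * dt p (mv (N k) p) := by
      intro k
      simp only [l2, dt, mv]
      have t : ∀ a b : Fin 3, p m ^ 2 * (p a * (N k a b * p b) + q a * (N k a b * q b)) =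
          (p m ^ 2 + q m ^ 2) * (p a * (N k a b * p b)) := by
        intro a b
        linear_combination (p m * N k a b * q b) * hq a + (q m * p a * N k a b) * hq b
      linear_combination t 0 0 + t 0 1 + t 0 2 + t 1 0 + t 1 1 + t 1 2 + t 2 0 + t 2 1 + t 2 2
    have key : ∀ a b, l1 N p q a * l2 N p q b = l1 N p q b * l2 N p q a := by
      intro a b
      have h4 : p m * p m ^ 2 ≠ 0 := mul_ne_zero hm (pow_ne_zero _ hm)
      apply mul_left_cancel₀ h4
      calc p m * p m ^ 2 * (l1 N p q a * l2 N p q b)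
          = (p m * l1 N p q a) * (p m ^ 2 * l2 N p q b) := by ring
        _ = (p m * l1 N p q b) * (p m ^ 2 * l2 N p q a) := by
            rw [hl1, hl1, hl2, hl2]; ring
        _ = _ := by ring
    funext i
    fin_cases i <;> simp [X', cr]
    · linear_combination key 1 2
    · linear_combination key 2 0
    · linear_combination key 0 1

/-- the vector with the given coordinates -/
noncomputable def comb (b : Module.Basis (Fin 3 ⊕ Fin 3) ℂ (Fin 6 → ℂ)) (x y : Fin 3 → ℂ) :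
    Fin 6 → ℂ := ∑ a, Sum.elim x y a • b a

theorem comb_coord (b : Module.Basis (Fin 3 ⊕ Fin 3) ℂ (Fin 6 → ℂ)) (x y : Fin 3 → ℂ)
    (a : Fin 3 ⊕ Fin 3) : b.coord a (comb b x y) = Sum.elim x y a := by
  simp only [comb, Module.Basis.coord_apply, Module.Basis.repr_sum_self]

theorem comb_self (b : Module.Basis (Fin 3 ⊕ Fin 3) ℂ (Fin 6 → ℂ)) (w : Fin 6 → ℂ) :
    comb b (fun i => b.coord (Sum.inl i) w) (fun i => b.coord (Sum.inr i) w) = w := by
  conv_rhs => rw [← b.sum_repr w]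
  refine Finset.sum_congr rfl fun a _ => ?_
  rcases a with a | a <;> rfl

theorem comb_smul (b : Module.Basis (Fin 3 ⊕ Fin 3) ℂ (Fin 6 → ℂ)) (s : ℂ) (x y : Fin 3 → ℂ) :
    comb b (s • x) (s • y) = s • comb b x y := by
  simp only [comb, Finset.smul_sum]
  refine Finset.sum_congr rfl fun a _ => ?_
  rcases a with a | a <;> simp [smul_smul]

theorem dt_single' (a : Fin 3 → ℂ) (i : Fin 3) : dt a (Pi.single i 1) = a i := by
  fin_cases i <;> simp [dt, Pi.single_apply]

theorem dt_zero' (a : Fin 3 → ℂ) : dt a 0 = 0 := by simp [dt]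

theorem hp_comb {n d : ℕ} (b : Module.Basis (Fin 3 ⊕ Fin 3) ℂ (Fin 6 → ℂ))
    {x y : (Fin n → ℂ) → Fin 3 → ℂ} (hx : ∀ i, IsHP n d (fun v => x v i))
    (hy : ∀ i, IsHP n d (fun v => y v i)) (i : Fin 6) :
    IsHP n d (fun v => comb b (x v) (y v) i) := by
  have h : IsHP n d (fun v => ∑ a, Sum.elim (x v) (y v) a * b a i) := by
    refine IsHP.sum _ fun a _ => ?_
    rcases a with a | a
    · exact (hx a).mulc _
    · exact (hy a).mulc _
  refine h.congr fun v => ?_
  simp only [comb, Finset.sum_apply, Pi.smul_apply, smul_eq_mul]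

theorem W_smul (N : Fin 3 → Fin 3 → Fin 3 → ℂ) (e : Fin 3 → ℂ) (s : ℂ) (p q : Fin 3 → ℂ) :
    Wx N e (s • p) (s • q) = s ^ 6 • Wx N e p q ∧ Wy N e (s • p) (s • q) = s ^ 6 • Wy N e p q := by
  have hp : ∀ i, IsHP 1 1 (fun v => (fun i => v 0 * p i) i) := fun i => (IsHP.coord 0).mulc _
  have hq : ∀ i, IsHP 1 1 (fun v => (fun i => v 0 * q i) i) := fun i => (IsHP.coord 0).mulc _
  have e1 : ∀ r : Fin 3 → ℂ, (fun i => (1 : ℂ) * r i) = r := fun r => by funext i; ring
  have e2 : ∀ r : Fin 3 → ℂ, (fun i => s * r i) = s • r := fun r => rfl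
  constructor
  · funext i
    have h := (hp_Wx N e (p := fun v i => v 0 * p i) (q := fun v i => v 0 * q i) hp hq i).map_smul
      s (fun _ => 1)
    simp only [Pi.smul_apply, smul_eq_mul, mul_one, e1, e2] at h
    rw [Pi.smul_apply, smul_eq_mul]
    exact h
  · funext i
    have h := (hp_Wy N e (p := fun v i => v 0 * p i) (q := fun v i => v 0 * q i) hp hq i).map_smul
      s (fun _ => 1)
    simp only [Pi.smul_apply, smul_eq_mul, mul_one, e1, e2] at h
    rw [Pi.smul_apply, smul_eq_mul]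
    exact h

/-- the kernel vector is recovered by the adjoint matrix -/
theorem V_par {M : Fin 3 → Fin 3 → ℂ} {y p q g k : Fin 3 → ℂ} (A : ∀ i, a1 M y p q i = 0)
    (B : ∀ i, a2 M y p q i = 0) (H : dt g p + dt k q = 0) (h : p ≠ 0 ∨ q ≠ 0) :
    ∃ s : ℂ, V1 M y g k = s • p ∧ V2 M y g k = s • q := by
  have h1 : ∀ a c : Fin 3 ⊕ Fin 3, Sum.elim (V1 M y g k) (V2 M y g k) a * Sum.elim p q c =
      Sum.elim (V1 M y g k) (V2 M y g k) c * Sum.elim p q a := by
    have e01 := par01 A B H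
    have e02 := par02 A B H
    have e03 := par03 A B H
    have e04 := par04 A B H
    have e05 := par05 A B H
    have e12 := par12 A B H
    have e13 := par13 A B H
    have e14 := par14 A B H
    have e15 := par15 A B H
    have e23 := par23 A B H
    have e24 := par24 A B H
    have e25 := par25 A B H
    have e34 := par34 A B H
    have e35 := par35 A B H
    have e45 := par45 A B H
    rintro (a | a) (c | c) <;> fin_cases a <;> fin_cases c <;>
      simp only [Sum.elim_inl, Sum.elim_inr, Fin.zero_eta, Fin.mk_one, Fin.reduceFinMk] <;>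
      first
        | assumption
        | exact Eq.symm (by assumption)
  have h2 : Sum.elim p q ≠ 0 := by
    intro h0
    rcases h with h | h
    · exact h (funext fun i => congrFun h0 (Sum.inl i))
    · exact h (funext fun i => congrFun h0 (Sum.inr i))
  obtain ⟨s, hs⟩ := par_smul h1 h2
  exact ⟨s, funext fun i => congrFun hs (Sum.inl i), funext fun i => congrFun hs (Sum.inr i)⟩

theorem rational_pf {F : MvPolynomial (Fin 6) ℂ} (hF : SmoothCubic F)
    (b : Module.Basis (Fin 3 ⊕ Fin 3) ℂ (Fin 6 → ℂ)) (N : Fin 3 → Fin 3 → Fin 3 → ℂ) {r : ℂ}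
    (hr : r ≠ 0)
    (hFN : ∀ w, eval w F = r * pf (Nx N (fun i => b.coord (Sum.inl i) w))
      (fun i => b.coord (Sum.inr i) w))
    (hb : ∀ p : Fin 3 → ℂ, p ≠ 0 → ∃ k, dt p (mv (N k) p) ≠ 0) : RationalHypersurface F := by
  have hFc : ∀ x y, eval (comb b x y) F = r * pf (Nx N x) y := by
    intro x y
    rw [hFN]
    simp only [comb_coord]
    rfl
  obtain ⟨p₀, q₀, hX0⟩ := exists_pq hb
  have hpq0 : cr p₀ q₀ ≠ 0 := fun h => hX0 (X'_of_par N h)
  obtain ⟨i₀, hi₀⟩ := exists_ne hpq0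
  let e : Fin 3 → ℂ := Pi.single i₀ 1
  have hδ : dt (cr p₀ q₀) e ≠ 0 := by
    have : dt (cr p₀ q₀) e = cr p₀ q₀ i₀ := by
      have h := dt_single (cr p₀ q₀) i₀
      rw [← h]
      simp only [dt, e]; ring
    rw [this]; exact hi₀
  have hpq : p₀ ≠ 0 ∨ q₀ ≠ 0 := by
    by_contra hcon
    push Not at hcon
    apply hpq0
    rw [hcon.1]
    funext i
    fin_cases i <;> simp [cr]
  let x₀ := Wx N e p₀ q₀
  let y₀ := Wy N e p₀ q₀
  let w₀ := comb b x₀ y₀
  have hx0 : x₀ ≠ 0 := by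
    obtain ⟨m, hm⟩ := exists_ne hX0
    intro h
    have := congrFun h m
    simp only [x₀, Wx, Pi.zero_apply] at this
    rcases mul_eq_zero.mp this with h1 | h1
    · exact hδ h1
    · exact hm h1
  have hw0 : w₀ ≠ 0 := by
    intro h
    apply hx0
    funext i
    have := comb_coord b x₀ y₀ (Sum.inl i)
    change b.coord (Sum.inl i) w₀ = _ at this
    rw [h, map_zero] at this
    exact this.symm
  -- the points of the parametrisation lie on the cubic
  have hW0 : ∀ p q, eval (comb b (Wx N e p q) (Wy N e p q)) F = 0 := by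
    intro p q
    rw [hFc]
    by_cases h : p ≠ 0 ∨ q ≠ 0
    · rw [pf_zero (a1_W N e p q) (a2_W N e p q) h, mul_zero]
    · push Not at h
      rw [h.1, h.2]
      simp [pf, dd, dt, mv, Nx, Wx, Wy, Yv, cr]
  -- smoothness at w₀
  have hM : ¬ ((∀ i, mv (Nx N x₀) y₀ i = 0) ∧ (∀ i, tv (Nx N x₀) y₀ i = 0) ∧
      ∀ i j, aj (Nx N x₀) j i + y₀ i * y₀ j = 0) := by
    rintro ⟨m1, m2, m3⟩
    obtain ⟨w', hw'⟩ := smooth_tri hF hw0
    apply hw'
    have hT : ∀ v, eval v F = tri F v v v := fun v => (tri_self hF.1 v).symm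
    set x' : Fin 3 → ℂ := fun i => b.coord (Sum.inl i) w' with hx'
    set y' : Fin 3 → ℂ := fun i => b.coord (Sum.inr i) w' with hy'
    have c1 : ∀ i, b.coord (Sum.inl i) w₀ = x₀ i := fun i => comb_coord b x₀ y₀ (Sum.inl i)
    have c2 : ∀ i, b.coord (Sum.inr i) w₀ = y₀ i := fun i => comb_coord b x₀ y₀ (Sum.inr i)
    have e1 : eval (w₀ + w') F = r * pf (fun i j => Nx N x₀ i j + Nx N x' i j)
        (fun i => y₀ i + y' i) := by
      rw [hFN]
      congr 2
      · funext i j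
        simp only [Nx, map_add, c1, hx']; ring
      · funext i
        simp only [map_add, c2, hy']
    have e2 : eval (w₀ - w') F = r * pf (fun i j => Nx N x₀ i j - Nx N x' i j)
        (fun i => y₀ i - y' i) := by
      rw [hFN]
      congr 2
      · funext i j
        simp only [Nx, map_sub, c1, hx']; ring
      · funext i
        simp only [map_sub, c2, hy']
    have e3 : eval w' F = r * pf (Nx N x') y' := hFN w'
    have e4 := pf_diff (Nx N x₀) (Nx N x') y₀ y'
    have e5 : mv (Nx N x₀) y₀ = 0 := funext m1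
    have e6 : tv (Nx N x₀) y₀ = 0 := funext m2
    have e7 : dt y' 0 = 0 := by simp [dt]
    rw [e5, e6, e7] at e4
    simp only [m3, zero_mul, Finset.sum_const_zero, add_zero, mul_zero] at e4
    have e8 : eval (w₀ + w') F - eval (w₀ - w') F - 2 * eval w' F = 6 * tri F w₀ w₀ w' := by
      rw [hT, hT, hT]
      have s1 : ∀ x y z, tri F x y z = tri F y x z := tri_comm1 F
      have s2 : ∀ x y z, tri F x y z = tri F x z y := tri_comm2 F
      simp only [map_add, map_sub, LinearMap.add_apply, LinearMap.sub_apply]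
      have a1 : tri F w₀ w' w₀ = tri F w₀ w₀ w' := s2 _ _ _
      have a2 : tri F w' w₀ w₀ = tri F w₀ w₀ w' := by rw [s1, s2]
      rw [a1, a2]
      ring
    have e9 : 6 * tri F w₀ w₀ w' = 0 := by
      rw [← e8, e1, e2, e3]
      linear_combination r * e4
    simpa using e9
  obtain ⟨g, k, hgk, hV⟩ := exists_gk hpq hM
  -- the hyperplane
  let lam : ((Fin 3 → ℂ) × (Fin 3 → ℂ)) →ₗ[ℂ] ℂ :=
    { toFun := fun v => dt g v.1 + dt k v.2
      map_add' := fun v w => by simp [dt]; ring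
      map_smul' := fun c v => by simp [dt]; ring }
  have hgk0 : g ≠ 0 ∨ k ≠ 0 := by
    by_contra hcon
    push Not at hcon
    rcases hV with h | h <;> apply h <;> rw [hcon.1, hcon.2] <;> funext i <;>
      fin_cases i <;> simp [V1, V2, cr, dt, mv, tv]
  have hlam : lam ≠ 0 := by
    intro h
    rcases hgk0 with h1 | h1
    · obtain ⟨i, hi⟩ := exists_ne h1
      apply hi
      have h2 := LinearMap.congr_fun h (Pi.single i 1, 0)
      simp only [lam, LinearMap.coe_mk, AddHom.coe_mk, LinearMap.zero_apply, dt_single',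
        dt_zero', add_zero] at h2
      exact h2
    · obtain ⟨i, hi⟩ := exists_ne h1
      apply hi
      have h2 := LinearMap.congr_fun h (0, Pi.single i 1)
      simp only [lam, LinearMap.coe_mk, AddHom.coe_mk, LinearMap.zero_apply, dt_single',
        dt_zero', zero_add] at h2
      exact h2
  have hker : Module.finrank ℂ (LinearMap.ker lam) = 5 := by
    have h1 := LinearMap.finrank_range_add_finrank_ker lam
    have h2 : LinearMap.range lam = ⊤ := LinearMap.range_eq_top.mpr (LinearMap.surjective hlam)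
    rw [h2, finrank_top] at h1
    simp at h1
    omega
  let E : (Fin 5 → ℂ) ≃ₗ[ℂ] LinearMap.ker lam :=
    LinearEquiv.ofFinrankEq _ _ (by rw [hker]; simp)
  let ι : (Fin 5 → ℂ) →ₗ[ℂ] ((Fin 3 → ℂ) × (Fin 3 → ℂ)) := (LinearMap.ker lam).subtype ∘ₗ E.toLinearMap
  have hι : LinearMap.ker ι = ⊥ := by
    rw [LinearMap.ker_eq_bot]
    exact (Submodule.injective_subtype _).comp E.injective
  obtain ⟨π, hπ⟩ := LinearMap.exists_leftInverse_of_injective ι hι
  have hπι : ∀ z, π (ι z) = z := fun z => LinearMap.congr_fun hπ z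
  have hιπ : ∀ v : (Fin 3 → ℂ) × (Fin 3 → ℂ), dt g v.1 + dt k v.2 = 0 → ι (π v) = v := by
    intro v hv
    have h1 : ι (E.symm ⟨v, hv⟩) = v := by simp [ι]
    rw [← h1, hπι]
  have hιH : ∀ z, dt g (ι z).1 + dt k (ι z).2 = 0 := fun z => (E z).2
  let xw : (Fin 6 → ℂ) → Fin 3 → ℂ := fun w i => b.coord (Sum.inl i) w
  let yw : (Fin 6 → ℂ) → Fin 3 → ℂ := fun w i => b.coord (Sum.inr i) w
  have hxy : ∀ w, comb b (xw w) (yw w) = w := comb_self b
  have hxw : ∀ x y, xw (comb b x y) = x := fun x y => funext fun i => comb_coord b x y (Sum.inl i)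
  have hyw : ∀ x y, yw (comb b x y) = y := fun x y => funext fun i => comb_coord b x y (Sum.inr i)
  let Φ : (Fin 5 → ℂ) → (Fin 6 → ℂ) := fun z =>
    comb b (Wx N e (ι z).1 (ι z).2) (Wy N e (ι z).1 (ι z).2)
  let Ψ : (Fin 6 → ℂ) → (Fin 5 → ℂ) := fun w =>
    π (V1 (Nx N (xw w)) (yw w) g k, V2 (Nx N (xw w)) (yw w) g k)
  have hι1 : ∀ i, IsHP 5 1 (fun z => (ι z).1 i) := fun i =>
    IsHP.lin ((LinearMap.proj i ∘ₗ LinearMap.fst ℂ (Fin 3 → ℂ) (Fin 3 → ℂ)) ∘ₗ ι)
  have hι2 : ∀ i, IsHP 5 1 (fun z => (ι z).2 i) := fun i =>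
    IsHP.lin ((LinearMap.proj i ∘ₗ LinearMap.snd ℂ (Fin 3 → ℂ) (Fin 3 → ℂ)) ∘ₗ ι)
  have hx1 : ∀ i, IsHP 6 1 (fun w => xw w i) := fun i => IsHP.lin (b.coord (Sum.inl i))
  have hy1 : ∀ i, IsHP 6 1 (fun w => yw w i) := fun i => IsHP.lin (b.coord (Sum.inr i))
  have hΦ : ∀ i, IsHP 5 (5 + 1) (fun z => Φ z i) :=
    hp_comb b (hp_Wx N e hι1 hι2) (hp_Wy N e hι1 hι2)
  have hΨ : ∀ j, IsHP 6 2 (fun w => Ψ w j) := by
    intro j
    have h1 : IsHP 6 2 (fun w =>
        ∑ i, V1 (Nx N (xw w)) (yw w) g k i * π (Pi.single i 1, 0) j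
        + ∑ i, V2 (Nx N (xw w)) (yw w) g k i * π (0, Pi.single i 1) j) :=
      (IsHP.sum _ fun i _ => (hp_V1 N g k hx1 hy1 i).mulc _).add
        (IsHP.sum _ fun i _ => (hp_V2 N g k hx1 hy1 i).mulc _)
    refine h1.congr fun w => ?_
    have h2 : ∀ u v : Fin 3 → ℂ, π (u, v) j =
        ∑ i, u i * π (Pi.single i 1, 0) j + ∑ i, v i * π (0, Pi.single i 1) j := by
      intro u v
      have h3 : ((u, v) : (Fin 3 → ℂ) × (Fin 3 → ℂ)) =
          ∑ i, u i • ((Pi.single i 1 : Fin 3 → ℂ), (0 : Fin 3 → ℂ))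
            + ∑ i, v i • ((0 : Fin 3 → ℂ), (Pi.single i 1 : Fin 3 → ℂ)) := by
        ext m
        · simp [Prod.fst_sum, Finset.sum_apply, Pi.single_apply]
        · simp [Prod.snd_sum, Finset.sum_apply, Pi.single_apply]
      conv_lhs => rw [h3]
      simp only [map_add, map_sum, map_smul, Pi.add_apply, Finset.sum_apply, Pi.smul_apply,
        smul_eq_mul]
    exact h2 _ _
  refine rational_criterion hF Φ Ψ hΦ hΨ (fun z => hW0 _ _) ?_ ?_ hw0 (hW0 _ _) ?_
  · intro w hw i j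
    have hpf : pf (Nx N (xw w)) (yw w) = 0 := by
      have := hFN w
      rw [hw] at this
      exact (mul_eq_zero.mp this.symm).resolve_left hr
    have hι' := hιπ (V1 (Nx N (xw w)) (yw w) g k, V2 (Nx N (xw w)) (yw w) g k) (dot_V _ _ _ _)
    have hΦΨ : Φ (Ψ w) = comb b
        (Wx N e (V1 (Nx N (xw w)) (yw w) g k) (V2 (Nx N (xw w)) (yw w) g k))
        (Wy N e (V1 (Nx N (xw w)) (yw w) g k) (V2 (Nx N (xw w)) (yw w) g k)) := by
      simp only [Φ, Ψ]
      rw [hι']
    obtain ⟨c1, c2, c3⟩ := W_par (N := N) (e := e) (x := xw w) (y := yw w)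
      (p := V1 (Nx N (xw w)) (yw w) g k) (q := V2 (Nx N (xw w)) (yw w) g k)
      (fun i => by rw [a1_V, hpf]; ring) (fun i => by rw [a2_V, hpf]; ring)
    by_cases hw1 : Sum.elim (xw w) (yw w) = 0
    · have : w = 0 := by
        rw [← hxy w, comb]
        simp [hw1]
      rw [this]; simp
    · obtain ⟨s, hs⟩ := par_smul (A := Sum.elim
        (Wx N e (V1 (Nx N (xw w)) (yw w) g k) (V2 (Nx N (xw w)) (yw w) g k))
        (Wy N e (V1 (Nx N (xw w)) (yw w) g k) (V2 (Nx N (xw w)) (yw w) g k)))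
        (B := Sum.elim (xw w) (yw w)) (by
          rintro (a | a) (c | c) <;> simp only [Sum.elim_inl, Sum.elim_inr]
          · exact c1 a c
          · exact c2 a c
          · exact (c2 c a).symm
          · exact c3 a c) hw1
      have h1 : Φ (Ψ w) = s • w := by
        rw [hΦΨ]
        conv_rhs => rw [← hxy w]
        simp only [comb, hs, Finset.smul_sum, Pi.smul_apply, smul_eq_mul, smul_smul]
      rw [h1]
      simp only [Pi.smul_apply, smul_eq_mul]
      ring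
  · intro z i j
    by_cases hz : (ι z).1 ≠ 0 ∨ (ι z).2 ≠ 0
    · obtain ⟨s, h1, h2⟩ := V_par (g := g) (k := k) (a1_W N e (ι z).1 (ι z).2)
        (a2_W N e (ι z).1 (ι z).2) (hιH z) hz
      have h3 : Ψ (Φ z) = s • z := by
        simp only [Φ, Ψ, hxw, hyw]
        rw [h1, h2, ← Prod.smul_mk, map_smul]
        exact congrArg (s • ·) (hπι z)
      rw [h3]
      simp only [Pi.smul_apply, smul_eq_mul]
      ring
    · push Not at hz
      have h1 : ι z = 0 := Prod.ext hz.1 hz.2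
      have h2 : z = 0 := by rw [← hπι z, h1, map_zero]
      rw [h2]; simp
  · obtain ⟨s, h1, h2⟩ := V_par (g := g) (k := k) (a1_W N e p₀ q₀) (a2_W N e p₀ q₀) hgk hpq
    have hs : s ≠ 0 := by
      intro h0
      rw [h0, zero_smul] at h1 h2
      exact hV.elim (fun h => h h1) (fun h => h h2)
    have h3 : Ψ w₀ = s • π (p₀, q₀) := by
      change π (V1 (Nx N (xw w₀)) (yw w₀) g k, V2 (Nx N (xw w₀)) (yw w₀) g k) = _
      have e1 : xw w₀ = x₀ := hxw x₀ y₀
      have e2 : yw w₀ = y₀ := hyw x₀ y₀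
      rw [e1, e2]
      rw [h1, h2, ← Prod.smul_mk, map_smul]
    have h4 : ι (Ψ w₀) = (s • p₀, s • q₀) := by
      rw [h3, map_smul, hιπ (p₀, q₀) hgk]; rfl
    have h5 : Φ (Ψ w₀) = s ^ 6 • w₀ := by
      simp only [Φ]
      rw [h4]
      dsimp only
      rw [(W_smul N e s p₀ q₀).1, (W_smul N e s p₀ q₀).2, comb_smul]
    rw [h5]
    exact smul_ne_zero (pow_ne_zero _ hs) hw0

end Vale.Agent.P287.H674.Pf
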