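import Vale.Agent.P287.H674.PlaneGeo
import Vale.Agent.P287.H674.Bez

/-!
Cubic fourfolds with an involution whose `-1`-eigenspace is a plane: singular points of the
discriminant.
-/

namespace Vale.Agent.P287.H674

open MvPolynomial

variable {V : Type*} [AddCommGroup V] [Module ℂ V]
variable {T : V →ₗ[ℂ] V →ₗ[ℂ] V →ₗ[ℂ] ℂ}

/-- the two eigenspaces of an involution whose `-1`-eigenspace `B` has dimension three -/
structure Phi (T : V →ₗ[ℂ] V →ₗ[ℂ] V →ₗ[ℂ] ℂ) (A B : Submodule ℂ V) : Prop extends Sm T where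
  finA : Module.finrank ℂ A = 3
  finB : Module.finrank ℂ B = 3
  top : ∀ v : V, ∃ a ∈ A, ∃ b ∈ B, v = a + b
  bot : ∀ v ∈ A, v ∈ B → v = 0
  aab : ∀ a ∈ A, ∀ a' ∈ A, ∀ b ∈ B, T a a' b = 0
  bbb : ∀ b ∈ B, ∀ b' ∈ B, ∀ b'' ∈ B, T b b' b'' = 0

namespace Phi

variable {A B : Submodule ℂ V}

theorem nzA (h : Phi T A B) {a : V} (ha : a ∈ A) (h0 : a ≠ 0) : ∃ x ∈ A, T a a x ≠ 0 := by
  obtain ⟨w, hw⟩ := h.smooth a h0
  obtain ⟨x, hx, y, hy, rfl⟩ := h.top w
  refine ⟨x, hx, fun e => hw ?_⟩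
  rw [map_add, e, h.aab a ha a ha y hy, add_zero]

theorem nzB (h : Phi T A B) {b : V} (hb : b ∈ B) (h0 : b ≠ 0) : ∃ x ∈ A, T b b x ≠ 0 := by
  obtain ⟨w, hw⟩ := h.smooth b h0
  obtain ⟨x, hx, y, hy, rfl⟩ := h.top w
  refine ⟨x, hx, fun e => hw ?_⟩
  rw [map_add, e, h.bbb b hb b hb y hy, add_zero]

theorem sing (h : Phi T A B) {t k : V} (ht : t ∈ A) (ht0 : t ≠ 0) (hk : k ∈ B)
    (h1 : ∀ b ∈ B, T t k b = 0) (h2 : ∀ a ∈ A, T t t a + T k k a = 0) : False := by
  have hv : t + k ≠ 0 := by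
    intro e
    have : t = -k := eq_neg_of_add_eq_zero_left e
    exact ht0 (h.bot t ht (by rw [this]; exact B.neg_mem hk))
  obtain ⟨w, hw⟩ := h.smooth _ hv
  apply hw
  obtain ⟨a, ha, b, hb, rfl⟩ := h.top w
  have e1 : T t k a = 0 := by rw [h.s2]; exact h.aab t ht a ha k hk
  have e2 : T k t a = 0 := by rw [h.s1]; exact e1
  have e3 : T k t b = 0 := by rw [h.s1]; exact h1 b hb
  simp only [map_add, LinearMap.add_apply, e1, e2, e3, h1 b hb, h.aab t ht t ht b hb,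
    h.bbb k hk k hk b hb]
  linear_combination h2 a ha

/-- the kernel of `T t` on `B` has dimension at most one at the zeros of the cubic -/
theorem no_two_kernel (h : Phi T A B) {t : V} (ht : t ∈ A) (ht0 : t ≠ 0) (hc : T t t t = 0)
    {K : Submodule ℂ V} (hKB : K ≤ B) (hK : Module.finrank ℂ K = 2)
    (h1 : ∀ k ∈ K, ∀ b ∈ B, T t k b = 0) : False := by
  obtain ⟨e', he', hte'⟩ := h.nzA ht ht0
  have hA0 : Module.finrank ℂ (A ⊓ LinearMap.ker (T t t) : Submodule ℂ V) = 2 :=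
    finrank_inf_ker h.finA (T t t) he' hte'
  obtain ⟨u1, u2, hu⟩ := exists_IsB2 hA0
  have htA0 : t ∈ A ⊓ LinearMap.ker (T t t) := ⟨ht, hc⟩
  obtain ⟨x0, hx0, hP⟩ : ∃ x0 ∈ A ⊓ LinearMap.ker (T t t), ∀ g : V →ₗ[ℂ] ℂ, g t = 0 → g x0 = 0 →
      ∀ x ∈ A ⊓ LinearMap.ker (T t t), g x = 0 := by
    obtain ⟨α, β, hαβ⟩ := hu.span t htA0
    by_cases hβ : β = 0
    · have hα : α ≠ 0 := by
        rintro rfl
        rw [hβ, zero_smul, zero_smul, add_zero] at hαβ
        exact ht0 hαβ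
      refine ⟨u2, hu.hb, fun g g1 g2 x hx => ?_⟩
      rw [hαβ, map_add, map_smul, map_smul, g2, smul_zero, add_zero, smul_eq_mul] at g1
      have g3 : g u1 = 0 := (mul_eq_zero.mp g1).resolve_left hα
      obtain ⟨s, r, rfl⟩ := hu.span x hx
      rw [map_add, map_smul, map_smul, g2, g3]; simp
    · refine ⟨u1, hu.ha, fun g g1 g2 x hx => ?_⟩
      rw [hαβ, map_add, map_smul, map_smul, g2, smul_zero, zero_add, smul_eq_mul] at g1
      have g3 : g u2 = 0 := (mul_eq_zero.mp g1).resolve_left hβ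
      obtain ⟨s, r, rfl⟩ := hu.span x hx
      rw [map_add, map_smul, map_smul, g2, g3]; simp
  obtain ⟨k, hk, hk0, hkx⟩ := quad_zero hK (T x0) (fun x y => h.s2 _ _ _)
  have hkt : T k k t = 0 := by
    have := h1 k hk k (hKB hk)
    rw [h.s2, h.s1]; exact this
  have hkx' : T k k x0 = 0 := by rw [h.s2, h.s1]; exact hkx
  have hvan := hP (T k k) hkt hkx'
  have hdec : ∀ a ∈ A, T k k a * T t t e' = T t t a * T k k e' := by
    intro a ha
    have hmem : a - (T t t a / T t t e') • e' ∈ A ⊓ LinearMap.ker (T t t) := by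
      refine ⟨A.sub_mem ha (A.smul_mem _ he'), ?_⟩
      change T t t (a - (T t t a / T t t e') • e') = 0
      rw [map_sub, map_smul, smul_eq_mul, div_mul_cancel₀ _ hte', sub_self]
    have := hvan _ hmem
    rw [map_sub, map_smul, smul_eq_mul, sub_eq_zero] at this
    rw [this]
    field_simp
  have hke' : T k k e' ≠ 0 := by
    intro e
    obtain ⟨x, hx, hx'⟩ := h.nzB (hKB hk) hk0
    apply hx'
    have := hdec x hx
    rw [e, mul_zero] at this
    exact (mul_eq_zero.mp this).resolve_right hte'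
  obtain ⟨s, hs⟩ : ∃ s : ℂ, s ^ 2 = -(T t t e' / T k k e') :=
    IsAlgClosed.exists_pow_nat_eq _ (by norm_num)
  refine h.sing ht ht0 (B.smul_mem s (hKB hk)) (fun b hb => ?_) (fun a ha => ?_)
  · rw [map_smul, LinearMap.smul_apply, h1 k hk b hb, smul_zero]
  · simp only [map_smul, LinearMap.smul_apply, smul_eq_mul]
    have h5 := hdec a ha
    have h6 : s * (s * T k k a) = s ^ 2 * T k k a := by ring
    rw [h6, hs]
    field_simp
    linear_combination -h5

end Phi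

end Vale.Agent.P287.H674
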