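import Vale.Agent.P287.H674.Phi3

/-!
Cubic fourfolds with an involution whose `-1`-eigenspace is a plane: a singular quadric off a
given line.
-/

namespace Vale.Agent.P287.H674

open MvPolynomial

variable {V : Type*} [AddCommGroup V] [Module ℂ V]
variable {T : V →ₗ[ℂ] V →ₗ[ℂ] V →ₗ[ℂ] ℂ}

/-- the vector with given coordinates -/
noncomputable def vec (e : Fin 3 → V) (a : Fin 3 → ℂ) : V := a 0 • e 0 + a 1 • e 1 + a 2 • e 2

theorem vec_smul (e : Fin 3 → V) (r : ℂ) (a : Fin 3 → ℂ) : vec e (r • a) = r • vec e a := by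
  simp only [vec, Pi.smul_apply, smul_eq_mul, mul_smul, smul_add]

/-- the linear form of a functional -/
noncomputable def lin (e : Fin 3 → V) (φ : V →ₗ[ℂ] ℂ) : MvPolynomial (Fin 3) ℂ :=
  C (φ (e 0)) * X 0 + C (φ (e 1)) * X 1 + C (φ (e 2)) * X 2

theorem eval_lin (e : Fin 3 → V) (φ : V →ₗ[ℂ] ℂ) (a : Fin 3 → ℂ) :
    eval a (lin e φ) = φ (vec e a) := by
  simp only [lin, vec, map_add, map_mul, eval_C, eval_X, map_smul, smul_eq_mul]
  ring

theorem pderiv_lin (e : Fin 3 → V) (φ : V →ₗ[ℂ] ℂ) (i : Fin 3) :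
    pderiv i (lin e φ) = C (φ (e i)) := by
  simp only [lin, map_add, Derivation.leibniz, pderiv_X, pderiv_C, smul_eq_mul]
  fin_cases i <;> simp [Pi.single_apply]

/-- the cubic form in coordinates -/
noncomputable def cubP (T : V →ₗ[ℂ] V →ₗ[ℂ] V →ₗ[ℂ] ℂ) (e : Fin 3 → V) :
    MvPolynomial (Fin 3) ℂ :=
  ∑ i, ∑ j, X i * (X j * lin e (T (e i) (e j)))

theorem eval_cubP (T : V →ₗ[ℂ] V →ₗ[ℂ] V →ₗ[ℂ] ℂ) (e : Fin 3 → V) (a : Fin 3 → ℂ) :
    eval a (cubP T e) = T (vec e a) (vec e a) (vec e a) := by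
  simp only [cubP, Fin.sum_univ_three, map_add, map_mul, eval_X, eval_lin]
  have h : ∀ φ : V →ₗ[ℂ] V →ₗ[ℂ] ℂ, φ (vec e a) = a 0 • φ (e 0) + a 1 • φ (e 1) + a 2 • φ (e 2) :=
    fun φ => by simp only [vec, map_add, map_smul]
  have h' : T (vec e a) = a 0 • T (e 0) + a 1 • T (e 1) + a 2 • T (e 2) := by
    simp only [vec, map_add, map_smul]
  rw [h (T (vec e a)), h']
  simp only [LinearMap.add_apply, LinearMap.smul_apply, smul_eq_mul]
  ring

theorem pderiv_cubP (s1 : ∀ x y z, T x y z = T y x z) (s2 : ∀ x y z, T x y z = T x z y)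
    (e : Fin 3 → V) (a : Fin 3 → ℂ) (i : Fin 3) :
    eval a (pderiv i (cubP T e)) = 3 * T (vec e a) (vec e a) (e i) := by
  have e1 : ∀ x y z, T x y z = T y z x := fun x y z => by rw [s1, s2]
  have h' : T (vec e a) = a 0 • T (e 0) + a 1 • T (e 1) + a 2 • T (e 2) := by
    simp only [vec, map_add, map_smul]
  have h : ∀ φ : V →ₗ[ℂ] V →ₗ[ℂ] ℂ, φ (vec e a) = a 0 • φ (e 0) + a 1 • φ (e 1) + a 2 • φ (e 2) :=
    fun φ => by simp only [vec, map_add, map_smul]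
  simp only [cubP, Fin.sum_univ_three, map_add, Derivation.leibniz, pderiv_lin, smul_eq_mul,
    map_mul, eval_X, eval_lin, eval_C]
  have e3 : ∀ j k, T (e j) (e k) (vec e a)
      = a 0 * T (e j) (e k) (e 0) + a 1 * T (e j) (e k) (e 1) + a 2 * T (e j) (e k) (e 2) :=
    fun j k => by simp only [vec, map_add, map_smul, smul_eq_mul]
  have e4 : T (vec e a) (vec e a) (e i)
      = a 0 * (a 0 * T (e 0) (e 0) (e i) + a 1 * T (e 0) (e 1) (e i) + a 2 * T (e 0) (e 2) (e i))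
      + a 1 * (a 0 * T (e 1) (e 0) (e i) + a 1 * T (e 1) (e 1) (e i) + a 2 * T (e 1) (e 2) (e i))
      + a 2 * (a 0 * T (e 2) (e 0) (e i) + a 1 * T (e 2) (e 1) (e i)
        + a 2 * T (e 2) (e 2) (e i)) := by
    rw [h (T (vec e a)), h']
    simp only [LinearMap.add_apply, LinearMap.smul_apply, smul_eq_mul]
    ring
  simp only [e3, e4]
  have c1 : T (e 1) (e 0) = T (e 0) (e 1) := LinearMap.ext fun z => s1 _ _ z
  have c2 : T (e 2) (e 0) = T (e 0) (e 2) := LinearMap.ext fun z => s1 _ _ z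
  have c3 : T (e 2) (e 1) = T (e 1) (e 2) := LinearMap.ext fun z => s1 _ _ z
  have d1 : T (e 0) (e 1) (e 0) = T (e 0) (e 0) (e 1) := s2 _ _ _
  have d2 : T (e 0) (e 2) (e 0) = T (e 0) (e 0) (e 2) := s2 _ _ _
  have d3 : T (e 0) (e 2) (e 1) = T (e 0) (e 1) (e 2) := s2 _ _ _
  have d4 : T (e 1) (e 1) (e 0) = T (e 0) (e 1) (e 1) := (e1 _ _ _).symm
  have d5 : T (e 1) (e 2) (e 0) = T (e 0) (e 1) (e 2) := (e1 _ _ _).symm
  have d6 : T (e 1) (e 2) (e 1) = T (e 1) (e 1) (e 2) := s2 _ _ _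
  have d7 : T (e 2) (e 2) (e 0) = T (e 0) (e 2) (e 2) := (e1 _ _ _).symm
  have d8 : T (e 2) (e 2) (e 1) = T (e 1) (e 2) (e 2) := (e1 _ _ _).symm
  fin_cases i
  · simp [pderiv_X, Pi.single_apply, c1, c2, c3, d1, d2, d3, d4, d5, d6, d7, d8]
    ring
  · simp [pderiv_X, Pi.single_apply, c1, c2, c3, d1, d2, d3, d4, d5, d6, d7, d8]
    ring
  · simp [pderiv_X, Pi.single_apply, c1, c2, c3, d1, d2, d3, d4, d5, d6, d7, d8]
    ring

end Vale.Agent.P287.H674
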