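import Vale.Agent.P287.H674.Phi3b

/-!
Cubic fourfolds with an involution whose `-1`-eigenspace is a plane: the discriminant cubic.
-/

namespace Vale.Agent.P287.H674

open MvPolynomial

variable {V : Type*} [AddCommGroup V] [Module ℂ V]
variable {T : V →ₗ[ℂ] V →ₗ[ℂ] V →ₗ[ℂ] ℂ}

/-- the determinant of a symmetric matrix of order three -/
def det3 (m : Fin 3 → Fin 3 → ℂ) : ℂ :=
  m 0 0 * m 1 1 * m 2 2 + 2 * (m 0 1 * m 0 2 * m 1 2) - m 0 0 * m 1 2 ^ 2 - m 1 1 * m 0 2 ^ 2
    - m 2 2 * m 0 1 ^ 2

/-- the discriminant cubic in coordinates -/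
noncomputable def detP (T : V →ₗ[ℂ] V →ₗ[ℂ] V →ₗ[ℂ] ℂ) (e b : Fin 3 → V) :
    MvPolynomial (Fin 3) ℂ :=
  lin e (T (b 0) (b 0)) * lin e (T (b 1) (b 1)) * lin e (T (b 2) (b 2))
    + 2 * (lin e (T (b 0) (b 1)) * lin e (T (b 0) (b 2)) * lin e (T (b 1) (b 2)))
    - lin e (T (b 0) (b 0)) * (lin e (T (b 1) (b 2)) * lin e (T (b 1) (b 2)))
    - lin e (T (b 1) (b 1)) * (lin e (T (b 0) (b 2)) * lin e (T (b 0) (b 2)))
    - lin e (T (b 2) (b 2)) * (lin e (T (b 0) (b 1)) * lin e (T (b 0) (b 1)))

theorem eval_detP (T : V →ₗ[ℂ] V →ₗ[ℂ] V →ₗ[ℂ] ℂ) (e b : Fin 3 → V) (a : Fin 3 → ℂ) :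
    eval a (detP T e b) = det3 fun i j => T (b i) (b j) (vec e a) := by
  simp only [detP, det3, map_add, map_sub, map_mul, eval_lin, map_ofNat]
  ring

/-- the derivative of the determinant -/
def adj3 (m n : Fin 3 → Fin 3 → ℂ) : ℂ :=
  n 0 0 * (m 1 1 * m 2 2 - m 1 2 ^ 2) + n 1 1 * (m 0 0 * m 2 2 - m 0 2 ^ 2)
    + n 2 2 * (m 0 0 * m 1 1 - m 0 1 ^ 2) + 2 * (n 0 1 * (m 0 2 * m 1 2 - m 0 1 * m 2 2))
    + 2 * (n 0 2 * (m 0 1 * m 1 2 - m 1 1 * m 0 2)) + 2 * (n 1 2 * (m 0 1 * m 0 2 - m 0 0 * m 1 2))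

theorem pderiv_detP (T : V →ₗ[ℂ] V →ₗ[ℂ] V →ₗ[ℂ] ℂ) (e b : Fin 3 → V) (a : Fin 3 → ℂ)
    (k : Fin 3) : eval a (pderiv k (detP T e b))
      = adj3 (fun i j => T (b i) (b j) (vec e a)) (fun i j => T (b i) (b j) (e k)) := by
  have h2 : pderiv k (2 : MvPolynomial (Fin 3) ℂ) = 0 := by
    have : (2 : MvPolynomial (Fin 3) ℂ) = C 2 := (map_ofNat C 2).symm
    rw [this, pderiv_C]
  simp only [detP, adj3, map_add, map_sub, Derivation.leibniz, pderiv_lin, smul_eq_mul, map_mul,
    eval_lin, eval_C, h2, map_zero, map_ofNat]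
  ring

/-- a basis of a three-dimensional subspace -/
structure IsB3 (S : Submodule ℂ V) (e : Fin 3 → V) : Prop where
  mem : ∀ i, e i ∈ S
  span : ∀ x ∈ S, ∃ a : Fin 3 → ℂ, x = vec e a
  ind : ∀ a : Fin 3 → ℂ, vec e a = 0 → a = 0

theorem IsB3.vec_mem {S : Submodule ℂ V} {e : Fin 3 → V} (h : IsB3 S e) (a : Fin 3 → ℂ) :
    vec e a ∈ S :=
  S.add_mem (S.add_mem (S.smul_mem _ (h.mem 0)) (S.smul_mem _ (h.mem 1))) (S.smul_mem _ (h.mem 2))

theorem exists_IsB3 {S : Submodule ℂ V} (hS : Module.finrank ℂ S = 3) : ∃ e, IsB3 S e := by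
  have hfin : Module.Finite ℂ S := Module.finite_of_finrank_pos (by omega)
  let B := Module.finBasisOfFinrankEq ℂ S hS
  refine ⟨fun i => B i, fun i => (B i).2, fun x hx => ?_, fun a ha => ?_⟩
  · refine ⟨fun i => B.repr ⟨x, hx⟩ i, ?_⟩
    have := B.sum_repr ⟨x, hx⟩
    rw [Fin.sum_univ_three] at this
    exact (congrArg Subtype.val this).symm
  · have h1 : a 0 • B 0 + a 1 • B 1 + a 2 • B 2 = 0 := Subtype.ext (by simpa [vec] using ha)
    have h2 := (Fintype.linearIndependent_iff.mp B.linearIndependent) a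
      (by simpa [Fin.sum_univ_three] using h1)
    exact funext h2

/-- the bilinear form of a vector in coordinates -/
theorem bil_vec (φ : V →ₗ[ℂ] V →ₗ[ℂ] ℂ) (b : Fin 3 → V) (κ κ' : Fin 3 → ℂ) :
    φ (vec b κ) (vec b κ') = ∑ i, ∑ j, κ i * κ' j * φ (b i) (b j) := by
  simp only [vec, map_add, map_smul, LinearMap.add_apply, LinearMap.smul_apply, smul_eq_mul,
    Fin.sum_univ_three]
  ring

namespace Phi

variable {A B : Submodule ℂ V} {e b : Fin 3 → V}

/-- at a zero of the cubic the form `T t` has rank two on `B` if it is degenerate, and its kernel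
vector determines the derivative of the determinant -/
theorem kernel (h : Phi T A B) (hb : IsB3 B b) {t : V} (ht : t ∈ A) (ht0 : t ≠ 0)
    (hc : T t t t = 0) (hd : det3 (fun i j => T (b i) (b j) t) = 0) :
    ∃ k ∈ B, k ≠ 0 ∧ (∀ y ∈ B, T t k y = 0) ∧ ∃ ρ : ℂ, ρ ≠ 0 ∧ ∀ x,
      T k k x = ρ * adj3 (fun i j => T (b i) (b j) t) (fun i j => T (b i) (b j) x) := by
  set m : Fin 3 → Fin 3 → ℂ := fun i j => T (b i) (b j) t with hm
  have hsym : ∀ i j, m i j = m j i := fun i j => by
    simp only [hm]; exact h.s1 _ _ _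
  have hTm : ∀ i j, T t (b i) (b j) = m i j := fun i j => by
    simp only [hm]; rw [h.s1, h.s2]
  -- a vector given by coordinates
  have hker : ∀ κ : Fin 3 → ℂ, (∀ j, κ 0 * m 0 j + κ 1 * m 1 j + κ 2 * m 2 j = 0) →
      ∀ y ∈ B, T t (vec b κ) y = 0 := by
    intro κ hκ y hy
    obtain ⟨κ', rfl⟩ := hb.span y hy
    rw [bil_vec]
    simp only [Fin.sum_univ_three, hTm]
    linear_combination κ' 0 * hκ 0 + κ' 1 * hκ 1 + κ' 2 * hκ 2
  have hTT : ∀ (κ : Fin 3 → ℂ) (x : V), T (vec b κ) (vec b κ) x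
      = κ 0 ^ 2 * T (b 0) (b 0) x + κ 1 ^ 2 * T (b 1) (b 1) x + κ 2 ^ 2 * T (b 2) (b 2) x
        + 2 * (κ 0 * κ 1 * T (b 0) (b 1) x) + 2 * (κ 0 * κ 2 * T (b 0) (b 2) x)
        + 2 * (κ 1 * κ 2 * T (b 1) (b 2) x) := by
    intro κ x
    have e1 : T (b 1) (b 0) x = T (b 0) (b 1) x := h.s1 _ _ _
    have e2 : T (b 2) (b 0) x = T (b 0) (b 2) x := h.s1 _ _ _
    have e3 : T (b 2) (b 1) x = T (b 1) (b 2) x := h.s1 _ _ _
    simp only [vec, map_add, map_smul, LinearMap.add_apply, LinearMap.smul_apply, smul_eq_mul,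
      e1, e2, e3]
    ring
  have hne : ∀ κ : Fin 3 → ℂ, κ ≠ 0 → vec b κ ≠ 0 := fun κ hκ e => hκ (hb.ind κ e)
  have hd' : m 0 0 * m 1 1 * m 2 2 + 2 * (m 0 1 * m 0 2 * m 1 2) - m 0 0 * m 1 2 ^ 2
      - m 1 1 * m 0 2 ^ 2 - m 2 2 * m 0 1 ^ 2 = 0 := hd
  have s10 := hsym 1 0
  have s20 := hsym 2 0
  have s21 := hsym 2 1
  by_cases c0 : m 1 1 * m 2 2 - m 1 2 ^ 2 = 0
  · by_cases c1 : m 0 0 * m 2 2 - m 0 2 ^ 2 = 0
    · by_cases c2 : m 0 0 * m 1 1 - m 0 1 ^ 2 = 0
      · exfalso
        have a01 : m 0 2 * m 1 2 - m 0 1 * m 2 2 = 0 := by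
          have : (m 0 2 * m 1 2 - m 0 1 * m 2 2) ^ 2 = 0 := by
            linear_combination (m 0 0 * m 2 2 - m 0 2 ^ 2) * c0 - m 2 2 * hd'
          exact pow_eq_zero_iff (by norm_num) |>.mp this
        have a02 : m 0 1 * m 1 2 - m 1 1 * m 0 2 = 0 := by
          have : (m 0 1 * m 1 2 - m 1 1 * m 0 2) ^ 2 = 0 := by
            linear_combination (m 0 0 * m 1 1 - m 0 1 ^ 2) * c0 - m 1 1 * hd'
          exact pow_eq_zero_iff (by norm_num) |>.mp this
        have a12 : m 0 1 * m 0 2 - m 0 0 * m 1 2 = 0 := by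
          have : (m 0 1 * m 0 2 - m 0 0 * m 1 2) ^ 2 = 0 := by
            linear_combination (m 0 0 * m 1 1 - m 0 1 ^ 2) * c1 - m 0 0 * hd'
          exact pow_eq_zero_iff (by norm_num) |>.mp this
        -- rank at most one
        have hgen : ∀ j, m j j ≠ 0 → (∀ i l, m i l * m j j = m i j * m j l) → False := by
          intro j hj hjm
          have hK : Module.finrank ℂ (B ⊓ LinearMap.ker (T t (b j)) : Submodule ℂ V) = 2 :=
            finrank_inf_ker h.finB (T t (b j)) (hb.mem j) (by rw [hTm]; exact hj)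
          refine h.no_two_kernel ht ht0 hc inf_le_left hK fun k hk y hy => ?_
          obtain ⟨κ, rfl⟩ := hb.span k hk.1
          have hk2 : T t (b j) (vec b κ) = 0 := hk.2
          simp only [vec, map_add, map_smul, smul_eq_mul, hTm] at hk2
          refine hker κ (fun l => ?_) y hy
          have h5 : (κ 0 * m 0 l + κ 1 * m 1 l + κ 2 * m 2 l) * m j j = 0 := by
            linear_combination κ 0 * hjm 0 l + κ 1 * hjm 1 l + κ 2 * hjm 2 l + m j l * hk2
              + κ 0 * m j l * hsym 0 j + κ 1 * m j l * hsym 1 j + κ 2 * m j l * hsym 2 j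
          exact (mul_eq_zero.mp h5).resolve_right hj
        by_cases g0 : m 0 0 = 0
        · by_cases g1 : m 1 1 = 0
          · by_cases g2 : m 2 2 = 0
            · have z01 : m 0 1 = 0 := by
                rw [g0, zero_mul, zero_sub, neg_eq_zero] at c2
                exact pow_eq_zero_iff (by norm_num) |>.mp c2
              have z02 : m 0 2 = 0 := by
                rw [g0, zero_mul, zero_sub, neg_eq_zero] at c1
                exact pow_eq_zero_iff (by norm_num) |>.mp c1
              have z12 : m 1 2 = 0 := by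
                rw [g1, zero_mul, zero_sub, neg_eq_zero] at c0
                exact pow_eq_zero_iff (by norm_num) |>.mp c0
              obtain ⟨K, hKB, hK⟩ := exists_sub (W := B) (k := 2)
                (Module.finite_of_finrank_pos (by rw [h.finB]; norm_num)) (by rw [h.finB]; norm_num)
              refine h.no_two_kernel ht ht0 hc hKB hK fun k hk y hy => ?_
              obtain ⟨κ, rfl⟩ := hb.span k (hKB hk)
              refine hker κ (fun l => ?_) y hy
              fin_cases l
              · simp [g0, s10, s20, z01, z02]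
              · simp [g1, s21, z01, z12]
              · simp [g2, z02, z12]
            · refine hgen 2 g2 fun i l => ?_
              fin_cases i <;> fin_cases l <;> simp only [Fin.zero_eta, Fin.mk_one, Fin.reduceFinMk,
                s10, s20, s21] <;>
                first
                  | ring1
                  | linear_combination c0
                  | linear_combination c1
                  | linear_combination c2
                  | linear_combination -a01
                  | linear_combination -a02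
                  | linear_combination -a12
          · refine hgen 1 g1 fun i l => ?_
            fin_cases i <;> fin_cases l <;> simp only [Fin.zero_eta, Fin.mk_one, Fin.reduceFinMk,
              s10, s20, s21] <;>
              first
                | ring1
                | linear_combination c0
                | linear_combination c1
                | linear_combination c2
                | linear_combination -a01
                | linear_combination -a02
                | linear_combination -a12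
        · refine hgen 0 g0 fun i l => ?_
          fin_cases i <;> fin_cases l <;> simp only [Fin.zero_eta, Fin.mk_one, Fin.reduceFinMk,
            s10, s20, s21] <;>
            first
              | ring1
              | linear_combination c0
              | linear_combination c1
              | linear_combination c2
              | linear_combination -a01
              | linear_combination -a02
              | linear_combination -a12
      · refine ⟨vec b ![m 0 1 * m 1 2 - m 1 1 * m 0 2, m 0 1 * m 0 2 - m 0 0 * m 1 2,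
          m 0 0 * m 1 1 - m 0 1 ^ 2], hb.vec_mem _, hne _ (fun e => c2 (congrFun e 2)),
          hker _ (fun j => ?_), m 0 0 * m 1 1 - m 0 1 ^ 2, c2, fun x => ?_⟩
        · simp only [Matrix.cons_val_zero, Matrix.cons_val_one, Matrix.cons_val]
          fin_cases j <;> simp only [Fin.zero_eta, Fin.mk_one, Fin.reduceFinMk, s10, s20, s21] <;>
            first | ring1 | linear_combination hd'
        · rw [hTT]
          simp only [adj3, Matrix.cons_val_zero, Matrix.cons_val_one, Matrix.cons_val]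
          linear_combination (-(m 1 1 * T (b 0) (b 0) x + m 0 0 * T (b 1) (b 1) x
            - 2 * m 0 1 * T (b 0) (b 1) x)) * hd'
    · refine ⟨vec b ![m 0 2 * m 1 2 - m 0 1 * m 2 2, m 0 0 * m 2 2 - m 0 2 ^ 2,
        m 0 1 * m 0 2 - m 0 0 * m 1 2], hb.vec_mem _, hne _ (fun e => c1 (congrFun e 1)),
        hker _ (fun j => ?_), m 0 0 * m 2 2 - m 0 2 ^ 2, c1, fun x => ?_⟩
      · simp only [Matrix.cons_val_zero, Matrix.cons_val_one, Matrix.cons_val]
        fin_cases j <;> simp only [Fin.zero_eta, Fin.mk_one, Fin.reduceFinMk, s10, s20, s21] <;>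
          first | ring1 | linear_combination hd'
      · rw [hTT]
        simp only [adj3, Matrix.cons_val_zero, Matrix.cons_val_one, Matrix.cons_val]
        linear_combination (-(m 2 2 * T (b 0) (b 0) x + m 0 0 * T (b 2) (b 2) x
          - 2 * m 0 2 * T (b 0) (b 2) x)) * hd'
  · refine ⟨vec b ![m 1 1 * m 2 2 - m 1 2 ^ 2, m 0 2 * m 1 2 - m 0 1 * m 2 2,
      m 0 1 * m 1 2 - m 1 1 * m 0 2], hb.vec_mem _, hne _ (fun e => c0 (congrFun e 0)),
      hker _ (fun j => ?_), m 1 1 * m 2 2 - m 1 2 ^ 2, c0, fun x => ?_⟩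
    · simp only [Matrix.cons_val_zero, Matrix.cons_val_one, Matrix.cons_val]
      fin_cases j <;> simp only [Fin.zero_eta, Fin.mk_one, Fin.reduceFinMk, s10, s20, s21] <;>
        first | ring1 | linear_combination hd'
    · rw [hTT]
      simp only [adj3, Matrix.cons_val_zero, Matrix.cons_val_one, Matrix.cons_val]
      linear_combination (-(m 2 2 * T (b 1) (b 1) x + m 1 1 * T (b 2) (b 2) x
        - 2 * m 1 2 * T (b 1) (b 2) x)) * hd'

end Phi

end Vale.Agent.P287.H674
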