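import Vale.Agent.P287.H674.Phi3c

/-!
Cubic fourfolds with an involution whose `-1`-eigenspace is a plane: a plane which does not meet
this plane along a line.
-/

namespace Vale.Agent.P287.H674

open MvPolynomial

variable {V : Type*} [AddCommGroup V] [Module ℂ V]
variable {T : V →ₗ[ℂ] V →ₗ[ℂ] V →ₗ[ℂ] ℂ}

theorem det3_smul (r : ℂ) (m : Fin 3 → Fin 3 → ℂ) : det3 (fun i j => r * m i j) = r ^ 3 * det3 m := by
  simp only [det3]; ring

/-- completing a nonzero vector to a basis of a two-dimensional space -/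
theorem exists_IsB2_of {S : Submodule ℂ V} (hS : Module.finrank ℂ S = 2) {w : V} (hw : w ∈ S)
    (hw0 : w ≠ 0) : ∃ w', IsB2 S w w' := by
  obtain ⟨u1, u2, hu⟩ := exists_IsB2 hS
  obtain ⟨α, β, hαβ⟩ := hu.span w hw
  by_cases hα : α = 0
  · have hβ : β ≠ 0 := by
      rintro rfl
      rw [hα, zero_smul, zero_smul, add_zero] at hαβ
      exact hw0 hαβ
    refine ⟨u1, hw, hu.ha, fun s t h => ?_, fun x hx => ?_⟩
    · rw [hαβ, hα, zero_smul, zero_add, smul_smul, add_comm] at h
      have := hu.ind t (s * β) h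
      exact ⟨(mul_eq_zero.mp this.2).resolve_right hβ, this.1⟩
    · obtain ⟨s, t, rfl⟩ := hu.span x hx
      refine ⟨t / β, s, ?_⟩
      rw [hαβ, hα, zero_smul, zero_add, smul_smul, div_mul_cancel₀ _ hβ, add_comm]
  · refine ⟨u2, hw, hu.hb, fun s t h => ?_, fun x hx => ?_⟩
    · rw [hαβ, smul_add, smul_smul, smul_smul, add_assoc, ← add_smul] at h
      have := hu.ind (s * α) (s * β + t) h
      have hs : s = 0 := (mul_eq_zero.mp this.1).resolve_right hα
      refine ⟨hs, ?_⟩
      have h2 := this.2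
      rw [hs, zero_mul, zero_add] at h2
      exact h2
    · obtain ⟨s, t, rfl⟩ := hu.span x hx
      refine ⟨s / α, t - s / α * β, ?_⟩
      rw [hαβ, smul_add, smul_smul, smul_smul, div_mul_cancel₀ _ hα, sub_smul]
      abel

namespace Phi

variable {A B : Submodule ℂ V} {e b : Fin 3 → V}

/-- a singular quadric off a given line -/
theorem exists_off (h : Phi T A B) (he : IsB3 A e) (hb : IsB3 B b)
    (h0 : T (e 0) (e 0) (e 0) ≠ 0) :
    ∃ a : Fin 3 → ℂ, a 2 ≠ 0 ∧ T (vec e a) (vec e a) (vec e a) = 0 ∧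
      det3 (fun i j => T (b i) (b j) (vec e a)) = 0 := by
  by_contra hcon
  push Not at hcon
  refine bez (c := cubP T e) (D := detP T e b) ?_ ?_ ?_ ?_ ?_
  · intro r v
    rw [eval_cubP, eval_cubP, vec_smul]
    simp only [map_smul, LinearMap.smul_apply, smul_eq_mul]
    ring
  · intro r v
    rw [eval_detP, eval_detP, vec_smul]
    simp only [map_smul, smul_eq_mul]
    rw [det3_smul]
  · rw [eval_cubP]
    have : vec e ![1, 0, 0] = e 0 := by simp [vec]
    rw [this]
    exact h0
  · intro v h1 h2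
    rw [eval_cubP] at h1
    rw [eval_detP] at h2
    by_contra h3
    exact hcon v h3 h1 h2
  · intro v hv h1 h2
    rw [eval_cubP] at h1
    rw [eval_detP] at h2
    set t := vec e v with ht
    have htA : t ∈ A := he.vec_mem v
    have ht0 : t ≠ 0 := fun h => hv (he.ind v h)
    obtain ⟨k, hk, hk0, hkt, ρ, hρ, hadj⟩ := h.kernel hb htA ht0 h1 h2
    simp only [pderiv_cubP h.s1 h.s2, pderiv_detP, ← ht]
    have hexp : ∀ (φ : V →ₗ[ℂ] ℂ), φ t = v 0 * φ (e 0) + v 1 * φ (e 1) + v 2 * φ (e 2) := fun φ => by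
      simp only [ht, vec, map_add, map_smul, smul_eq_mul]
    refine ⟨?_, ?_, fun α β hαβ => ?_⟩
    · rw [Fin.sum_univ_three]
      have := hexp (T t t)
      rw [h1] at this
      linear_combination (-3) * this
    · rw [Fin.sum_univ_three]
      have h5 : T k k t = 0 := by
        rw [h.s2, h.s1]; exact hkt k hk
      have h6 := hexp (T k k)
      rw [h5, hadj, hadj, hadj] at h6
      have h7 : ρ * (v 0 * adj3 (fun i j => T (b i) (b j) t) (fun i j => T (b i) (b j) (e 0))
          + v 1 * adj3 (fun i j => T (b i) (b j) t) (fun i j => T (b i) (b j) (e 1))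
          + v 2 * adj3 (fun i j => T (b i) (b j) t) (fun i j => T (b i) (b j) (e 2))) = 0 := by
        linear_combination -h6
      exact (mul_eq_zero.mp h7).resolve_left hρ
    · have h5 : ∀ x ∈ A, 3 * ρ * α * T t t x + β * T k k x = 0 := by
        intro x hx
        obtain ⟨a, rfl⟩ := he.span x hx
        have h6 : ∀ i, 3 * ρ * α * T t t (e i) + β * T k k (e i) = 0 := by
          intro i
          rw [hadj]
          linear_combination ρ * hαβ i
        simp only [vec, map_add, map_smul, smul_eq_mul]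
        linear_combination a 0 * h6 0 + a 1 * h6 1 + a 2 * h6 2
      by_cases hα : α = 0
      · refine ⟨hα, ?_⟩
        obtain ⟨x, hx, hx'⟩ := h.nzB hk hk0
        have := h5 x hx
        rw [hα, mul_zero, zero_mul, zero_add] at this
        exact (mul_eq_zero.mp this).resolve_right hx'
      · exfalso
        obtain ⟨s, hs⟩ : ∃ s : ℂ, s ^ 2 = β / (3 * ρ * α) :=
          IsAlgClosed.exists_pow_nat_eq _ (by norm_num)
        refine h.sing htA ht0 (B.smul_mem s hk) (fun y hy => ?_) (fun x hx => ?_)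
        · rw [map_smul, LinearMap.smul_apply, hkt y hy, smul_zero]
        · simp only [map_smul, LinearMap.smul_apply, smul_eq_mul]
          have h8 : s * (s * T k k x) = s ^ 2 * T k k x := by ring
          rw [h8, hs]
          have h9 := h5 x hx
          field_simp
          linear_combination h9

/-- a plane which does not meet `B` along a line is disjoint from another plane -/
theorem two (h : Phi T A B) (hV : Module.finrank ℂ V = 6) {W : Submodule ℂ V} (hW : IsPl T W)
    (hWB : Module.finrank ℂ (W ⊓ B : Submodule ℂ V) ≤ 1) : TwoPl T := by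
  have hfin : Module.Finite ℂ V := Module.finite_of_finrank_pos (by omega)
  have hBpl : IsPl T B := ⟨h.finB, fun w hw => h.bbb w hw w hw w hw⟩
  by_cases hz : Module.finrank ℂ (W ⊓ B : Submodule ℂ V) = 0
  · exact ⟨W, B, hW, hBpl, Submodule.finrank_eq_zero.mp hz⟩
  have h1 : Module.finrank ℂ (W ⊓ B : Submodule ℂ V) = 1 := by omega
  obtain ⟨p, hp⟩ := exists_IsB1 h1
  have hpW : p ∈ W := hp.he.1
  have hpB : p ∈ B := hp.he.2
  -- the projection of `W` to `A`
  set L : Submodule ℂ V := A ⊓ (W ⊔ B) with hL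
  have hLfin : Module.finrank ℂ L = 2 := by
    have d1 := Submodule.finrank_sup_add_finrank_inf_eq W B
    rw [hW.1, h.finB, h1] at d1
    have d2 := Submodule.finrank_sup_add_finrank_inf_eq A (W ⊔ B)
    have d3 : A ⊔ (W ⊔ B) = ⊤ := by
      rw [eq_top_iff]
      intro v _
      obtain ⟨a, ha, b, hb, rfl⟩ := h.top v
      exact Submodule.add_mem _ (le_sup_left (b := W ⊔ B) ha)
        (le_sup_right (a := A) (le_sup_right (a := W) hb))
    rw [d3, finrank_top, hV, h.finA] at d2
    rw [hL]
    omega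
  have hLA : L ≤ A := inf_le_left
  have hLT : ∀ l ∈ L, T p p l = 0 := by
    intro l hl
    obtain ⟨w, hw, y, hy, hwy⟩ := Submodule.mem_sup.mp hl.2
    rw [← hwy, map_add, tri_zero_of_self h.s1 h.s2 hW.2 hpW hpW hw, h.bbb p hpB p hpB y hy,
      add_zero]
  obtain ⟨e', he', heL⟩ : ∃ e' ∈ A, e' ∉ L := by
    by_contra hcon
    push Not at hcon
    have : A ≤ L := hcon
    have := Submodule.finrank_mono this
    rw [h.finA, hLfin] at this
    omega
  -- a point of `L` which is not on the cubic
  obtain ⟨w0, hw0, hc0⟩ : ∃ w ∈ L, T w w w ≠ 0 := by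
    by_contra hcon
    push Not at hcon
    obtain ⟨t, ht, ht0, hte⟩ := quad_zero hLfin (T e') (fun x y => h.s2 _ _ _)
    obtain ⟨x, hx, hx'⟩ := h.nzA (hLA ht) ht0
    obtain ⟨u1, u2, hu⟩ := exists_IsB2 hLfin
    -- `A` is spanned by `L` and `e'`
    have hsp : ∃ l ∈ L, ∃ c : ℂ, x = l + c • e' := by
      have d1 := Submodule.finrank_sup_add_finrank_inf_eq L (ℂ ∙ e')
      have he0 : e' ≠ 0 := fun h0 => heL (by rw [h0]; exact L.zero_mem)
      have d2 : Module.finrank ℂ (ℂ ∙ e') = 1 := finrank_span_singleton he0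
      have d3 : L ⊓ (ℂ ∙ e') = ⊥ := by
        rw [Submodule.eq_bot_iff]
        rintro y ⟨hy1, hy2⟩
        obtain ⟨c, rfl⟩ := Submodule.mem_span_singleton.mp hy2
        by_cases hc : c = 0
        · rw [hc, zero_smul]
        · exact absurd ((L.smul_mem_iff hc).mp hy1) heL
      rw [d3, finrank_bot, d2, hLfin] at d1
      have d4 : L ⊔ (ℂ ∙ e') = A := by
        apply Submodule.eq_of_le_of_finrank_eq
        · refine sup_le hLA ?_
          rw [Submodule.span_singleton_le_iff_mem]; exact he'
        · rw [h.finA]; omega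
      rw [← d4] at hx
      obtain ⟨l, hl, y, hy, rfl⟩ := Submodule.mem_sup.mp hx
      obtain ⟨c, rfl⟩ := Submodule.mem_span_singleton.mp hy
      exact ⟨l, hl, c, rfl⟩
    obtain ⟨l, hl, c, rfl⟩ := hsp
    apply hx'
    have h5 : T t t e' = 0 := by rw [h.s2, h.s1]; exact hte
    rw [map_add, map_smul, h5, tri_zero_of_self h.s1 h.s2 hcon ht ht hl]
    simp
  have hw00 : w0 ≠ 0 := by
    rintro rfl
    exact hc0 (by simp)
  obtain ⟨w1, hw⟩ := exists_IsB2_of hLfin hw0 hw00
  set e : Fin 3 → V := ![w0, w1, e'] with hedef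
  have hvec : ∀ a : Fin 3 → ℂ, vec e a = a 0 • w0 + a 1 • w1 + a 2 • e' := fun a => by
    simp [vec, hedef]
  have he : IsB3 A e := by
    refine ⟨fun i => ?_, fun x hx => ?_, fun a ha => ?_⟩
    · fin_cases i
      · exact hLA hw.ha
      · exact hLA hw.hb
      · exact he'
    · have d1 := Submodule.finrank_sup_add_finrank_inf_eq L (ℂ ∙ e')
      have he0 : e' ≠ 0 := fun h0 => heL (by rw [h0]; exact L.zero_mem)
      have d2 : Module.finrank ℂ (ℂ ∙ e') = 1 := finrank_span_singleton he0
      have d3 : L ⊓ (ℂ ∙ e') = ⊥ := by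
        rw [Submodule.eq_bot_iff]
        rintro y ⟨hy1, hy2⟩
        obtain ⟨c, rfl⟩ := Submodule.mem_span_singleton.mp hy2
        by_cases hc : c = 0
        · rw [hc, zero_smul]
        · exact absurd ((L.smul_mem_iff hc).mp hy1) heL
      rw [d3, finrank_bot, d2, hLfin] at d1
      have d4 : L ⊔ (ℂ ∙ e') = A := by
        apply Submodule.eq_of_le_of_finrank_eq
        · refine sup_le hLA ?_
          rw [Submodule.span_singleton_le_iff_mem]; exact he'
        · rw [h.finA]; omega
      rw [← d4] at hx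
      obtain ⟨l, hl, y, hy, rfl⟩ := Submodule.mem_sup.mp hx
      obtain ⟨c, rfl⟩ := Submodule.mem_span_singleton.mp hy
      obtain ⟨s, r, rfl⟩ := hw.span l hl
      exact ⟨![s, r, c], by rw [hvec]; simp⟩
    · rw [hvec] at ha
      have h2 : a 2 = 0 := by
        by_contra h2
        apply heL
        have : a 2 • e' = -(a 0 • w0 + a 1 • w1) := eq_neg_of_add_eq_zero_right ha
        rw [← L.smul_mem_iff h2, this]
        exact L.neg_mem (L.add_mem (L.smul_mem _ hw.ha) (L.smul_mem _ hw.hb))
      rw [h2, zero_smul, add_zero] at ha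
      have := hw.ind _ _ ha
      funext i
      fin_cases i
      · exact this.1
      · exact this.2
      · exact h2
  obtain ⟨b, hb⟩ := exists_IsB3 h.finB
  obtain ⟨at', hat2, hct, hdt⟩ := h.exists_off he hb (by simpa [hedef] using hc0)
  set t := vec e at' with ht
  have htA : t ∈ A := he.vec_mem _
  have htL : t ∉ L := by
    intro htL
    apply heL
    have : at' 2 • e' = t - (at' 0 • w0 + at' 1 • w1) := by
      rw [ht, hvec]; abel
    rw [← L.smul_mem_iff hat2, this]
    exact L.sub_mem htL (L.add_mem (L.smul_mem _ hw.ha) (L.smul_mem _ hw.hb))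
  have ht0 : t ≠ 0 := fun h0 => htL (by rw [h0]; exact L.zero_mem)
  obtain ⟨k, hk, hk0, hkt, -⟩ := h.kernel hb htA ht0 hct hdt
  -- the second vector of the isotropic plane
  obtain ⟨g, hg⟩ : ∃ g : V →ₗ[ℂ] ℂ, g k ≠ 0 := by
    by_contra hcon
    push Not at hcon
    exact hk0 ((Module.forall_dual_apply_eq_zero_iff ℂ k).mp hcon)
  obtain ⟨y, hy, hy0, hyt⟩ := quad_zero (finrank_inf_ker h.finB g hk hg) (T t)
    (fun x y => h.s2 _ _ _)
  have hyB : y ∈ B := hy.1
  have hyg : g y = 0 := hy.2
  have hpt : T p p t ≠ 0 := by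
    intro hpt
    obtain ⟨v, hv⟩ := h.smooth p hp.ne
    apply hv
    obtain ⟨a, ha, y', hy', rfl⟩ := h.top v
    rw [map_add, h.bbb p hpB p hpB y' hy', add_zero]
    obtain ⟨a', rfl⟩ := he.span a ha
    have hmem : vec e a' - (a' 2 / at' 2) • t ∈ L := by
      have : vec e a' - (a' 2 / at' 2) • t
          = (a' 0 - a' 2 / at' 2 * at' 0) • w0 + (a' 1 - a' 2 / at' 2 * at' 1) • w1 := by
        have e2 : a' 2 / at' 2 * at' 2 = a' 2 := div_mul_cancel₀ _ hat2
        rw [ht, hvec, hvec]
        simp only [smul_add, smul_smul, sub_smul, e2]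
        abel
      rw [this]
      exact L.add_mem (L.smul_mem _ hw.ha) (L.smul_mem _ hw.hb)
    have := hLT _ hmem
    rw [map_sub, map_smul, hpt, smul_zero, sub_zero] at this
    exact this
  obtain ⟨f, hf⟩ := exists_IsB3 hW.1
  refine twoPl_of f ![t, k, y] (fun s r u => ?_) (fun s r u => ?_) (fun s r u s' r' u' huv => ?_)
  · exact hW.2 _ (W.add_mem (W.add_mem (W.smul_mem _ (hf.mem 0)) (W.smul_mem _ (hf.mem 1)))
      (W.smul_mem _ (hf.mem 2)))
  · simp only [Matrix.cons_val_zero, Matrix.cons_val_one, Matrix.cons_val]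
    have z1 : T t t k = 0 := h.aab t htA t htA k hk
    have z2 : T t t y = 0 := h.aab t htA t htA y hyB
    have z3 : T t k t = 0 := by rw [h.s2]; exact z1
    have z4 : T k t t = 0 := by rw [h.s1]; exact z3
    have z5 : T t y t = 0 := by rw [h.s2]; exact z2
    have z6 : T y t t = 0 := by rw [h.s1]; exact z5
    have z7 : T t k k = 0 := hkt k hk
    have z8 : T t k y = 0 := hkt y hyB
    have z9 : T k t k = 0 := by rw [h.s1]; exact z7
    have z10 : T k k t = 0 := by rw [h.s2]; exact z9
    have z11 : T k t y = 0 := by rw [h.s1]; exact z8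
    have z12 : T k y t = 0 := by rw [h.s2]; exact z11
    have z13 : T y k t = 0 := by rw [h.s1]; exact z12
    have z14 : T y t k = 0 := by rw [h.s2]; exact z13
    have z15 : T t y k = 0 := by rw [h.s2]; exact z8
    have z16 : T y t y = 0 := by rw [h.s1]; exact hyt
    have z17 : T y y t = 0 := by rw [h.s2]; exact z16
    have z18 : ∀ x1 ∈ B, ∀ x2 ∈ B, ∀ x3 ∈ B, T x1 x2 x3 = 0 := h.bbb
    simp only [map_add, map_smul, LinearMap.add_apply, LinearMap.smul_apply, smul_eq_mul, hct, z1,
      z2, z3, z4, z5, z6, z7, z8, z9, z10, z11, z12, z13, z14, z15, z16, z17, hyt,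
      z18 k hk k hk k hk, z18 k hk k hk y hyB, z18 k hk y hyB k hk, z18 k hk y hyB y hyB,
      z18 y hyB k hk k hk, z18 y hyB k hk y hyB, z18 y hyB y hyB k hk, z18 y hyB y hyB y hyB]
    ring
  · simp only [Matrix.cons_val_zero, Matrix.cons_val_one, Matrix.cons_val] at huv
    set x := s • f 0 + r • f 1 + u • f 2 with hx
    have hxW : x ∈ W := W.add_mem (W.add_mem (W.smul_mem _ (hf.mem 0)) (W.smul_mem _ (hf.mem 1)))
      (W.smul_mem _ (hf.mem 2))
    have hs' : s' = 0 := by
      by_contra hs'
      apply htL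
      refine ⟨htA, ?_⟩
      have h9 : s' • t ∈ W ⊔ B := by
        have : s' • t = x - (r' • k + u' • y) := by rw [huv]; abel
        rw [this]
        exact Submodule.sub_mem _ (le_sup_left (b := B) hxW)
          (le_sup_right (a := W) (B.add_mem (B.smul_mem _ hk) (B.smul_mem _ hyB)))
      exact (Submodule.smul_mem_iff _ hs').mp h9
    rw [hs', zero_smul, zero_add] at huv
    have hxB : x ∈ B := by rw [huv]; exact B.add_mem (B.smul_mem _ hk) (B.smul_mem _ hyB)
    obtain ⟨l, hl⟩ := hp.span x ⟨hxW, hxB⟩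
    have hxx : T t x x = 0 := by
      rw [huv]
      have z7 : T t k k = 0 := hkt k hk
      have z8 : T t k y = 0 := hkt y hyB
      have z15 : T t y k = 0 := by rw [h.s2]; exact z8
      simp only [map_add, map_smul, LinearMap.add_apply, LinearMap.smul_apply, smul_eq_mul, z7, z8,
        z15, hyt]
      ring
    have htpp : T t p p = T p p t := by rw [h.s1, h.s2]
    rw [hl, map_smul, map_smul, LinearMap.smul_apply, smul_eq_mul, smul_eq_mul, htpp] at hxx
    have hl0 : l = 0 := by
      rcases mul_eq_zero.mp hxx with h3 | h3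
      · exact h3
      · rcases mul_eq_zero.mp h3 with h4 | h4
        · exact h4
        · exact absurd h4 hpt
    rw [hl0, zero_smul] at hl
    have hx0 : x = 0 := hl
    have h3 := hf.ind ![s, r, u] (by simpa [vec] using hx0)
    have hsru : s = 0 ∧ r = 0 ∧ u = 0 :=
      ⟨by simpa using congrFun h3 0, by simpa using congrFun h3 1, by simpa using congrFun h3 2⟩
    rw [hx0] at huv
    have hr' : r' = 0 := by
      have := congrArg g huv
      rw [map_zero, map_add, map_smul, map_smul, hyg, smul_zero, add_zero, smul_eq_mul] at this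
      exact (mul_eq_zero.mp this.symm).resolve_right hg
    rw [hr', zero_smul, zero_add] at huv
    have hu' : u' = 0 := (smul_eq_zero.mp huv.symm).resolve_right hy0
    exact ⟨hsru, hs', hr', hu'⟩

end Phi

end Vale.Agent.P287.H674
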