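import Vale.Agent.P287.H674.Skew3
import Vale.Agent.P287.H674.Iso

/-!
Planes of a smooth cubic fourfold: three-dimensional linear sections which contain planes.
-/

namespace Vale.Agent.P287.H674

variable {V : Type*} [AddCommGroup V] [Module ℂ V]
variable {T : V →ₗ[ℂ] V →ₗ[ℂ] V →ₗ[ℂ] ℂ}

/-- isotropic subspaces of dimension three -/
def IsPl (T : V →ₗ[ℂ] V →ₗ[ℂ] V →ₗ[ℂ] ℂ) (W : Submodule ℂ V) : Prop :=
  Module.finrank ℂ W = 3 ∧ ∀ w ∈ W, T w w w = 0

/-- on the four-dimensional space `M` the cubic is a product of three linear forms -/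
structure Fac (T : V →ₗ[ℂ] V →ₗ[ℂ] V →ₗ[ℂ] ℂ) (M : Submodule ℂ V) (α β l : V →ₗ[ℂ] ℂ) :
    Prop where
  dim : Module.finrank ℂ M = 4
  eq : ∀ x ∈ M, T x x x = 3 * (α x * β x * l x)

namespace Fac

variable {M : Submodule ℂ V} {α β l : V →ₗ[ℂ] ℂ}

theorem swap12 (f : Fac T M α β l) : Fac T M β α l := ⟨f.dim, fun x hx => by
  rw [f.eq x hx]; ring⟩

theorem swap23 (f : Fac T M α β l) : Fac T M α l β := ⟨f.dim, fun x hx => by
  rw [f.eq x hx]; ring⟩

theorem pol (f : Fac T M α β l) (hS : Sm T) {x y : V} (hx : x ∈ M) (hy : y ∈ M) :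
    T x x y = α x * β x * l y + α x * β y * l x + α y * β x * l x := by
  have e1 := f.eq (x + y) (M.add_mem hx hy)
  have e2 := f.eq (x - y) (M.sub_mem hx hy)
  have e3 := f.eq y hy
  have s1 : T x y x = T x x y := hS.s2 _ _ _
  have s2 : T y x x = T x x y := by rw [hS.s1, hS.s2]
  have s3 : T y x y = T x y y := hS.s1 _ _ _
  have s4 : T y y x = T x y y := by rw [hS.s2, hS.s1]
  simp only [map_add, map_sub, LinearMap.add_apply, LinearMap.sub_apply, s1, s2, s3, s4] at e1 e2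
  linear_combination (e1 - e2 - 2 * e3) / 6

end Fac

/-- a quadratic form on a two-dimensional space has a zero -/
theorem quad_zero {D : Submodule ℂ V} (hD : Module.finrank ℂ D = 2) (b : V →ₗ[ℂ] V →ₗ[ℂ] ℂ)
    (hb : ∀ x y, b x y = b y x) : ∃ u ∈ D, u ≠ 0 ∧ b u u = 0 := by
  obtain ⟨v, w, hvw⟩ := exists_IsB2 hD
  obtain ⟨s, t, hst, hq⟩ := binary_quad (b v v) (b v w) (b w w)
  refine ⟨s • v + t • w, D.add_mem (D.smul_mem _ hvw.ha) (D.smul_mem _ hvw.hb), ?_, ?_⟩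
  · intro e
    have := hvw.ind s t e
    exact hst (by rw [this.1, this.2]; rfl)
  · simp only [map_add, map_smul, LinearMap.add_apply, LinearMap.smul_apply, smul_eq_mul, hb w v]
    linear_combination hq

/-- the space is spanned by a subspace of codimension `k` and `k` vectors -/
theorem codim_one (hV : Module.finrank ℂ V = 6) {N : Submodule ℂ V}
    (hN : Module.finrank ℂ N = 5) : ∃ e : V, ∀ v : V, ∃ n ∈ N, ∃ c : ℂ, v = n + c • e := by
  have hfin : Module.Finite ℂ V := Module.finite_of_finrank_pos (by omega)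
  obtain ⟨C, hC⟩ := Submodule.exists_isCompl N
  have hC1 : Module.finrank ℂ C = 1 := by
    have := Submodule.finrank_add_eq_of_isCompl hC
    omega
  obtain ⟨e, he⟩ := exists_IsB1 hC1
  refine ⟨e, fun v => ?_⟩
  have hv : v ∈ N ⊔ C := by rw [hC.sup_eq_top]; trivial
  obtain ⟨n, hn, c, hc, rfl⟩ := Submodule.mem_sup.mp hv
  obtain ⟨s, rfl⟩ := he.span c hc
  exact ⟨n, hn, s, rfl⟩

theorem codim_two (hV : Module.finrank ℂ V = 6) {N : Submodule ℂ V}
    (hN : Module.finrank ℂ N = 4) :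
    ∃ e e' : V, ∀ v : V, ∃ n ∈ N, ∃ c c' : ℂ, v = n + (c • e + c' • e') := by
  have hfin : Module.Finite ℂ V := Module.finite_of_finrank_pos (by omega)
  obtain ⟨C, hC⟩ := Submodule.exists_isCompl N
  have hC2 : Module.finrank ℂ C = 2 := by
    have := Submodule.finrank_add_eq_of_isCompl hC
    omega
  obtain ⟨e, e', he⟩ := exists_IsB2 hC2
  refine ⟨e, e', fun v => ?_⟩
  have hv : v ∈ N ⊔ C := by rw [hC.sup_eq_top]; trivial
  obtain ⟨n, hn, c, hc, rfl⟩ := Submodule.mem_sup.mp hv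
  obtain ⟨s, t, rfl⟩ := he.span c hc
  exact ⟨n, hn, s, t, rfl⟩

namespace Fac

variable {M : Submodule ℂ V} {α β l : V →ₗ[ℂ] ℂ}

/-- no factor is repeated -/
theorem no_double (f : Fac T M α β l) (hS : Sm T) (hV : Module.finrank ℂ V = 6)
    {A : Submodule ℂ V} (hA : Module.finrank ℂ A = 3) (hAM : A ≤ M) (h1 : ∀ x ∈ A, α x = 0)
    (h2 : ∀ x ∈ A, l x = 0) : False := by
  obtain ⟨e, e', he⟩ := codim_two hV f.dim
  obtain ⟨u, hu, hu0, k1, k2⟩ := common_zero hA (T e) (T e') (fun x y => hS.s2 _ _ _)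
    (fun x y => hS.s2 _ _ _)
  obtain ⟨w, hw⟩ := hS.smooth u hu0
  apply hw
  obtain ⟨n, hn, c, c', rfl⟩ := he w
  have k3 : T u u n = 0 := by
    rw [f.pol hS (hAM hu) hn, h1 u hu, h2 u hu]; ring
  have k4 : T u u e = 0 := by rw [hS.s2, hS.s1]; exact k1
  have k5 : T u u e' = 0 := by rw [hS.s2, hS.s1]; exact k2
  simp [k3, k4, k5]

/-- a product of three linear forms vanishing on a subspace -/
theorem _root_.Vale.Agent.P287.H674.prod_zero {D : Submodule ℂ V} {α β l : V →ₗ[ℂ] ℂ}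
    (h : ∀ x ∈ D, α x * β x * l x = 0) :
    (∀ x ∈ D, α x = 0) ∨ (∀ x ∈ D, β x = 0) ∨ ∀ x ∈ D, l x = 0 := by
  let p : Fin 3 → Submodule ℂ D := ![LinearMap.ker (α.domRestrict D),
    LinearMap.ker (β.domRestrict D), LinearMap.ker (l.domRestrict D)]
  have hcov : ⋃ i, (p i : Set D) = Set.univ := by
    rw [Set.eq_univ_iff_forall]
    intro x
    rw [Set.mem_iUnion]
    have hx := h x x.2
    rcases mul_eq_zero.mp hx with h1 | h1
    · rcases mul_eq_zero.mp h1 with h2 | h2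
      · exact ⟨0, h2⟩
      · exact ⟨1, h2⟩
    · exact ⟨2, h1⟩
  obtain ⟨i, hi⟩ := Subspace.exists_eq_top_of_iUnion_eq_univ hcov
  have hi' : ∀ x : D, x ∈ p i := fun x => by rw [hi]; trivial
  fin_cases i
  · exact Or.inl fun x hx => hi' ⟨x, hx⟩
  · exact Or.inr (Or.inl fun x hx => hi' ⟨x, hx⟩)
  · exact Or.inr (Or.inr fun x hx => hi' ⟨x, hx⟩)

/-- a plane outside `M` meets `M` along a line if it meets the three planes of `M` -/
theorem dim_inf (f : Fac T M α β l) (hS : Sm T) (hV : Module.finrank ℂ V = 6)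
    {W : Submodule ℂ V} (hW : IsPl T W) (hWM : ¬ W ≤ M)
    (h1 : ∃ x ∈ W ⊓ M, x ≠ 0 ∧ α x = 0) (h2 : ∃ x ∈ W ⊓ M, x ≠ 0 ∧ β x = 0)
    (h3 : ∃ x ∈ W ⊓ M, x ≠ 0 ∧ l x = 0) : Module.finrank ℂ (W ⊓ M : Submodule ℂ V) = 2 := by
  have hfin : Module.Finite ℂ V := Module.finite_of_finrank_pos (by omega)
  have d1 := Submodule.finrank_sup_add_finrank_inf_eq W M
  rw [hW.1, f.dim] at d1
  have d2 := Submodule.finrank_le (W ⊔ M)
  rw [hV] at d2
  have d3 : Module.finrank ℂ (W ⊓ M : Submodule ℂ V) < Module.finrank ℂ W := by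
    apply Submodule.finrank_lt_finrank_of_lt
    exact lt_of_le_of_ne inf_le_left fun e => hWM (by rw [← e]; exact inf_le_right)
  rw [hW.1] at d3
  by_contra hcon
  have d4 : Module.finrank ℂ (W ⊓ M : Submodule ℂ V) = 1 := by omega
  have d5 : W ⊔ M = ⊤ := Submodule.eq_top_of_finrank_eq (by rw [hV]; omega)
  obtain ⟨w, hw⟩ := exists_IsB1 d4
  have hz : ∀ g : V →ₗ[ℂ] ℂ, (∃ x ∈ W ⊓ M, x ≠ 0 ∧ g x = 0) → g w = 0 := by
    rintro g ⟨x, hx, hx0, hgx⟩
    obtain ⟨s, rfl⟩ := hw.span x hx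
    rw [map_smul, smul_eq_mul] at hgx
    rcases mul_eq_zero.mp hgx with h | h
    · exact absurd (by rw [h, zero_smul]) hx0
    · exact h
  obtain ⟨v, hv⟩ := hS.smooth w hw.ne
  apply hv
  have hv' : v ∈ W ⊔ M := by rw [d5]; trivial
  obtain ⟨a, ha, b, hb, rfl⟩ := Submodule.mem_sup.mp hv'
  rw [map_add, tri_zero_of_self hS.s1 hS.s2 hW.2 hw.he.1 hw.he.1 ha, f.pol hS hw.he.2 hb, hz α h1,
    hz β h2]
  ring

/-- a plane outside `M` does not meet two of the planes of `M` along lines -/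
theorem not_two (f : Fac T M α β l) (hS : Sm T) (hV : Module.finrank ℂ V = 6)
    {W : Submodule ℂ V} (hW : IsPl T W) (h2 : Module.finrank ℂ (W ⊓ M : Submodule ℂ V) = 2)
    (h3 : ∀ x ∈ W ⊓ M, α x = 0) (h4 : ∀ x ∈ W ⊓ M, β x = 0) : False := by
  have hfin : Module.Finite ℂ V := Module.finite_of_finrank_pos (by omega)
  have d1 := Submodule.finrank_sup_add_finrank_inf_eq W M
  rw [hW.1, f.dim] at d1
  obtain ⟨e, he⟩ := codim_one hV (N := W ⊔ M) (by omega)
  obtain ⟨r, hr, hr0, hre⟩ := quad_zero h2 (T e) (fun x y => hS.s2 _ _ _)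
  obtain ⟨v, hv⟩ := hS.smooth r hr0
  apply hv
  obtain ⟨n, hn, c, rfl⟩ := he v
  obtain ⟨a, ha, b, hb, rfl⟩ := Submodule.mem_sup.mp hn
  have k : T r r e = 0 := by rw [hS.s2, hS.s1]; exact hre
  rw [map_add, map_add, map_smul, tri_zero_of_self hS.s1 hS.s2 hW.2 hr.1 hr.1 ha,
    f.pol hS hr.2 hb, h3 r hr, h4 r hr, k]
  simp

end Fac

end Vale.Agent.P287.H674
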