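import Vale.Agent.P287.H674.PlaneGeo
import Vale.Agent.P287.H674.Gq3

/-!
The planes of a smooth cubic fourfold without two disjoint planes form a generalised
quadrangle with three points on a line.
-/

namespace Vale.Agent.P287.H674

variable {V : Type*} [AddCommGroup V] [Module ℂ V]
variable {T : V →ₗ[ℂ] V →ₗ[ℂ] V →ₗ[ℂ] ℂ}

/-- three planes which make up a three-dimensional linear section -/
def Trip (T : V →ₗ[ℂ] V →ₗ[ℂ] V →ₗ[ℂ] ℂ) (A B C : Submodule ℂ V) : Prop :=
  ∃ (M : Submodule ℂ V) (α β l : V →ₗ[ℂ] ℂ), Fac T M α β l ∧ A = M ⊓ LinearMap.ker α ∧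
    B = M ⊓ LinearMap.ker β ∧ C = M ⊓ LinearMap.ker l ∧ Module.finrank ℂ A = 3 ∧
    Module.finrank ℂ B = 3 ∧ Module.finrank ℂ C = 3

namespace Trip

variable {A B C C' W : Submodule ℂ V}

theorem sw12 (h : Trip T A B C) : Trip T B A C := by
  obtain ⟨M, α, β, l, f, h1, h2, h3, h4, h5, h6⟩ := h
  exact ⟨M, β, α, l, f.swap12, h2, h1, h3, h5, h4, h6⟩

theorem sw23 (h : Trip T A B C) : Trip T A C B := by
  obtain ⟨M, α, β, l, f, h1, h2, h3, h4, h5, h6⟩ := h
  exact ⟨M, α, l, β, f.swap23, h1, h3, h2, h4, h6, h5⟩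

theorem ne12 (h : Trip T A B C) (hS : Sm T) (hV : Module.finrank ℂ V = 6) : A ≠ B := by
  obtain ⟨M, α, β, l, f, h1, h2, h3, h4, h5, h6⟩ := h
  intro e
  refine f.swap23.no_double hS hV h4 (by rw [h1]; exact inf_le_left) (fun x hx => ?_)
    (fun x hx => ?_)
  · rw [h1] at hx; exact hx.2
  · rw [e, h2] at hx; exact hx.2

theorem isPl1 (h : Trip T A B C) : IsPl T A := by
  obtain ⟨M, α, β, l, f, h1, h2, h3, h4, h5, h6⟩ := h
  refine ⟨h4, fun w hw => ?_⟩
  rw [h1] at hw
  rw [f.eq w hw.1, show α w = 0 from hw.2]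
  ring

theorem inf12 (h : Trip T A B C) (hS : Sm T) (hV : Module.finrank ℂ V = 6) :
    Module.finrank ℂ (A ⊓ B : Submodule ℂ V) = 2 := by
  have hne := h.ne12 hS hV
  obtain ⟨M, α, β, l, f, h1, h2, h3, h4, h5, h6⟩ := h
  have hfin : Module.Finite ℂ V := Module.finite_of_finrank_pos (by omega)
  have hle : A ⊔ B ≤ M := sup_le (by rw [h1]; exact inf_le_left) (by rw [h2]; exact inf_le_left)
  have d1 := Submodule.finrank_sup_add_finrank_inf_eq A B
  have d2 := Submodule.finrank_mono hle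
  rw [f.dim] at d2
  rw [h4, h5] at d1
  have d3 : Module.finrank ℂ (A ⊓ B : Submodule ℂ V) < Module.finrank ℂ A := by
    apply Submodule.finrank_lt_finrank_of_lt
    refine lt_of_le_of_ne inf_le_left fun e => hne ?_
    apply Submodule.eq_of_le_of_finrank_eq
    · rw [← e]; exact inf_le_right
    · rw [h4, h5]
  omega

/-- the four-dimensional space of the triple is the sum of the first two -/
theorem sup12 (h : Trip T A B C) (hS : Sm T) (hV : Module.finrank ℂ V = 6) :
    ∃ α β l : V →ₗ[ℂ] ℂ, Fac T (A ⊔ B) α β l ∧ A = (A ⊔ B) ⊓ LinearMap.ker α ∧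
      B = (A ⊔ B) ⊓ LinearMap.ker β ∧ C = (A ⊔ B) ⊓ LinearMap.ker l := by
  have hi := h.inf12 hS hV
  obtain ⟨M, α, β, l, f, h1, h2, h3, h4, h5, h6⟩ := h
  have hfin : Module.Finite ℂ V := Module.finite_of_finrank_pos (by omega)
  have hle : A ⊔ B ≤ M := sup_le (by rw [h1]; exact inf_le_left) (by rw [h2]; exact inf_le_left)
  have d1 := Submodule.finrank_sup_add_finrank_inf_eq A B
  rw [h4, h5, hi] at d1
  have e : A ⊔ B = M := Submodule.eq_of_le_of_finrank_eq hle (by rw [f.dim]; omega)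
  rw [e]
  exact ⟨α, β, l, f, h1, h2, h3⟩

/-- the only planes in the four-dimensional space of a triple -/
theorem mem (h : Trip T A B C) (hS : Sm T) (hV : Module.finrank ℂ V = 6)
    (hW : IsPl T W) (hle : W ≤ A ⊔ B) : W = A ∨ W = B ∨ W = C := by
  have hA := h.isPl1
  have hB := h.sw12.isPl1
  have hC := h.sw23.sw12.isPl1
  have hfin : Module.Finite ℂ V := Module.finite_of_finrank_pos (by omega)
  obtain ⟨α, β, l, f, h1, h2, h3⟩ := h.sup12 hS hV
  have hz : ∀ x ∈ W, α x * β x * l x = 0 := by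
    intro x hx
    have := f.eq x (hle hx)
    rw [hW.2 x hx] at this
    linear_combination -this / 3
  rcases prod_zero hz with h' | h' | h'
  · left
    refine Submodule.eq_of_le_of_finrank_eq ?_ (by rw [hW.1, hA.1])
    rw [h1]
    exact fun x hx => ⟨hle hx, h' x hx⟩
  · right; left
    refine Submodule.eq_of_le_of_finrank_eq ?_ (by rw [hW.1, hB.1])
    rw [h2]
    exact fun x hx => ⟨hle hx, h' x hx⟩
  · right; right
    refine Submodule.eq_of_le_of_finrank_eq ?_ (by rw [hW.1, hC.1])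
    rw [h3]
    exact fun x hx => ⟨hle hx, h' x hx⟩

theorem le3 (h : Trip T A B C) (hS : Sm T) (hV : Module.finrank ℂ V = 6) : C ≤ A ⊔ B := by
  obtain ⟨α, β, l, f, h1, h2, h3⟩ := h.sup12 hS hV
  rw [h3]
  exact inf_le_left

theorem unique (h : Trip T A B C) (h' : Trip T A B C') (hS : Sm T)
    (hV : Module.finrank ℂ V = 6) : C' = C := by
  rcases h.mem hS hV h'.sw23.sw12.isPl1 (h'.le3 hS hV) with e | e | e
  · exact absurd e.symm (h'.sw23.ne12 hS hV)
  · exact absurd e.symm (h'.sw12.sw23.ne12 hS hV)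
  · exact e

end Trip

/-- the residual plane -/
theorem exists_trip (hS : Sm T) (hV : Module.finrank ℂ V = 6) {A B : Submodule ℂ V}
    (hA : IsPl T A) (hB : IsPl T B) (hne : A ≠ B)
    (hAB : Module.finrank ℂ (A ⊓ B : Submodule ℂ V) = 2) : ∃ C, Trip T A B C := by
  have hfin : Module.Finite ℂ V := Module.finite_of_finrank_pos (by omega)
  have d1 := Submodule.finrank_sup_add_finrank_inf_eq A B
  rw [hA.1, hB.1, hAB] at d1
  have hM : Module.finrank ℂ (A ⊔ B : Submodule ℂ V) = 4 := by omega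
  have hAB' : ¬ A ≤ B := fun h => hne (Submodule.eq_of_le_of_finrank_eq h (by rw [hA.1, hB.1]))
  have hBA' : ¬ B ≤ A := fun h =>
    hne (Submodule.eq_of_le_of_finrank_eq h (by rw [hA.1, hB.1])).symm
  obtain ⟨u, hu, hu'⟩ := Set.not_subset.mp hAB'
  obtain ⟨v, hv, hv'⟩ := Set.not_subset.mp hBA'
  obtain ⟨α, hα1, hα2⟩ : ∃ α : V →ₗ[ℂ] ℂ, α v = 1 ∧ ∀ x ∈ A, α x = 0 := by
    obtain ⟨g, hg1, hg2⟩ := Submodule.exists_le_ker_of_notMem (p := A) hv'
    refine ⟨(g v)⁻¹ • g, ?_, fun x hx => ?_⟩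
    · rw [LinearMap.smul_apply, smul_eq_mul, inv_mul_cancel₀ hg1]
    · rw [LinearMap.smul_apply, show g x = 0 from hg2 hx, smul_zero]
  obtain ⟨β, hβ1, hβ2⟩ : ∃ β : V →ₗ[ℂ] ℂ, β u = 1 ∧ ∀ x ∈ B, β x = 0 := by
    obtain ⟨g, hg1, hg2⟩ := Submodule.exists_le_ker_of_notMem (p := B) hu'
    refine ⟨(g u)⁻¹ • g, ?_, fun x hx => ?_⟩
    · rw [LinearMap.smul_apply, smul_eq_mul, inv_mul_cancel₀ hg1]
    · rw [LinearMap.smul_apply, show g x = 0 from hg2 hx, smul_zero]
  have hMA : Module.finrank ℂ ((A ⊔ B) ⊓ LinearMap.ker α : Submodule ℂ V) = 3 :=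
    finrank_inf_ker hM α (le_sup_right (a := A) hv) (by rw [hα1]; exact one_ne_zero)
  have hMB : Module.finrank ℂ ((A ⊔ B) ⊓ LinearMap.ker β : Submodule ℂ V) = 3 :=
    finrank_inf_ker hM β (le_sup_left (b := B) hu) (by rw [hβ1]; exact one_ne_zero)
  have eA : A = (A ⊔ B) ⊓ LinearMap.ker α :=
    Submodule.eq_of_le_of_finrank_eq (fun x hx => ⟨le_sup_left (b := B) hx, hα2 x hx⟩)
      (by rw [hA.1, hMA])
  have eB : B = (A ⊔ B) ⊓ LinearMap.ker β :=
    Submodule.eq_of_le_of_finrank_eq (fun x hx => ⟨le_sup_right (a := A) hx, hβ2 x hx⟩)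
      (by rw [hB.1, hMB])
  set l : V →ₗ[ℂ] ℂ := (2 : ℂ) • T u v - T u u v • β - T u v v • α with hl
  have f : Fac T (A ⊔ B) α β l := by
    refine ⟨hM, fun x hx => ?_⟩
    set d := x - β x • u - α x • v with hd
    have hdM : d ∈ A ⊔ B := by
      refine Submodule.sub_mem _ (Submodule.sub_mem _ hx (Submodule.smul_mem _ _ ?_))
        (Submodule.smul_mem _ _ ?_)
      · exact le_sup_left (b := B) hu
      · exact le_sup_right (a := A) hv
    have hdA : d ∈ A := by
      rw [eA]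
      refine ⟨hdM, ?_⟩
      change α d = 0
      rw [hd, map_sub, map_sub, map_smul, map_smul, hα1, hα2 u hu]
      simp
    have hdB : d ∈ B := by
      rw [eB]
      refine ⟨hdM, ?_⟩
      change β d = 0
      rw [hd, map_sub, map_sub, map_smul, map_smul, hβ1, hβ2 v hv]
      simp
    have ex : x = d + β x • u + α x • v := by rw [hd]; abel
    set s := β x
    set t := α x
    have a1 : T d d d = 0 := hA.2 d hdA
    have a2 : T d d u = 0 := tri_zero_of_self hS.s1 hS.s2 hA.2 hdA hdA hu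
    have a3 : T d u u = 0 := tri_zero_of_self hS.s1 hS.s2 hA.2 hdA hu hu
    have a4 : T u u u = 0 := hA.2 u hu
    have a5 : T d d v = 0 := tri_zero_of_self hS.s1 hS.s2 hB.2 hdB hdB hv
    have a6 : T d v v = 0 := tri_zero_of_self hS.s1 hS.s2 hB.2 hdB hv hv
    have a7 : T v v v = 0 := hB.2 v hv
    have b1 : T d u d = T d d u := hS.s2 _ _ _
    have b2 : T u d d = T d d u := by rw [hS.s1, hS.s2]
    have b3 : T u d u = T d u u := hS.s1 _ _ _
    have b4 : T u u d = T d u u := by rw [hS.s2, hS.s1]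
    have b5 : T d v d = T d d v := hS.s2 _ _ _
    have b6 : T v d d = T d d v := by rw [hS.s1, hS.s2]
    have b7 : T v d v = T d v v := hS.s1 _ _ _
    have b8 : T v v d = T d v v := by rw [hS.s2, hS.s1]
    have c1 : T d u v = T u v d := by rw [hS.s1, hS.s2]
    have c2 : T d v u = T u v d := by rw [hS.s2, c1]
    have c3 : T u d v = T u v d := hS.s2 _ _ _
    have c4 : T v u d = T u v d := hS.s1 _ _ _
    have c5 : T v d u = T u v d := by rw [hS.s2, c4]
    have e1 : T u v u = T u u v := hS.s2 _ _ _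
    have e2 : T v u u = T u u v := by rw [hS.s1, hS.s2]
    have e3 : T v u v = T u v v := hS.s1 _ _ _
    have e4 : T v v u = T u v v := by rw [hS.s2, hS.s1]
    have hlx : l x = 2 * T u v d + s * T u u v + t * T u v v := by
      simp only [hl, LinearMap.sub_apply, LinearMap.smul_apply, smul_eq_mul]
      rw [show T u v x = T u v (d + s • u + t • v) by rw [← ex]]
      simp only [map_add, map_smul, smul_eq_mul, e1]
      change _ - T u u v * s - T u v v * t = _
      ring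
    rw [hlx, ex]
    simp only [map_add, map_smul, LinearMap.add_apply, LinearMap.smul_apply, smul_eq_mul, a1, a2,
      a3, a4, a5, a6, a7, b1, b2, b3, b4, b5, b6, b7, b8, c1, c2, c3, c4, c5, e1, e2, e3, e4]
    ring
  have hl0 : ∃ x ∈ A ⊔ B, l x ≠ 0 := by
    by_contra hcon
    push Not at hcon
    have := isotropic_le hV hS.s1 hS.s2 hS.smooth (W := A ⊔ B) (fun w hw => by
      rw [f.eq w hw, hcon w hw]; ring)
    omega
  obtain ⟨x, hx, hx0⟩ := hl0
  exact ⟨(A ⊔ B) ⊓ LinearMap.ker l, A ⊔ B, α, β, l, f, eA, eB, rfl, hA.1, hB.1,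
    finrank_inf_ker hM l hx hx0⟩

end Vale.Agent.P287.H674
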