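import Vale.Agent.P287.H674.PlaneGeo2
import Vale.Agent.P287.H674.Thm

/-!
The planes of a smooth cubic fourfold without two disjoint planes, end of the proof.
-/

namespace Vale.Agent.P287.H674

open MvPolynomial

section

variable {V : Type*} [AddCommGroup V] [Module ℂ V]
variable {T : V →ₗ[ℂ] V →ₗ[ℂ] V →ₗ[ℂ] ℂ}

/-- two planes which meet along a line -/
def AdjP (T : V →ₗ[ℂ] V →ₗ[ℂ] V →ₗ[ℂ] ℂ) (A B : {W : Submodule ℂ V // IsPl T W}) : Prop :=
  A ≠ B ∧ Module.finrank ℂ (A.1 ⊓ B.1 : Submodule ℂ V) = 2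

open Classical in
/-- the residual plane -/
noncomputable def resP (T : V →ₗ[ℂ] V →ₗ[ℂ] V →ₗ[ℂ] ℂ) (A B : {W : Submodule ℂ V // IsPl T W}) :
    {W : Submodule ℂ V // IsPl T W} :=
  if h : ∃ C : {W : Submodule ℂ V // IsPl T W}, Trip T A.1 B.1 C.1 then h.choose else A

theorem resP_spec (hS : Sm T) (hV : Module.finrank ℂ V = 6)
    {A B : {W : Submodule ℂ V // IsPl T W}} (h : AdjP T A B) : Trip T A.1 B.1 (resP T A B).1 := by
  obtain ⟨C, hC⟩ := exists_trip hS hV A.2 B.2 (fun e => h.1 (Subtype.ext e)) h.2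
  have hex : ∃ C : {W : Submodule ℂ V // IsPl T W}, Trip T A.1 B.1 C.1 :=
    ⟨⟨C, hC.sw23.sw12.isPl1⟩, hC⟩
  unfold resP
  rw [dif_pos hex]
  exact hex.choose_spec

theorem adjP_of (hS : Sm T) (hV : Module.finrank ℂ V = 6)
    {A B : {W : Submodule ℂ V // IsPl T W}} {C : Submodule ℂ V} (h : Trip T A.1 B.1 C) :
    AdjP T A B :=
  ⟨fun e => h.ne12 hS hV (congrArg Subtype.val e), h.inf12 hS hV⟩

theorem resP_eq (hS : Sm T) (hV : Module.finrank ℂ V = 6)
    {A B C : {W : Submodule ℂ V // IsPl T W}} (h : Trip T A.1 B.1 C.1) : resP T A B = C :=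
  Subtype.ext (h.unique (resP_spec hS hV (adjP_of hS hV h)) hS hV)

theorem exists_ne_inf {A B : Submodule ℂ V} (h : A ⊓ B ≠ ⊥) : ∃ x ∈ A ⊓ B, x ≠ 0 := by
  obtain ⟨x, hx, hx0⟩ := Submodule.exists_mem_ne_zero_of_ne_bot h
  exact ⟨x, hx, hx0⟩

theorem inf_eq_two (hV : Module.finrank ℂ V = 6) {W A D : Submodule ℂ V} (hW : IsPl T W)
    (hA : IsPl T A) (hne : W ≠ A) (hD : Module.finrank ℂ D = 2) (h1 : D ≤ W) (h2 : D ≤ A) :
    Module.finrank ℂ (W ⊓ A : Submodule ℂ V) = 2 := by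
  have hfin : Module.Finite ℂ V := Module.finite_of_finrank_pos (by omega)
  have d1 := Submodule.finrank_mono (le_inf h1 h2)
  have d3 : Module.finrank ℂ (W ⊓ A : Submodule ℂ V) < Module.finrank ℂ W := by
    apply Submodule.finrank_lt_finrank_of_lt
    refine lt_of_le_of_ne inf_le_left fun e => hne ?_
    apply Submodule.eq_of_le_of_finrank_eq
    · rw [← e]; exact inf_le_right
    · rw [hW.1, hA.1]
  rw [hW.1] at d3
  omega

/-- the generalised quadrangle of the planes -/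
theorem gqP (hS : Sm T) (hV : Module.finrank ℂ V = 6)
    (hno : ∀ A B : Submodule ℂ V, IsPl T A → IsPl T B → A ⊓ B ≠ ⊥) :
    Gq (AdjP T) (resP T) where
  symm := by
    intro A B h
    exact ⟨h.1.symm, by rw [inf_comm]; exact h.2⟩
  irr := fun A h => h.1 rfl
  res1 := by
    intro A B h
    exact adjP_of hS hV (resP_spec hS hV h).sw23
  res2 := by
    intro A B h
    exact adjP_of hS hV (resP_spec hS hV h).sw12.sw23
  resr := by
    intro A B h
    exact resP_eq hS hV (resP_spec hS hV h).sw23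
  resc := by
    intro A B h
    exact (resP_eq hS hV (resP_spec hS hV h).sw12).symm
  tri := by
    intro A B W h hA hB
    by_contra hcon
    have hfin : Module.Finite ℂ V := Module.finite_of_finrank_pos (by omega)
    have t := resP_spec hS hV h
    obtain ⟨α, β, l, f, h1, h2, h3⟩ := t.sup12 hS hV
    have hWM : ¬ W.1 ≤ A.1 ⊔ B.1 := by
      intro hle
      rcases t.mem hS hV W.2 hle with e | e | e
      · exact hA.1 (Subtype.ext e)
      · exact hB.1 (Subtype.ext e)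
      · exact hcon (Subtype.ext e)
    have d3 : Module.finrank ℂ (W.1 ⊓ (A.1 ⊔ B.1) : Submodule ℂ V) < Module.finrank ℂ W.1 := by
      apply Submodule.finrank_lt_finrank_of_lt
      exact lt_of_le_of_ne inf_le_left fun e => hWM (by rw [← e]; exact inf_le_right)
    rw [W.2.1] at d3
    have leA : W.1 ⊓ A.1 ≤ W.1 ⊓ (A.1 ⊔ B.1) := inf_le_inf_left _ le_sup_left
    have leB : W.1 ⊓ B.1 ≤ W.1 ⊓ (A.1 ⊔ B.1) := inf_le_inf_left _ le_sup_right
    have d4 := Submodule.finrank_mono leA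
    have d5 := Submodule.finrank_mono leB
    rw [hA.2] at d4
    have d6 : Module.finrank ℂ (W.1 ⊓ (A.1 ⊔ B.1) : Submodule ℂ V) = 2 := by omega
    have eA := Submodule.eq_of_le_of_finrank_eq leA (by rw [hA.2, d6])
    have eB := Submodule.eq_of_le_of_finrank_eq leB (by rw [hB.2, d6])
    refine f.not_two hS hV W.2 d6 (fun x hx => ?_) (fun x hx => ?_)
    · rw [← eA] at hx
      have := hx.2
      rw [h1] at this
      exact this.2
    · rw [← eB] at hx
      have := hx.2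
      rw [h2] at this
      exact this.2
  ex := by
    intro A B W h hA hB nA nB nC
    have hfin : Module.Finite ℂ V := Module.finite_of_finrank_pos (by omega)
    have t := resP_spec hS hV h
    set C := resP T A B with hC
    obtain ⟨α, β, l, f, h1, h2, h3⟩ := t.sup12 hS hV
    have hWM : ¬ W.1 ≤ A.1 ⊔ B.1 := by
      intro hle
      rcases t.mem hS hV W.2 hle with e | e | e
      · exact nA (Subtype.ext e)
      · exact nB (Subtype.ext e)
      · exact nC (Subtype.ext e)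
    have d2 : Module.finrank ℂ (W.1 ⊓ (A.1 ⊔ B.1) : Submodule ℂ V) = 2 := by
      refine f.dim_inf hS hV W.2 hWM ?_ ?_ ?_
      · obtain ⟨x, hx, hx0⟩ := exists_ne_inf (hno W.1 A.1 W.2 A.2)
        have hxA := hx.2
        rw [h1] at hxA
        exact ⟨x, ⟨hx.1, hxA.1⟩, hx0, hxA.2⟩
      · obtain ⟨x, hx, hx0⟩ := exists_ne_inf (hno W.1 B.1 W.2 B.2)
        have hxA := hx.2
        rw [h2] at hxA
        exact ⟨x, ⟨hx.1, hxA.1⟩, hx0, hxA.2⟩
      · obtain ⟨x, hx, hx0⟩ := exists_ne_inf (hno W.1 C.1 W.2 C.2)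
        have hxA := hx.2
        rw [h3] at hxA
        exact ⟨x, ⟨hx.1, hxA.1⟩, hx0, hxA.2⟩
    have hz : ∀ x ∈ W.1 ⊓ (A.1 ⊔ B.1), α x * β x * l x = 0 := by
      intro x hx
      have := f.eq x hx.2
      rw [W.2.2 x hx.1] at this
      linear_combination -this / 3
    rcases prod_zero hz with h' | h' | h'
    · exfalso
      refine hA ⟨nA, inf_eq_two hV W.2 A.2 (fun e => nA (Subtype.ext e)) d2 inf_le_left ?_⟩
      intro x hx
      rw [h1]
      exact ⟨hx.2, h' x hx⟩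
    · exfalso
      refine hB ⟨nB, inf_eq_two hV W.2 B.2 (fun e => nB (Subtype.ext e)) d2 inf_le_left ?_⟩
      intro x hx
      rw [h2]
      exact ⟨hx.2, h' x hx⟩
    · refine ⟨nC, inf_eq_two hV W.2 C.2 (fun e => nC (Subtype.ext e)) d2 inf_le_left ?_⟩
      intro x hx
      rw [h3]
      exact ⟨hx.2, h' x hx⟩

end

/-- The planes of a smooth cubic fourfold: two disjoint planes, or a plane which meets all other
planes along lines, or 9, 15 or 27 planes. -/
theorem planes_main {F : MvPolynomial (Fin 6) ℂ} (hF : SmoothCubic F)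
    {U W : Submodule ℂ (Fin 6 → ℂ)} (hU : PlaneIn F U) (hW : PlaneIn F W) (hne : U ≠ W)
    (h2 : Module.finrank ℂ (U ⊓ W : Submodule ℂ (Fin 6 → ℂ)) = 2) :
    TwoDisjointPlanes F ∨
    (∃ P, PlaneIn F P ∧
      (∀ Q, PlaneIn F Q → Q ≠ P → Module.finrank ℂ (P ⊓ Q : Submodule ℂ (Fin 6 → ℂ)) = 2) ∧
      ({Q | PlaneIn F Q}.Finite → Odd {Q | PlaneIn F Q}.ncard)) ∨
    {Q | PlaneIn F Q}.ncard = 9 ∨ {Q | PlaneIn F Q}.ncard = 15 ∨
      {Q | PlaneIn F Q}.ncard = 27 := by
  by_cases hd : TwoDisjointPlanes F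
  · exact Or.inl hd
  right
  have hS : Sm (tri F) := ⟨tri_comm1 F, tri_comm2 F, fun v hv => smooth_tri hF hv⟩
  have hV : Module.finrank ℂ (Fin 6 → ℂ) = 6 := by simp
  have hpl : ∀ Q : Submodule ℂ (Fin 6 → ℂ), IsPl (tri F) Q ↔ PlaneIn F Q := by
    intro Q
    constructor
    · rintro ⟨h3, h4⟩
      refine ⟨h3, fun w hw => ?_⟩
      have := h4 w hw
      rw [tri_self hF.1] at this
      simpa using this
    · rintro ⟨h3, h4⟩
      refine ⟨h3, fun w hw => ?_⟩
      rw [tri_self hF.1, h4 w hw]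
  have hno : ∀ A B : Submodule ℂ (Fin 6 → ℂ), IsPl (tri F) A → IsPl (tri F) B → A ⊓ B ≠ ⊥ := by
    intro A B hA hB e
    exact hd ⟨A, B, (hpl A).mp hA, (hpl B).mp hB, e⟩
  have G := gqP hS hV hno
  let a : {Q // IsPl (tri F) Q} := ⟨U, (hpl U).mpr hU⟩
  let b : {Q // IsPl (tri F) Q} := ⟨W, (hpl W).mpr hW⟩
  have hab : AdjP (tri F) a b := ⟨fun e => hne (congrArg Subtype.val e), h2⟩
  have key : ∀ S : Finset {Q // IsPl (tri F) Q}, (∀ w, w ∈ S) →
      {Q | PlaneIn F Q}.ncard = S.card := by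
    intro S hS'
    have e : {Q | PlaneIn F Q} = ((↑) : {Q // IsPl (tri F) Q} → _) '' (S : Set _) := by
      ext Q
      constructor
      · intro hQ
        exact ⟨⟨Q, (hpl Q).mpr hQ⟩, by simpa using hS' _, rfl⟩
      · rintro ⟨R, -, rfl⟩
        exact (hpl _).mp R.2
    rw [e, Set.ncard_image_of_injective _ Subtype.val_injective, Set.ncard_coe_finset]
  rcases G.main hab with ⟨p, hp, hodd⟩ | ⟨S, hS', hc⟩
  · left
    refine ⟨p.1, (hpl _).mp p.2, fun Q hQ hQp => ?_, fun hfin => ?_⟩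
    · exact (hp ⟨Q, (hpl Q).mpr hQ⟩ fun e => hQp (congrArg Subtype.val e)).2
    · have hf2 : Finite {Q // IsPl (tri F) Q} := by
        have : {Q | PlaneIn F Q} = {Q | IsPl (tri F) Q} := Set.ext fun Q => (hpl Q).symm
        rw [this] at hfin
        exact hfin
      have := Fintype.ofFinite {Q // IsPl (tri F) Q}
      rw [key Finset.univ fun w => Finset.mem_univ w]
      exact hodd _ fun w => Finset.mem_univ w
  · right
    rw [key S hS']
    exact hc

end Vale.Agent.P287.H674
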