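import Vale.Agent.P287.H674.Defs

/-!
The lattice spanned by the planes of a cubic fourfold.
-/

namespace Vale.Agent.P287.H674

open MvPolynomial

/-- Hassett's admissible discriminants. -/
def Admissible (d : ℤ) : Prop :=
  6 < d ∧ (6 ∣ d ∨ 6 ∣ d - 2) ∧ ¬ 4 ∣ d ∧ ¬ 9 ∣ d ∧
    ∀ p : ℕ, p.Prime → p ≠ 2 → p % 3 = 2 → ¬ (p : ℤ) ∣ d

/-- The intersection number of two planes of a smooth cubic fourfold, given by
three-dimensional subspaces `A`, `B`: it is `3` if the planes are equal, `-1` if they meet along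
a line, `1` if they meet in a point and `0` if they are disjoint. -/
noncomputable def planeInt (A B : Submodule ℂ (Fin 6 → ℂ)) : ℤ :=
  if Module.finrank ℂ (A ⊓ B : Submodule ℂ (Fin 6 → ℂ)) = 3 then 3
  else if Module.finrank ℂ (A ⊓ B : Submodule ℂ (Fin 6 → ℂ)) = 2 then -1
  else if Module.finrank ℂ (A ⊓ B : Submodule ℂ (Fin 6 → ℂ)) = 1 then 1
  else 0

/-- The self-intersection of the class `a h² + ∑ m i P i`, with `h²·h² = 3`, `h²·P = 1`. -/
noncomputable def selfInt {n : ℕ} (P : Fin n → Submodule ℂ (Fin 6 → ℂ)) (a : ℤ)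
    (m : Fin n → ℤ) : ℤ :=
  3 * a ^ 2 + 2 * a * ∑ i, m i + ∑ i, ∑ j, m i * m j * planeInt (P i) (P j)

/-- The intersection number of the class `a h² + ∑ m i P i` with `h²`. -/
def degInt {n : ℕ} (a : ℤ) (m : Fin n → ℤ) : ℤ := 3 * a + ∑ i, m i

/-- The discriminant of the lattice spanned by `h²` and `a h² + ∑ m i P i`. -/
noncomputable def discr {n : ℕ} (P : Fin n → Submodule ℂ (Fin 6 → ℂ)) (a : ℤ)
    (m : Fin n → ℤ) : ℤ :=
  3 * selfInt P a m - degInt a m ^ 2

theorem discr_eq {n : ℕ} (P : Fin n → Submodule ℂ (Fin 6 → ℂ)) (a : ℤ) (m : Fin n → ℤ) :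
    discr P a m = ∑ i, ∑ j, m i * m j * (3 * planeInt (P i) (P j) - 1) := by
  have e : (∑ i, m i) ^ 2 = ∑ i, ∑ j, m i * m j := by
    rw [sq, Finset.sum_mul_sum]
  have e2 : ∑ i, ∑ j, m i * m j * (3 * planeInt (P i) (P j) - 1)
      = 3 * ∑ i, ∑ j, m i * m j * planeInt (P i) (P j) - ∑ i, ∑ j, m i * m j := by
    rw [Finset.mul_sum, ← Finset.sum_sub_distrib]
    refine Finset.sum_congr rfl fun i _ => ?_
    rw [Finset.mul_sum, ← Finset.sum_sub_distrib]
    exact Finset.sum_congr rfl fun j _ => by ring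
  rw [e2, ← e]
  simp only [discr, selfInt, degInt]
  ring

/-- a symmetric double sum -/
theorem four_dvd {n : ℕ} (f : Fin n → Fin n → ℤ) (hs : ∀ i j, f i j = f j i)
    (hd : ∀ i, 4 ∣ f i i) (he : ∀ i j, 2 ∣ f i j) : 4 ∣ ∑ i, ∑ j, f i j := by
  induction n with
  | zero => simp
  | succ n ih =>
    have h1 : ∑ i, ∑ j, f i j = f 0 0 + 2 * ∑ j : Fin n, f 0 j.succ
        + ∑ i : Fin n, ∑ j : Fin n, f i.succ j.succ := by
      rw [Fin.sum_univ_succ, Fin.sum_univ_succ]
      simp_rw [Fin.sum_univ_succ (n := n) (f := fun j => f (Fin.succ _) j)]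
      rw [Finset.sum_add_distrib]
      have h2 : ∑ i : Fin n, f i.succ 0 = ∑ j : Fin n, f 0 j.succ :=
        Finset.sum_congr rfl fun i _ => hs _ _
      rw [h2]
      ring
    rw [h1]
    refine dvd_add (dvd_add (hd 0) ?_) (ih _ (fun i j => hs _ _) (fun i => hd _)
      (fun i j => he _ _))
    obtain ⟨c, hc⟩ := Finset.dvd_sum (s := Finset.univ) (f := fun j : Fin n => f 0 j.succ)
      (a := 2) fun j _ => he _ _
    exact ⟨c, by rw [hc]; ring⟩

theorem discr_four {n : ℕ} (P : Fin n → Submodule ℂ (Fin 6 → ℂ)) (a : ℤ) (m : Fin n → ℤ)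
    (h3 : ∀ i, Module.finrank ℂ (P i) = 3) (hno : ∀ i j, P i ⊓ P j ≠ ⊥) :
    4 ∣ discr P a m := by
  rw [discr_eq]
  have hval : ∀ i j, planeInt (P i) (P j) = 3 ∨ planeInt (P i) (P j) = -1 ∨
      planeInt (P i) (P j) = 1 := by
    intro i j
    have hle : Module.finrank ℂ (P i ⊓ P j : Submodule ℂ (Fin 6 → ℂ)) ≤ 3 := by
      rw [← h3 i]
      exact Submodule.finrank_mono inf_le_left
    have hne : Module.finrank ℂ (P i ⊓ P j : Submodule ℂ (Fin 6 → ℂ)) ≠ 0 := by
      intro h0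
      exact hno i j (Submodule.finrank_eq_zero.mp h0)
    unfold planeInt
    split_ifs with h1 h2 h4
    · exact Or.inl rfl
    · exact Or.inr (Or.inl rfl)
    · exact Or.inr (Or.inr rfl)
    · omega
  refine four_dvd _ (fun i j => ?_) (fun i => ?_) (fun i j => ?_)
  · have : planeInt (P i) (P j) = planeInt (P j) (P i) := by
      unfold planeInt
      rw [inf_comm]
    rw [this]
    ring
  · have : planeInt (P i) (P i) = 3 := by
      unfold planeInt
      rw [if_pos (by rw [inf_idem]; exact h3 i)]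
    rw [this]
    exact ⟨2 * (m i * m i), by ring⟩
  · rcases hval i j with e | e | e
    · rw [e]; exact ⟨4 * (m i * m j), by ring⟩
    · rw [e]; exact ⟨-2 * (m i * m j), by ring⟩
    · rw [e]; exact ⟨m i * m j, by ring⟩

/-- The planes of `V(F)` span a lattice in which some discriminant is not divisible by four
exactly when two of them are disjoint. -/
theorem twoDisjoint_of_discr {F : MvPolynomial (Fin 6) ℂ} {n : ℕ}
    {P : Fin n → Submodule ℂ (Fin 6 → ℂ)} {a : ℤ} {m : Fin n → ℤ} (hP : ∀ i, PlaneIn F (P i))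
    (h4 : ¬ 4 ∣ discr P a m) : TwoDisjointPlanes F := by
  by_contra hcon
  exact h4 (discr_four P a m (fun i => (hP i).1) fun i j e => hcon ⟨P i, P j, hP i, hP j, e⟩)

theorem discr_fourteen {F : MvPolynomial (Fin 6) ℂ} {A B : Submodule ℂ (Fin 6 → ℂ)}
    (hA : PlaneIn F A) (hB : PlaneIn F B) (hAB : A ⊓ B = ⊥) :
    discr ![A, B] 0 ![1, 1] = 14 := by
  have h1 : planeInt A A = 3 := by
    unfold planeInt; rw [if_pos (by rw [inf_idem]; exact hA.1)]
  have h2 : planeInt B B = 3 := by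
    unfold planeInt; rw [if_pos (by rw [inf_idem]; exact hB.1)]
  have h0 : Module.finrank ℂ (A ⊓ B : Submodule ℂ (Fin 6 → ℂ)) = 0 := by
    rw [hAB]; exact finrank_bot ℂ _
  have h0' : Module.finrank ℂ (B ⊓ A : Submodule ℂ (Fin 6 → ℂ)) = 0 := by
    rw [inf_comm]; exact h0
  have h3 : planeInt A B = 0 := by
    unfold planeInt
    rw [if_neg (by omega), if_neg (by omega), if_neg (by omega)]
  have h4 : planeInt B A = 0 := by
    unfold planeInt
    rw [if_neg (by omega), if_neg (by omega), if_neg (by omega)]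
  rw [discr_eq]
  simp [Fin.sum_univ_two, h1, h2, h3, h4]

theorem admissible_fourteen : Admissible 14 := by
  refine ⟨by norm_num, Or.inr ⟨2, by norm_num⟩, by decide, by decide, ?_⟩
  intro p hp h2 h3 hd
  have h14 : p ∣ 14 := by exact_mod_cast hd
  have hle : p ≤ 14 := Nat.le_of_dvd (by norm_num) h14
  interval_cases p <;> simp_all (decide := true)

end Vale.Agent.P287.H674
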