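import Mathlib

/-!
The inequality of Bezout for two relatively prime polynomials in two variables.
-/

namespace Vale.Agent.P287.H674

open MvPolynomial Module

theorem card_le_aux (m : ℕ) :
    2 * Nat.card {n : Fin 2 →₀ ℕ | (n.sum fun _ e => e) ≤ m} = (m + 1) * (m + 2) := by
  let φ : ℕ × ℕ → (Fin 2 →₀ ℕ) := fun p => Finsupp.equivFunOnFinite.symm ![p.1, p.2]
  have hφ : Function.Injective φ := by
    intro p q h
    have h0 := DFunLike.congr_fun h 0
    have h1 := DFunLike.congr_fun h 1
    simp [φ] at h0 h1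
    exact Prod.ext h0 h1
  let T : Finset (ℕ × ℕ) := (Finset.range (m + 1)).biUnion
    Finset.HasAntidiagonal.antidiagonal
  have hs : {n : Fin 2 →₀ ℕ | (n.sum fun _ e => e) ≤ m} = φ '' (T : Set (ℕ × ℕ)) := by
    ext n
    have hsum : (n.sum fun _ e => e) = n 0 + n 1 := by
      rw [Finsupp.sum_fintype _ _ (fun _ => rfl), Fin.sum_univ_two]
    constructor
    · intro h
      have h' : n 0 + n 1 ≤ m := by rw [← hsum]; exact h
      refine ⟨(n 0, n 1), ?_, ?_⟩
      · simp only [T, Finset.coe_biUnion, Set.mem_iUnion, Finset.mem_coe, Finset.mem_range,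
          Finset.HasAntidiagonal.mem_antidiagonal]
        exact ⟨n 0 + n 1, by omega, rfl⟩
      · ext i
        fin_cases i <;> simp [φ]
    · rintro ⟨p, hp, rfl⟩
      simp only [T, Finset.coe_biUnion, Set.mem_iUnion, Finset.mem_coe, Finset.mem_range,
        Finset.HasAntidiagonal.mem_antidiagonal] at hp
      obtain ⟨k, hk, e⟩ := hp
      show ((φ p).sum fun _ e => e) ≤ m
      have a0 : (φ p) 0 = p.1 := by simp [φ]
      have a1 : (φ p) 1 = p.2 := by simp [φ]
      rw [Finsupp.sum_fintype _ _ (fun _ => rfl), Fin.sum_univ_two, a0, a1]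
      omega
  have h1 : Nat.card {n : Fin 2 →₀ ℕ | (n.sum fun _ e => e) ≤ m} = T.card := by
    rw [hs, Nat.card_coe_set_eq, Set.ncard_image_of_injective _ hφ, Set.ncard_coe_finset]
  rw [h1, Finset.card_biUnion (by
    intro a _ b _ hab
    rw [Function.onFun, Finset.disjoint_left]
    intro x hx hx'
    rw [Finset.HasAntidiagonal.mem_antidiagonal] at hx hx'
    exact hab (by omega))]
  simp only [Finset.Nat.card_antidiagonal]
  have := Finset.sum_range_id_mul_two (m + 2)
  rw [Finset.sum_range_succ'] at this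
  simp only [add_zero] at this
  rw [mul_comm, this]
  simp [mul_comm]

theorem finrank_rtd (m : ℕ) :
    2 * Module.finrank ℂ (restrictTotalDegree (Fin 2) ℂ m) = (m + 1) * (m + 2) := by
  rw [← card_le_aux m]
  congr 1
  exact Module.finrank_eq_nat_card_basis (basisRestrictSupport ℂ _)

/-- separating points by polynomials -/
theorem exists_sep {N : ℕ} (p : Fin N → (Fin 2 → ℂ)) (hp : Function.Injective p) (i : Fin N) :
    ∃ f : MvPolynomial (Fin 2) ℂ, f.totalDegree ≤ N ∧ eval (p i) f ≠ 0 ∧
      ∀ j, j ≠ i → eval (p j) f = 0 := by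
  classical
  have h1 : ∀ j, j ≠ i → ∃ l : MvPolynomial (Fin 2) ℂ, l.totalDegree ≤ 1 ∧ eval (p i) l ≠ 0 ∧
      eval (p j) l = 0 := by
    intro j hj
    have hne : p i ≠ p j := fun h => hj (hp h).symm
    obtain ⟨k, hk⟩ := Function.ne_iff.mp hne
    refine ⟨X k - C (p j k), ?_, ?_, ?_⟩
    · refine (totalDegree_sub _ _).trans ?_
      simp
    · simpa [sub_eq_zero] using hk
    · simp
  choose! l hl using h1
  refine ⟨∏ j ∈ Finset.univ.erase i, l j, ?_, ?_, ?_⟩
  · refine (totalDegree_finsetProd _ _).trans ?_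
    refine (Finset.sum_le_sum fun j hj => (hl j (Finset.ne_of_mem_erase hj)).1).trans ?_
    rw [Finset.sum_const, smul_eq_mul, mul_one]
    refine (Finset.card_le_card (Finset.erase_subset _ _)).trans ?_
    simp
  · rw [map_prod]
    exact Finset.prod_ne_zero_iff.mpr fun j hj => (hl j (Finset.ne_of_mem_erase hj)).2.1
  · intro j hj
    rw [map_prod]
    exact Finset.prod_eq_zero (Finset.mem_erase.mpr ⟨hj, Finset.mem_univ j⟩) (hl j hj).2.2

/-- the inequality of Bezout -/
theorem bezout_aux {f g : MvPolynomial (Fin 2) ℂ} (hf : f ≠ 0) (hg : g ≠ 0)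
    (hfg : IsRelPrime f g) {N : ℕ} (p : Fin N → (Fin 2 → ℂ)) (hp : Function.Injective p)
    (h1 : ∀ i, eval (p i) f = 0) (h2 : ∀ i, eval (p i) g = 0) :
    N ≤ f.totalDegree * g.totalDegree := by
  set a := f.totalDegree with ha
  set b := g.totalDegree with hb
  let P : ℕ → Submodule ℂ (MvPolynomial (Fin 2) ℂ) := fun d => restrictTotalDegree (Fin 2) ℂ d
  have hP : ∀ d q, q ∈ P d ↔ q.totalDegree ≤ d := fun d q => mem_restrictTotalDegree _ _ _
  -- the map
  let Φ : (P (N + b) × P (N + a)) →ₗ[ℂ] P (N + a + b) :=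
    LinearMap.codRestrict (P (N + a + b))
      ((LinearMap.mulRight ℂ f) ∘ₗ (P (N + b)).subtype ∘ₗ LinearMap.fst ℂ _ _ +
        (LinearMap.mulRight ℂ g) ∘ₗ (P (N + a)).subtype ∘ₗ LinearMap.snd ℂ _ _) (by
      rintro ⟨u, v⟩
      rw [hP]
      simp only [LinearMap.add_apply, LinearMap.comp_apply, LinearMap.fst_apply,
        LinearMap.snd_apply, Submodule.subtype_apply, LinearMap.mulRight_apply]
      have hu := (hP _ _).mp u.2
      have hv := (hP _ _).mp v.2
      refine (totalDegree_add _ _).trans (max_le ?_ ?_)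
      · exact (totalDegree_mul _ _).trans (by omega)
      · exact (totalDegree_mul _ _).trans (by omega))
  have hΦ : ∀ u v, (Φ (u, v) : MvPolynomial (Fin 2) ℂ) = u * f + v * g := fun u v => rfl
  -- evaluation
  let Ev : P (N + a + b) →ₗ[ℂ] (Fin N → ℂ) :=
    LinearMap.pi fun i => (aeval (p i) : MvPolynomial (Fin 2) ℂ →ₐ[ℂ] ℂ).toLinearMap ∘ₗ
      (P (N + a + b)).subtype
  have hEv : ∀ q i, Ev q i = eval (p i) (q : MvPolynomial (Fin 2) ℂ) := by
    intro q i
    simp only [Ev, LinearMap.pi_apply, LinearMap.comp_apply, Submodule.subtype_apply,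
      AlgHom.toLinearMap_apply]
    rw [MvPolynomial.aeval_eq_eval]
  have hEvs : Function.Surjective Ev := by
    intro c
    choose s hs1 hs2 hs3 using exists_sep p hp
    refine ⟨⟨∑ i, (c i * (eval (p i) (s i))⁻¹) • s i, ?_⟩, ?_⟩
    · refine Submodule.sum_mem _ fun i _ => Submodule.smul_mem _ _ ?_
      rw [hP]
      exact (hs1 i).trans (by omega)
    · funext j
      rw [hEv]
      simp only [map_sum, smul_eval]
      rw [Finset.sum_eq_single j]
      · rw [mul_assoc, inv_mul_cancel₀ (hs2 j), mul_one]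
      · intro i _ hij
        rw [hs3 i j hij.symm, mul_zero]
      · intro h; exact absurd (Finset.mem_univ j) h
  have hle : LinearMap.range Φ ≤ LinearMap.ker Ev := by
    rintro _ ⟨⟨u, v⟩, rfl⟩
    rw [LinearMap.mem_ker]
    funext i
    rw [hEv, hΦ, map_add, map_mul, map_mul, h1 i, h2 i]
    simp
  -- the kernel
  let Ψ : P N →ₗ[ℂ] (P (N + b) × P (N + a)) :=
    LinearMap.prod
      (LinearMap.codRestrict (P (N + b)) ((LinearMap.mulRight ℂ g) ∘ₗ (P N).subtype) (by
        intro w
        have h := (hP _ _).mp w.2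
        rw [hP]
        simp only [LinearMap.comp_apply, Submodule.subtype_apply, LinearMap.mulRight_apply]
        exact (totalDegree_mul _ _).trans (by omega)))
      (LinearMap.codRestrict (P (N + a)) (-((LinearMap.mulRight ℂ f) ∘ₗ (P N).subtype)) (by
        intro w
        have h := (hP _ _).mp w.2
        rw [hP]
        simp only [LinearMap.neg_apply, totalDegree_neg, LinearMap.comp_apply,
          Submodule.subtype_apply, LinearMap.mulRight_apply]
        exact (totalDegree_mul _ _).trans (by omega)))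
  have hker : LinearMap.ker Φ ≤ LinearMap.range Ψ := by
    rintro ⟨u, v⟩ huv
    rw [LinearMap.mem_ker] at huv
    have e1 : (u : MvPolynomial (Fin 2) ℂ) * f + v * g = 0 := congrArg Subtype.val huv
    have hd : g ∣ (u : MvPolynomial (Fin 2) ℂ) := by
      apply hfg.symm.dvd_of_dvd_mul_right
      exact ⟨-v, by linear_combination e1⟩
    obtain ⟨w, hw⟩ := hd
    have e2 : (v : MvPolynomial (Fin 2) ℂ) = -(w * f) := by
      have : g * (v + w * f) = 0 := by rw [hw] at e1; linear_combination e1
      have := (mul_eq_zero.mp this).resolve_left hg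
      linear_combination this
    have hwd : w ∈ P N := by
      rw [hP]
      by_cases hw0 : w = 0
      · rw [hw0]; simp
      · have h3 := (hP _ _).mp u.2
        rw [hw, totalDegree_mul_of_isDomain hg hw0] at h3
        omega
    refine ⟨⟨w, hwd⟩, ?_⟩
    refine Prod.ext (Subtype.ext ?_) (Subtype.ext ?_)
    · show w * g = u
      rw [hw, mul_comm]
    · show -(w * f) = v
      rw [e2]
  have d1 := LinearMap.finrank_range_add_finrank_ker Φ
  have d2 := LinearMap.finrank_range_add_finrank_ker Ev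
  have d3 := Submodule.finrank_mono hle
  have d4 := Submodule.finrank_mono hker
  have d5 := LinearMap.finrank_range_le Ψ
  rw [LinearMap.range_eq_top.mpr hEvs, finrank_top, Module.finrank_fin_fun] at d2
  rw [Module.finrank_prod] at d1
  have c1 := finrank_rtd N
  have c2 := finrank_rtd (N + a)
  have c3 := finrank_rtd (N + b)
  have c4 := finrank_rtd (N + a + b)
  simp only [P] at d1 d2 d3 d4 d5
  zify at c1 c2 c3 c4 d1 d2 d3 d4 d5 ⊢
  nlinarith

/-- the inequality of Bezout -/
theorem bezout {f g : MvPolynomial (Fin 2) ℂ} (hfg : IsRelPrime f g) {a b : ℕ}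
    (ha : f.totalDegree ≤ a) (hb : g.totalDegree ≤ b) (Z : Finset (Fin 2 → ℂ))
    (h1 : ∀ z ∈ Z, eval z f = 0) (h2 : ∀ z ∈ Z, eval z g = 0) : Z.card ≤ a * b := by
  by_cases hZ : Z = ∅
  · rw [hZ]; simp
  obtain ⟨z, hz⟩ := Finset.nonempty_iff_ne_empty.mpr hZ
  have hf : f ≠ 0 := by
    rintro rfl
    have hu : IsUnit g := by
      have := hfg (dvd_zero g) dvd_rfl
      exact this
    have := hu.map (eval z)
    rw [h2 z hz] at this
    exact not_isUnit_zero this
  have hg : g ≠ 0 := by
    rintro rfl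
    have hu : IsUnit f := by
      have := hfg dvd_rfl (dvd_zero f)
      exact this
    have := hu.map (eval z)
    rw [h1 z hz] at this
    exact not_isUnit_zero this
  have := bezout_aux hf hg hfg (fun i => (Z.equivFin.symm i : Fin 2 → ℂ))
    (Subtype.val_injective.comp Z.equivFin.symm.injective)
    (fun i => h1 _ (Z.equivFin.symm i).2) (fun i => h2 _ (Z.equivFin.symm i).2)
  exact this.trans (Nat.mul_le_mul ha hb)

end Vale.Agent.P287.H674
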