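import Vale.Agent.P287.H674.Pn9
import Vale.Agent.P287.H674.Cnt

/-!
A star of planes has at most thirteen lines.
-/

namespace Vale.Agent.P287.H674

open MvPolynomial Matrix

variable {V : Type*} [AddCommGroup V] [Module ℂ V]
variable {T : V →ₗ[ℂ] V →ₗ[ℂ] V →ₗ[ℂ] ℂ} {W : Submodule ℂ V} {b c : Fin 3 → V}

/-- the complementary vectors of a frame are independent modulo the plane -/
theorem Fr.ind (hF : Fr W b c) (hV : Module.finrank ℂ V = 6) {s : Fin 3 → ℂ}
    (h : vec c s ∈ W) : s = 0 := by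
  have hfin : Module.Finite ℂ V := Module.finite_of_finrank_pos (by omega)
  have hli : LinearIndependent ℂ (Sum.elim b c) := by
    apply linearIndependent_of_top_le_span_of_card_eq_finrank
    · intro v _
      obtain ⟨r, t, rfl⟩ := hF.span v
      have hm : ∀ i, Sum.elim b c i ∈ Submodule.span ℂ (Set.range (Sum.elim b c)) := fun i =>
        Submodule.subset_span ⟨i, rfl⟩
      have hb : ∀ i, b i ∈ Submodule.span ℂ (Set.range (Sum.elim b c)) := fun i => hm (Sum.inl i)
      have hc : ∀ i, c i ∈ Submodule.span ℂ (Set.range (Sum.elim b c)) := fun i => hm (Sum.inr i)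
      refine Submodule.add_mem _ ?_ ?_
      · exact Submodule.add_mem _ (Submodule.add_mem _ (Submodule.smul_mem _ _ (hb 0))
          (Submodule.smul_mem _ _ (hb 1))) (Submodule.smul_mem _ _ (hb 2))
      · exact Submodule.add_mem _ (Submodule.add_mem _ (Submodule.smul_mem _ _ (hc 0))
          (Submodule.smul_mem _ _ (hc 1))) (Submodule.smul_mem _ _ (hc 2))
    · rw [hV]; simp
  obtain ⟨r, hr⟩ := hF.b3.span _ h
  rw [Fintype.linearIndependent_iff] at hli
  have h1 := hli (Sum.elim (-r) s) (by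
    rw [Fintype.sum_sum_type]
    simp only [Sum.elim_inl, Sum.elim_inr, Fin.sum_univ_three, Pi.neg_apply, neg_smul]
    have : vec c s = s 0 • c 0 + s 1 • c 1 + s 2 • c 2 := rfl
    rw [← this, hr, vec]
    abel)
  funext i
  exact h1 (Sum.inr i)

theorem four_le (hV : Module.finrank ℂ V = 6) {P : Submodule ℂ V}
    (hW : Module.finrank ℂ W = 3) (hP : Module.finrank ℂ P = 3) (hne : P ≠ W) :
    4 ≤ Module.finrank ℂ (W ⊔ P : Submodule ℂ V) := by
  have hfin : Module.Finite ℂ V := Module.finite_of_finrank_pos (by omega)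
  have : Module.finrank ℂ W < Module.finrank ℂ (W ⊔ P : Submodule ℂ V) := by
    apply Submodule.finrank_lt_finrank_of_lt
    refine lt_of_le_of_ne le_sup_left fun e => hne ?_
    apply Submodule.eq_of_le_of_finrank_eq
    · rw [e]; exact le_sup_right
    · rw [hW, hP]
  omega

theorem le_four (hV : Module.finrank ℂ V = 6) (hW : Module.finrank ℂ W = 3) (y : V) :
    Module.finrank ℂ (W ⊔ Submodule.span ℂ {y} : Submodule ℂ V) ≤ 4 := by
  have hfin : Module.Finite ℂ V := Module.finite_of_finrank_pos (by omega)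
  have h1 := Submodule.finrank_add_le_finrank_add_finrank W (Submodule.span ℂ {y})
  have h2 : Module.finrank ℂ (Submodule.span ℂ {y} : Submodule ℂ V) ≤ 1 := by
    by_cases hy : y = 0
    · rw [hy, Submodule.span_zero_singleton, finrank_bot]; omega
    · rw [finrank_span_singleton hy]
  omega

/-- different points of the chart give different three-spaces -/
theorem chart_inj (hF : Fr W b c) (hV : Module.finrank ℂ V = 6) {x x' : Fin 2 → ℂ}
    (h : yy c x' ∈ W ⊔ Submodule.span ℂ {yy c x}) : x = x' := by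
  obtain ⟨w, hw, v, hv, e⟩ := Submodule.mem_sup.mp h
  obtain ⟨t, rfl⟩ := Submodule.mem_span_singleton.mp hv
  have h1 : vec c ![1 - t, x' 0 - t * x 0, x' 1 - t * x 1] ∈ W := by
    have : vec c ![1 - t, x' 0 - t * x 0, x' 1 - t * x 1] = w := by
      have e' : w = yy c x' - t • yy c x := by rw [← e]; abel
      rw [e']
      simp only [vec, yy, Matrix.cons_val_zero, Matrix.cons_val_one, Matrix.cons_val]
      module
    rw [this]; exact hw
  have h2 := hF.ind hV h1
  have t0 := congrFun h2 0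
  have t1 := congrFun h2 1
  have t2 := congrFun h2 2
  simp only [Matrix.cons_val_zero, Matrix.cons_val_one, Matrix.cons_val, Pi.zero_apply] at t0 t1 t2
  have ht : t = 1 := by linear_combination -t0
  rw [ht] at t1 t2
  funext i
  fin_cases i
  · show x 0 = x' 0
    linear_combination -t1
  · show x 1 = x' 1
    linear_combination -t2

/-- a linear form vanishing on the plane but on none of finitely many other planes -/
theorem exists_form {ι : Type*} [Finite ι] (W : Submodule ℂ V) (P : ι → Submodule ℂ V)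
    (hP : ∀ i, ¬ P i ≤ W) :
    ∃ φ : V →ₗ[ℂ] ℂ, (∀ w ∈ W, φ w = 0) ∧ ∀ i, ∃ v ∈ P i, φ v ≠ 0 := by
  let Q : Submodule ℂ (Module.Dual ℂ V) := W.dualAnnihilator
  let K : ι → Submodule ℂ Q := fun i => ((P i).dualAnnihilator).comap Q.subtype
  obtain ⟨φ, hφ⟩ : ∃ φ : Q, ∀ i, φ ∉ K i := by
    by_contra hcon
    push Not at hcon
    have hcov : ⋃ i, (K i : Set Q) = Set.univ := by
      rw [Set.eq_univ_iff_forall]
      intro φ
      rw [Set.mem_iUnion]
      exact hcon φ
    obtain ⟨i, hi⟩ := Subspace.exists_eq_top_of_iUnion_eq_univ hcov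
    obtain ⟨v, hv, hvW⟩ := Set.not_subset.mp (hP i)
    obtain ⟨f, hf1, hf2⟩ := Submodule.exists_le_ker_of_notMem (p := W) hvW
    have hfQ : f ∈ Q := by
      rw [Submodule.mem_dualAnnihilator]
      exact fun w hw => hf2 hw
    have : (⟨f, hfQ⟩ : Q) ∈ K i := by rw [hi]; trivial
    rw [Submodule.mem_comap, Submodule.subtype_apply, Submodule.mem_dualAnnihilator] at this
    exact hf1 (this v hv)
  refine ⟨φ.1, fun w hw => ?_, fun i => ?_⟩
  · have := φ.2
    rw [Submodule.mem_dualAnnihilator] at this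
    exact this w hw
  · by_contra hcon
    push Not at hcon
    apply hφ i
    rw [Submodule.mem_comap, Submodule.subtype_apply, Submodule.mem_dualAnnihilator]
    exact hcon

/-- a star of planes has at most thirteen lines -/
theorem star_bound (hS : Sm T) (hV : Module.finrank ℂ V = 6)
    (hno : ∀ A B : Submodule ℂ V, IsPl T A → IsPl T B → A ⊓ B ≠ ⊥)
    (p : {W : Submodule ℂ V // IsPl T W}) (U : Finset {W : Submodule ℂ V // IsPl T W})
    (hp : ∀ u, u ≠ p → AdjP T p u) (hU1 : ∀ u ∈ U, u ≠ p)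
    (hU2 : ∀ u ∈ U, ∀ v ∈ U, u ≠ v → ¬ AdjP T u v) : U.card ≤ 13 := by
  classical
  have hfin : Module.Finite ℂ V := Module.finite_of_finrank_pos (by omega)
  have G := gqP hS hV hno
  by_cases hUe : U = ∅
  · rw [hUe]; simp
  obtain ⟨u0, hu0⟩ := Finset.nonempty_iff_ne_empty.mpr hUe
  set W : Submodule ℂ V := p.1 with hWd
  have hW : IsPl T W := p.2
  have hnle : ∀ u : {W : Submodule ℂ V // IsPl T W}, u ≠ p → ¬ u.1 ≤ W := by
    intro u hu hle
    exact hu (Subtype.ext (Submodule.eq_of_le_of_finrank_eq hle (by rw [u.2.1, hW.1])))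
  obtain ⟨φ, hφW, hφU⟩ := exists_form (ι := U) W (fun u => u.1.1) (fun u => hnle _ (hU1 _ u.2))
  -- the frame
  obtain ⟨b, hb⟩ := exists_IsB3 hW.1
  obtain ⟨C, hC⟩ := Submodule.exists_isCompl W
  have hC3 : Module.finrank ℂ C = 3 := by
    have := Submodule.finrank_add_eq_of_isCompl hC
    have := hW.1
    omega
  obtain ⟨s, hs, hφs⟩ : ∃ s ∈ C, φ s ≠ 0 := by
    obtain ⟨v, hv, hφv⟩ := hφU ⟨u0, hu0⟩
    have hv' : v ∈ W ⊔ C := by rw [hC.sup_eq_top]; trivial
    obtain ⟨w, hw, s, hs, rfl⟩ := Submodule.mem_sup.mp hv'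
    refine ⟨s, hs, ?_⟩
    rwa [map_add, hφW w hw, zero_add] at hφv
  have hK2 := finrank_inf_ker hC3 φ hs hφs
  obtain ⟨y, y', hy⟩ := exists_IsB2 hK2
  have hy0 : y ≠ 0 := by
    rintro rfl
    have := hy.ind 1 0 (by simp)
    exact one_ne_zero this.1
  obtain ⟨z, hz, hφz⟩ := exists_basis_ker hC3 φ hs hφs hy.ha.1 hy0 hy.ha.2
  have hφy : φ y = 0 := hy.ha.2
  set c : Fin 3 → V := ![(φ s)⁻¹ • s, y, z] with hc
  have hF : Fr W b c := by
    refine ⟨hb, fun v => ?_⟩
    obtain ⟨r, t, rfl⟩ := (Fr.of_compl hC hb hz).span v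
    refine ⟨r, ![t 2 * φ s, t 0, t 1], ?_⟩
    congr 1
    simp only [vec, hc, Matrix.cons_val_zero, Matrix.cons_val_one, Matrix.cons_val, smul_smul]
    rw [mul_assoc, mul_inv_cancel₀ hφs, mul_one]
    abel
  have hφc : ∀ t : Fin 3 → ℂ, φ (vec c t) = t 0 := by
    intro t
    simp only [vec, hc, Matrix.cons_val_zero, Matrix.cons_val_one, Matrix.cons_val, map_add,
      map_smul, hφy, hφz, smul_eq_mul, mul_zero, add_zero]
    rw [inv_mul_cancel₀ hφs, mul_one]
  -- the points
  have hpt : ∀ u ∈ U, ∃ x : Fin 2 → ℂ, yy c x ∈ W ⊔ u.1 := by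
    intro u hu
    obtain ⟨v, hv, hφv⟩ := hφU ⟨u, hu⟩
    obtain ⟨r, t, hrt⟩ := hF.span ((φ v)⁻¹ • v)
    have h1 : t 0 = 1 := by
      have := congrArg φ hrt
      rw [map_smul, smul_eq_mul, inv_mul_cancel₀ hφv, map_add, hφW _ (hb.vec_mem r), zero_add,
        hφc] at this
      exact this.symm
    refine ⟨![t 1, t 2], ?_⟩
    have h2 : yy c ![t 1, t 2] = -vec b r + (φ v)⁻¹ • v := by
      rw [hrt]
      simp only [yy, vec, h1, Matrix.cons_val_zero, Matrix.cons_val_one]
      module
    rw [h2]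
    exact Submodule.add_mem_sup (W.neg_mem (hb.vec_mem r)) (u.1.smul_mem _ hv)
  choose! x hx using hpt
  have hsup : ∀ u ∈ U, W ⊔ u.1 = W ⊔ Submodule.span ℂ {yy c (x u)} := by
    intro u hu
    have hle : W ⊔ Submodule.span ℂ {yy c (x u)} ≤ W ⊔ u.1 :=
      sup_le le_sup_left ((Submodule.span_singleton_le_iff_mem _ _).mpr (hx u hu))
    symm
    apply Submodule.eq_of_le_of_finrank_le hle
    have d1 := Submodule.finrank_sup_add_finrank_inf_eq W u.1
    have hadj := (hp u (hU1 u hu)).2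
    rw [hadj, hW.1, u.2.1] at d1
    have d2 : Module.finrank ℂ W <
        Module.finrank ℂ (W ⊔ Submodule.span ℂ {yy c (x u)} : Submodule ℂ V) := by
      apply Submodule.finrank_lt_finrank_of_lt
      refine lt_of_le_of_ne le_sup_left fun e => ?_
      have h3 : (1 : ℂ) • yy c (x u) ∈ W := by
        rw [e, one_smul]
        exact (le_sup_right : _ ≤ W ⊔ Submodule.span ℂ {yy c (x u)})
          (Submodule.mem_span_singleton_self _)
      exact one_ne_zero (yy_notMem hF hV _ _ h3)
    rw [hW.1] at d2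
    omega
  have hinj : Set.InjOn x (U : Set {W : Submodule ℂ V // IsPl T W}) := by
    intro u hu v hv huv
    by_contra hne
    have e : W ⊔ u.1 = W ⊔ v.1 := by rw [hsup u hu, hsup v hv, huv]
    have t := resP_spec hS hV (hp u (hU1 u hu))
    have hle : v.1 ≤ p.1 ⊔ u.1 := by rw [← hWd, e]; exact le_sup_right
    rcases t.mem hS hV v.2 hle with h | h | h
    · exact hU1 v hv (Subtype.ext h)
    · exact hne (Subtype.ext h).symm
    · apply hU2 u hu v hv hne
      have h' : v = resP T p u := Subtype.ext h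
      rw [h']
      exact G.res2 (hp u (hU1 u hu))
  rw [← Finset.card_image_of_injOn hinj]
  refine card_points hS hV hW hF (K := 20) ?_ (U.image x) ?_
  · intro Z hZ
    have hex : ∀ z ∈ Z, ∃ P : Submodule ℂ V, IsPl T P ∧ P ≠ W ∧
        P ≤ W ⊔ Submodule.span ℂ {yy c z} := fun z hz => plane_of_adj hS hV hW hF (hZ z hz)
    choose! P hP1 hP2 hP3 using hex
    have key : ∀ z ∈ Z, ∀ z' ∈ Z, z ≠ z' → ¬ P z' ≤ W ⊔ P z := by
      intro z hz z' hz' hne hle
      apply hne
      apply chart_inj hF hV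
      have h1 : W ⊔ P z' ≤ W ⊔ Submodule.span ℂ {yy c z} :=
        sup_le le_sup_left (hle.trans (sup_le le_sup_left (hP3 z hz)))
      have h2 : W ⊔ P z' ≤ W ⊔ Submodule.span ℂ {yy c z'} := sup_le le_sup_left (hP3 z' hz')
      have d1 := four_le hV hW.1 (hP1 z' hz').1 (hP2 z' hz')
      have e1 := Submodule.eq_of_le_of_finrank_le h1 ((le_four hV hW.1 _).trans d1)
      have e2 := Submodule.eq_of_le_of_finrank_le h2 ((le_four hV hW.1 _).trans d1)
      rw [← e1, e2]
      exact (le_sup_right : _ ≤ W ⊔ Submodule.span ℂ {yy c z'})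
        (Submodule.mem_span_singleton_self _)
    have := card_le_twenty hS hV (ι := Z) (fun z => P z.1) (fun z => hP1 z.1 z.2) (by
      intro z z' hzz
      have hne : z.1 ≠ z'.1 := fun e => hzz (Subtype.ext e)
      have hk := key z.1 z.2 z'.1 z'.2 hne
      refine finrank_inf_one (A := ⟨P z.1, hP1 z.1 z.2⟩) (B := ⟨P z'.1, hP1 z'.1 z'.2⟩) hV hno
        ?_ ?_
      · intro e
        apply hk
        have e' : P z.1 = P z'.1 := congrArg Subtype.val e
        rw [← e']
        exact le_sup_right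
      · intro hadj
        apply hk
        have ha : AdjP T p ⟨P z.1, hP1 z.1 z.2⟩ := hp _ fun e =>
          hP2 z.1 z.2 (congrArg Subtype.val e)
        have ha' : AdjP T p ⟨P z'.1, hP1 z'.1 z'.2⟩ := hp _ fun e =>
          hP2 z'.1 z'.2 (congrArg Subtype.val e)
        have e := G.tri ha (G.symm ha') (G.symm hadj)
        have t := (resP_spec hS hV ha).le3 hS hV
        rw [← e] at t
        exact t)
    simpa using this
  · intro z hz
    obtain ⟨u, hu, rfl⟩ := Finset.mem_image.mp hz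
    exact adj_of_plane hS hV hW hF u.2 (fun e => hU1 u hu (Subtype.ext e.symm))
      (hp u (hU1 u hu)).2 (hx u hu)

end Vale.Agent.P287.H674
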