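import Vale.Agent.P287.H674.Pn1

/-!
Common divisors of a polynomial and of a linear system of polynomials.
-/

namespace Vale.Agent.P287.H674

open MvPolynomial Module

/-- the general member of a linear system is prime to a given polynomial after removing the
common divisor -/
theorem exists_gcd {E : MvPolynomial (Fin 2) ℂ} (hE : E ≠ 0)
    (G : Fin 3 → MvPolynomial (Fin 2) ℂ) :
    ∃ (g E' : MvPolynomial (Fin 2) ℂ) (G' : Fin 3 → MvPolynomial (Fin 2) ℂ) (c : Fin 3 → ℂ),
      E = g * E' ∧ (∀ j, G j = g * G' j) ∧ IsRelPrime E' (∑ j, C (c j) * G' j) := by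
  classical
  -- a common divisor of maximal degree
  obtain ⟨g, ⟨hgE, hgG⟩, hmax⟩ : ∃ g : MvPolynomial (Fin 2) ℂ, (g ∣ E ∧ ∀ j, g ∣ G j) ∧
      ∀ g' : MvPolynomial (Fin 2) ℂ, g' ∣ E → (∀ j, g' ∣ G j) →
        g'.totalDegree ≤ g.totalDegree := by
    by_contra hcon
    push Not at hcon
    have key : ∀ n : ℕ, ∃ g : MvPolynomial (Fin 2) ℂ, (g ∣ E ∧ ∀ j, g ∣ G j) ∧
        n ≤ g.totalDegree := by
      intro n
      induction n with
      | zero => exact ⟨1, ⟨one_dvd _, fun j => one_dvd _⟩, Nat.zero_le _⟩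
      | succ n ih =>
        obtain ⟨g, hg, hn⟩ := ih
        obtain ⟨g', h1, h2, h3⟩ := hcon g hg
        exact ⟨g', ⟨h1, h2⟩, by omega⟩
    obtain ⟨g, ⟨⟨r, hr⟩, -⟩, hn⟩ := key (E.totalDegree + 1)
    have hg0 : g ≠ 0 := by rintro rfl; exact hE (by rw [hr, zero_mul])
    have hr0 : r ≠ 0 := by rintro rfl; exact hE (by rw [hr, mul_zero])
    have := totalDegree_mul_of_isDomain hg0 hr0
    rw [← hr] at this
    omega
  obtain ⟨E', hE'⟩ := hgE
  choose G' hG' using hgG
  have hg0 : g ≠ 0 := by rintro rfl; exact hE (by rw [hE', zero_mul])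
  have hE'0 : E' ≠ 0 := by rintro rfl; exact hE (by rw [hE', mul_zero])
  have hirr : ∀ π : MvPolynomial (Fin 2) ℂ, Irreducible π → π ∣ E' → ∃ j, ¬ π ∣ G' j := by
    intro π hπ hd
    by_contra hcon
    push Not at hcon
    have h1 := hmax (g * π) (by rw [hE']; exact mul_dvd_mul_left g hd)
      (fun j => by rw [hG' j]; exact mul_dvd_mul_left g (hcon j))
    rw [totalDegree_mul_of_isDomain hg0 hπ.ne_zero] at h1
    have h2 : π.totalDegree = 0 := by omega
    rw [totalDegree_eq_zero_iff_eq_C] at h2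
    apply hπ.not_isUnit
    rw [h2]
    apply IsUnit.map
    rw [isUnit_iff_ne_zero]
    intro h3
    rw [h3, C_0] at h2
    exact hπ.ne_zero h2
  -- the subspaces
  let F : Finset (MvPolynomial (Fin 2) ℂ) := (UniqueFactorizationMonoid.factors E').toFinset
  let K : F → Submodule ℂ (Fin 3 → ℂ) := fun π =>
    { carrier := {c | (π : MvPolynomial (Fin 2) ℂ) ∣ ∑ j, C (c j) * G' j}
      zero_mem' := by simp
      add_mem' := by
        intro c c' h h'
        have : ∑ j, C ((c + c') j) * G' j = ∑ j, C (c j) * G' j + ∑ j, C (c' j) * G' j := by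
          rw [← Finset.sum_add_distrib]
          refine Finset.sum_congr rfl fun j _ => ?_
          rw [Pi.add_apply, C_add, add_mul]
        show (π : MvPolynomial (Fin 2) ℂ) ∣ ∑ j, C ((c + c') j) * G' j
        rw [this]
        exact dvd_add h h'
      smul_mem' := by
        intro r c h
        have : ∑ j, C ((r • c) j) * G' j = C r * ∑ j, C (c j) * G' j := by
          rw [Finset.mul_sum]
          refine Finset.sum_congr rfl fun j _ => ?_
          rw [Pi.smul_apply, smul_eq_mul, C_mul, mul_assoc]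
        show (π : MvPolynomial (Fin 2) ℂ) ∣ ∑ j, C ((r • c) j) * G' j
        rw [this]
        exact Dvd.dvd.mul_left h _ }
  have hK : ∀ (π : F) (c : Fin 3 → ℂ), c ∈ K π ↔
      (π : MvPolynomial (Fin 2) ℂ) ∣ ∑ j, C (c j) * G' j := fun _ _ => Iff.rfl
  obtain ⟨c, hc⟩ : ∃ c, ∀ π : F, c ∉ K π := by
    by_contra hcon
    push Not at hcon
    have hcov : ⋃ π, (K π : Set (Fin 3 → ℂ)) = Set.univ := by
      rw [Set.eq_univ_iff_forall]
      intro c
      rw [Set.mem_iUnion]
      exact hcon c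
    obtain ⟨π, hπ⟩ := Subspace.exists_eq_top_of_iUnion_eq_univ hcov
    have hπF : (π : MvPolynomial (Fin 2) ℂ) ∈ UniqueFactorizationMonoid.factors E' :=
      Multiset.mem_toFinset.mp π.2
    obtain ⟨j, hj⟩ := hirr π (UniqueFactorizationMonoid.irreducible_of_factor _ hπF)
      (UniqueFactorizationMonoid.dvd_of_mem_factors hπF)
    apply hj
    have h1 : (Pi.single j 1 : Fin 3 → ℂ) ∈ K π := by rw [hπ]; trivial
    rw [hK] at h1
    have h2 : ∑ i, C ((Pi.single j 1 : Fin 3 → ℂ) i) * G' i = G' j := by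
      rw [Finset.sum_eq_single j]
      · simp
      · intro i _ hij
        simp [hij]
      · intro h; exact absurd (Finset.mem_univ j) h
    rwa [h2] at h1
  refine ⟨g, E', G', c, hE', hG', ?_⟩
  intro d hd1 hd2
  by_contra hdu
  have hd0 : d ≠ 0 := by
    rintro rfl
    exact hE'0 (zero_dvd_iff.mp hd1)
  obtain ⟨π', hπ', hπd⟩ := WfDvdMonoid.exists_irreducible_factor hdu hd0
  obtain ⟨π, hπF, hass⟩ := UniqueFactorizationMonoid.exists_mem_factors_of_dvd hE'0 hπ'
    (hπd.trans hd1)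
  exact hc ⟨π, Multiset.mem_toFinset.mpr hπF⟩ ((hK _ _).mpr
    (hass.symm.dvd.trans (hπd.trans hd2)))

end Vale.Agent.P287.H674
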