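import Mathlib

/-!
Matrices: the derivative of the determinant, and the adjugate of a symmetric matrix.
-/

namespace Vale.Agent.P287.H674

open Matrix

section der

variable {R : Type*} [CommRing R] [Algebra ℂ R]

theorem der_prod {ι : Type*} [DecidableEq ι] (δ : Derivation ℂ R R) (s : Finset ι) (f : ι → R) :
    δ (∏ i ∈ s, f i) = ∑ i ∈ s, δ (f i) * ∏ j ∈ s.erase i, f j := by
  induction s using Finset.induction_on with
  | empty => simp
  | insert a s ha ih =>
    rw [Finset.prod_insert ha, Derivation.leibniz, ih, Finset.sum_insert ha,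
      Finset.erase_insert ha, smul_eq_mul, smul_eq_mul, Finset.mul_sum, add_comm]
    congr 1
    · ring
    · refine Finset.sum_congr rfl fun i hi => ?_
      have hai : a ≠ i := fun h => ha (h ▸ hi)
      rw [Finset.erase_insert_of_ne hai, Finset.prod_insert (by
        intro h; exact ha (Finset.mem_of_mem_erase h))]
      ring

theorem der_det {n : Type*} [Fintype n] [DecidableEq n] (δ : Derivation ℂ R R)
    (M : Matrix n n R) : δ M.det = ∑ i, ∑ j, δ (M j i) * M.adjugate i j := by
  have h1 : ∀ i, (M.updateCol i (fun r => δ (M r i))).det = ∑ j, δ (M j i) * M.adjugate i j := by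
    intro i
    rw [← Matrix.cramer_apply, Matrix.cramer_eq_adjugate_mulVec]
    simp only [Matrix.mulVec, dotProduct]
    exact Finset.sum_congr rfl fun j _ => mul_comm _ _
  rw [← Finset.sum_congr rfl fun i _ => h1 i]
  simp only [Matrix.det_apply]
  rw [Finset.sum_comm, map_sum]
  refine Finset.sum_congr rfl fun σ _ => ?_
  rw [Units.smul_def, map_zsmul, der_prod, Finset.smul_sum]
  refine Finset.sum_congr rfl fun i _ => ?_
  rw [Units.smul_def, ← Finset.mul_prod_erase Finset.univ
    (fun j => (M.updateCol i (fun r => δ (M r i))) (σ j) j) (Finset.mem_univ i)]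
  congr 1
  rw [Matrix.updateCol_self]
  congr 1
  refine Finset.prod_congr rfl fun j hj => ?_
  rw [Matrix.updateCol_ne (Finset.ne_of_mem_erase hj)]

end der

variable {n : ℕ}

/-- two independent kernel vectors kill the adjugate -/
theorem adj_zero_of_two {M : Matrix (Fin n) (Fin n) ℂ} {z z' : Fin n → ℂ} (hz : M *ᵥ z = 0)
    (hz' : M *ᵥ z' = 0) (hind : ∀ s t : ℂ, s • z + t • z' = 0 → s = 0 ∧ t = 0) :
    M.adjugate = 0 := by
  ext i j
  rw [Matrix.adjugate_apply, Matrix.zero_apply]
  obtain ⟨w, hw0, hwi, hw⟩ : ∃ w : Fin n → ℂ, w ≠ 0 ∧ w i = 0 ∧ M *ᵥ w = 0 := by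
    by_cases h : z i = 0 ∧ z' i = 0
    · refine ⟨z, ?_, h.1, hz⟩
      intro h0
      have := hind 1 0 (by rw [h0]; simp)
      exact one_ne_zero this.1
    · refine ⟨z' i • z + (-z i) • z', ?_, ?_, ?_⟩
      · intro h0
        have := hind _ _ h0
        exact h ⟨by linear_combination -this.2, this.1⟩
      · simp only [Pi.add_apply, Pi.smul_apply, smul_eq_mul]; ring
      · rw [Matrix.mulVec_add, Matrix.mulVec_smul, Matrix.mulVec_smul, hz, hz']; simp
  apply Matrix.exists_mulVec_eq_zero_iff.mp
  refine ⟨w, hw0, ?_⟩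
  funext k
  by_cases hk : k = j
  · subst hk
    simp only [Matrix.mulVec, Matrix.updateRow_self, Pi.zero_apply]
    rw [single_one_dotProduct, hwi]
  · have := congrFun hw k
    simp only [Matrix.mulVec, Matrix.updateRow_ne hk] at this ⊢
    exact this

/-- the adjugate of a symmetric matrix of corank one -/
theorem adj_rank_one {M : Matrix (Fin n) (Fin n) ℂ} (hM : M.IsSymm) (hdet : M.det = 0)
    (hadj : M.adjugate ≠ 0) : ∃ (κ : Fin n → ℂ) (μ : ℂ), κ ≠ 0 ∧ μ ≠ 0 ∧ M *ᵥ κ = 0 ∧
      ∀ i j, M.adjugate i j = μ * κ i * κ j := by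
  have hsym : ∀ i j, M.adjugate i j = M.adjugate j i := by
    intro i j
    have := congrFun (congrFun (Matrix.adjugate_transpose M) j) i
    rw [hM.eq] at this
    exact this
  have hcol : ∀ j, M *ᵥ (fun i => M.adjugate i j) = 0 := by
    intro j
    funext k
    have := congrFun (congrFun (Matrix.mul_adjugate M) k) j
    rw [hdet, zero_smul] at this
    exact this
  obtain ⟨i1, j0, h10⟩ : ∃ i j, M.adjugate i j ≠ 0 := by
    by_contra hcon
    push Not at hcon
    exact hadj (by ext i j; exact hcon i j)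
  have hprop : ∀ j, ∃ c : ℂ, ∀ i, M.adjugate i j = c * M.adjugate i j0 := by
    intro j
    by_contra hcon
    apply hadj
    refine adj_zero_of_two (hcol j0) (hcol j) ?_
    intro s t hst
    have ht : t = 0 := by
      by_contra ht
      apply hcon
      refine ⟨-(s / t), fun i => ?_⟩
      have := congrFun hst i
      simp only [Pi.add_apply, Pi.smul_apply, smul_eq_mul, Pi.zero_apply] at this
      field_simp
      linear_combination this
    refine ⟨?_, ht⟩
    have := congrFun hst i1
    simp only [Pi.add_apply, Pi.smul_apply, smul_eq_mul, Pi.zero_apply, ht, zero_mul,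
      add_zero] at this
    exact (mul_eq_zero.mp this).resolve_right h10
  choose c hc using hprop
  refine ⟨fun i => M.adjugate i j0, c i1 / M.adjugate i1 j0, ?_, ?_, hcol j0, ?_⟩
  · intro h0
    exact h10 (congrFun h0 i1)
  · intro h0
    have h1 : c i1 = 0 := by
      rcases div_eq_zero_iff.mp h0 with h | h
      · exact h
      · exact absurd h h10
    have h2 : M.adjugate j0 i1 = 0 := by rw [hc i1 j0, h1, zero_mul]
    rw [hsym] at h2
    exact h10 h2
  · intro i j
    have h1 : c j * M.adjugate i1 j0 = c i1 * M.adjugate j j0 := by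
      rw [← hc j i1, ← hc i1 j, hsym]
    rw [hc j i]
    field_simp
    linear_combination M.adjugate i j0 * h1

/-- a symmetric matrix with vanishing adjugate has corank at least two -/
theorem two_of_adj_zero [NeZero n] {M : Matrix (Fin n) (Fin n) ℂ} (hM : M.IsSymm)
    (hadj : M.adjugate = 0) : ∃ z z' : Fin n → ℂ, M *ᵥ z = 0 ∧ M *ᵥ z' = 0 ∧
      ∀ s t : ℂ, s • z + t • z' = 0 → s = 0 ∧ t = 0 := by
  have hdet : M.det = 0 := by
    have h1 := Matrix.mul_adjugate M
    rw [hadj, mul_zero] at h1
    have h2 := congrFun (congrFun h1 0) 0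
    simpa using h2.symm
  obtain ⟨κ, hκ, hMκ⟩ := Matrix.exists_mulVec_eq_zero_iff.mpr hdet
  obtain ⟨i, hi⟩ : ∃ i, κ i ≠ 0 := by
    by_contra hcon
    push Not at hcon
    exact hκ (funext hcon)
  by_contra hcon
  push Not at hcon
  have hmul : ∀ z, M *ᵥ z = 0 → ∃ c : ℂ, z = c • κ := by
    intro z hz
    obtain ⟨s, t, hst, hne⟩ := hcon κ z hMκ hz
    have ht : t ≠ 0 := by
      intro ht
      have hs : s = 0 := by
        rw [ht, zero_smul, add_zero] at hst
        exact (smul_eq_zero.mp hst).resolve_right hκ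
      exact hne hs ht
    refine ⟨-(s / t), ?_⟩
    funext k
    have := congrFun hst k
    simp only [Pi.add_apply, Pi.smul_apply, smul_eq_mul, Pi.zero_apply] at this ⊢
    field_simp
    linear_combination this
  have h1 : M.adjugate i i = 0 := by rw [hadj]; rfl
  rw [Matrix.adjugate_apply] at h1
  obtain ⟨z, hz, hMz⟩ := Matrix.exists_mulVec_eq_zero_iff.mpr h1
  have hzi : z i = 0 := by
    have := congrFun hMz i
    simp only [Matrix.mulVec, Matrix.updateRow_self, Pi.zero_apply] at this
    rwa [single_one_dotProduct] at this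
  have hrow : ∀ k, k ≠ i → (M *ᵥ z) k = 0 := by
    intro k hk
    have := congrFun hMz k
    simp only [Matrix.mulVec, Matrix.updateRow_ne hk] at this ⊢
    exact this
  have hsum : ∑ k, κ k * (M *ᵥ z) k = 0 := by
    have : ∑ k, κ k * (M *ᵥ z) k = κ ⬝ᵥ (M *ᵥ z) := rfl
    rw [this, Matrix.dotProduct_mulVec, ← Matrix.mulVec_transpose, hM.eq, hMκ, zero_dotProduct]
  rw [Finset.sum_eq_single i (fun k _ hk => by rw [hrow k hk, mul_zero])
    (fun h => absurd (Finset.mem_univ i) h)] at hsum
  have hMz0 : M *ᵥ z = 0 := by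
    funext k
    by_cases hk : k = i
    · rw [hk]; exact (mul_eq_zero.mp hsum).resolve_left hi
    · exact hrow k hk
  obtain ⟨c, hc⟩ := hmul z hMz0
  apply hz
  have : c = 0 := by
    rw [hc] at hzi
    simp only [Pi.smul_apply, smul_eq_mul] at hzi
    exact (mul_eq_zero.mp hzi).resolve_right hi
  rw [hc, this, zero_smul]

end Vale.Agent.P287.H674
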