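import Vale.Agent.P287.H674.Res5
import Vale.Agent.P287.H674.Pn3

/-!
The net of quadric surfaces residual to a plane of a cubic fourfold, as matrices of polynomials in
two affine coordinates.
-/

namespace Vale.Agent.P287.H674

open MvPolynomial Matrix

variable {V : Type*} [AddCommGroup V] [Module ℂ V]

/-- the coordinates `1, x, y` -/
noncomputable def mm : Fin 3 → MvPolynomial (Fin 2) ℂ := ![1, X 0, X 1]

noncomputable def pl (c : Fin 3 → V) (φ : V →ₗ[ℂ] ℂ) : MvPolynomial (Fin 2) ℂ :=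
  ∑ k, C (φ (c k)) * mm k

noncomputable def pq (c : Fin 3 → V) (ψ : V →ₗ[ℂ] V →ₗ[ℂ] ℂ) : MvPolynomial (Fin 2) ℂ :=
  ∑ k, ∑ l, C (ψ (c k) (c l)) * (mm k * mm l)

noncomputable def pc (c : Fin 3 → V) (T : V →ₗ[ℂ] V →ₗ[ℂ] V →ₗ[ℂ] ℂ) :
    MvPolynomial (Fin 2) ℂ :=
  ∑ k, ∑ l, ∑ n, C (T (c k) (c l) (c n)) * (mm k * mm l * mm n)

/-- the point of the chart -/
def yy (c : Fin 3 → V) (x : Fin 2 → ℂ) : V := c 0 + x 0 • c 1 + x 1 • c 2

/-- the directions of the chart -/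
def dv (c : Fin 3 → V) : Fin 2 → V := ![c 1, c 2]

theorem eval_pl (c : Fin 3 → V) (φ : V →ₗ[ℂ] ℂ) (x : Fin 2 → ℂ) :
    eval x (pl c φ) = φ (yy c x) := by
  simp only [pl, mm, yy, Fin.sum_univ_three, map_add, map_mul, eval_C, eval_X, map_one,
    Matrix.cons_val_zero, Matrix.cons_val_one, Matrix.cons_val, map_smul, smul_eq_mul]
  ring

theorem eval_pq (c : Fin 3 → V) (ψ : V →ₗ[ℂ] V →ₗ[ℂ] ℂ) (x : Fin 2 → ℂ) :
    eval x (pq c ψ) = ψ (yy c x) (yy c x) := by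
  simp only [pq, mm, yy, Fin.sum_univ_three, map_add, map_mul, eval_C, eval_X, map_one,
    Matrix.cons_val_zero, Matrix.cons_val_one, Matrix.cons_val, map_smul, smul_eq_mul,
    LinearMap.add_apply, LinearMap.smul_apply]
  ring

theorem eval_pc (c : Fin 3 → V) (T : V →ₗ[ℂ] V →ₗ[ℂ] V →ₗ[ℂ] ℂ) (x : Fin 2 → ℂ) :
    eval x (pc c T) = T (yy c x) (yy c x) (yy c x) := by
  simp only [pc, mm, yy, Fin.sum_univ_three, map_add, map_mul, eval_C, eval_X, map_one,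
    Matrix.cons_val_zero, Matrix.cons_val_one, Matrix.cons_val, map_smul, smul_eq_mul,
    LinearMap.add_apply, LinearMap.smul_apply]
  ring

theorem der_mm (i : Fin 2) : (fun k => pderiv i (mm k)) =
    (![![0, 1, 0], ![0, 0, 1]] i : Fin 3 → MvPolynomial (Fin 2) ℂ) := by
  funext k
  fin_cases i <;> fin_cases k <;> simp [mm, pderiv_X]

theorem der_pl (c : Fin 3 → V) (φ : V →ₗ[ℂ] ℂ) (x : Fin 2 → ℂ) (i : Fin 2) :
    eval x (pderiv i (pl c φ)) = φ (dv c i) := by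
  have h : ∀ k, pderiv i (mm k) = (![![0, 1, 0], ![0, 0, 1]] i : Fin 3 → _) k :=
    fun k => congrFun (der_mm i) k
  simp only [pl, Fin.sum_univ_three, map_add, Derivation.leibniz, h, pderiv_C, smul_eq_mul,
    mul_zero, add_zero, map_mul, eval_C]
  fin_cases i <;> simp [dv]

theorem der_pq (c : Fin 3 → V) (ψ : V →ₗ[ℂ] V →ₗ[ℂ] ℂ) (x : Fin 2 → ℂ) (i : Fin 2) :
    eval x (pderiv i (pq c ψ)) = ψ (dv c i) (yy c x) + ψ (yy c x) (dv c i) := by
  have h : ∀ k, pderiv i (mm k) = (![![0, 1, 0], ![0, 0, 1]] i : Fin 3 → _) k :=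
    fun k => congrFun (der_mm i) k
  simp only [pq, Fin.sum_univ_three, map_add, Derivation.leibniz, h, pderiv_C, smul_eq_mul,
    mul_zero, add_zero, map_mul, eval_C]
  fin_cases i <;> simp [dv, mm, yy] <;> ring

theorem der_pc (c : Fin 3 → V) (T : V →ₗ[ℂ] V →ₗ[ℂ] V →ₗ[ℂ] ℂ) (x : Fin 2 → ℂ) (i : Fin 2) :
    eval x (pderiv i (pc c T)) = T (dv c i) (yy c x) (yy c x) + T (yy c x) (dv c i) (yy c x) +
      T (yy c x) (yy c x) (dv c i) := by
  have h : ∀ k, pderiv i (mm k) = (![![0, 1, 0], ![0, 0, 1]] i : Fin 3 → _) k :=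
    fun k => congrFun (der_mm i) k
  simp only [pc, Fin.sum_univ_three, map_add, Derivation.leibniz, h, pderiv_C, smul_eq_mul,
    mul_zero, add_zero, map_mul, eval_C]
  fin_cases i <;> simp [dv, mm, yy] <;> ring

/-- the basis vectors of the plane, and zero -/
def b4 (b : Fin 3 → V) : Fin 4 → V := ![b 0, b 1, b 2, 0]

def ep : Fin 4 → ℂ := ![0, 0, 0, 1]

/-- the matrix of the residual quadric -/
noncomputable def Mp (T : V →ₗ[ℂ] V →ₗ[ℂ] V →ₗ[ℂ] ℂ) (b c : Fin 3 → V) :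
    Matrix (Fin 4) (Fin 4) (MvPolynomial (Fin 2) ℂ) := Matrix.of fun i j =>
  pl c (T (b4 b i) (b4 b j)) + C (ep j) * pq c (T (b4 b i)) + C (ep i) * pq c (T (b4 b j)) +
    C (ep i * ep j * (4 / 3)) * pc c T

/-- the matrix of the conic cut out on the plane -/
noncomputable def Ap (T : V →ₗ[ℂ] V →ₗ[ℂ] V →ₗ[ℂ] ℂ) (b c : Fin 3 → V) :
    Matrix (Fin 3) (Fin 3) (MvPolynomial (Fin 2) ℂ) := Matrix.of fun i j =>
  pl c (T (b i) (b j))

theorem Ap_eq (T : V →ₗ[ℂ] V →ₗ[ℂ] V →ₗ[ℂ] ℂ) (b c : Fin 3 → V) :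
    (Mp T b c).adjugate 3 3 = (Ap T b c).det := by
  rw [Matrix.adjugate_fin_succ_eq_det_submatrix]
  have : (Mp T b c).submatrix (Fin.succAbove 3) (Fin.succAbove 3) = Ap T b c := by
    ext1 i j
    fin_cases i <;> fin_cases j <;> simp [Mp, Ap, b4, ep, Fin.succAbove, Fin.lt_def]
  rw [this]
  simp
  ring

/-- the numerical matrices -/
noncomputable def Mx (T : V →ₗ[ℂ] V →ₗ[ℂ] V →ₗ[ℂ] ℂ) (b : Fin 3 → V) (y : V) :
    Matrix (Fin 4) (Fin 4) ℂ := Matrix.of fun i j =>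
  T (b4 b i) (b4 b j) y + ep j * T (b4 b i) y y + ep i * T (b4 b j) y y +
    ep i * ep j * (4 / 3) * T y y y

noncomputable def Ax (T : V →ₗ[ℂ] V →ₗ[ℂ] V →ₗ[ℂ] ℂ) (b : Fin 3 → V) (y : V) :
    Matrix (Fin 3) (Fin 3) ℂ := Matrix.of fun i j => T (b i) (b j) y

variable {T : V →ₗ[ℂ] V →ₗ[ℂ] V →ₗ[ℂ] ℂ} {b c : Fin 3 → V}

theorem map_Mp (x : Fin 2 → ℂ) : (Mp T b c).map (eval x) = Mx T b (yy c x) := by
  ext i j
  simp only [Mp, Mx, Matrix.map_apply, Matrix.of_apply, map_add, map_mul, eval_C, eval_pl,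
    eval_pq, eval_pc]

theorem map_Ap (x : Fin 2 → ℂ) : (Ap T b c).map (eval x) = Ax T b (yy c x) := by
  ext i j
  simp only [Ap, Ax, Matrix.map_apply, Matrix.of_apply, eval_pl]

theorem eval_det {n : ℕ} (M : Matrix (Fin n) (Fin n) (MvPolynomial (Fin 2) ℂ))
    (x : Fin 2 → ℂ) : eval x M.det = (M.map (eval x)).det := by
  rw [RingHom.map_det]; rfl

theorem eval_adj {n : ℕ} (M : Matrix (Fin n) (Fin n) (MvPolynomial (Fin 2) ℂ))
    (x : Fin 2 → ℂ) (i j : Fin n) :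
    eval x (M.adjugate i j) = (M.map (eval x)).adjugate i j := by
  have := congrFun (congrFun (RingHom.map_adjugate (eval x) M) i) j
  exact this

theorem Mx_symm (hS : Sm T) (y : V) : (Mx T b y).IsSymm := by
  ext i j
  simp only [Mx, Matrix.transpose_apply, Matrix.of_apply]
  rw [hS.s1 (b4 b j) (b4 b i)]
  ring

theorem Ax_symm (hS : Sm T) (y : V) : (Ax T b y).IsSymm := by
  ext i j
  simp only [Ax, Matrix.transpose_apply, Matrix.of_apply]
  rw [hS.s1 (b j) (b i)]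

/-- the derivative of the determinant of `M` -/
theorem der_detM (x : Fin 2 → ℂ) (k : Fin 2) :
    eval x (pderiv k (Mp T b c).det) = ∑ i, ∑ j,
      (T (b4 b j) (b4 b i) (dv c k) +
        ep i * (T (b4 b j) (dv c k) (yy c x) + T (b4 b j) (yy c x) (dv c k)) +
        ep j * (T (b4 b i) (dv c k) (yy c x) + T (b4 b i) (yy c x) (dv c k)) +
        ep j * ep i * (4 / 3) * (T (dv c k) (yy c x) (yy c x) +
          T (yy c x) (dv c k) (yy c x) + T (yy c x) (yy c x) (dv c k))) *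
        (Mx T b (yy c x)).adjugate i j := by
  rw [der_det, map_sum]
  refine Finset.sum_congr rfl fun i _ => ?_
  rw [map_sum]
  refine Finset.sum_congr rfl fun j _ => ?_
  rw [map_mul, eval_adj, map_Mp]
  congr 1
  simp only [Mp, Matrix.of_apply, map_add, Derivation.leibniz, pderiv_C, smul_eq_mul, mul_zero,
    add_zero, map_mul, eval_C, der_pl, der_pq, der_pc]

theorem der_detA (x : Fin 2 → ℂ) (k : Fin 2) :
    eval x (pderiv k (Ap T b c).det) = ∑ i, ∑ j, T (b j) (b i) (dv c k) *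
        (Ax T b (yy c x)).adjugate i j := by
  rw [der_det, map_sum]
  refine Finset.sum_congr rfl fun i _ => ?_
  rw [map_sum]
  refine Finset.sum_congr rfl fun j _ => ?_
  rw [map_mul, eval_adj, map_Ap]
  congr 1
  simp only [Ap, Matrix.of_apply, der_pl]

end Vale.Agent.P287.H674
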