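import Vale.Agent.P287.H674.Pn4

/-!
Singular points of the discriminant curves.
-/

namespace Vale.Agent.P287.H674

open MvPolynomial Matrix

variable {V : Type*} [AddCommGroup V] [Module ℂ V]
variable {T : V →ₗ[ℂ] V →ₗ[ℂ] V →ₗ[ℂ] ℂ} {W : Submodule ℂ V} {b c : Fin 3 → V}

/-- the vector of the plane with given coordinates -/
def wv (b : Fin 3 → V) (z : Fin 4 → ℂ) : V := z 0 • b 0 + z 1 • b 1 + z 2 • b 2

theorem wv_mem (hb : ∀ i, b i ∈ W) (z : Fin 4 → ℂ) : wv b z ∈ W :=
  W.add_mem (W.add_mem (W.smul_mem _ (hb 0)) (W.smul_mem _ (hb 1))) (W.smul_mem _ (hb 2))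

theorem Mx_mulVec (hS : Sm T) (y : V) (z : Fin 4 → ℂ) (i : Fin 4) :
    (Mx T b y *ᵥ z) i = T (b4 b i) (wv b z) y + z 3 * T (b4 b i) y y +
      ep i * (T (wv b z) y y + 4 / 3 * z 3 * T y y y) := by
  simp only [Matrix.mulVec, dotProduct, Mx, Matrix.of_apply, Fin.sum_univ_four, b4, ep, wv,
    Matrix.cons_val_zero, Matrix.cons_val_one, Matrix.cons_val, map_add, map_smul,
    LinearMap.add_apply, LinearMap.smul_apply, smul_eq_mul, map_zero, LinearMap.zero_apply]
  ring

/-- a vector orthogonal to everything vanishes -/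
theorem Sm.eq_zero (hS : Sm T) {v : V} (h : ∀ w, T v v w = 0) : v = 0 := by
  by_contra hv
  obtain ⟨w, hw⟩ := hS.smooth v hv
  exact hw (h w)

theorem span_chart (hF : Fr W b c) (x : Fin 2 → ℂ) {f : V →ₗ[ℂ] ℂ} (hb : ∀ w ∈ W, f w = 0)
    (hy : f (yy c x) = 0) (h0 : f (dv c 0) = 0) (h1 : f (dv c 1) = 0) : ∀ w, f w = 0 := by
  intro w
  obtain ⟨r, s, rfl⟩ := hF.span w
  simp only [dv, Matrix.cons_val_zero, Matrix.cons_val_one] at h0 h1
  simp only [yy, map_add, map_smul, h0, h1, smul_zero, add_zero] at hy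
  rw [map_add, hb _ (hF.b3.vec_mem r), zero_add]
  simp only [vec, map_add, map_smul, hy, h0, h1, smul_zero, add_zero]

theorem yy_notMem (hF : Fr W b c) (hV : Module.finrank ℂ V = 6) (x : Fin 2 → ℂ) (t : ℂ)
    (h : t • yy c x ∈ W) : t = 0 := by
  obtain ⟨β⟩ := exists_frame_basis hV
  obtain ⟨r, hr⟩ := hF.b3.span _ h
  by_contra ht
  -- then the frame would be dependent
  have h1 := vol_change β (b := b) (e := c) (b' := b) (e' := ![t • yy c x, c 1, c 2])
    (fun j => Pi.single j 1) ![r, 0, 0] ![0, Pi.single 1 1, Pi.single 2 1]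
    (fun j => (vec_single b j).symm) (fun j => by
      fin_cases j
      · simp [hr, vec]
      · simp [vec]
      · simp [vec])
  have h2 := vol_change β (b := b) (e := c) (b' := b) (e' := ![t • yy c x, c 1, c 2])
    (fun j => Pi.single j 1) ![0, 0, 0] ![![t, t * x 0, t * x 1], Pi.single 1 1, Pi.single 2 1]
    (fun j => (vec_single b j).symm) (fun j => by
      fin_cases j
      · simp [vec, yy, smul_smul]
      · simp [vec]
      · simp [vec])
  rw [h1] at h2
  have h3 := hF.vol_ne β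
  have e1 : (mt (fun j => (Pi.single j 1 : Fin 3 → ℂ))).det = 1 := by
    simp [mt, Matrix.det_fin_three]
  have e2 : (mt (![0, Pi.single 1 1, Pi.single 2 1] : Fin 3 → Fin 3 → ℂ)).det = 0 := by
    simp [mt, Matrix.det_fin_three]
  have e3 : (mt (![![t, t * x 0, t * x 1], Pi.single 1 1, Pi.single 2 1] :
      Fin 3 → Fin 3 → ℂ)).det = t := by
    simp [mt, Matrix.det_fin_three]
  rw [e1, e2, e3] at h2
  have : t * vol β b c = 0 := by linear_combination -h2
  rcases mul_eq_zero.mp this with h4 | h4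
  · exact ht h4
  · exact h3 h4

/-- singular points of the sextic -/
theorem sing_D (hS : Sm T) (hV : Module.finrank ℂ V = 6) (hW : IsPl T W) (hF : Fr W b c)
    {x : Fin 2 → ℂ} (h0 : eval x (Mp T b c).det = 0)
    (h1 : ∀ k, eval x (pderiv k (Mp T b c).det) = 0) : (Mx T b (yy c x)).adjugate = 0 := by
  by_contra hadj
  set y := yy c x with hy
  rw [eval_det, map_Mp] at h0
  obtain ⟨κ, μ, hκ, hμ, hker, hA⟩ := adj_rank_one (Mx_symm hS y) h0 hadj
  set v : V := wv b κ + (2 * κ 3) • y with hv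
  have hwW : wv b κ ∈ W := wv_mem hF.b3.mem κ
  have hk := fun i => (Mx_mulVec (b := b) hS y κ i).symm.trans (congrFun hker i)
  have k3 := hk 3
  simp only [b4, ep, Matrix.cons_val, map_zero, LinearMap.zero_apply, mul_zero, zero_add,
    one_mul, Pi.zero_apply] at k3
  have kb : ∀ w ∈ W, T w (wv b κ) y + κ 3 * T w y y = 0 := by
    intro w hw
    obtain ⟨r, rfl⟩ := hF.b3.span w hw
    have k0 := hk 0
    have k1 := hk 1
    have k2 := hk 2
    simp only [b4, ep, Matrix.cons_val_zero, Matrix.cons_val_one, Matrix.cons_val, zero_mul,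
      add_zero, Pi.zero_apply] at k0 k1 k2
    simp only [vec, map_add, map_smul, LinearMap.add_apply, LinearMap.smul_apply, smul_eq_mul]
    linear_combination r 0 * k0 + r 1 * k1 + r 2 * k2
  have hvv : ∀ u, T v v u = T (wv b κ) (wv b κ) u + 4 * κ 3 * T (wv b κ) y u +
      4 * κ 3 ^ 2 * T y y u := by
    intro u
    simp only [hv, map_add, map_smul, LinearMap.add_apply, LinearMap.smul_apply, smul_eq_mul]
    rw [hS.s1 y (wv b κ)]
    ring
  have hW0 : ∀ w ∈ W, T v v w = 0 := by
    intro w hw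
    rw [hvv, tri_zero_of_self hS.s1 hS.s2 hW.2 hwW hwW hw]
    have := kb w hw
    rw [hS.s1 w, hS.s2 (wv b κ) w y, hS.s2 w y y, hS.s1 w y, hS.s2 y w y] at this
    linear_combination 4 * κ 3 * this
  have hy0 : T v v y = 0 := by
    rw [hvv]
    have := kb _ hwW
    linear_combination this + 3 * κ 3 * k3
  have hdir : ∀ k, T v v (dv c k) = 0 := by
    intro k
    have h2 := h1 k
    rw [der_detM] at h2
    simp only [← hy, hA, Fin.sum_univ_four, b4, ep, Matrix.cons_val_zero, Matrix.cons_val_one,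
      Matrix.cons_val, map_zero, LinearMap.zero_apply] at h2
    rw [hvv]
    have h3 : μ * (T (wv b κ) (wv b κ) (dv c k) + 4 * κ 3 * T (wv b κ) y (dv c k) +
        4 * κ 3 ^ 2 * T y y (dv c k)) = 0 := by
      rw [← h2]
      simp only [wv, map_add, map_smul, LinearMap.add_apply, LinearMap.smul_apply, smul_eq_mul]
      have s1 : ∀ a, T a (dv c k) y = T a y (dv c k) := fun a => hS.s2 _ _ _
      have s2 : T (dv c k) y y = T y y (dv c k) := by rw [hS.s1, hS.s2]
      simp only [s1, s2]
      ring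
    exact (mul_eq_zero.mp h3).resolve_left hμ
  have hv0 : v = 0 := hS.eq_zero (span_chart hF x hW0 (by rw [← hy]; exact hy0) (hdir 0) (hdir 1))
  have h3 : κ 3 = 0 := by
    have h4 : (2 * κ 3) • yy c x ∈ W := by
      have : (2 * κ 3) • yy c x = - wv b κ := by
        rw [← hy]
        exact (neg_eq_of_add_eq_zero_right hv0).symm
      rw [this]
      exact W.neg_mem hwW
    have := yy_notMem hF hV x _ h4
    simpa using this
  have h5 : wv b κ = 0 := by
    rw [hv, h3] at hv0
    simpa using hv0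
  have h6 := hF.b3.ind ![κ 0, κ 1, κ 2] (by simpa [vec, wv] using h5)
  apply hκ
  funext i
  fin_cases i
  · simpa using congrFun h6 0
  · simpa using congrFun h6 1
  · simpa using congrFun h6 2
  · exact h3

/-- singular points of the cubic -/
theorem sing_E (hS : Sm T) (hW : IsPl T W) (hF : Fr W b c)
    {x : Fin 2 → ℂ} (h0 : eval x (Ap T b c).det = 0)
    (h1 : ∀ k, eval x (pderiv k (Ap T b c).det) = 0) : (Ax T b (yy c x)).adjugate = 0 := by
  by_contra hadj
  set y := yy c x with hy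
  rw [eval_det, map_Ap] at h0
  obtain ⟨κ, μ, hκ, hμ, hker, hA⟩ := adj_rank_one (Ax_symm hS y) h0 hadj
  have hwW : vec b κ ∈ W := hF.b3.vec_mem κ
  have hk : ∀ i, T (b i) (vec b κ) y = 0 := by
    intro i
    have := congrFun hker i
    simp only [Matrix.mulVec, dotProduct, Ax, Matrix.of_apply, Fin.sum_univ_three,
      Pi.zero_apply] at this
    simp only [vec, map_add, map_smul, LinearMap.add_apply, LinearMap.smul_apply, smul_eq_mul]
    linear_combination this
  have hy0 : T (vec b κ) (vec b κ) y = 0 := by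
    have : T (vec b κ) (vec b κ) y = κ 0 * T (b 0) (vec b κ) y + κ 1 * T (b 1) (vec b κ) y +
        κ 2 * T (b 2) (vec b κ) y := by
      simp only [map_add, map_smul, LinearMap.add_apply, LinearMap.smul_apply, smul_eq_mul, vec]
      rw [hS.s1 (b 1) (b 0), hS.s1 (b 2) (b 0), hS.s1 (b 2) (b 1)]
    rw [this, hk, hk, hk]; ring
  have hdir : ∀ k, T (vec b κ) (vec b κ) (dv c k) = 0 := by
    intro k
    have h2 := h1 k
    rw [der_detA] at h2
    simp only [← hy, hA, Fin.sum_univ_three] at h2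
    have h3 : μ * T (vec b κ) (vec b κ) (dv c k) = 0 := by
      rw [← h2]
      simp only [vec, map_add, map_smul, LinearMap.add_apply, LinearMap.smul_apply, smul_eq_mul]
      ring
    exact (mul_eq_zero.mp h3).resolve_left hμ
  have hv0 : vec b κ = 0 := hS.eq_zero (span_chart hF x
    (fun w hw => tri_zero_of_self hS.s1 hS.s2 hW.2 hwW hwW hw) (by rw [← hy]; exact hy0)
    (hdir 0) (hdir 1))
  exact hκ (hF.b3.ind κ hv0)

end Vale.Agent.P287.H674
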