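import Vale.Agent.P287.H674.Pn5

/-!
There are at most three double lines in the net of conics.
-/

namespace Vale.Agent.P287.H674

open MvPolynomial Matrix

variable {V : Type*} [AddCommGroup V] [Module ℂ V]
variable {T : V →ₗ[ℂ] V →ₗ[ℂ] V →ₗ[ℂ] ℂ} {W : Submodule ℂ V} {b c : Fin 3 → V}

/-- a form of rank at most one -/
theorem rank_one (hS : Sm T) (hF : Fr W b c) {y : V} (h : (Ax T b y).adjugate = 0) {u v : V}
    (hu : u ∈ W) (hv : v ∈ W) : T u u y * T v v y = T u v y ^ 2 := by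
  obtain ⟨r, rfl⟩ := hF.b3.span u hu
  obtain ⟨s, rfl⟩ := hF.b3.span v hv
  rw [Matrix.adjugate_fin_three] at h
  have h00 := congrFun (congrFun h 0) 0
  have h01 := congrFun (congrFun h 0) 1
  have h02 := congrFun (congrFun h 0) 2
  have h11 := congrFun (congrFun h 1) 1
  have h12 := congrFun (congrFun h 1) 2
  have h22 := congrFun (congrFun h 2) 2
  simp only [Ax, Matrix.of_apply, Matrix.cons_val_zero, Matrix.cons_val_one, Matrix.cons_val,
    Matrix.zero_apply, Matrix.cons_val', hS.s1 (b 1) (b 0), hS.s1 (b 2) (b 0),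
    hS.s1 (b 2) (b 1)] at h00 h01 h02 h11 h12 h22
  simp only [vec, map_add, map_smul, LinearMap.add_apply, LinearMap.smul_apply, smul_eq_mul,
    hS.s1 (b 1) (b 0), hS.s1 (b 2) (b 0), hS.s1 (b 2) (b 1)]
  linear_combination (r 1 * s 2 - r 2 * s 1) ^ 2 * h00 +
    2 * (r 1 * s 2 - r 2 * s 1) * (r 2 * s 0 - r 0 * s 2) * h01 +
    2 * (r 1 * s 2 - r 2 * s 1) * (r 0 * s 1 - r 1 * s 0) * h02 +
    (r 2 * s 0 - r 0 * s 2) ^ 2 * h11 +
    2 * (r 2 * s 0 - r 0 * s 2) * (r 0 * s 1 - r 1 * s 0) * h12 +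
    (r 0 * s 1 - r 1 * s 0) ^ 2 * h22

theorem rank_one_ker (hS : Sm T) (hF : Fr W b c) {y : V} (h : (Ax T b y).adjugate = 0) {u v : V}
    (hu : u ∈ W) (hv : v ∈ W) (h0 : T u u y = 0) : T u v y = 0 := by
  have := rank_one hS hF h hu hv
  rw [h0, zero_mul] at this
  exact pow_eq_zero_iff (two_ne_zero) |>.mp this.symm

/-- the net has no base points -/
theorem no_base (hS : Sm T) (hW : IsPl T W) (hF : Fr W b c) {u : V} (hu : u ∈ W)
    (h0 : T u u (c 0) = 0) (h1 : T u u (c 1) = 0) (h2 : T u u (c 2) = 0) : u = 0 := by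
  apply hS.eq_zero
  intro w
  obtain ⟨r, s, rfl⟩ := hF.span w
  rw [map_add, tri_zero_of_self hS.s1 hS.s2 hW.2 hu hu (hF.b3.vec_mem r)]
  simp [vec, h0, h1, h2]

theorem T_yy (u v : V) (x : Fin 2 → ℂ) :
    T u v (yy c x) = T u v (c 0) + x 0 * T u v (c 1) + x 1 * T u v (c 2) := by
  simp [yy]

/-- complementary direction -/
theorem exists_dirP (hS : Sm T) (hW : IsPl T W) (hF : Fr W b c) {x1 x2 : Fin 2 → ℂ}
    (hne : x1 ≠ x2) : ∃ y' : V, ∀ u ∈ W, T u u (yy c x1) = 0 → T u u (yy c x2) = 0 →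
      T u u y' = 0 → u = 0 := by
  by_cases h : x1 0 = x2 0
  · have h' : x1 1 ≠ x2 1 := fun h1 => hne (by funext i; fin_cases i; exacts [h, h1])
    refine ⟨c 1, fun u hu k1 k2 k3 => ?_⟩
    rw [T_yy] at k1 k2
    have k4 : T u u (c 2) = 0 := by
      have : (x1 1 - x2 1) * T u u (c 2) = 0 := by
        rw [h] at k1; linear_combination k1 - k2
      exact (mul_eq_zero.mp this).resolve_left (sub_ne_zero.mpr h')
    refine no_base hS hW hF hu ?_ k3 k4
    linear_combination k1 - x1 0 * k3 - x1 1 * k4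
  · refine ⟨c 2, fun u hu k1 k2 k3 => ?_⟩
    rw [T_yy] at k1 k2
    have k4 : T u u (c 1) = 0 := by
      have : (x1 0 - x2 0) * T u u (c 1) = 0 := by
        linear_combination k1 - k2 - (x1 1 - x2 1) * k3
      exact (mul_eq_zero.mp this).resolve_left (sub_ne_zero.mpr h)
    refine no_base hS hW hF hu ?_ k4 k3
    linear_combination k1 - x1 0 * k4 - x1 1 * k3

theorem exists_ind (hS : Sm T) (hW : IsPl T W) (hF : Fr W b c) {x1 x2 : Fin 2 → ℂ}
    (hne : x1 ≠ x2) : ∃ u ∈ W, T u u (yy c x1) ≠ 0 ∧ T u u (yy c x2) = 0 := by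
  obtain ⟨y', hy'⟩ := exists_dirP hS hW hF hne
  obtain ⟨u, hu, hu0, k1, k2⟩ := common_zero hW.1 (T (yy c x2)) (T y') (fun _ _ => hS.s2 _ _ _)
    (fun _ _ => hS.s2 _ _ _)
  have k1' : T u u (yy c x2) = 0 := by rw [hS.s2, hS.s1]; exact k1
  have k2' : T u u y' = 0 := by rw [hS.s2, hS.s1]; exact k2
  exact ⟨u, hu, fun h => hu0 (hy' u hu h k1' k2'), k1'⟩

/-- no third double line on the line through two of them -/
theorem lineA (hS : Sm T) (hW : IsPl T W) (hF : Fr W b c) {x1 x2 x3 : Fin 2 → ℂ}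
    (hne : x1 ≠ x2) (h1 : (Ax T b (yy c x1)).adjugate = 0)
    (h2 : (Ax T b (yy c x2)).adjugate = 0) (h3 : (Ax T b (yy c x3)).adjugate = 0) {p q : ℂ}
    (hp : p ≠ 0) (hq : q ≠ 0) (hpq : p + q = 1) (hx : ∀ i, x3 i = p * x1 i + q * x2 i) :
    False := by
  obtain ⟨u1, m1, k1, k2⟩ := exists_ind hS hW hF hne
  obtain ⟨u2, m2, k3, k4⟩ := exists_ind hS hW hF hne.symm
  have hlin : ∀ u v : V, T u v (yy c x3) = p * T u v (yy c x1) + q * T u v (yy c x2) := by
    intro u v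
    rw [T_yy, T_yy, T_yy, hx 0, hx 1]
    linear_combination -(T u v (c 0)) * hpq
  have e := rank_one hS hF h3 m1 m2
  rw [hlin, hlin, hlin, k2, k4, rank_one_ker hS hF h2 m1 m2 k2] at e
  have k5 : T u1 u2 (yy c x1) = 0 := by
    rw [hS.s1]; exact rank_one_ker hS hF h1 m2 m1 k4
  rw [k5] at e
  have : p * T u1 u1 (yy c x1) * (q * T u2 u2 (yy c x2)) = 0 := by linear_combination e
  rcases mul_eq_zero.mp this with h | h
  · rcases mul_eq_zero.mp h with h' | h'
    · exact hp h'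
    · exact k1 h'
  · rcases mul_eq_zero.mp h with h' | h'
    · exact hq h'
    · exact k3 h'

/-- collinear points -/
theorem lineA' (hS : Sm T) (hW : IsPl T W) (hF : Fr W b c) {x1 x2 x3 : Fin 2 → ℂ}
    (h12 : x1 ≠ x2) (h13 : x1 ≠ x3) (h23 : x2 ≠ x3) (h1 : (Ax T b (yy c x1)).adjugate = 0)
    (h2 : (Ax T b (yy c x2)).adjugate = 0) (h3 : (Ax T b (yy c x3)).adjugate = 0)
    (hδ : (x2 0 - x1 0) * (x3 1 - x1 1) - (x2 1 - x1 1) * (x3 0 - x1 0) = 0) : False := by
  obtain ⟨q, hq⟩ : ∃ q : ℂ, ∀ i, x3 i = (1 - q) * x1 i + q * x2 i := by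
    by_cases h : x2 0 = x1 0
    · have h' : x2 1 - x1 1 ≠ 0 := by
        intro h4
        apply h12
        funext i
        fin_cases i
        · exact h.symm
        · exact (sub_eq_zero.mp h4).symm
      have h5 : x3 0 = x1 0 := by
        rw [h, sub_self, zero_mul, zero_sub, neg_eq_zero] at hδ
        exact sub_eq_zero.mp ((mul_eq_zero.mp hδ).resolve_left h')
      refine ⟨(x3 1 - x1 1) / (x2 1 - x1 1), fun i => ?_⟩
      fin_cases i
      · simp only [Fin.zero_eta, h5, h]; ring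
      · simp only [Fin.mk_one]; field_simp; ring
    · have h' : x2 0 - x1 0 ≠ 0 := sub_ne_zero.mpr h
      refine ⟨(x3 0 - x1 0) / (x2 0 - x1 0), fun i => ?_⟩
      fin_cases i
      · simp only [Fin.zero_eta]; field_simp; ring
      · simp only [Fin.mk_one]; field_simp
        linear_combination hδ
  have hq0 : q ≠ 0 := by
    rintro rfl
    exact h13 (funext fun i => by rw [hq i]; ring)
  have hq1 : 1 - q ≠ 0 := by
    intro h
    have : q = 1 := by linear_combination -h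
    exact h23 (funext fun i => by rw [hq i, this]; ring)
  exact lineA hS hW hF h12 h1 h2 h3 hq1 hq0 (by ring) hq

/-- at most three double lines -/
theorem card_rank_one (hS : Sm T) (hW : IsPl T W) (hF : Fr W b c) (Z : Finset (Fin 2 → ℂ))
    (hZ : ∀ x ∈ Z, (Ax T b (yy c x)).adjugate = 0) : Z.card ≤ 3 := by
  by_contra hcon
  push Not at hcon
  obtain ⟨Z', hZ', hcard⟩ := Finset.exists_subset_card_eq (s := Z) (n := 4) (by omega)
  have hx := Z'.equivFin.symm
  rw [hcard] at hx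
  let x : Fin 4 → (Fin 2 → ℂ) := fun i => (hx i : Fin 2 → ℂ)
  have hinj : Function.Injective x := Subtype.val_injective.comp hx.injective
  have h : ∀ i, (Ax T b (yy c (x i))).adjugate = 0 := fun i => hZ _ (hZ' (hx i).2)
  have hne : ∀ i j, i ≠ j → x i ≠ x j := fun i j hij e => hij (hinj e)
  clear_value x
  by_cases hδ : (x 1 0 - x 0 0) * (x 2 1 - x 0 1) - (x 1 1 - x 0 1) * (x 2 0 - x 0 0) = 0
  · exact lineA' hS hW hF (hne 0 1 (by decide)) (hne 0 2 (by decide)) (hne 1 2 (by decide))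
      (h 0) (h 1) (h 2) hδ
  -- barycentric coordinates
  set δ := (x 1 0 - x 0 0) * (x 2 1 - x 0 1) - (x 1 1 - x 0 1) * (x 2 0 - x 0 0) with hδd
  obtain ⟨q, hq⟩ : ∃ q : ℂ, q * δ = (x 3 0 - x 0 0) * (x 2 1 - x 0 1) -
      (x 3 1 - x 0 1) * (x 2 0 - x 0 0) := ⟨_ / δ, div_mul_cancel₀ _ hδ⟩
  obtain ⟨r, hr⟩ : ∃ r : ℂ, r * δ = (x 1 0 - x 0 0) * (x 3 1 - x 0 1) -
      (x 1 1 - x 0 1) * (x 3 0 - x 0 0) := ⟨_ / δ, div_mul_cancel₀ _ hδ⟩
  have hbar : ∀ i, x 3 i = (1 - q - r) * x 0 i + q * x 1 i + r * x 2 i := by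
    intro i
    have : δ * (x 3 i - ((1 - q - r) * x 0 i + q * x 1 i + r * x 2 i)) = 0 := by
      fin_cases i
      · simp only [Fin.zero_eta]
        linear_combination (x 0 0 - x 1 0) * hq + (x 0 0 - x 2 0) * hr
      · simp only [Fin.mk_one]
        linear_combination (x 0 1 - x 1 1) * hq + (x 0 1 - x 2 1) * hr
    exact sub_eq_zero.mp ((mul_eq_zero.mp this).resolve_left hδ)
  have hr0 : r ≠ 0 := by
    rintro rfl
    refine lineA' hS hW hF (hne 0 1 (by decide)) (hne 0 3 (by decide)) (hne 1 3 (by decide))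
      (h 0) (h 1) (h 3) ?_
    linear_combination -hr
  have hq0 : q ≠ 0 := by
    rintro rfl
    refine lineA' hS hW hF (hne 0 2 (by decide)) (hne 0 3 (by decide)) (hne 2 3 (by decide))
      (h 0) (h 2) (h 3) ?_
    linear_combination hq
  have hp0 : 1 - q - r ≠ 0 := by
    intro hp
    refine lineA' hS hW hF (hne 1 2 (by decide)) (hne 1 3 (by decide)) (hne 2 3 (by decide))
      (h 1) (h 2) (h 3) ?_
    rw [hbar 0, hbar 1, hp]
    have : q = 1 - r := by linear_combination -hp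
    rw [this]; ring
  -- the points
  have hspan : ∀ u ∈ W, T u u (yy c (x 0)) = 0 → T u u (yy c (x 1)) = 0 →
      T u u (yy c (x 2)) = 0 → u = 0 := by
    intro u hu k0 k1 k2
    rw [T_yy] at k0 k1 k2
    have e1 : T u u (c 1) = 0 := by
      have : δ * T u u (c 1) = 0 := by
        rw [hδd]
        linear_combination (x 2 1 - x 0 1) * (k1 - k0) - (x 1 1 - x 0 1) * (k2 - k0)
      exact (mul_eq_zero.mp this).resolve_left hδ
    have e2 : T u u (c 2) = 0 := by
      have : δ * T u u (c 2) = 0 := by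
        rw [hδd]
        linear_combination (x 1 0 - x 0 0) * (k2 - k0) - (x 2 0 - x 0 0) * (k1 - k0)
      exact (mul_eq_zero.mp this).resolve_left hδ
    exact no_base hS hW hF hu (by linear_combination k0 - x 0 0 * e1 - x 0 1 * e2) e1 e2
  have hcz : ∀ y y' : V, ∃ u ∈ W, u ≠ 0 ∧ T u u y = 0 ∧ T u u y' = 0 := by
    intro y y'
    obtain ⟨u, hu, hu0, k1, k2⟩ := common_zero hW.1 (T y) (T y') (fun _ _ => hS.s2 _ _ _)
      (fun _ _ => hS.s2 _ _ _)
    exact ⟨u, hu, hu0, by rw [hS.s2, hS.s1]; exact k1, by rw [hS.s2, hS.s1]; exact k2⟩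
  obtain ⟨u, hu, hu0, a0, a1⟩ := hcz (yy c (x 0)) (yy c (x 1))
  obtain ⟨v, hv, hv0, b1, b2⟩ := hcz (yy c (x 1)) (yy c (x 2))
  have a2 : T u u (yy c (x 2)) ≠ 0 := fun k => hu0 (hspan u hu a0 a1 k)
  have b0 : T v v (yy c (x 0)) ≠ 0 := fun k => hv0 (hspan v hv k b1 b2)
  have hlin : ∀ u v : V, T u v (yy c (x 3)) = (1 - q - r) * T u v (yy c (x 0)) +
      q * T u v (yy c (x 1)) + r * T u v (yy c (x 2)) := by
    intro u v
    rw [T_yy, T_yy, T_yy, T_yy, hbar 0, hbar 1]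
    ring
  have e := rank_one hS hF (h 3) hu hv
  have c0 : T u v (yy c (x 0)) = 0 := rank_one_ker hS hF (h 0) hu hv a0
  have c1 : T u v (yy c (x 1)) = 0 := rank_one_ker hS hF (h 1) hu hv a1
  have c2 : T u v (yy c (x 2)) = 0 := by
    rw [hS.s1]; exact rank_one_ker hS hF (h 2) hv hu b2
  rw [hlin, hlin, hlin, a0, a1, b1, b2, c0, c1, c2] at e
  have : r * T u u (yy c (x 2)) * ((1 - q - r) * T v v (yy c (x 0))) = 0 := by
    linear_combination e
  rcases mul_eq_zero.mp this with h' | h'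
  · rcases mul_eq_zero.mp h' with h'' | h''
    · exact hr0 h''
    · exact a2 h''
  · rcases mul_eq_zero.mp h' with h'' | h''
    · exact hp0 h''
    · exact b0 h''

end Vale.Agent.P287.H674
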