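import Vale.Agent.P287.H674.Pn6
import Vale.Agent.P287.H674.PlaneGeo2

/-!
Points of the net at which the residual quadric is a pair of planes.
-/

namespace Vale.Agent.P287.H674

open MvPolynomial Matrix

variable {V : Type*} [AddCommGroup V] [Module ℂ V]
variable {T : V →ₗ[ℂ] V →ₗ[ℂ] V →ₗ[ℂ] ℂ} {W : Submodule ℂ V} {b c : Fin 3 → V}

/-- full polarization of a product of three linear forms -/
theorem Fac.pol3 {M : Submodule ℂ V} {α β l : V →ₗ[ℂ] ℂ} (f : Fac T M α β l) (hS : Sm T)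
    {x y z : V} (hx : x ∈ M) (hy : y ∈ M) (hz : z ∈ M) :
    2 * T x y z = α x * β y * l z + α y * β x * l z + α x * β z * l y + α y * β z * l x +
      α z * β x * l y + α z * β y * l x := by
  have e1 := f.pol hS (M.add_mem hx hy) hz
  have e2 := f.pol hS hx hz
  have e3 := f.pol hS hy hz
  simp only [map_add, LinearMap.add_apply] at e1
  rw [hS.s1 y x] at e1
  linear_combination e1 - e2 - e3

/-- the vectors of the three-space through the plane -/
noncomputable def vmap (b : Fin 3 → V) (y : V) : (Fin 4 → ℂ) →ₗ[ℂ] V :=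
  ∑ i, (LinearMap.proj i : (Fin 4 → ℂ) →ₗ[ℂ] ℂ).smulRight
    ((![b 0, b 1, b 2, (2 : ℂ) • y] : Fin 4 → V) i)

theorem vmap_apply (b : Fin 3 → V) (y : V) (z : Fin 4 → ℂ) :
    vmap b y z = wv b z + (2 * z 3) • y := by
  simp only [vmap, LinearMap.add_apply, LinearMap.smulRight_apply, LinearMap.proj_apply,
    Fin.sum_univ_four, wv, Matrix.cons_val_zero, Matrix.cons_val_one, Matrix.cons_val, smul_smul]
  rw [mul_comm (z 3) 2]

/-- at a plane of the three-space the residual quadric has corank two -/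
theorem adj_of_plane (hS : Sm T) (hV : Module.finrank ℂ V = 6) (hW : IsPl T W)
    (hF : Fr W b c) {P : Submodule ℂ V} (hP : IsPl T P) (hne : W ≠ P)
    (hi : Module.finrank ℂ (W ⊓ P : Submodule ℂ V) = 2) {y : V} (hy : y ∈ W ⊔ P) :
    (Mx T b y).adjugate = 0 := by
  obtain ⟨C, hC⟩ := exists_trip hS hV hW hP hne hi
  obtain ⟨α, β, l, f, h1, h2, h3⟩ := hC.sup12 hS hV
  let L : (Fin 4 → ℂ) →ₗ[ℂ] (ℂ × ℂ) := (β.prod l) ∘ₗ vmap b y
  have hL : ∀ z, L z = (β (vmap b y z), l (vmap b y z)) := fun z => rfl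
  have d1 := LinearMap.finrank_range_add_finrank_ker L
  have d2 := Submodule.finrank_le (LinearMap.range L)
  have d3 : Module.finrank ℂ (ℂ × ℂ) = 2 := by simp
  have d4 : Module.finrank ℂ (Fin 4 → ℂ) = 4 := by simp
  rw [d4] at d1
  rw [d3] at d2
  obtain ⟨U, hU, hU2⟩ := exists_sub (W := LinearMap.ker L) (k := 2) inferInstance (by omega)
  obtain ⟨z, z', hz⟩ := exists_IsB2 hU2
  have key : ∀ z ∈ LinearMap.ker L, Mx T b y *ᵥ z = 0 := by
    intro z hz
    rw [LinearMap.mem_ker, hL, Prod.mk_eq_zero] at hz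
    obtain ⟨hβ, hl⟩ := hz
    have hw : wv b z ∈ W := wv_mem hF.b3.mem z
    have hα : ∀ w ∈ W, α w = 0 := by
      intro w hw
      rw [h1] at hw
      exact hw.2
    set v := vmap b y z with hv
    have hvw : wv b z = v - (2 * z 3) • y := by rw [hv, vmap_apply]; abel
    have hWM : ∀ w ∈ W, w ∈ W ⊔ P := fun w hw => (le_sup_left : W ≤ W ⊔ P) hw
    have hvM : v ∈ W ⊔ P := by
      rw [hv, vmap_apply]
      exact Submodule.add_mem _ (hWM _ hw) (Submodule.smul_mem _ _ hy)
    have hαv : α v = 2 * z 3 * α y := by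
      rw [hv, vmap_apply, map_add, hα _ hw, map_smul, smul_eq_mul, zero_add]
    have hb : ∀ b' ∈ W, T b' (wv b z) y + z 3 * T b' y y = 0 := by
      intro b' hb'
      have p1 := f.pol3 hS (hWM _ hb') hvM hy
      have p2 := f.pol3 hS (hWM _ hb') hy hy
      rw [hα _ hb', hβ, hl, hαv] at p1
      rw [hα _ hb'] at p2
      rw [hvw]
      simp only [map_sub, map_smul, LinearMap.sub_apply, LinearMap.smul_apply, smul_eq_mul]
      linear_combination p1 / 2 - z 3 * p2 / 2
    have hc : T (wv b z) y y + 4 / 3 * z 3 * T y y y = 0 := by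
      have p1 := f.pol3 hS hvM hy hy
      have p2 := f.pol3 hS hy hy hy
      rw [hβ, hl, hαv] at p1
      rw [hvw]
      simp only [map_sub, map_smul, LinearMap.sub_apply, LinearMap.smul_apply, smul_eq_mul]
      linear_combination p1 / 2 - z 3 * p2 / 3
    have hb4 : ∀ i, b4 b i ∈ W := by
      intro i
      fin_cases i
      · exact hF.b3.mem 0
      · exact hF.b3.mem 1
      · exact hF.b3.mem 2
      · exact W.zero_mem
    funext i
    rw [Mx_mulVec hS, hc, hb _ (hb4 i)]
    simp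
  exact adj_zero_of_two (key z (hU hz.ha)) (key z' (hU hz.hb)) hz.ind

/-- the bilinear form of the matrix -/
noncomputable def bm (M : Matrix (Fin 4) (Fin 4) ℂ) :
    (Fin 4 → ℂ) →ₗ[ℂ] (Fin 4 → ℂ) →ₗ[ℂ] ℂ := Matrix.toBilin' M

theorem bm_apply (M : Matrix (Fin 4) (Fin 4) ℂ) (u v : Fin 4 → ℂ) :
    bm M u v = u ⬝ᵥ M *ᵥ v := Matrix.toBilin'_apply' M u v

theorem T_vmap (hS : Sm T) (hW : IsPl T W) (hF : Fr W b c) (y : V) (z : Fin 4 → ℂ) :
    T (vmap b y z) (vmap b y z) (vmap b y z) = 6 * z 3 * (z ⬝ᵥ Mx T b y *ᵥ z) := by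
  have hw : wv b z ∈ W := wv_mem hF.b3.mem z
  have e1 : z ⬝ᵥ Mx T b y *ᵥ z = T (wv b z) (wv b z) y + 2 * z 3 * T (wv b z) y y +
      4 / 3 * z 3 ^ 2 * T y y y := by
    have e0 : ∀ i, (Mx T b y *ᵥ z) i = _ := Mx_mulVec hS y z
    simp only [dotProduct, Fin.sum_univ_four, e0]
    generalize hw' : wv b z = w
    simp only [b4, ep, Matrix.cons_val_zero, Matrix.cons_val_one, Matrix.cons_val, map_zero,
      LinearMap.zero_apply]
    have e2 : ∀ a d, T w a d = z 0 * T (b 0) a d + z 1 * T (b 1) a d + z 2 * T (b 2) a d := by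
      intro a d
      rw [← hw', wv]
      simp only [map_add, map_smul, LinearMap.add_apply, LinearMap.smul_apply, smul_eq_mul]
    rw [e2 w y, e2 y y]
    ring
  rw [e1, vmap_apply]
  have e3 := hW.2 _ hw
  simp only [map_add, map_smul, LinearMap.add_apply, LinearMap.smul_apply, smul_eq_mul]
  rw [e3, hS.s1 y (wv b z), hS.s2 (wv b z) y (wv b z), hS.s2 y y (wv b z), hS.s1 y (wv b z)]
  ring

/-- a point at which the residual quadric has corank two gives a plane -/
theorem plane_of_adj (hS : Sm T) (hV : Module.finrank ℂ V = 6) (hW : IsPl T W)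
    (hF : Fr W b c) {x : Fin 2 → ℂ} (h : (Mx T b (yy c x)).adjugate = 0) :
    ∃ P : Submodule ℂ V, IsPl T P ∧ P ≠ W ∧ P ≤ W ⊔ Submodule.span ℂ {yy c x} := by
  set y := yy c x with hy
  obtain ⟨z, z', hz, hz', hind⟩ := two_of_adj_zero (Mx_symm (b := b) hS y) h
  let K : Submodule ℂ (Fin 4 → ℂ) := Submodule.span ℂ (Set.range ![z, z'])
  have hzK : z ∈ K := Submodule.subset_span ⟨0, rfl⟩
  have hzK' : z' ∈ K := Submodule.subset_span ⟨1, rfl⟩
  have hKli : LinearIndependent ℂ ![z, z'] := by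
    rw [LinearIndependent.pair_iff]
    exact hind
  have hK2 : Module.finrank ℂ K = 2 := by
    rw [finrank_span_eq_card hKli]; simp
  have hKspan : ∀ t ∈ K, ∃ r s : ℂ, t = r • z + s • z' := by
    intro t ht
    have : K = Submodule.span ℂ {z, z'} := by
      simp only [K, Matrix.range_cons_cons_empty]
    rw [this, Submodule.mem_span_pair] at ht
    obtain ⟨r, s, e⟩ := ht
    exact ⟨r, s, e.symm⟩
  obtain ⟨D, hD⟩ := Submodule.exists_isCompl K
  have hD2 : Module.finrank ℂ D = 2 := by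
    have := Submodule.finrank_add_eq_of_isCompl hD
    have d4 : Module.finrank ℂ (Fin 4 → ℂ) = 4 := by simp
    omega
  have hsym : ∀ u v, bm (Mx T b y) u v = bm (Mx T b y) v u := by
    intro u v
    rw [bm_apply, bm_apply, Matrix.dotProduct_mulVec, ← Matrix.mulVec_transpose,
      (Mx_symm (b := b) hS y).eq, dotProduct_comm]
  obtain ⟨u, huD, hu0, hu⟩ := quad_zero hD2 (bm (Mx T b y)) hsym
  rw [bm_apply] at hu
  have huK : u ∉ K := by
    intro huK
    have : u ∈ K ⊓ D := ⟨huK, huD⟩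
    rw [hD.inf_eq_bot] at this
    exact hu0 ((Submodule.mem_bot ℂ).mp this)
  let U : Submodule ℂ (Fin 4 → ℂ) := K ⊔ Submodule.span ℂ {u}
  have hU3 : Module.finrank ℂ U = 3 := by
    have d1 := Submodule.finrank_sup_add_finrank_inf_eq K (Submodule.span ℂ {u})
    have d2 : K ⊓ Submodule.span ℂ {u} = ⊥ := by
      rw [eq_bot_iff]
      rintro t ⟨ht1, ht2⟩
      obtain ⟨r, rfl⟩ := Submodule.mem_span_singleton.mp ht2
      rw [Submodule.mem_bot]
      by_contra hr
      apply huK
      have hr0 : r ≠ 0 := by rintro rfl; exact hr (zero_smul _ _)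
      have := K.smul_mem r⁻¹ ht1
      rwa [smul_smul, inv_mul_cancel₀ hr0, one_smul] at this
    rw [d2, finrank_bot, finrank_span_singleton hu0, hK2] at d1
    exact d1
  have hUQ : ∀ t ∈ U, t ⬝ᵥ Mx T b y *ᵥ t = 0 := by
    intro t ht
    obtain ⟨k, hk, e, he, rfl⟩ := Submodule.mem_sup.mp ht
    obtain ⟨r, rfl⟩ := Submodule.mem_span_singleton.mp he
    obtain ⟨s, s', rfl⟩ := hKspan k hk
    have e1 : Mx T b y *ᵥ (s • z + s' • z' + r • u) = r • (Mx T b y *ᵥ u) := by
      rw [Matrix.mulVec_add, Matrix.mulVec_add, Matrix.mulVec_smul, Matrix.mulVec_smul,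
        Matrix.mulVec_smul, hz, hz']
      simp
    have e2 : ∀ t, t ⬝ᵥ Mx T b y *ᵥ u = u ⬝ᵥ Mx T b y *ᵥ t := by
      intro t
      have := hsym t u
      rwa [bm_apply, bm_apply] at this
    rw [e1, dotProduct_smul, e2, e1, dotProduct_smul, hu]
    simp
  have hinj : Function.Injective (vmap b y) := by
    rw [← LinearMap.ker_eq_bot, LinearMap.ker_eq_bot']
    intro t ht
    rw [vmap_apply] at ht
    have h3 : t 3 = 0 := by
      have h4 : (2 * t 3) • yy c x ∈ W := by
        rw [← hy, (eq_neg_of_add_eq_zero_right ht)]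
        exact W.neg_mem (wv_mem hF.b3.mem t)
      have := yy_notMem hF hV x _ h4
      simpa using this
    rw [h3, mul_zero, zero_smul, add_zero] at ht
    have h6 := hF.b3.ind ![t 0, t 1, t 2] (by simpa [vec, wv] using ht)
    funext i
    fin_cases i
    · simpa using congrFun h6 0
    · simpa using congrFun h6 1
    · simpa using congrFun h6 2
    · exact h3
  refine ⟨U.map (vmap b y), ⟨?_, ?_⟩, ?_, ?_⟩
  · rw [← (Submodule.equivMapOfInjective (vmap b y) hinj U).finrank_eq, hU3]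
  · rintro _ ⟨t, ht, rfl⟩
    rw [T_vmap hS hW hF, hUQ t ht, mul_zero]
  · intro hPW
    obtain ⟨w, hw, hw0, k1, k2⟩ := common_zero hW.1 (T (c 1)) (T (c 2)) (fun _ _ => hS.s2 _ _ _)
      (fun _ _ => hS.s2 _ _ _)
    have k1' : T w w (c 1) = 0 := by rw [hS.s2, hS.s1]; exact k1
    have k2' : T w w (c 2) = 0 := by rw [hS.s2, hS.s1]; exact k2
    have hwP : w ∈ U.map (vmap b y) := by rw [hPW]; exact hw
    obtain ⟨t, ht, rfl⟩ := hwP
    have h3 : t 3 = 0 := by
      have h4 : (2 * t 3) • yy c x ∈ W := by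
        have : (2 * t 3) • yy c x = vmap b y t - wv b t := by
          rw [vmap_apply, ← hy]; abel
        rw [this]
        exact W.sub_mem hw (wv_mem hF.b3.mem t)
      have := yy_notMem hF hV x _ h4
      simpa using this
    have hQ := hUQ t ht
    have hw' : vmap b y t = wv b t := by rw [vmap_apply, h3]; simp
    have e1 : t ⬝ᵥ Mx T b y *ᵥ t = T (wv b t) (wv b t) y := by
      have e0 : ∀ i, (Mx T b y *ᵥ t) i = _ := Mx_mulVec hS y t
      simp only [dotProduct, Fin.sum_univ_four, e0]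
      generalize hw'' : wv b t = w
      simp only [b4, ep, Matrix.cons_val_zero, Matrix.cons_val_one, Matrix.cons_val, map_zero,
        LinearMap.zero_apply, h3]
      have e2 : ∀ a d, T w a d = t 0 * T (b 0) a d + t 1 * T (b 1) a d + t 2 * T (b 2) a d := by
        intro a d
        rw [← hw'', wv]
        simp only [map_add, map_smul, LinearMap.add_apply, LinearMap.smul_apply, smul_eq_mul]
      rw [e2 w y]
      ring
    rw [e1] at hQ
    rw [hw'] at k1' k2' hw0
    rw [hy, T_yy, k1', k2', mul_zero, mul_zero, add_zero, add_zero] at hQ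
    exact hw0 (no_base hS hW hF (wv_mem hF.b3.mem t) hQ k1' k2')
  · rintro _ ⟨t, ht, rfl⟩
    rw [vmap_apply]
    exact Submodule.add_mem _ ((le_sup_left : W ≤ _) (wv_mem hF.b3.mem t))
      (Submodule.smul_mem _ _ ((le_sup_right : _ ≤ W ⊔ Submodule.span ℂ {y})
        (Submodule.mem_span_singleton_self y)))

end Vale.Agent.P287.H674
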