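import Vale.Agent.P287.H674.Pn7
import Vale.Agent.P287.H674.Pn2

/-!
The number of points of the net at which the residual quadric is a pair of planes.
-/

namespace Vale.Agent.P287.H674

open MvPolynomial Matrix

section deg

theorem deg_det {n : ℕ} (N : Matrix (Fin n) (Fin n) (MvPolynomial (Fin 2) ℂ)) (r s : Fin n → ℕ)
    (h : ∀ i j, (N i j).totalDegree ≤ r i + s j) :
    N.det.totalDegree ≤ ∑ i, r i + ∑ j, s j := by
  rw [Matrix.det_apply, ← mem_restrictTotalDegree]
  refine Submodule.sum_mem _ fun σ _ => ?_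
  rw [Units.smul_def]
  refine Submodule.smul_of_tower_mem _ _ ?_
  rw [mem_restrictTotalDegree]
  refine (totalDegree_finsetProd _ _).trans ?_
  refine (Finset.sum_le_sum fun j _ => h (σ j) j).trans ?_
  rw [Finset.sum_add_distrib, Equiv.sum_comp σ r]

theorem deg_mm (k : Fin 3) : (mm k).totalDegree ≤ 1 := by
  fin_cases k <;> simp [mm]

variable {V : Type*} [AddCommGroup V] [Module ℂ V]

theorem deg_C_mul (a : ℂ) (p : MvPolynomial (Fin 2) ℂ) :
    (C a * p).totalDegree ≤ p.totalDegree := by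
  refine (totalDegree_mul _ _).trans ?_
  simp

theorem deg_pl (c : Fin 3 → V) (φ : V →ₗ[ℂ] ℂ) : (pl c φ).totalDegree ≤ 1 := by
  rw [← mem_restrictTotalDegree]
  refine Submodule.sum_mem _ fun k _ => ?_
  rw [mem_restrictTotalDegree]
  exact (deg_C_mul _ _).trans (deg_mm k)

theorem deg_pq (c : Fin 3 → V) (ψ : V →ₗ[ℂ] V →ₗ[ℂ] ℂ) : (pq c ψ).totalDegree ≤ 2 := by
  rw [← mem_restrictTotalDegree]
  refine Submodule.sum_mem _ fun k _ => Submodule.sum_mem _ fun l _ => ?_
  rw [mem_restrictTotalDegree]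
  refine (deg_C_mul _ _).trans ((totalDegree_mul _ _).trans ?_)
  have := deg_mm k
  have := deg_mm l
  omega

theorem deg_pc (c : Fin 3 → V) (T : V →ₗ[ℂ] V →ₗ[ℂ] V →ₗ[ℂ] ℂ) : (pc c T).totalDegree ≤ 3 := by
  rw [← mem_restrictTotalDegree]
  refine Submodule.sum_mem _ fun k _ => Submodule.sum_mem _ fun l _ =>
    Submodule.sum_mem _ fun n _ => ?_
  rw [mem_restrictTotalDegree]
  refine (deg_C_mul _ _).trans ((totalDegree_mul _ _).trans ?_)
  have h1 := totalDegree_mul (mm k) (mm l)
  have := deg_mm k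
  have := deg_mm l
  have := deg_mm n
  omega

def en : Fin 4 → ℕ := ![0, 0, 0, 1]

theorem deg_Mp (T : V →ₗ[ℂ] V →ₗ[ℂ] V →ₗ[ℂ] ℂ) (b c : Fin 3 → V) (i j : Fin 4) :
    (Mp T b c i j).totalDegree ≤ (1 + en i) + en j := by
  have h : ∀ (i : Fin 4), ep i = 0 ∨ en i = 1 := by
    intro i; fin_cases i <;> simp [ep, en]
  have h1 : ∀ (i : Fin 4) (ψ : V →ₗ[ℂ] V →ₗ[ℂ] ℂ),
      (C (ep i) * pq c ψ).totalDegree ≤ 1 + en i := by
    intro i ψ
    rcases h i with h | h
    · rw [h]; simp
    · rw [h]; exact (deg_C_mul _ _).trans (deg_pq c ψ)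
  have h2 : (C (ep i * ep j * (4 / 3)) * pc c T).totalDegree ≤ (1 + en i) + en j := by
    rcases h i with h' | h'
    · rw [h']; simp
    · rcases h j with h'' | h''
      · rw [h'']; simp
      · rw [h', h'']; exact (deg_C_mul _ _).trans (deg_pc c T)
  simp only [Mp, Matrix.of_apply]
  refine (totalDegree_add _ _).trans (max_le ((totalDegree_add _ _).trans (max_le
    ((totalDegree_add _ _).trans (max_le ?_ ?_)) ?_)) h2)
  · exact (deg_pl _ _).trans (by omega)
  · exact (h1 _ _).trans (by omega)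
  · exact (h1 _ _).trans (by omega)

theorem deg_D (T : V →ₗ[ℂ] V →ₗ[ℂ] V →ₗ[ℂ] ℂ) (b c : Fin 3 → V) :
    (Mp T b c).det.totalDegree ≤ 6 := by
  refine (deg_det _ (fun i => 1 + en i) en (deg_Mp T b c)).trans ?_
  simp [Fin.sum_univ_four, en]

theorem deg_E (T : V →ₗ[ℂ] V →ₗ[ℂ] V →ₗ[ℂ] ℂ) (b c : Fin 3 → V) :
    (Ap T b c).det.totalDegree ≤ 3 := by
  refine (deg_det _ (fun _ => 1) (fun _ => 0) (fun i j => ?_)).trans ?_
  · simp only [Ap, Matrix.of_apply]
    exact deg_pl _ _
  · simp

theorem deg_G (T : V →ₗ[ℂ] V →ₗ[ℂ] V →ₗ[ℂ] ℂ) (b c : Fin 3 → V) (j : Fin 4) :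
    ((Mp T b c).adjugate j 3).totalDegree ≤ 4 := by
  rw [Matrix.adjugate_apply]
  refine (deg_det _ ![1, 1, 1, 0] en (fun i k => ?_)).trans ?_
  · by_cases hi : i = 3
    · subst hi
      rw [Matrix.updateRow_self]
      refine le_trans ?_ (Nat.zero_le _)
      by_cases hk : k = j
      · subst hk; simp
      · simp [hk]
    · rw [Matrix.updateRow_ne hi]
      refine (deg_Mp T b c i k).trans ?_
      have : (1 + en i) = (![1, 1, 1, 0] : Fin 4 → ℕ) i := by
        fin_cases i <;> simp [en] at hi ⊢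
      rw [this]
  · simp [Fin.sum_univ_four, en]

end deg

/-- an irreducible polynomial in two variables has infinitely many zeros -/
theorem infinite_zeros {m : MvPolynomial (Fin 2) ℂ} (hm : Irreducible m) :
    Set.Infinite {x : Fin 2 → ℂ | eval x m = 0} := by
  intro hfin
  have hprime := UniqueFactorizationMonoid.irreducible_iff_prime.mp hm
  let h : MvPolynomial (Fin 2) ℂ := ∏ z ∈ hfin.toFinset, (X 0 - C (z 0))
  have h1 : h ∈ (Ideal.span {m} : Ideal (MvPolynomial (Fin 2) ℂ)).radical := by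
    rw [← vanishingIdeal_zeroLocus_eq_radical (K := ℂ)]
    intro v hv
    have hv' : ∀ p ∈ (Ideal.span {m} : Ideal (MvPolynomial (Fin 2) ℂ)), aeval v p = 0 := hv
    have e1 := hv' m (Ideal.subset_span (by simp))
    rw [MvPolynomial.aeval_eq_eval] at e1 ⊢
    show eval v h = 0
    rw [map_prod]
    refine Finset.prod_eq_zero (i := v) ?_ ?_
    · rw [Set.Finite.mem_toFinset]; exact e1
    · simp
  obtain ⟨N, hN⟩ := h1
  rw [Ideal.mem_span_singleton] at hN
  have h2 := hprime.dvd_of_dvd_pow hN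
  obtain ⟨z, -, hz⟩ := hprime.exists_mem_finset_dvd h2
  obtain ⟨r, hr⟩ := hz
  have hne : (X 0 - C (z 0) : MvPolynomial (Fin 2) ℂ) ≠ 0 := by
    intro h0
    have := congrArg (eval (fun _ => z 0 + 1)) h0
    simp at this
  have hr0 : r ≠ 0 := by rintro rfl; rw [mul_zero] at hr; exact hne hr
  have hd := totalDegree_mul_of_isDomain hm.ne_zero hr0
  rw [← hr] at hd
  have hd1 : (X 0 - C (z 0) : MvPolynomial (Fin 2) ℂ).totalDegree ≤ 1 := by
    refine (totalDegree_sub _ _).trans ?_
    simp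
  have hm1 : m.totalDegree ≠ 0 := by
    intro h3
    rw [totalDegree_eq_zero_iff_eq_C] at h3
    apply hm.not_isUnit
    rw [h3]
    apply IsUnit.map
    rw [isUnit_iff_ne_zero]
    intro h4
    rw [h4, C_0] at h3
    exact hm.ne_zero h3
  have hr1 : r.totalDegree = 0 := by omega
  rw [totalDegree_eq_zero_iff_eq_C] at hr1
  have hc : coeff 0 r ≠ 0 := by
    intro h4
    rw [h4, C_0] at hr1
    exact hr0 hr1
  have hall : ∀ t : ℂ, eval ![z 0, t] m = 0 := by
    intro t
    have := congrArg (eval ![z 0, t]) hr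
    rw [map_mul, hr1] at this
    simp only [map_sub, eval_X, eval_C, Matrix.cons_val_zero, sub_self] at this
    exact (mul_eq_zero.mp this.symm).resolve_right hc
  have hinj : Function.Injective (fun t : ℂ => (![z 0, t] : Fin 2 → ℂ)) := by
    intro t t' h
    simpa using congrFun h 1
  exact (Set.infinite_of_injective_forall_mem hinj hall) hfin

/-- a polynomial of degree at most one is constant if its derivatives vanish at a point -/
theorem deg_one_const {g : MvPolynomial (Fin 2) ℂ} (hg : g.totalDegree ≤ 1) {x : Fin 2 → ℂ}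
    (h : ∀ k, eval x (pderiv k g) = 0) : g.totalDegree = 0 := by
  have hexp : g = C (coeff 0 g) + C (coeff (Finsupp.single 0 1) g) * X 0 +
      C (coeff (Finsupp.single 1 1) g) * X 1 := by
    ext m
    simp only [coeff_add, coeff_C, coeff_C_mul, coeff_X']
    by_cases h0 : m = 0
    · subst h0
      simp
    by_cases h1 : m = Finsupp.single 0 1
    · subst h1
      have e1 : ¬ (0 : Fin 2 →₀ ℕ) = Finsupp.single 0 1 := by
        intro h; simpa using DFunLike.congr_fun h 0
      have e2 : ¬ (Finsupp.single 1 1 : Fin 2 →₀ ℕ) = Finsupp.single 0 1 := by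
        intro h; simpa using DFunLike.congr_fun h 0
      simp [e1, e2]
    by_cases h2 : m = Finsupp.single 1 1
    · subst h2
      have e1 : ¬ (0 : Fin 2 →₀ ℕ) = Finsupp.single 1 1 := by
        intro h; simpa using DFunLike.congr_fun h 1
      have e2 : ¬ (Finsupp.single 0 1 : Fin 2 →₀ ℕ) = Finsupp.single 1 1 := by
        intro h; simpa using DFunLike.congr_fun h 0
      simp [e1, e2]
    · rw [if_neg (fun h => h0 h.symm), if_neg (fun h => h1 h.symm), if_neg (fun h => h2 h.symm)]
      simp only [mul_zero, add_zero]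
      apply coeff_eq_zero_of_totalDegree_lt
      have hs : ∑ i ∈ m.support, m i = m 0 + m 1 := by
        rw [← Fin.sum_univ_two (fun i => m i)]
        exact Finset.sum_subset (Finset.subset_univ _) fun i _ hi => by
          simpa using hi
      rw [hs]
      by_contra hlt
      have hle : m 0 + m 1 ≤ 1 := by omega
      have hcases : (m 0 = 0 ∧ m 1 = 0) ∨ (m 0 = 1 ∧ m 1 = 0) ∨ (m 0 = 0 ∧ m 1 = 1) := by omega
      rcases hcases with ⟨a, b⟩ | ⟨a, b⟩ | ⟨a, b⟩
      · apply h0; ext i; fin_cases i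
        · simpa using a
        · simpa using b
      · apply h1; ext i; fin_cases i
        · simpa using a
        · simpa using b
      · apply h2; ext i; fin_cases i
        · simpa using a
        · simpa using b
  have k0 := h 0
  have k1 := h 1
  rw [hexp] at k0 k1
  simp [pderiv_X] at k0 k1
  rw [hexp, k0, k1]
  simp

end Vale.Agent.P287.H674
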