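import Vale.Agent.P287.H674.Pn8

/-!
At most thirteen reducible residual quadrics.
-/

namespace Vale.Agent.P287.H674

open MvPolynomial Matrix

variable {V : Type*} [AddCommGroup V] [Module ℂ V]
variable {T : V →ₗ[ℂ] V →ₗ[ℂ] V →ₗ[ℂ] ℂ} {W : Submodule ℂ V} {b c : Fin 3 → V}

theorem eval_G_zero {x : Fin 2 → ℂ} (h : (Mx T b (yy c x)).adjugate = 0) (i j : Fin 4) :
    eval x ((Mp T b c).adjugate i j) = 0 := by
  rw [eval_adj, map_Mp, h]; rfl

theorem eval_dD_zero {x : Fin 2 → ℂ} (h : (Mx T b (yy c x)).adjugate = 0) (k : Fin 2) :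
    eval x (pderiv k (Mp T b c).det) = 0 := by
  rw [der_detM, h]
  simp

/-- the cubic is not zero -/
theorem E_ne (hS : Sm T) (hW : IsPl T W) (hF : Fr W b c) : (Ap T b c).det ≠ 0 := by
  intro h0
  have h1 : ∀ x : Fin 2 → ℂ, (Ax T b (yy c x)).adjugate = 0 := fun x =>
    sing_E hS hW hF (by rw [h0]; simp) (fun k => by rw [h0]; simp)
  let f : Fin 4 ↪ (Fin 2 → ℂ) := ⟨fun i => fun _ => (i : ℕ), by
    intro i j h
    have := congrFun h 0
    simp only [Nat.cast_inj] at this
    exact Fin.ext this⟩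
  have := card_rank_one hS hW hF (Finset.univ.map f) fun x _ => h1 x
  simp at this

/-- the sextic is divisible by the common divisors of the minors -/
theorem dvd_D {g : MvPolynomial (Fin 2) ℂ} (h : ∀ j, g ∣ (Mp T b c).adjugate j 3) :
    g ∣ (Mp T b c).det := by
  have h1 := congrFun (congrFun (Matrix.mul_adjugate (Mp T b c)) 3) 3
  rw [Matrix.smul_apply, Matrix.one_apply_eq, smul_eq_mul, mul_one, Matrix.mul_apply] at h1
  rw [← h1]
  exact Finset.dvd_sum fun j _ => Dvd.dvd.mul_left (h j) _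

theorem card_points (hS : Sm T) (hV : Module.finrank ℂ V = 6) (hW : IsPl T W) (hF : Fr W b c)
    {K : ℕ} (hK : ∀ Z : Finset (Fin 2 → ℂ), (∀ x ∈ Z, (Mx T b (yy c x)).adjugate = 0) →
      Z.card ≤ K)
    (Z : Finset (Fin 2 → ℂ)) (hZ : ∀ x ∈ Z, (Mx T b (yy c x)).adjugate = 0) : Z.card ≤ 13 := by
  classical
  -- the sextic is reduced
  have hsq : ∀ m : MvPolynomial (Fin 2) ℂ, Irreducible m → ¬ m * m ∣ (Mp T b c).det := by
    rintro m hm ⟨q, hq⟩
    have hinf := infinite_zeros hm
    obtain ⟨t, ht, htc⟩ := hinf.exists_subset_card_eq (K + 1)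
    have := hK t (fun x hx => by
      have hmx : eval x m = 0 := ht hx
      refine sing_D hS hV hW hF ?_ ?_
      · rw [hq, map_mul, map_mul, hmx]; ring
      · intro k
        rw [hq]
        simp only [Derivation.leibniz, smul_eq_mul, map_add, map_mul, hmx]
        ring)
    omega
  have hD0 : (Mp T b c).det ≠ 0 := by
    intro h0
    obtain ⟨m, hm⟩ : ∃ m : MvPolynomial (Fin 2) ℂ, Irreducible m :=
      ⟨X 0, (MvPolynomial.X_prime (i := 0)).irreducible⟩
    exact hsq m hm (by rw [h0]; exact dvd_zero _)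
  have hE0 := E_ne hS hW hF
  obtain ⟨g, E', G', cc, hE', hG', hrel⟩ := exists_gcd hE0
    (fun j => (Mp T b c).adjugate (Fin.castSucc j) 3)
  have hg0 : g ≠ 0 := by rintro rfl; exact hE0 (by rw [hE', zero_mul])
  have hE'0 : E' ≠ 0 := by rintro rfl; exact hE0 (by rw [hE', mul_zero])
  -- degrees
  have dE := deg_E T b c
  rw [hE', totalDegree_mul_of_isDomain hg0 hE'0] at dE
  have dG : ∀ j, (G' j).totalDegree ≤ 4 - g.totalDegree := by
    intro j
    by_cases h0 : G' j = 0
    · rw [h0]; simp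
    · have := deg_G T b c (Fin.castSucc j)
      have e : (Mp T b c).adjugate (Fin.castSucc j) 3 = g * G' j := hG' j
      rw [e, totalDegree_mul_of_isDomain hg0 h0] at this
      omega
  have dGc : (∑ j, C (cc j) * G' j).totalDegree ≤ 4 - g.totalDegree := by
    rw [← mem_restrictTotalDegree]
    refine Submodule.sum_mem _ fun j _ => ?_
    rw [mem_restrictTotalDegree]
    exact (deg_C_mul _ _).trans (dG j)
  -- the divisor of the sextic
  have hgD : g ∣ (Mp T b c).det := by
    apply dvd_D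
    intro j
    by_cases hj : j = 3
    · rw [hj, Ap_eq]
      exact ⟨E', hE'⟩
    · obtain ⟨k, rfl⟩ : ∃ k : Fin 3, j = Fin.castSucc k := by
        fin_cases j
        · exact ⟨0, rfl⟩
        · exact ⟨1, rfl⟩
        · exact ⟨2, rfl⟩
        · exact absurd rfl hj
      exact ⟨G' k, hG' k⟩
  obtain ⟨D', hD'⟩ := hgD
  have hD'0 : D' ≠ 0 := by rintro rfl; exact hD0 (by rw [hD', mul_zero])
  have dD := deg_D T b c
  rw [hD', totalDegree_mul_of_isDomain hg0 hD'0] at dD
  have hrel2 : IsRelPrime g D' := by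
    intro d hd1 hd2
    by_contra hdu
    have hd0 : d ≠ 0 := by
      rintro rfl
      exact hg0 (zero_dvd_iff.mp hd1)
    obtain ⟨m, hm, hmd⟩ := WfDvdMonoid.exists_irreducible_factor hdu hd0
    refine hsq m hm ?_
    rw [hD']
    exact mul_dvd_mul (hmd.trans hd1) (hmd.trans hd2)
  -- values at the points
  have vE : ∀ x ∈ Z, eval x g * eval x E' = 0 := by
    intro x hx
    rw [← map_mul, ← hE', ← Ap_eq]
    exact eval_G_zero (hZ x hx) 3 3
  have vG : ∀ x ∈ Z, ∀ j, eval x g * eval x (G' j) = 0 := by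
    intro x hx j
    rw [← map_mul, ← hG' j]
    exact eval_G_zero (hZ x hx) _ 3
  have vD : ∀ x ∈ Z, ∀ k, eval x g = 0 → eval x D' * eval x (pderiv k g) = 0 := by
    intro x hx k hgx
    have := eval_dD_zero (hZ x hx) k
    rw [hD'] at this
    simp only [Derivation.leibniz, smul_eq_mul, map_add, map_mul, hgx] at this
    linear_combination this
  let Z1 := Z.filter fun x => eval x g ≠ 0
  let Z2 := Z.filter fun x => eval x g = 0 ∧ eval x D' = 0
  let Z3 := Z.filter fun x => eval x g = 0 ∧ eval x D' ≠ 0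
  have hcover : Z ⊆ Z1 ∪ (Z2 ∪ Z3) := by
    intro x hx
    simp only [Z1, Z2, Z3, Finset.mem_union, Finset.mem_filter]
    by_cases h1 : eval x g = 0
    · by_cases h2 : eval x D' = 0
      · exact Or.inr (Or.inl ⟨hx, h1, h2⟩)
      · exact Or.inr (Or.inr ⟨hx, h1, h2⟩)
    · exact Or.inl ⟨hx, h1⟩
  have c0 := (Finset.card_le_card hcover).trans ((Finset.card_union_le _ _).trans
    (Nat.add_le_add_left (Finset.card_union_le _ _) _))
  have c1 : Z1.card ≤ (3 - g.totalDegree) * (4 - g.totalDegree) := by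
    refine bezout hrel (by omega) dGc Z1 ?_ ?_
    · intro x hx
      rw [Finset.mem_filter] at hx
      exact (mul_eq_zero.mp (vE x hx.1)).resolve_left hx.2
    · intro x hx
      rw [Finset.mem_filter] at hx
      rw [map_sum]
      refine Finset.sum_eq_zero fun j _ => ?_
      rw [map_mul, (mul_eq_zero.mp (vG x hx.1 j)).resolve_left hx.2, mul_zero]
  have c2 : Z2.card ≤ g.totalDegree * (6 - g.totalDegree) := by
    refine bezout hrel2 le_rfl (by omega) Z2 ?_ ?_
    · intro x hx
      rw [Finset.mem_filter] at hx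
      exact hx.2.1
    · intro x hx
      rw [Finset.mem_filter] at hx
      exact hx.2.2
  have hdg : ∀ x ∈ Z3, ∀ k, eval x (pderiv k g) = 0 := by
    intro x hx k
    rw [Finset.mem_filter] at hx
    exact (mul_eq_zero.mp (vD x hx.1 k hx.2.1)).resolve_left hx.2.2
  have c3 : Z3.card ≤ 3 := by
    refine card_rank_one hS hW hF Z3 fun x hx => ?_
    have hx' := (Finset.mem_filter.mp hx).2.1
    refine sing_E hS hW hF ?_ ?_
    · rw [hE', map_mul, hx', zero_mul]
    · intro k
      rw [hE']
      simp only [Derivation.leibniz, smul_eq_mul, map_add, map_mul, hx', hdg x hx k]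
      ring
  have c3' : g.totalDegree ≤ 1 → Z3 = ∅ := by
    intro hle
    by_contra hne
    obtain ⟨x, hx⟩ := Finset.nonempty_iff_ne_empty.mpr hne
    have h0 := deg_one_const hle (hdg x hx)
    rw [totalDegree_eq_zero_iff_eq_C] at h0
    have hx' := (Finset.mem_filter.mp hx).2.1
    rw [h0, eval_C] at hx'
    rw [hx', C_0] at h0
    exact hg0 h0
  have hd3 : g.totalDegree ≤ 3 := by omega
  generalize g.totalDegree = d at *
  interval_cases d
  · have := c3' (by omega)
    rw [this, Finset.card_empty] at c0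
    omega
  · have := c3' (by omega)
    rw [this, Finset.card_empty] at c0
    omega
  · omega
  · omega

end Vale.Agent.P287.H674
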