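import Vale.Agent.P287.H674.Tri

/-!
A smooth cubic fourfold containing two disjoint planes is rational.
-/

namespace Vale.Agent.P287.H674

open MvPolynomial

/-- polarization of a vanishing cubic function on a subspace -/
theorem tri_zero_of_self {V : Type*} [AddCommGroup V] [Module ℂ V]
    {T : V →ₗ[ℂ] V →ₗ[ℂ] V →ₗ[ℂ] ℂ}
    (s1 : ∀ x y z, T x y z = T y x z) (s2 : ∀ x y z, T x y z = T x z y)
    {W : Submodule ℂ V} (h : ∀ w ∈ W, T w w w = 0) {a b c : V} (ha : a ∈ W) (hb : b ∈ W)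
    (hc : c ∈ W) : T a b c = 0 := by
  have h1 := h _ (W.add_mem (W.add_mem ha hb) hc)
  have h2 := h _ (W.add_mem ha hb)
  have h3 := h _ (W.add_mem ha hc)
  have h4 := h _ (W.add_mem hb hc)
  have h5 := h _ ha
  have h6 := h _ hb
  have h7 := h _ hc
  simp only [map_add, LinearMap.add_apply] at h1 h2 h3 h4
  have e1 : T b a c = T a b c := s1 _ _ _
  have e2 : T a c b = T a b c := (s2 _ _ _).symm
  have e3 : T b c a = T a b c := by rw [s2, s1]
  have e4 : T c a b = T a b c := by rw [s1, s2]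
  have e5 : T c b a = T a b c := by rw [s2, e4]
  rw [e1, e2, e3, e4, e5] at h1
  have : 6 * T a b c = 0 := by
    linear_combination h1 - h2 - h3 - h4 + h5 + h6 + h7
  simpa using this

/-- the linear polynomial of a linear functional -/
noncomputable def linPoly (l : (Fin 6 → ℂ) →ₗ[ℂ] ℂ) : MvPolynomial (Fin 6) ℂ :=
  ∑ i, C (l (Pi.single i 1)) * X i

theorem eval_linPoly (l : (Fin 6 → ℂ) →ₗ[ℂ] ℂ) (v : Fin 6 → ℂ) : eval v (linPoly l) = l v := by
  rw [linPoly, LinearMap.pi_apply_eq_sum_univ l v]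
  simp only [map_sum, map_mul, eval_C, eval_X]
  refine Finset.sum_congr rfl fun i _ => ?_
  rw [smul_eq_mul, mul_comm]
  congr 2
  funext j
  simp [Pi.single_apply, eq_comm]

theorem linPoly_hom (l : (Fin 6 → ℂ) →ₗ[ℂ] ℂ) : (linPoly l).IsHomogeneous 1 := by
  refine IsHomogeneous.sum _ _ _ fun i _ => ?_
  exact (isHomogeneous_C_mul_X _ _)

/-- first point -/
noncomputable def UU : Fin 3 → MvPolynomial (Fin 5) ℂ := ![X 0, X 1, X 2]
/-- second point -/
noncomputable def VV : Fin 3 → MvPolynomial (Fin 5) ℂ := ![X 0, X 3, X 4]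

theorem UU_hom (i : Fin 3) : (UU i).IsHomogeneous 1 := by
  fin_cases i <;> exact isHomogeneous_X _ _

theorem VV_hom (i : Fin 3) : (VV i).IsHomogeneous 1 := by
  fin_cases i <;> exact isHomogeneous_X _ _

section

variable (T : (Fin 6 → ℂ) →ₗ[ℂ] (Fin 6 → ℂ) →ₗ[ℂ] (Fin 6 → ℂ) →ₗ[ℂ] ℂ)
  (p q : Fin 3 → (Fin 6 → ℂ))

/-- first coefficient -/
noncomputable def AA : MvPolynomial (Fin 5) ℂ :=
  ∑ i, ∑ j, ∑ k, C (3 * T (p i) (p j) (q k)) * (UU i * UU j * VV k)

/-- second coefficient -/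
noncomputable def BB : MvPolynomial (Fin 5) ℂ :=
  ∑ i, ∑ j, ∑ k, C (3 * T (p i) (q j) (q k)) * (UU i * VV j * VV k)

theorem AA_hom : (AA T p q).IsHomogeneous 3 := by
  refine IsHomogeneous.sum _ _ _ fun i _ => IsHomogeneous.sum _ _ _ fun j _ =>
    IsHomogeneous.sum _ _ _ fun k _ => ?_
  have := ((UU_hom i).mul (UU_hom j)).mul (VV_hom k)
  exact this.C_mul _

theorem BB_hom : (BB T p q).IsHomogeneous 3 := by
  refine IsHomogeneous.sum _ _ _ fun i _ => IsHomogeneous.sum _ _ _ fun j _ =>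
    IsHomogeneous.sum _ _ _ fun k _ => ?_
  have := ((UU_hom i).mul (VV_hom j)).mul (VV_hom k)
  exact this.C_mul _

/-- the point of the first plane -/
noncomputable def uu (t : Fin 5 → ℂ) : Fin 6 → ℂ := ∑ i, (eval t (UU i)) • p i
/-- the point of the second plane -/
noncomputable def vv (t : Fin 5 → ℂ) : Fin 6 → ℂ := ∑ i, (eval t (VV i)) • q i

theorem eval_AA (t : Fin 5 → ℂ) :
    eval t (AA T p q) = 3 * T (uu p t) (uu p t) (vv q t) := by
  simp only [AA, uu, vv, Fin.sum_univ_three, map_add, map_mul, eval_C, map_smul,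
    LinearMap.add_apply, LinearMap.smul_apply, smul_eq_mul]
  ring

theorem eval_BB (t : Fin 5 → ℂ) :
    eval t (BB T p q) = 3 * T (uu p t) (vv q t) (vv q t) := by
  simp only [BB, uu, vv, Fin.sum_univ_three, map_add, map_mul, eval_C, map_smul,
    LinearMap.add_apply, LinearMap.smul_apply, smul_eq_mul]
  ring

/-- the parametrisation -/
noncomputable def phi (l : Fin 6) : MvPolynomial (Fin 5) ℂ :=
  ∑ i, C (p i l) * (BB T p q * UU i) - ∑ i, C (q i l) * (AA T p q * VV i)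

theorem phi_hom (l : Fin 6) : (phi T p q l).IsHomogeneous 4 := by
  refine IsHomogeneous.sub ?_ ?_
  · refine IsHomogeneous.sum _ _ _ fun i _ => ?_
    exact ((BB_hom T p q).mul (UU_hom i)).C_mul _
  · refine IsHomogeneous.sum _ _ _ fun i _ => ?_
    exact ((AA_hom T p q).mul (VV_hom i)).C_mul _

theorem eval_phi (t : Fin 5 → ℂ) :
    (fun l => eval t (phi T p q l)) =
      (eval t (BB T p q)) • uu p t - (eval t (AA T p q)) • vv q t := by
  funext l
  simp only [phi, uu, vv, Fin.sum_univ_three, map_sub, map_add, map_mul, eval_C, Pi.sub_apply,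
    Pi.smul_apply, Pi.add_apply, smul_eq_mul]
  ring

end

theorem eval_aeval {n m : ℕ} (f : Fin n → MvPolynomial (Fin m) ℂ) (P : MvPolynomial (Fin n) ℂ)
    (t : Fin m → ℂ) : eval t (aeval f P) = eval (fun i => eval t (f i)) P := by
  induction P using MvPolynomial.induction_on with
  | C a => rw [algHom_C, eval_C]; exact eval_C _
  | add p q hp hq => rw [map_add, map_add, map_add, hp, hq]
  | mul_X p i hp => rw [map_mul, map_mul, map_mul, hp, aeval_X, eval_X]

theorem AA_ne_zero {T : (Fin 6 → ℂ) →ₗ[ℂ] (Fin 6 → ℂ) →ₗ[ℂ] (Fin 6 → ℂ) →ₗ[ℂ] ℂ}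
    {p q : Fin 3 → (Fin 6 → ℂ)} (h : ∃ k, T (p 0) (p 0) (q k) ≠ 0) : AA T p q ≠ 0 := by
  rintro hA
  have e : ∀ a b : ℂ, T (p 0) (p 0) (q 0) + a * T (p 0) (p 0) (q 1)
      + b * T (p 0) (p 0) (q 2) = 0 := by
    intro a b
    have h1 := eval_AA T p q ![1, 0, 0, a, b]
    rw [hA] at h1
    simp [uu, vv, UU, VV, Fin.sum_univ_three] at h1
    linear_combination h1
  have e0 := e 0 0
  have e1 := e 1 0
  have e2 := e 0 1
  obtain ⟨k, hk⟩ := h
  apply hk
  fin_cases k
  · simp only [Fin.zero_eta]; linear_combination e0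
  · simp only [Fin.mk_one]; linear_combination e1 - e0
  · simp only [Fin.reduceFinMk]; linear_combination e2 - e0

theorem BB_ne_zero {T : (Fin 6 → ℂ) →ₗ[ℂ] (Fin 6 → ℂ) →ₗ[ℂ] (Fin 6 → ℂ) →ₗ[ℂ] ℂ}
    {p q : Fin 3 → (Fin 6 → ℂ)} (h : ∃ k, T (p k) (q 0) (q 0) ≠ 0) : BB T p q ≠ 0 := by
  rintro hA
  have e : ∀ a b : ℂ, T (p 0) (q 0) (q 0) + a * T (p 1) (q 0) (q 0)
      + b * T (p 2) (q 0) (q 0) = 0 := by
    intro a b
    have h1 := eval_BB T p q ![1, a, b, 0, 0]
    rw [hA] at h1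
    simp [uu, vv, UU, VV, Fin.sum_univ_three] at h1
    linear_combination h1
  have e0 := e 0 0
  have e1 := e 1 0
  have e2 := e 0 1
  obtain ⟨k, hk⟩ := h
  apply hk
  fin_cases k
  · simp only [Fin.zero_eta]; linear_combination e0
  · simp only [Fin.mk_one]; linear_combination e1 - e0
  · simp only [Fin.reduceFinMk]; linear_combination e2 - e0

/-- the point with the given coordinates -/
noncomputable def pt (p : Fin 3 → (Fin 6 → ℂ)) (c : Fin 3 → ℂ) : Fin 6 → ℂ := ∑ i, c i • p i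

theorem pt_smul (p : Fin 3 → (Fin 6 → ℂ)) (r : ℂ) (c : Fin 3 → ℂ) :
    pt p (fun i => r * c i) = r • pt p c := by
  simp only [pt, Finset.smul_sum, smul_smul]

/-- `T(x,y,y)` as a polynomial in linear polynomials -/
noncomputable def CC (T : (Fin 6 → ℂ) →ₗ[ℂ] (Fin 6 → ℂ) →ₗ[ℂ] (Fin 6 → ℂ) →ₗ[ℂ] ℂ)
    (p q : Fin 3 → (Fin 6 → ℂ)) (x y : Fin 3 → ((Fin 6 → ℂ) →ₗ[ℂ] ℂ)) :
    MvPolynomial (Fin 6) ℂ :=
  ∑ i, ∑ j, ∑ k, C (3 * T (p i) (q j) (q k)) * (linPoly (x i) * linPoly (y j) * linPoly (y k))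

theorem eval_CC (T : (Fin 6 → ℂ) →ₗ[ℂ] (Fin 6 → ℂ) →ₗ[ℂ] (Fin 6 → ℂ) →ₗ[ℂ] ℂ)
    (p q : Fin 3 → (Fin 6 → ℂ)) (x y : Fin 3 → ((Fin 6 → ℂ) →ₗ[ℂ] ℂ)) (v : Fin 6 → ℂ) :
    eval v (CC T p q x y) =
      3 * T (pt p fun i => x i v) (pt q fun i => y i v) (pt q fun i => y i v) := by
  simp only [CC, pt, Fin.sum_univ_three, map_add, map_mul, eval_C, map_smul,
    LinearMap.add_apply, LinearMap.smul_apply, smul_eq_mul, eval_linPoly]
  ring

/-- the inverse map -/
noncomputable def psi (x y : Fin 3 → ((Fin 6 → ℂ) →ₗ[ℂ] ℂ)) : Fin 5 → MvPolynomial (Fin 6) ℂ :=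
  ![linPoly (x 0) * linPoly (y 0), linPoly (x 1) * linPoly (y 0), linPoly (x 2) * linPoly (y 0),
    linPoly (y 1) * linPoly (x 0), linPoly (y 2) * linPoly (x 0)]

theorem psi_hom (x y : Fin 3 → ((Fin 6 → ℂ) →ₗ[ℂ] ℂ)) (j : Fin 5) :
    (psi x y j).IsHomogeneous 2 := by
  fin_cases j <;> exact (linPoly_hom _).mul (linPoly_hom _)

theorem eval_psi (x y : Fin 3 → ((Fin 6 → ℂ) →ₗ[ℂ] ℂ)) (v : Fin 6 → ℂ) :
    (fun j => eval v (psi x y j)) = ![x 0 v * y 0 v, x 1 v * y 0 v, x 2 v * y 0 v,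
      y 1 v * x 0 v, y 2 v * x 0 v] := by
  funext j
  fin_cases j <;> simp [psi, eval_linPoly]

theorem rational_core {F : MvPolynomial (Fin 6) ℂ}
    {T : (Fin 6 → ℂ) →ₗ[ℂ] (Fin 6 → ℂ) →ₗ[ℂ] (Fin 6 → ℂ) →ₗ[ℂ] ℂ}
    (s1 : ∀ x y z, T x y z = T y x z) (s2 : ∀ x y z, T x y z = T x z y)
    (hT : ∀ v, eval v F = T v v v)
    {p q : Fin 3 → (Fin 6 → ℂ)} {x y : Fin 3 → ((Fin 6 → ℂ) →ₗ[ℂ] ℂ)}
    (hv : ∀ v : Fin 6 → ℂ, v = pt p (fun i => x i v) + pt q (fun i => y i v))
    (hx : ∀ (c d : Fin 3 → ℂ) i, x i (pt p c + pt q d) = c i)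
    (hy : ∀ (c d : Fin 3 → ℂ) i, y i (pt p c + pt q d) = d i)
    (hp : ∀ c, T (pt p c) (pt p c) (pt p c) = 0) (hq : ∀ c, T (pt q c) (pt q c) (pt q c) = 0)
    (hA : AA T p q ≠ 0) (hB : BB T p q ≠ 0) : RationalHypersurface F := by
  have hF2 : ∀ c d : Fin 3 → ℂ, eval (pt p c + pt q d) F =
      3 * T (pt p c) (pt p c) (pt q d) + 3 * T (pt p c) (pt q d) (pt q d) := by
    intro c d
    have e1 := hp c
    have e2 := hq d
    rw [hT]
    generalize pt p c = u at *
    generalize pt q d = w at *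
    simp only [map_add, LinearMap.add_apply]
    have a1 : T u w u = T u u w := s2 _ _ _
    have a2 : T w u u = T u u w := by rw [s1, s2]
    have a3 : T w u w = T u w w := s1 _ _ _
    have a4 : T w w u = T u w w := by rw [s2, s1]
    rw [a1, a2, a3, a4]
    linear_combination e1 + e2
  have hphi : ∀ t, (fun l => eval t (phi T p q l)) =
      pt p (fun i => eval t (BB T p q) * eval t (UU i)) +
      pt q (fun i => - eval t (AA T p q) * eval t (VV i)) := by
    intro t
    rw [eval_phi]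
    simp only [pt, uu, vv, Finset.smul_sum, smul_smul, neg_mul, neg_smul,
      Finset.sum_neg_distrib, sub_eq_add_neg]
  have ea : ∀ t, eval t (AA T p q) = 3 * T (pt p fun i => eval t (UU i))
      (pt p fun i => eval t (UU i)) (pt q fun i => eval t (VV i)) := eval_AA T p q
  have eb : ∀ t, eval t (BB T p q) = 3 * T (pt p fun i => eval t (UU i))
      (pt q fun i => eval t (VV i)) (pt q fun i => eval t (VV i)) := eval_BB T p q
  have c1 : aeval (phi T p q) F = 0 := by
    refine MvPolynomial.funext fun t => ?_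
    rw [eval_aeval, hphi, hF2, pt_smul, pt_smul, map_zero]
    have e1 := ea t
    have e2 := eb t
    simp only [map_smul, LinearMap.smul_apply, smul_eq_mul]
    generalize eval t (AA T p q) = a at *
    generalize eval t (BB T p q) = b at *
    linear_combination (a * b ^ 2) * e1 - (a ^ 2 * b) * e2
  have c4 : ∀ j, aeval (phi T p q) (psi x y j) = -(AA T p q * BB T p q * X 0) * X j := by
    intro j
    refine MvPolynomial.funext fun t => ?_
    rw [eval_aeval, hphi]
    have := congrFun (eval_psi x y (pt p (fun i => eval t (BB T p q) * eval t (UU i)) +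
      pt q (fun i => - eval t (AA T p q) * eval t (VV i)))) j
    rw [this]
    simp only [hx, hy, map_mul, map_neg, eval_X]
    fin_cases j <;> simp [UU, VV] <;> ring
  have c5 : ∀ i, aeval (psi x y) (phi T p q i) -
      linPoly (x 0) ^ 2 * linPoly (y 0) ^ 2 * CC T p q x y * X i =
      F * (-(linPoly (x 0) ^ 2 * linPoly (y 0) ^ 2 *
        ∑ k, C (q k i) * linPoly (y k))) := by
    intro i
    refine MvPolynomial.funext fun v => ?_
    have h3 : (fun i => eval (fun j => eval v (psi x y j)) (UU i)) =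
        fun i => y 0 v * x i v := by
      funext i
      rw [eval_psi]
      fin_cases i <;> simp only [UU, Fin.zero_eta, Fin.mk_one, Fin.reduceFinMk, Matrix.cons_val,
        eval_X] <;> ring
    have h4 : (fun i => eval (fun j => eval v (psi x y j)) (VV i)) =
        fun i => x 0 v * y i v := by
      funext i
      rw [eval_psi]
      fin_cases i <;> simp only [VV, Fin.zero_eta, Fin.mk_one, Fin.reduceFinMk, Matrix.cons_val,
        eval_X] <;> ring
    have h5 := hF2 (fun i => x i v) (fun i => y i v)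
    rw [← hv v] at h5
    have h8 : ∀ i, eval v (∑ k, C (q k i) * linPoly (y k)) = pt q (fun i => y i v) i := by
      intro i
      simp only [pt, Fin.sum_univ_three, map_add, map_mul, eval_C, eval_linPoly, Pi.add_apply,
        Pi.smul_apply, smul_eq_mul]
      ring
    have h9 : v i = pt p (fun i => x i v) i + pt q (fun i => y i v) i := congrFun (hv v) i
    rw [map_sub, eval_aeval]
    simp only [map_mul, map_neg, map_pow, eval_linPoly, eval_X, eval_CC, h8]
    rw [h5, h9]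
    generalize (fun j => eval v (psi x y j)) = t at *
    have h0 := congrFun (hphi t) i
    have h1 := ea t
    have h2 := eb t
    have h6 := congrFun h3
    have h7 := congrFun h4
    rw [h3, h4] at h1 h2
    simp only [h6, h7] at h0
    have k1 : (pt p fun i => eval t (BB T p q) * (y 0 v * x i v)) =
        (eval t (BB T p q) * y 0 v) • pt p (fun i => x i v) := by
      rw [← pt_smul]; congr 1; funext i; ring
    have k2 : (pt q fun i => -eval t (AA T p q) * (x 0 v * y i v)) =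
        (-eval t (AA T p q) * x 0 v) • pt q (fun i => y i v) := by
      rw [← pt_smul]; congr 1; funext i; ring
    rw [k1, k2] at h0
    simp only [pt_smul, map_smul, LinearMap.smul_apply, smul_eq_mul, Pi.smul_apply,
      Pi.add_apply] at h0 h1 h2 ⊢
    rw [h0, h1, h2]
    ring
  have c3 : ¬ F ∣ linPoly (x 0) ^ 2 * linPoly (y 0) ^ 2 * CC T p q x y := by
    rintro ⟨k, hk⟩
    have h1 : aeval (phi T p q) (linPoly (x 0) ^ 2 * linPoly (y 0) ^ 2 * CC T p q x y) = 0 := by
      rw [hk, map_mul, c1, zero_mul]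
    have h2 : aeval (phi T p q) (linPoly (x 0) ^ 2 * linPoly (y 0) ^ 2 * CC T p q x y) =
        (AA T p q) ^ 4 * (BB T p q) ^ 4 * X 0 ^ 4 := by
      refine MvPolynomial.funext fun t => ?_
      rw [eval_aeval, hphi]
      simp only [map_mul, map_pow, eval_linPoly, eval_CC, hx, hy, eval_X]
      simp only [pt_smul, map_smul, LinearMap.smul_apply, smul_eq_mul]
      have e1 := ea t
      have e2 := eb t
      have e3 : eval t (UU 0) = t 0 := by simp [UU]
      have e4 : eval t (VV 0) = t 0 := by simp [VV]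
      rw [e3, e4]
      generalize eval t (AA T p q) = a at *
      generalize eval t (BB T p q) = b at *
      linear_combination (-(a ^ 4 * b ^ 3 * t 0 ^ 4)) * e2
    rw [h2] at h1
    have h3 : (AA T p q) ^ 4 * (BB T p q) ^ 4 * X 0 ^ 4 ≠ 0 :=
      mul_ne_zero (mul_ne_zero (pow_ne_zero _ hA) (pow_ne_zero _ hB))
        (pow_ne_zero _ (X_ne_zero 0))
    exact h3 h1
  refine ⟨4, 2, phi T p q, psi x y, -(AA T p q * BB T p q * X 0),
    linPoly (x 0) ^ 2 * linPoly (y 0) ^ 2 * CC T p q x y, phi_hom T p q, psi_hom x y,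
    c1, ?_, c3, c4, fun i => ⟨_, c5 i⟩⟩
  exact neg_ne_zero.mpr (mul_ne_zero (mul_ne_zero hA hB) (X_ne_zero 0))

theorem rational_of_two_planes {F : MvPolynomial (Fin 6) ℂ} (hF : SmoothCubic F)
    (h : TwoDisjointPlanes F) : RationalHypersurface F := by
  obtain ⟨W1, W2, ⟨h1, z1⟩, ⟨h2, z2⟩, hd⟩ := h
  have hdis : Disjoint W1 W2 := disjoint_iff.mpr hd
  have hsup : W1 ⊔ W2 = ⊤ := by
    apply Submodule.eq_top_of_disjoint _ _ _ hdis
    rw [h1, h2]; simp
  have hc : IsCompl W1 W2 := ⟨hdis, codisjoint_iff.mpr hsup⟩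
  let b1 := Module.finBasisOfFinrankEq ℂ W1 h1
  let b2 := Module.finBasisOfFinrankEq ℂ W2 h2
  let B := (b1.prod b2).map (Submodule.prodEquivOfIsCompl W1 W2 hc)
  let T := tri F
  let p : Fin 3 → (Fin 6 → ℂ) := fun i => (b1 i : Fin 6 → ℂ)
  let q : Fin 3 → (Fin 6 → ℂ) := fun i => (b2 i : Fin 6 → ℂ)
  have hBp : ∀ i, B (Sum.inl i) = p i := by
    intro i
    simp [B, p, Submodule.coe_prodEquivOfIsCompl']
  have hBq : ∀ i, B (Sum.inr i) = q i := by
    intro i
    simp [B, q, Submodule.coe_prodEquivOfIsCompl']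
  let x : Fin 3 → ((Fin 6 → ℂ) →ₗ[ℂ] ℂ) := fun i => B.coord (Sum.inl i)
  let y : Fin 3 → ((Fin 6 → ℂ) →ₗ[ℂ] ℂ) := fun i => B.coord (Sum.inr i)
  have hv : ∀ v : Fin 6 → ℂ, v = pt p (fun i => x i v) + pt q (fun i => y i v) := by
    intro v
    conv_lhs => rw [← B.sum_repr v, Fintype.sum_sum_type]
    simp only [hBp, hBq]
    rfl
  have hpt : ∀ c d : Fin 3 → ℂ, pt p c + pt q d =
      ∑ a, Sum.elim c d a • B a := by
    intro c d
    rw [Fintype.sum_sum_type]
    simp only [hBp, hBq, Sum.elim_inl, Sum.elim_inr]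
    rfl
  have hx : ∀ (c d : Fin 3 → ℂ) i, x i (pt p c + pt q d) = c i := by
    intro c d i
    simp only [x, hpt, Module.Basis.coord_apply, Module.Basis.repr_sum_self, Sum.elim_inl]
  have hy : ∀ (c d : Fin 3 → ℂ) i, y i (pt p c + pt q d) = d i := by
    intro c d i
    simp only [y, hpt, Module.Basis.coord_apply, Module.Basis.repr_sum_self, Sum.elim_inr]
  have hpW : ∀ i, p i ∈ W1 := fun i => (b1 i).2
  have hqW : ∀ i, q i ∈ W2 := fun i => (b2 i).2
  have hT : ∀ v, eval v F = T v v v := fun v => (tri_self hF.1 v).symm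
  have hpc : ∀ c, pt p c ∈ W1 := fun c =>
    Submodule.sum_mem _ fun i _ => W1.smul_mem _ (hpW i)
  have hqc : ∀ c, pt q c ∈ W2 := fun c =>
    Submodule.sum_mem _ fun i _ => W2.smul_mem _ (hqW i)
  have s1 : ∀ x y z, T x y z = T y x z := tri_comm1 F
  have s2 : ∀ x y z, T x y z = T x z y := tri_comm2 F
  have t1 : ∀ w ∈ W1, T w w w = 0 := fun w hw => by rw [← hT]; exact z1 w hw
  have t2 : ∀ w ∈ W2, T w w w = 0 := fun w hw => by rw [← hT]; exact z2 w hw
  refine rational_core s1 s2 hT hv hx hy (fun c => t1 _ (hpc c)) (fun c => t2 _ (hqc c)) ?_ ?_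
  · apply AA_ne_zero
    have hne : p 0 ≠ 0 := by
      rw [← hBp]; exact B.ne_zero _
    obtain ⟨w, hw⟩ := smooth_tri hF hne
    by_contra hcon
    push Not at hcon
    apply hw
    change T (p 0) (p 0) w = 0
    rw [hv w, map_add, tri_zero_of_self s1 s2 t1 (hpW 0) (hpW 0) (hpc _)]
    simp only [pt, map_sum, map_smul, hcon, smul_zero, Finset.sum_const_zero, add_zero]
  · apply BB_ne_zero
    have hne : q 0 ≠ 0 := by
      rw [← hBq]; exact B.ne_zero _
    obtain ⟨w, hw⟩ := smooth_tri hF hne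
    by_contra hcon
    push Not at hcon
    apply hw
    change T (q 0) (q 0) w = 0
    rw [hv w, map_add, tri_zero_of_self s1 s2 t2 (hqW 0) (hqW 0) (hqc _)]
    have : ∀ k, T (q 0) (q 0) (p k) = 0 := by
      intro k
      rw [s2, s1]; exact hcon k
    simp only [pt, map_sum, map_smul, this, smul_zero, Finset.sum_const_zero, add_zero]

end Vale.Agent.P287.H674
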