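import Vale.Agent.P287.H674.Cub
import Vale.Agent.P287.H674.PlaneGeo

/-!
The residue functional of a plane on a smooth cubic fourfold: a functional on cubic forms which
depends only on the restriction to the plane and vanishes on the Jacobian ideal.
-/

namespace Vale.Agent.P287.H674

open Module

variable {V : Type*} [AddCommGroup V] [Module ℂ V]
variable {T : V →ₗ[ℂ] V →ₗ[ℂ] V →ₗ[ℂ] ℂ}

structure Res (T : V →ₗ[ℂ] V →ₗ[ℂ] V →ₗ[ℂ] ℂ) (W : Submodule ℂ V) (lam : (V → ℂ) →ₗ[ℂ] ℂ) :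
    Prop where
  res : ∀ f g : V → ℂ, (∀ v ∈ W, f v = g v) → lam f = lam g
  ideal : ∀ (φ : V →ₗ[ℂ] ℂ) (y : V), lam (fun v => φ v * T v v y) = 0
  ne : ∃ φ ψ χ : V →ₗ[ℂ] ℂ, lam (fun v => φ v * ψ v * χ v) ≠ 0

/-- exponents of the ten ternary cubic monomials -/
def idx : Fin 10 → Fin 3 × Fin 3 × Fin 3 :=
  ![(0, 0, 0), (1, 1, 1), (2, 2, 2), (0, 0, 1), (0, 0, 2), (1, 1, 0), (1, 1, 2), (2, 2, 0),
    (2, 2, 1), (0, 1, 2)]

/-- the ten ternary cubic monomials -/
def mo (i : Fin 10) (x : Fin 3 → ℂ) : ℂ := x (idx i).1 * x (idx i).2.1 * x (idx i).2.2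

theorem mo_indep : LinearIndependent ℂ mo := by
  rw [Fintype.linearIndependent_iff]
  intro g hg
  have h : ∀ x : Fin 3 → ℂ, g 0 * (x 0 * x 0 * x 0) + g 1 * (x 1 * x 1 * x 1) +
      g 2 * (x 2 * x 2 * x 2) + g 3 * (x 0 * x 0 * x 1) + g 4 * (x 0 * x 0 * x 2) +
      g 5 * (x 1 * x 1 * x 0) + g 6 * (x 1 * x 1 * x 2) + g 7 * (x 2 * x 2 * x 0) +
      g 8 * (x 2 * x 2 * x 1) + g 9 * (x 0 * x 1 * x 2) = 0 := by
    intro x
    have h1 := congrFun hg x
    simp only [Finset.sum_apply, Pi.smul_apply, smul_eq_mul, Pi.zero_apply] at h1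
    rw [← h1]
    simp only [Fin.sum_univ_succ, Fin.sum_univ_zero, mo, idx]
    simp
    ring
  have e0 := h ![1, 0, 0]
  have e1 := h ![0, 1, 0]
  have e2 := h ![0, 0, 1]
  have e3 := h ![1, 1, 0]
  have e4 := h ![1, -1, 0]
  have e5 := h ![1, 0, 1]
  have e6 := h ![1, 0, -1]
  have e7 := h ![0, 1, 1]
  have e8 := h ![0, 1, -1]
  have e9 := h ![1, 1, 1]
  simp at e0 e1 e2 e3 e4 e5 e6 e7 e8 e9
  have k0 : g 0 = 0 := e0
  have k1 : g 1 = 0 := e1
  have k2 : g 2 = 0 := e2
  simp only [k0, k1, k2] at e3 e4 e5 e6 e7 e8 e9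
  have k3 : g 3 = 0 := by linear_combination (e3 - e4) / 2
  have k5 : g 5 = 0 := by linear_combination (e3 + e4) / 2
  have k4 : g 4 = 0 := by linear_combination (e5 - e6) / 2
  have k7 : g 7 = 0 := by linear_combination (e5 + e6) / 2
  have k6 : g 6 = 0 := by linear_combination (e7 - e8) / 2
  have k8 : g 8 = 0 := by linear_combination (e7 + e8) / 2
  have k9 : g 9 = 0 := by
    simp only [k3, k4, k5, k6, k7, k8] at e9
    linear_combination e9
  intro i
  fin_cases i <;> assumption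

theorem exists_res (hS : Sm T) (hV : Module.finrank ℂ V = 6) {W : Submodule ℂ V}
    (hW : IsPl T W) : ∃ lam, Res T W lam := by
  have hfin : Module.Finite ℂ V := Module.finite_of_finrank_pos (by omega)
  let B := Module.finBasisOfFinrankEq ℂ W hW.1
  obtain ⟨C, hC⟩ := Submodule.exists_isCompl W
  have hC3 : Module.finrank ℂ C = 3 := by
    have := Submodule.finrank_add_eq_of_isCompl hC
    have := hW.1
    omega
  let E := Module.finBasisOfFinrankEq ℂ C hC3
  let vb : (Fin 3 → ℂ) → V := fun x => (∑ i, x i • B i : W)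
  have hvb : ∀ x, vb x ∈ W := fun x => (∑ i, x i • B i : W).2
  let q : Fin 3 × Fin 3 → (Fin 3 → ℂ) → ℂ := fun p x => x p.1 * T (vb x) (vb x) (E p.2)
  let S : Submodule ℂ ((Fin 3 → ℂ) → ℂ) := Submodule.span ℂ (Set.range q)
  have hS9 : Module.finrank ℂ S ≤ 9 := by
    have := finrank_range_le_card (R := ℂ) q
    have e : Fintype.card (Fin 3 × Fin 3) = 9 := by simp
    rw [e] at this
    exact this
  have hSf : Module.Finite ℂ S := Module.Finite.span_of_finite ℂ (Set.finite_range _)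
  obtain ⟨i, hi⟩ : ∃ i, mo i ∉ S := by
    by_contra hcon
    push Not at hcon
    have h1 : Submodule.span ℂ (Set.range mo) ≤ S := by
      rw [Submodule.span_le]
      rintro _ ⟨i, rfl⟩
      exact hcon i
    have h2 := Submodule.finrank_mono h1
    rw [finrank_span_eq_card mo_indep] at h2
    simp at h2
    omega
  obtain ⟨Λ, hΛ, hΛS⟩ := Submodule.exists_le_ker_of_notMem hi
  have hcoord : ∀ k, ∃ φ : V →ₗ[ℂ] ℂ, ∀ x, φ (vb x) = x k := by
    intro k
    obtain ⟨φ, hφ⟩ := LinearMap.exists_extend (B.coord k)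
    refine ⟨φ, fun x => ?_⟩
    have := congrArg (fun g => g (∑ i, x i • B i : W)) hφ
    simp only [LinearMap.comp_apply, Submodule.subtype_apply] at this
    rw [show φ (vb x) = φ ((∑ i, x i • B i : W) : V) from rfl, this]
    simp [Finsupp.single_apply]
  choose φ hφ using hcoord
  refine ⟨Λ ∘ₗ LinearMap.funLeft ℂ ℂ vb, ?_, ?_, ?_⟩
  · intro f g hfg
    simp only [LinearMap.comp_apply]
    congr 1
    funext x
    simp only [LinearMap.funLeft_apply]
    exact hfg _ (hvb x)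
  · intro ψ y
    have hy : y ∈ W ⊔ C := by rw [hC.sup_eq_top]; trivial
    obtain ⟨w, hw, c, hc, rfl⟩ := Submodule.mem_sup.mp hy
    obtain ⟨r, h1⟩ : ∃ r : Fin 3 → ℂ, c = ∑ j, r j • (E j : V) := by
      refine ⟨fun j => E.repr ⟨c, hc⟩ j, ?_⟩
      have h1 := congrArg Subtype.val (E.sum_repr ⟨c, hc⟩)
      simp only [Submodule.coe_sum, Submodule.coe_smul] at h1
      exact h1.symm
    rw [LinearMap.comp_apply]
    have h2 : (LinearMap.funLeft ℂ ℂ vb) (fun v => ψ v * T v v (w + c)) =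
        ∑ k, ∑ j, (ψ (B k) * r j) • q (k, j) := by
      funext x
      simp only [LinearMap.funLeft_apply, Finset.sum_apply, Pi.smul_apply, smul_eq_mul, q]
      rw [map_add, tri_zero_of_self hS.s1 hS.s2 hW.2 (hvb x) (hvb x) hw, zero_add, h1, map_sum]
      have h3 : ψ (vb x) = ∑ k, x k * ψ (B k) := by
        simp only [vb, Submodule.coe_sum, Submodule.coe_smul, map_sum, map_smul, smul_eq_mul]
      rw [h3, Finset.sum_mul_sum]
      refine Finset.sum_congr rfl fun k _ => Finset.sum_congr rfl fun j _ => ?_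
      rw [map_smul, smul_eq_mul]
      ring
    rw [h2, map_sum]
    refine Finset.sum_eq_zero fun k _ => ?_
    rw [map_sum]
    refine Finset.sum_eq_zero fun j _ => ?_
    rw [map_smul]
    have : Λ (q (k, j)) = 0 := hΛS (Submodule.subset_span ⟨(k, j), rfl⟩)
    rw [this, smul_zero]
  · refine ⟨φ (idx i).1, φ (idx i).2.1, φ (idx i).2.2, ?_⟩
    rw [LinearMap.comp_apply]
    have : (LinearMap.funLeft ℂ ℂ vb) (fun v => φ (idx i).1 v * φ (idx i).2.1 v *
        φ (idx i).2.2 v) = mo i := by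
      funext x
      simp only [LinearMap.funLeft_apply, hφ, mo]
    rw [this]
    exact hΛ

namespace Res

variable {W : Submodule ℂ V} {lam : (V → ℂ) →ₗ[ℂ] ℂ}

/-- the functional vanishes on `T v v (A v)` -/
theorem der [FiniteDimensional ℂ V] (h : Res T W lam) (A : V →ₗ[ℂ] V) :
    lam (fun v => T v v (A v)) = 0 := by
  let b := Module.finBasis ℂ V
  have h1 : (fun v => T v v (A v)) = ∑ i, fun v => b.coord i v * T v v (A (b i)) := by
    funext v
    have := lin_exp b (T v v ∘ₗ A) v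
    simp only [LinearMap.comp_apply, smul_eq_mul] at this
    rw [this, Finset.sum_apply]
  rw [h1, map_sum]
  exact Finset.sum_eq_zero fun i _ => h.ideal _ _

end Res

end Vale.Agent.P287.H674
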