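import Vale.Agent.P287.H674.Res1
import Vale.Agent.P287.H674.Phi3c

/-!
Frames adapted to a three-dimensional subspace, and the change of the frame.
-/

namespace Vale.Agent.P287.H674

open Module

variable {V : Type*} [AddCommGroup V] [Module ℂ V]
variable {T : V →ₗ[ℂ] V →ₗ[ℂ] V →ₗ[ℂ] ℂ}

/-- a basis `b` of `W` completed by `e` -/
structure Fr (W : Submodule ℂ V) (b e : Fin 3 → V) : Prop where
  b3 : IsB3 W b
  span : ∀ v : V, ∃ r s : Fin 3 → ℂ, v = vec b r + vec e s

/-- the volume of a frame -/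
noncomputable def vol (β : Basis (Fin 3 ⊕ Fin 3) ℂ V) (b e : Fin 3 → V) : ℂ :=
  β.det (Sum.elim b e)

theorem det_comb {ι : Type*} [Fintype ι] [DecidableEq ι] (β : Basis ι ℂ V) (u u' : ι → V)
    (P : Matrix ι ι ℂ) (h : ∀ i, u' i = ∑ j, P i j • u j) : β.det u' = P.det * β.det u := by
  rw [Basis.det_apply, Basis.det_apply]
  have : β.toMatrix u' = β.toMatrix u * P.transpose := by
    ext i j
    rw [Basis.toMatrix_apply, h j, Matrix.mul_apply, map_sum, Finsupp.finset_sum_apply]
    refine Finset.sum_congr rfl fun k _ => ?_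
    rw [map_smul, Finsupp.smul_apply, smul_eq_mul, Matrix.transpose_apply, Basis.toMatrix_apply,
      mul_comm]
  rw [this, Matrix.det_mul, Matrix.det_transpose, mul_comm]

/-- the matrix of coefficients -/
def mt (g : Fin 3 → Fin 3 → ℂ) : Matrix (Fin 3) (Fin 3) ℂ := Matrix.of g

theorem vol_change (β : Basis (Fin 3 ⊕ Fin 3) ℂ V) {b e b' e' : Fin 3 → V}
    (g z h : Fin 3 → Fin 3 → ℂ) (hb : ∀ j, b' j = vec b (g j))
    (he : ∀ j, e' j = vec b (z j) + vec e (h j)) :
    vol β b' e' = (mt g).det * (mt h).det * vol β b e := by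
  unfold vol
  rw [det_comb β (Sum.elim b e) (Sum.elim b' e') (Matrix.fromBlocks (mt g) 0 (mt z) (mt h)),
    Matrix.det_fromBlocks_zero₁₂]
  intro i
  rcases i with j | j
  · simp only [Sum.elim_inl, hb j, Fintype.sum_sum_type, Matrix.fromBlocks_apply₁₁,
      Matrix.fromBlocks_apply₁₂, Matrix.zero_apply, zero_smul, Finset.sum_const_zero, add_zero,
      Fin.sum_univ_three, mt, Matrix.of_apply, vec]
  · simp only [Sum.elim_inr, Sum.elim_inl, he j, Fintype.sum_sum_type, Matrix.fromBlocks_apply₂₁,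
      Matrix.fromBlocks_apply₂₂, Fin.sum_univ_three, mt, Matrix.of_apply, vec]

theorem vec_single (b : Fin 3 → V) (i : Fin 3) : vec b (Pi.single i 1) = b i := by
  fin_cases i <;> simp [vec]

theorem exists_frame_basis (hV : Module.finrank ℂ V = 6) :
    Nonempty (Basis (Fin 3 ⊕ Fin 3) ℂ V) := by
  have hfin : Module.Finite ℂ V := Module.finite_of_finrank_pos (by omega)
  exact ⟨(Module.finBasisOfFinrankEq ℂ V hV).reindex
    (show Fin 6 ≃ Fin 3 ⊕ Fin 3 from (finSumFinEquiv (m := 3) (n := 3)).symm)⟩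

theorem Fr.vol_ne {W : Submodule ℂ V} {b e : Fin 3 → V} (h : Fr W b e)
    (β : Basis (Fin 3 ⊕ Fin 3) ℂ V) : vol β b e ≠ 0 := by
  choose r s hrs using h.span
  have h1 := det_comb β (Sum.elim b e) β
    (fun i => Sum.elim (r (β i)) (s (β i))) (fun i => by
      conv_lhs => rw [hrs (β i)]
      simp only [Fintype.sum_sum_type, Sum.elim_inl, Sum.elim_inr, Fin.sum_univ_three, vec])
  rw [Basis.det_self] at h1
  intro h0
  unfold vol at h0
  rw [h0, mul_zero] at h1
  exact one_ne_zero h1

/-- the determinant of the form `T v` on a frame -/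
noncomputable def dd (T : V →ₗ[ℂ] V →ₗ[ℂ] V →ₗ[ℂ] ℂ) (b e : Fin 3 → V) (v : V) : ℂ :=
  (mt fun j k => T v (b j) (e k)).det

theorem dd_change {b e b' e' : Fin 3 → V} {v : V} (g h : Fin 3 → Fin 3 → ℂ) (z : Fin 3 → V)
    (hb : ∀ j, b' j = vec b (g j)) (he : ∀ j, e' j = z j + vec e (h j))
    (hz : ∀ j k, T v (b j) (z k) = 0) :
    dd T b' e' v = (mt g).det * (mt h).det * dd T b e v := by
  have : (mt fun j k => T v (b' j) (e' k)) =
      mt g * (mt fun j k => T v (b j) (e k)) * (mt h).transpose := by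
    ext j k
    simp only [mt, Matrix.of_apply, Matrix.mul_apply, Matrix.transpose_apply, Fin.sum_univ_three,
      hb j, he k, vec, map_add, map_smul, LinearMap.add_apply, LinearMap.smul_apply, smul_eq_mul,
      hz]
    ring
  unfold dd
  rw [this, Matrix.det_mul, Matrix.det_mul, Matrix.det_transpose]
  ring

namespace Fr

variable {W : Submodule ℂ V} {b e b' e' : Fin 3 → V}

/-- on the plane the determinant divided by the volume does not depend on the frame -/
theorem dd_eq (h : Fr W b e) (h' : Fr W b' e') (hS : Sm T) (hW : IsPl T W)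
    (β : Basis (Fin 3 ⊕ Fin 3) ℂ V) {v : V} (hv : v ∈ W) :
    dd T b' e' v * vol β b e = dd T b e v * vol β b' e' := by
  choose g hg using fun j => h.b3.span (b' j) (h'.b3.mem j)
  choose z k hzk using fun j => h.span (e' j)
  rw [vol_change β g z k hg hzk, dd_change g k (fun j => vec b (z j)) hg hzk fun j k =>
    tri_zero_of_self hS.s1 hS.s2 hW.2 hv (h.b3.mem j) (h.b3.vec_mem _)]
  ring

/-- the same for arbitrary vectors if the complement is fixed -/
theorem dd_eq' (h : Fr W b e) (h' : Fr W b' e') {C : Submodule ℂ V} (hC : IsCompl W C)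
    (he : ∀ j, e j ∈ C) (he' : ∀ j, e' j ∈ C)
    (β : Basis (Fin 3 ⊕ Fin 3) ℂ V) (v : V) :
    dd T b' e' v * vol β b e = dd T b e v * vol β b' e' := by
  choose g hg using fun j => h.b3.span (b' j) (h'.b3.mem j)
  choose z k hzk using fun j => h.span (e' j)
  have hz : ∀ j, vec b (z j) = 0 := by
    intro j
    have h1 : vec b (z j) ∈ W := h.b3.vec_mem _
    have h2 : vec b (z j) ∈ C := by
      have : vec b (z j) = e' j - vec e (k j) := by rw [hzk j]; abel
      rw [this]
      exact C.sub_mem (he' j) (C.add_mem (C.add_mem (C.smul_mem _ (he 0)) (C.smul_mem _ (he 1)))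
        (C.smul_mem _ (he 2)))
    have h3 : vec b (z j) ∈ W ⊓ C := ⟨h1, h2⟩
    rw [hC.inf_eq_bot] at h3
    exact (Submodule.mem_bot ℂ).mp h3
  rw [vol_change β g z k hg hzk, dd_change g k (fun j => vec b (z j)) hg hzk fun j k => by
    rw [hz k, map_zero]]
  ring

/-- coordinate functionals -/
theorem coords (h : Fr W b e) : ∃ x : Fin 3 → (V →ₗ[ℂ] ℂ), ∀ w ∈ W,
    w = x 0 w • b 0 + x 1 w • b 1 + x 2 w • b 2 := by
  let f : Fin 3 → W := fun i => ⟨b i, h.b3.mem i⟩
  have hli : LinearIndependent ℂ f := by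
    rw [Fintype.linearIndependent_iff]
    intro g hg i
    have h1 := congrArg Subtype.val hg
    simp only [Submodule.coe_sum, Submodule.coe_smul, Fin.sum_univ_three, f,
      Submodule.coe_zero] at h1
    exact congrFun (h.b3.ind g h1) i
  have hsp : ⊤ ≤ Submodule.span ℂ (Set.range f) := by
    intro w _
    obtain ⟨a, ha⟩ := h.b3.span w w.2
    have : w = a 0 • f 0 + a 1 • f 1 + a 2 • f 2 := Subtype.ext (by rw [ha]; rfl)
    rw [this]
    have hm : ∀ i, f i ∈ Submodule.span ℂ (Set.range f) := fun i =>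
      Submodule.subset_span ⟨i, rfl⟩
    exact Submodule.add_mem _ (Submodule.add_mem _ (Submodule.smul_mem _ _ (hm 0))
      (Submodule.smul_mem _ _ (hm 1))) (Submodule.smul_mem _ _ (hm 2))
  let B := Basis.mk hli hsp
  choose x hx using fun k => LinearMap.exists_extend (B.coord k)
  refine ⟨x, fun w hw => ?_⟩
  have h1 := congrArg Subtype.val (B.sum_repr ⟨w, hw⟩)
  have h2 : ∀ k, x k w = B.repr ⟨w, hw⟩ k := by
    intro k
    have := congrArg (fun g => g ⟨w, hw⟩) (hx k)
    simpa using this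
  simp only [Submodule.coe_sum, Submodule.coe_smul, Fin.sum_univ_three, B, Basis.mk_apply,
    f] at h1
  rw [h2, h2, h2]
  exact h1.symm

end Fr

end Vale.Agent.P287.H674
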