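import Mathlib

/-!
Linear algebra for the nonvanishing of the residue of the Jacobian determinant of three conics.
-/

namespace Vale.Agent.P287.H674

/-- the linear system of a binary quadratic form and a multiple of a coprime linear form -/
theorem sys3 {α β γ δ c X Y Z : ℂ} (hR : α ^ 2 * c - α * β * δ + β ^ 2 * γ ≠ 0)
    (e1 : α * X + β * Y = 0) (e2 : α * Y + β * Z = 0) (e3 : γ * X + δ * Y + c * Z = 0) :
    X = 0 ∧ Y = 0 ∧ Z = 0 := by
  refine ⟨?_, ?_, ?_⟩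
  · have : (α ^ 2 * c - α * β * δ + β ^ 2 * γ) * X = 0 := by
      linear_combination β ^ 2 * e3 - c * β * e2 + (c * α - β * δ) * e1
    exact (mul_eq_zero.mp this).resolve_left hR
  · have : (α ^ 2 * c - α * β * δ + β ^ 2 * γ) * Y = 0 := by
      linear_combination α * c * e2 - α * β * e3 + β * γ * e1
    exact (mul_eq_zero.mp this).resolve_left hR
  · have : (α ^ 2 * c - α * β * δ + β ^ 2 * γ) * Z = 0 := by
      linear_combination α ^ 2 * e3 - α * γ * e1 + (β * γ - α * δ) * e2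
    exact (mul_eq_zero.mp this).resolve_left hR

theorem prop2 {s t : ℂ} (hst : s ≠ 0 ∨ t ≠ 0) {X Y : ℂ} (h : s * X + 2 * t * Y = 0) :
    ∃ A, X = -2 * t * A ∧ Y = s * A := by
  by_cases hs : s = 0
  · have ht : t ≠ 0 := by
      rcases hst with h' | h'
      · exact absurd hs h'
      · exact h'
    refine ⟨-X / (2 * t), ?_, ?_⟩
    · field_simp
    · rw [hs] at h
      have : Y = 0 := by
        have h2 : t * Y = 0 := by linear_combination h / 2
        exact (mul_eq_zero.mp h2).resolve_left ht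
      rw [this, hs]; ring
  · refine ⟨Y / s, ?_, ?_⟩
    · field_simp
      linear_combination h
    · field_simp

/-- the ten values of the functional vanish if the residue of the Jacobian vanishes -/
theorem soc {s0 t0 s1 t1 u1 n1 k1 s2 t2 u2 n2 k2 c : ℂ}
    {L333 L334 L344 L444 L335 L345 L445 L355 L455 L555 : ℂ} (hst : s0 ≠ 0 ∨ t0 ≠ 0)
    (a0 : s0 * L333 + 2 * t0 * L334 = 0) (a1 : s0 * L334 + 2 * t0 * L344 = 0)
    (a2 : s0 * L335 + 2 * t0 * L345 = 0)
    (b0 : s1 * L333 + 2 * t1 * L334 + u1 * L344 + 2 * n1 * L335 + 2 * k1 * L345 = 0)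
    (b1 : s1 * L334 + 2 * t1 * L344 + u1 * L444 + 2 * n1 * L345 + 2 * k1 * L445 = 0)
    (b2 : s1 * L335 + 2 * t1 * L345 + u1 * L445 + 2 * n1 * L355 + 2 * k1 * L455 = 0)
    (c0 : s2 * L333 + 2 * t2 * L334 + u2 * L344 + 2 * n2 * L335 + 2 * k2 * L345 + c * L355 = 0)
    (c1 : s2 * L334 + 2 * t2 * L344 + u2 * L444 + 2 * n2 * L345 + 2 * k2 * L445 + c * L455 = 0)
    (c2 : s2 * L335 + 2 * t2 * L345 + u2 * L445 + 2 * n2 * L355 + 2 * k2 * L455 + c * L555 = 0)
    (hc : c ≠ 0)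
    (hR : u1 ^ 2 * c - u1 * (2 * k1) * (2 * k2) + (2 * k1) ^ 2 * u2 ≠ 0)
    (hR' : ∀ α β γ δ : ℂ, α = 4 * t0 ^ 2 * s1 - 4 * t0 * s0 * t1 + s0 ^ 2 * u1 →
      β = 2 * (s0 * k1 - 2 * t0 * n1) → γ = 4 * t0 ^ 2 * s2 - 4 * t0 * s0 * t2 + s0 ^ 2 * u2 →
      δ = 2 * (s0 * k2 - 2 * t0 * n2) → α ^ 2 * c - α * β * δ + β ^ 2 * γ ≠ 0)
    (hJ : u1 * (s0 * L345 + 2 * t0 * L445) + 2 * k1 * (s0 * L355 + 2 * t0 * L455) = 0) :
    L333 = 0 ∧ L334 = 0 ∧ L344 = 0 ∧ L444 = 0 ∧ L335 = 0 ∧ L345 = 0 ∧ L445 = 0 ∧ L355 = 0 ∧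
      L455 = 0 ∧ L555 = 0 := by
  -- the functional `m * s`
  obtain ⟨X0, Y0, Z0⟩ := sys3 (X := s0 * L344 + 2 * t0 * L444) (Y := s0 * L345 + 2 * t0 * L445)
    (Z := s0 * L355 + 2 * t0 * L455) hR
    (by linear_combination s0 * b0 + 2 * t0 * b1 - s1 * a0 - 2 * t1 * a1 - 2 * n1 * a2)
    (by linear_combination hJ)
    (by linear_combination s0 * c0 + 2 * t0 * c1 - s2 * a0 - 2 * t2 * a1 - 2 * n2 * a2)
  -- the structure of the functional
  obtain ⟨A1, e355, e455⟩ := prop2 hst Z0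
  obtain ⟨B3, e335, e345⟩ := prop2 hst a2
  obtain ⟨B4, e345', e445⟩ := prop2 hst Y0
  obtain ⟨A2, f3, f4⟩ := prop2 (X := B3) (Y := B4) hst (by
    rw [e345] at e345'; linear_combination e345')
  obtain ⟨C33, e333, e334⟩ := prop2 hst a0
  obtain ⟨C34, e334', e344⟩ := prop2 hst a1
  obtain ⟨C44, e344', e444⟩ := prop2 hst X0
  obtain ⟨D3, g3, g4⟩ := prop2 (X := C33) (Y := C34) hst (by
    rw [e334] at e334'; linear_combination e334')
  obtain ⟨D4, g3', g4'⟩ := prop2 (X := C34) (Y := C44) hst (by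
    rw [e344] at e344'; linear_combination e344')
  obtain ⟨A3, h3, h4⟩ := prop2 (X := D3) (Y := D4) hst (by
    rw [g4] at g3'; linear_combination g3')
  subst h3 h4
  subst f3 f4
  have i33 : C33 = 4 * t0 ^ 2 * A3 := by rw [g3]; ring
  have i34 : C34 = -2 * t0 * s0 * A3 := by rw [g4]; ring
  have i44 : C44 = s0 ^ 2 * A3 := by rw [g4']; ring
  have j333 : L333 = -8 * t0 ^ 3 * A3 := by rw [e333, i33]; ring
  have j334 : L334 = 4 * t0 ^ 2 * s0 * A3 := by rw [e334, i33]; ring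
  have j344 : L344 = -2 * t0 * s0 ^ 2 * A3 := by rw [e344, i34]; ring
  have j444 : L444 = s0 ^ 3 * A3 := by rw [e444, i44]; ring
  have j335 : L335 = 4 * t0 ^ 2 * A2 := by rw [e335]; ring
  have j345 : L345 = -2 * t0 * s0 * A2 := by rw [e345]; ring
  have j445 : L445 = s0 ^ 2 * A2 := by rw [e445]; ring
  clear e333 e334 e334' e344 e344' e444 e335 e345 e345' e445 g3 g4 g3' g4' i33 i34 i44
  have hdiv : ∀ E : ℂ, -2 * t0 * E = 0 → s0 * E = 0 → E = 0 := by
    intro E h1 h2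
    rcases hst with h | h
    · exact (mul_eq_zero.mp h2).resolve_left h
    · exact (mul_eq_zero.mp h1).resolve_left (mul_ne_zero (by norm_num) h)
  have k1' := hR' _ _ _ _ rfl rfl rfl rfl
  have r1 := hdiv ((4 * t0 ^ 2 * s1 - 4 * t0 * s0 * t1 + s0 ^ 2 * u1) * A3 +
    (2 * (s0 * k1 - 2 * t0 * n1)) * A2) (by
      rw [j333, j334, j344, j335, j345] at b0; linear_combination b0) (by
      rw [j334, j344, j444, j345, j445] at b1; linear_combination b1)
  have r2 := hdiv ((4 * t0 ^ 2 * s2 - 4 * t0 * s0 * t2 + s0 ^ 2 * u2) * A3 +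
    (2 * (s0 * k2 - 2 * t0 * n2)) * A2 + c * A1) (by
      rw [j333, j334, j344, j335, j345, e355] at c0; linear_combination c0) (by
      rw [j334, j344, j444, j345, j445, e455] at c1; linear_combination c1)
  have r3 : (4 * t0 ^ 2 * s1 - 4 * t0 * s0 * t1 + s0 ^ 2 * u1) * A2 +
    (2 * (s0 * k1 - 2 * t0 * n1)) * A1 = 0 := by
    rw [j335, j345, j445, e355, e455] at b2; linear_combination b2
  obtain ⟨z3, z2, z1⟩ := sys3 k1' r1 r3 r2
  have z0 : L555 = 0 := by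
    rw [j335, j345, j445, e355, e455, z2, z1] at c2
    have : c * L555 = 0 := by linear_combination c2
    exact (mul_eq_zero.mp this).resolve_left hc
  rw [j333, j334, j344, j444, j335, j345, j445, e355, e455, z3, z2, z1]
  refine ⟨?_, ?_, ?_, ?_, ?_, ?_, ?_, ?_, ?_, z0⟩ <;> ring

end Vale.Agent.P287.H674
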