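import Vale.Agent.P287.H674.Res2
import Vale.Agent.P287.H674.Res3

/-!
The residue of the Jacobian determinant of the conics on a plane does not vanish.
-/

namespace Vale.Agent.P287.H674

open Module

variable {V : Type*} [AddCommGroup V] [Module ℂ V]
variable {T : V →ₗ[ℂ] V →ₗ[ℂ] V →ₗ[ℂ] ℂ}

/-- three independent vectors of a three-dimensional space are a basis -/
theorem IsB3.of_ind {S : Submodule ℂ V} (hS : Module.finrank ℂ S = 3) {b : Fin 3 → V}
    (mem : ∀ i, b i ∈ S) (ind : ∀ a : Fin 3 → ℂ, vec b a = 0 → a = 0) : IsB3 S b := by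
  refine ⟨mem, fun x hx => ?_, ind⟩
  have hfin : Module.Finite ℂ S := Module.finite_of_finrank_pos (by omega)
  let f : Fin 3 → S := fun i => ⟨b i, mem i⟩
  have hli : LinearIndependent ℂ f := by
    rw [Fintype.linearIndependent_iff]
    intro g hg i
    have h1 := congrArg Subtype.val hg
    simp only [Submodule.coe_sum, Submodule.coe_smul, Fin.sum_univ_three, f,
      Submodule.coe_zero] at h1
    exact congrFun (ind g h1) i
  let B := basisOfLinearIndependentOfCardEqFinrank hli (by rw [hS]; simp)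
  have h1 := congrArg Subtype.val (B.sum_repr ⟨x, hx⟩)
  simp only [Submodule.coe_sum, Submodule.coe_smul, Fin.sum_univ_three, B,
    coe_basisOfLinearIndependentOfCardEqFinrank, f] at h1
  exact ⟨_, h1.symm⟩

theorem exists_notMem_span {S : Submodule ℂ V} (hS : Module.finrank ℂ S = 2) (y : V) :
    ∃ z ∈ S, z ∉ Submodule.span ℂ {y} := by
  by_contra hcon
  push Not at hcon
  have h1 : S ≤ Submodule.span ℂ {y} := hcon
  have h2 := Submodule.finrank_mono h1
  by_cases hy : y = 0
  · rw [hy, Submodule.span_zero_singleton, finrank_bot] at h2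
    omega
  · rw [finrank_span_singleton hy] at h2
    omega

theorem ind2 {y z : V} (hy : y ≠ 0) (hz : z ∉ Submodule.span ℂ {y}) {s t : ℂ}
    (h : s • y + t • z = 0) : s = 0 ∧ t = 0 := by
  have ht : t = 0 := by
    by_contra ht
    apply hz
    rw [Submodule.mem_span_singleton]
    refine ⟨-(t⁻¹ * s), ?_⟩
    have : t⁻¹ • (s • y + t • z) = 0 := by rw [h, smul_zero]
    rw [smul_add, smul_smul, smul_smul, inv_mul_cancel₀ ht, one_smul] at this
    rw [neg_smul]
    exact (eq_neg_of_add_eq_zero_right this).symm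
  rw [ht, zero_smul, add_zero] at h
  exact ⟨(smul_eq_zero.mp h).resolve_right hy, ht⟩

/-- a basis adapted to a functional and to a vector in its kernel -/
theorem exists_basis_ker {S : Submodule ℂ V} (hS : Module.finrank ℂ S = 3) (φ : V →ₗ[ℂ] ℂ)
    {s y : V} (hs : s ∈ S) (hφs : φ s ≠ 0) (hy : y ∈ S) (hy0 : y ≠ 0) (hφy : φ y = 0) :
    ∃ z, IsB3 S ![y, z, s] ∧ φ z = 0 := by
  have hK := finrank_inf_ker hS φ hs hφs
  obtain ⟨z, hz, hzy⟩ := exists_notMem_span hK y
  refine ⟨z, IsB3.of_ind hS ?_ ?_, hz.2⟩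
  · intro i
    fin_cases i
    · exact hy
    · exact hz.1
    · exact hs
  · intro a ha
    simp only [vec, Matrix.cons_val_zero, Matrix.cons_val_one, Matrix.cons_val] at ha
    have h1 := congrArg φ ha
    have hφz : φ z = 0 := hz.2
    simp only [map_add, map_smul, hφy, hφz, smul_eq_mul, mul_zero, zero_add, map_zero] at h1
    have h2 : a 2 = 0 := (mul_eq_zero.mp h1).resolve_right hφs
    rw [h2, zero_smul, add_zero] at ha
    obtain ⟨h3, h4⟩ := ind2 hy0 hzy ha
    funext i
    fin_cases i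
    · exact h3
    · exact h4
    · exact h2

/-- a basis with given last vector and isotropic second vector -/
theorem exists_basis_quad {S : Submodule ℂ V} (hS : Module.finrank ℂ S = 3)
    (q : V →ₗ[ℂ] V →ₗ[ℂ] ℂ) (hq : ∀ x y, q x y = q y x) {p : V} (hp : p ∈ S) (hp0 : p ≠ 0) :
    ∃ a b, IsB3 S ![a, b, p] ∧ q b b = 0 := by
  obtain ⟨ψ, hψ⟩ : ∃ ψ : V →ₗ[ℂ] ℂ, ψ p ≠ 0 := by
    by_contra hcon
    push Not at hcon
    exact hp0 ((Module.forall_dual_apply_eq_zero_iff ℂ p).mp hcon)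
  have hK := finrank_inf_ker hS ψ hp hψ
  obtain ⟨b, hb, hb0, hbq⟩ := quad_zero hK q hq
  obtain ⟨a, ha, hab⟩ := exists_notMem_span hK b
  refine ⟨a, b, IsB3.of_ind hS ?_ ?_, hbq⟩
  · intro i
    fin_cases i
    · exact ha.1
    · exact hb.1
    · exact hp
  · intro c hc
    simp only [vec, Matrix.cons_val_zero, Matrix.cons_val_one, Matrix.cons_val] at hc
    have h1 := congrArg ψ hc
    have e1 : ψ a = 0 := ha.2
    have e2 : ψ b = 0 := hb.2
    simp only [map_add, map_smul, e1, e2, smul_eq_mul, mul_zero, zero_add, map_zero] at h1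
    have h2 : c 2 = 0 := (mul_eq_zero.mp h1).resolve_right hψ
    rw [h2, zero_smul, add_zero, add_comm] at hc
    obtain ⟨h3, h4⟩ := ind2 hb0 hab hc
    funext i
    fin_cases i
    · exact h4
    · exact h3
    · exact h2

theorem Fr.of_compl {W C : Submodule ℂ V} (hC : IsCompl W C) {b e : Fin 3 → V} (hb : IsB3 W b)
    (he : IsB3 C e) : Fr W b e := by
  refine ⟨hb, fun v => ?_⟩
  have hv : v ∈ W ⊔ C := by rw [hC.sup_eq_top]; trivial
  obtain ⟨w, hw, c, hc, rfl⟩ := Submodule.mem_sup.mp hv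
  obtain ⟨r, rfl⟩ := hb.span w hw
  obtain ⟨s, rfl⟩ := he.span c hc
  exact ⟨r, s, rfl⟩

/-- a frame for which a conic of the net is singular at the last basis vector -/
theorem exists_special (hS : Sm T) (hV : Module.finrank ℂ V = 6) {W : Submodule ℂ V}
    (hW : IsPl T W) : ∃ b e, Fr W b e ∧ (∀ w ∈ W, T w (b 2) (e 0) = 0) ∧
      T (b 2) (b 2) (e 1) = 0 ∧ T (b 1) (b 1) (e 0) = 0 := by
  have hfin : Module.Finite ℂ V := Module.finite_of_finrank_pos (by omega)
  obtain ⟨C, hC⟩ := Submodule.exists_isCompl W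
  have hC3 : Module.finrank ℂ C = 3 := by
    have := Submodule.finrank_add_eq_of_isCompl hC
    have := hW.1
    omega
  obtain ⟨f, hf⟩ := exists_IsB3 hC3
  -- a conic of the net with a singular point
  obtain ⟨y, hy, hy0, p, hp, hp0, hyp⟩ : ∃ y ∈ C, y ≠ 0 ∧ ∃ p ∈ W, p ≠ 0 ∧
      ∀ w ∈ W, T y w p = 0 := by
    rcases pencil_radical hW.1 (T (f 0)) (T (f 1)) with ⟨u, hu, hu0, h⟩ | ⟨μ, u, hu, hu0, h⟩
    · refine ⟨f 1, hf.mem 1, ?_, u, hu, hu0, h⟩
      intro h0
      have := hf.ind ![0, 1, 0] (by simp [vec, h0])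
      simpa using congrFun this 1
    · refine ⟨f 0 - μ • f 1, C.sub_mem (hf.mem 0) (C.smul_mem _ (hf.mem 1)), ?_, u, hu, hu0, ?_⟩
      · intro h0
        have := hf.ind ![1, -μ, 0] (by
          simp only [vec, Matrix.cons_val_zero, Matrix.cons_val_one, Matrix.cons_val, one_smul,
            neg_smul, zero_smul, add_zero, ← sub_eq_add_neg]
          exact h0)
        simpa using congrFun this 0
      · intro w hw
        simp only [map_sub, map_smul, LinearMap.sub_apply, LinearMap.smul_apply, smul_eq_mul,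
          h w hw, sub_self]
  obtain ⟨a, b, hb, hbq⟩ := exists_basis_quad hW.1 (T y) (fun _ _ => hS.s2 _ _ _) hp hp0
  obtain ⟨s, hs, hps⟩ : ∃ s ∈ C, T p p s ≠ 0 := by
    obtain ⟨w, hw⟩ := hS.smooth p hp0
    have hw' : w ∈ W ⊔ C := by rw [hC.sup_eq_top]; trivial
    obtain ⟨x, hx, c, hc, rfl⟩ := Submodule.mem_sup.mp hw'
    refine ⟨c, hc, ?_⟩
    rwa [map_add, tri_zero_of_self hS.s1 hS.s2 hW.2 hp hp hx, zero_add] at hw
  have hppy : T p p y = 0 := by rw [hS.s2, hS.s1]; exact hyp p hp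
  obtain ⟨z, hz, hpz⟩ := exists_basis_ker hC3 (T p p) hs hps hy hy0 hppy
  refine ⟨![a, b, p], ![y, z, s], Fr.of_compl hC hb hz, ?_, ?_, ?_⟩
  · intro w hw
    simp only [Matrix.cons_val_zero, Matrix.cons_val]
    rw [hS.s2, hS.s1]
    exact hyp w hw
  · simpa using hpz
  · simp only [Matrix.cons_val_zero, Matrix.cons_val_one]
    rw [hS.s2, hS.s1]
    exact hbq

end Vale.Agent.P287.H674
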