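import Vale.Agent.P287.H674.Res4

/-!
The residue of the Jacobian determinant.
-/

namespace Vale.Agent.P287.H674

open Module

variable {V : Type*} [AddCommGroup V] [Module ℂ V]
variable {T : V →ₗ[ℂ] V →ₗ[ℂ] V →ₗ[ℂ] ℂ}

/-- the functional `v ↦ T v a y` -/
noncomputable def tl (T : V →ₗ[ℂ] V →ₗ[ℂ] V →ₗ[ℂ] ℂ) (a y : V) : V →ₗ[ℂ] ℂ :=
  (T.flip a).flip y

theorem tl_apply (a y v : V) : tl T a y v = T v a y := rfl

/-- coordinates on the plane -/
def Co (W : Submodule ℂ V) (b : Fin 3 → V) (x : Fin 3 → (V →ₗ[ℂ] ℂ)) : Prop :=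
  ∀ w ∈ W, w = x 0 w • b 0 + x 1 w • b 1 + x 2 w • b 2

/-- the two by two determinant -/
noncomputable def dl (T : V →ₗ[ℂ] V →ₗ[ℂ] V →ₗ[ℂ] ℂ) (b e : Fin 3 → V) (x2 : V →ₗ[ℂ] ℂ)
    (v : V) : ℂ :=
  T (v + x2 v • b 2) (b 0) (e 0) * T (v + x2 v • b 2) (b 1) (e 1) -
    T (v + x2 v • b 2) (b 1) (e 0) * T (v + x2 v • b 2) (b 0) (e 1)

variable {W : Submodule ℂ V} {lam : (V → ℂ) →ₗ[ℂ] ℂ} {b e : Fin 3 → V}
  {x : Fin 3 → (V →ₗ[ℂ] ℂ)}

/-- the values of the functional on monomials -/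
def Lf (lam : (V → ℂ) →ₗ[ℂ] ℂ) (x : Fin 3 → (V →ₗ[ℂ] ℂ)) (i j k : Fin 3) : ℂ :=
  lam (fun v => x i v * x j v * x k v)

theorem Lf_comm1 (i j k : Fin 3) : Lf lam x i j k = Lf lam x j i k := by
  unfold Lf; congr 1; funext v; ring

theorem Lf_comm2 (i j k : Fin 3) : Lf lam x i j k = Lf lam x i k j := by
  unfold Lf; congr 1; funext v; ring

theorem quad_exp (hS : Sm T) (hx : Co W b x) {v : V} (hv : v ∈ W) (y : V) :
    T v v y = T (b 0) (b 0) y * (x 0 v * x 0 v) + 2 * T (b 0) (b 1) y * (x 0 v * x 1 v) +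
      T (b 1) (b 1) y * (x 1 v * x 1 v) + 2 * T (b 0) (b 2) y * (x 0 v * x 2 v) +
      2 * T (b 1) (b 2) y * (x 1 v * x 2 v) + T (b 2) (b 2) y * (x 2 v * x 2 v) := by
  have h := hx v hv
  have e1 : T v v y = T (x 0 v • b 0 + x 1 v • b 1 + x 2 v • b 2)
      (x 0 v • b 0 + x 1 v • b 1 + x 2 v • b 2) y := by rw [← h]
  rw [e1]
  simp only [map_add, map_smul, LinearMap.add_apply, LinearMap.smul_apply, smul_eq_mul]
  rw [hS.s1 (b 1) (b 0), hS.s1 (b 2) (b 0), hS.s1 (b 2) (b 1)]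
  ring

/-- the relations given by the Jacobian ideal -/
theorem Res.rel (hR : Res T W lam) (hS : Sm T) (hx : Co W b x) (k : Fin 3) (y : V) :
    T (b 0) (b 0) y * Lf lam x k 0 0 + 2 * T (b 0) (b 1) y * Lf lam x k 0 1 +
      T (b 1) (b 1) y * Lf lam x k 1 1 + 2 * T (b 0) (b 2) y * Lf lam x k 0 2 +
      2 * T (b 1) (b 2) y * Lf lam x k 1 2 + T (b 2) (b 2) y * Lf lam x k 2 2 = 0 := by
  have h1 := hR.ideal (x k) y
  have h2 := hR.res (fun v => x k v * T v v y)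
    (T (b 0) (b 0) y • (fun v => x k v * x 0 v * x 0 v) +
      (2 * T (b 0) (b 1) y) • (fun v => x k v * x 0 v * x 1 v) +
      T (b 1) (b 1) y • (fun v => x k v * x 1 v * x 1 v) +
      (2 * T (b 0) (b 2) y) • (fun v => x k v * x 0 v * x 2 v) +
      (2 * T (b 1) (b 2) y) • (fun v => x k v * x 1 v * x 2 v) +
      T (b 2) (b 2) y • (fun v => x k v * x 2 v * x 2 v)) (fun v hv => by
        rw [quad_exp hS hx hv y]
        simp only [Pi.add_apply, Pi.smul_apply, smul_eq_mul]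
        ring)
  rw [h1] at h2
  simp only [map_add, map_smul, smul_eq_mul] at h2
  unfold Lf
  linear_combination -h2

/-- the Jacobian determinant modulo the Jacobian ideal -/
theorem Res.core (hR : Res T W lam) (hS : Sm T) (hx : Co W b x)
    (h0 : T (b 2) (b 2) (e 0) = 0) (h1 : T (b 2) (b 2) (e 1) = 0) :
    lam (dd T b e) = T (b 2) (b 2) (e 2) * lam (fun v => x 2 v * dl T b e (x 2) v) := by
  -- the coefficients
  let n : Fin 3 → Fin 3 → ℂ := fun i j => T (b i) (b 2) (e j)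
  let m : Fin 3 → Fin 3 → (V →ₗ[ℂ] ℂ) := fun i j => tl T (b i) (e j)
  let φ2 : V →ₗ[ℂ] ℂ := n 1 1 • m 0 0 + n 0 0 • m 1 1 - n 0 1 • m 1 0 - n 1 0 • m 0 1 +
    (n 0 0 * n 1 1 - n 1 0 * n 0 1) • x 2
  let φ0 : V →ₗ[ℂ] ℂ := (-n 1 1) • m 0 2 + n 0 1 • m 1 2 - n 0 2 • (m 1 1 + n 1 1 • x 2) +
    n 1 2 • (m 0 1 + n 0 1 • x 2)
  let φ1 : V →ₗ[ℂ] ℂ := n 1 0 • m 0 2 - n 0 0 • m 1 2 + n 0 2 • (m 1 0 + n 1 0 • x 2) -
    n 1 2 • (m 0 0 + n 0 0 • x 2)
  have key : ∀ v ∈ W, dd T b e v = T (b 2) (b 2) (e 2) * (x 2 v * dl T b e (x 2) v) -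
      (φ0 v * T v v (e 0) + φ1 v * T v v (e 1) + φ2 v * T v v (e 2)) := by
    intro v hv
    rw [quad_exp hS hx hv (e 0), quad_exp hS hx hv (e 1), quad_exp hS hx hv (e 2)]
    have hT : ∀ a y, T v a y = x 0 v * T (b 0) a y + x 1 v * T (b 1) a y +
        x 2 v * T (b 2) a y := by
      intro a y
      conv_lhs => rw [hx v hv]
      simp only [map_add, map_smul, LinearMap.add_apply, LinearMap.smul_apply, smul_eq_mul]
    simp only [φ0, φ1, φ2, m, n, dd, dl, mt, Matrix.det_fin_three, Matrix.of_apply,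
      LinearMap.add_apply, LinearMap.sub_apply, LinearMap.smul_apply, tl_apply, smul_eq_mul,
      map_add, map_smul, hT, h0, h1]
    have s10 : ∀ y, T (b 1) (b 0) y = T (b 0) (b 1) y := fun y => hS.s1 _ _ _
    have s20 : ∀ y, T (b 2) (b 0) y = T (b 0) (b 2) y := fun y => hS.s1 _ _ _
    have s21 : ∀ y, T (b 2) (b 1) y = T (b 1) (b 2) y := fun y => hS.s1 _ _ _
    simp only [s10, s20, s21]
    ring
  have h2 := hR.res (dd T b e) (T (b 2) (b 2) (e 2) • (fun v => x 2 v * dl T b e (x 2) v) -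
      ((fun v => φ0 v * T v v (e 0)) + (fun v => φ1 v * T v v (e 1)) +
        fun v => φ2 v * T v v (e 2))) key
  rw [h2, map_sub, map_add, map_add, map_smul, hR.ideal, hR.ideal, hR.ideal, smul_eq_mul]
  ring

/-- a vector of the plane is not a zero of the three conics -/
theorem noz (hS : Sm T) (hW : IsPl T W) (h : Fr W b e) {z : V} (hz : z ∈ W) (hz0 : z ≠ 0)
    (h0 : T z z (e 0) = 0) (h1 : T z z (e 1) = 0) : T z z (e 2) ≠ 0 := by
  intro h2
  obtain ⟨w, hw⟩ := hS.smooth z hz0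
  apply hw
  obtain ⟨r, s, rfl⟩ := h.span w
  rw [map_add, tri_zero_of_self hS.s1 hS.s2 hW.2 hz hz (h.b3.vec_mem r), zero_add]
  simp only [vec, map_add, map_smul, h0, h1, h2, smul_zero, add_zero]

/-- on a line contained in the first conic the other two have no common zero -/
theorem res_ne (hS : Sm T) (hW : IsPl T W) (h : Fr W b e) {a p : V} (ha : a ∈ W) (hp : p ∈ W)
    (hap : ∀ s t : ℂ, s • a + t • p = 0 → s = 0 ∧ t = 0) (h1 : T a a (e 0) = 0)
    (h2 : T a p (e 0) = 0) (h3 : T p p (e 0) = 0) (h4 : T p p (e 1) = 0) :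
    T a a (e 1) ^ 2 * T p p (e 2) - T a a (e 1) * (2 * T a p (e 1)) * (2 * T a p (e 2)) +
      (2 * T a p (e 1)) ^ 2 * T a a (e 2) ≠ 0 := by
  intro hR
  have hex : ∀ (s t : ℂ) (y : V), T (s • a + t • p) (s • a + t • p) y =
      s ^ 2 * T a a y + 2 * s * t * T a p y + t ^ 2 * T p p y := by
    intro s t y
    simp only [map_add, map_smul, LinearMap.add_apply, LinearMap.smul_apply, smul_eq_mul]
    rw [hS.s1 p a]
    ring
  by_cases hz : T a a (e 1) = 0 ∧ T a p (e 1) = 0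
  · obtain ⟨s, t, hst, hq⟩ := binary_quad (T a a (e 2)) (T a p (e 2)) (T p p (e 2))
    have hne : s • a + t • p ≠ 0 := by
      intro h0
      have := hap s t h0
      exact hst (by rw [this.1, this.2]; rfl)
    refine noz hS hW h (W.add_mem (W.smul_mem s ha) (W.smul_mem t hp)) hne ?_ ?_ ?_
    · rw [hex, h1, h2, h3]; ring
    · rw [hex, hz.1, hz.2, h4]; ring
    · rw [hex]; linear_combination hq
  · have hne : (2 * T a p (e 1)) • a + (-T a a (e 1)) • p ≠ 0 := by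
      intro h0
      have := hap _ _ h0
      apply hz
      refine ⟨by linear_combination -this.2, by linear_combination this.1 / 2⟩
    refine noz hS hW h (W.add_mem (W.smul_mem _ ha) (W.smul_mem _ hp)) hne ?_ ?_ ?_
    · rw [hex, h1, h2, h3]; ring
    · rw [hex, h4]; ring
    · rw [hex]; linear_combination hR

end Vale.Agent.P287.H674
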