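import Vale.Agent.P287.H674.Res5

/-!
The residue of the Jacobian determinant does not vanish.
-/

namespace Vale.Agent.P287.H674

open Module

variable {V : Type*} [AddCommGroup V] [Module ℂ V]
variable {T : V →ₗ[ℂ] V →ₗ[ℂ] V →ₗ[ℂ] ℂ}
variable {W : Submodule ℂ V} {lam : (V → ℂ) →ₗ[ℂ] ℂ} {b e : Fin 3 → V}

/-- the functional is not zero on all monomials -/
theorem Res.mono_ne (hR : Res T W lam) {x : Fin 3 → (V →ₗ[ℂ] ℂ)} (hx : Co W b x)
    (h : ∀ i j k, Lf lam x i j k = 0) : False := by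
  obtain ⟨φ, ψ, χ, hne⟩ := hR.ne
  apply hne
  have hexp : ∀ (φ : V →ₗ[ℂ] ℂ), ∀ v ∈ W, φ v = ∑ i, φ (b i) * x i v := by
    intro φ v hv
    conv_lhs => rw [hx v hv]
    simp only [map_add, map_smul, smul_eq_mul, Fin.sum_univ_three]
    ring
  have h2 := hR.res (fun v => φ v * ψ v * χ v)
    (∑ i, ∑ j, ∑ k, (φ (b i) * ψ (b j) * χ (b k)) • fun v => x i v * x j v * x k v)
    (fun v hv => by
      rw [hexp φ v hv, hexp ψ v hv, hexp χ v hv, sum3]
      simp only [Finset.sum_apply, Pi.smul_apply, smul_eq_mul]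
      refine Finset.sum_congr rfl fun i _ => Finset.sum_congr rfl fun j _ =>
        Finset.sum_congr rfl fun k _ => ?_
      ring)
  rw [h2]
  simp only [map_sum, map_smul]
  refine Finset.sum_eq_zero fun i _ => Finset.sum_eq_zero fun j _ =>
    Finset.sum_eq_zero fun k _ => ?_
  have := h i j k
  unfold Lf at this
  rw [this, smul_zero]

/-- the residue of the Jacobian determinant in a special frame -/
theorem Res.special_ne (hR : Res T W lam) (hS : Sm T) (hV : Module.finrank ℂ V = 6)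
    (hW : IsPl T W) (h : Fr W b e)
    (hp : ∀ w ∈ W, T w (b 2) (e 0) = 0) (h1 : T (b 2) (b 2) (e 1) = 0)
    (h4 : T (b 1) (b 1) (e 0) = 0) : lam (dd T b e) ≠ 0 := by
  obtain ⟨x, hx⟩ := h.coords
  have hx : Co W b x := hx
  have hb := h.b3.mem
  have hbne : b 2 ≠ 0 := by
    intro h0
    have := h.b3.ind ![0, 0, 1] (by simp [vec, h0])
    simpa using congrFun this 2
  have p00 := hp _ (hb 0)
  have p10 := hp _ (hb 1)
  have p20 := hp _ (hb 2)
  have hc : T (b 2) (b 2) (e 2) ≠ 0 := noz hS hW h (hb 2) hbne p20 h1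
  intro h0
  rw [hR.core hS hx p20 h1] at h0
  have h5 := (mul_eq_zero.mp h0).resolve_left hc
  -- the values
  have c21 : ∀ i, Lf lam x 2 i 2 = Lf lam x i 2 2 := fun i => Lf_comm1 _ _ _
  have rel : ∀ k y, T (b 0) (b 0) y * Lf lam x k 0 0 + 2 * T (b 0) (b 1) y * Lf lam x k 0 1 +
      T (b 1) (b 1) y * Lf lam x k 1 1 + 2 * T (b 0) (b 2) y * Lf lam x k 0 2 +
      2 * T (b 1) (b 2) y * Lf lam x k 1 2 + T (b 2) (b 2) y * Lf lam x k 2 2 = 0 :=
    fun k y => hR.rel hS hx k y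
  have f1 : Lf lam x 1 0 0 = Lf lam x 0 0 1 := by rw [Lf_comm1, Lf_comm2]
  have f2 : Lf lam x 1 0 1 = Lf lam x 0 1 1 := by rw [Lf_comm1]
  have f3 : Lf lam x 1 0 2 = Lf lam x 0 1 2 := by rw [Lf_comm1]
  have f4 : Lf lam x 2 0 0 = Lf lam x 0 0 2 := by rw [Lf_comm1, Lf_comm2]
  have f5 : Lf lam x 2 0 1 = Lf lam x 0 1 2 := by rw [Lf_comm1, Lf_comm2]
  have f6 : Lf lam x 2 1 1 = Lf lam x 1 1 2 := by rw [Lf_comm1, Lf_comm2]
  have f7 : Lf lam x 2 0 2 = Lf lam x 0 2 2 := by rw [Lf_comm1]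
  have f8 : Lf lam x 2 1 2 = Lf lam x 1 2 2 := by rw [Lf_comm1]
  -- the vanishing of the residue
  have hJ := hR.res (fun v => x 2 v * dl T b e (x 2) v)
    ((T (b 0) (b 0) (e 0) * T (b 0) (b 1) (e 1) - T (b 0) (b 1) (e 0) * T (b 0) (b 0) (e 1)) •
        (fun v => x 0 v * x 0 v * x 2 v) +
      (T (b 0) (b 0) (e 0) * T (b 1) (b 1) (e 1)) • (fun v => x 0 v * x 1 v * x 2 v) +
      (T (b 0) (b 1) (e 0) * T (b 1) (b 1) (e 1)) • (fun v => x 1 v * x 1 v * x 2 v) +
      (2 * T (b 0) (b 0) (e 0) * T (b 1) (b 2) (e 1) -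
        2 * T (b 0) (b 1) (e 0) * T (b 0) (b 2) (e 1)) • (fun v => x 0 v * x 2 v * x 2 v) +
      (2 * T (b 0) (b 1) (e 0) * T (b 1) (b 2) (e 1)) • (fun v => x 1 v * x 2 v * x 2 v))
    (fun v hv => by
      have hT : ∀ a y, T v a y = x 0 v * T (b 0) a y + x 1 v * T (b 1) a y +
          x 2 v * T (b 2) a y := by
        intro a y
        conv_lhs => rw [hx v hv]
        simp only [map_add, map_smul, LinearMap.add_apply, LinearMap.smul_apply, smul_eq_mul]
      have s10 : ∀ y, T (b 1) (b 0) y = T (b 0) (b 1) y := fun y => hS.s1 _ _ _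
      have s20 : ∀ y, T (b 2) (b 0) y = T (b 0) (b 2) y := fun y => hS.s1 _ _ _
      have s21 : ∀ y, T (b 2) (b 1) y = T (b 1) (b 2) y := fun y => hS.s1 _ _ _
      simp only [dl, Pi.add_apply, Pi.smul_apply, map_add, map_smul, LinearMap.add_apply,
        LinearMap.smul_apply, smul_eq_mul, hT, s10, s20, s21, p00, p10, h4]
      ring)
  rw [h5] at hJ
  simp only [map_add, map_smul, smul_eq_mul] at hJ
  have a2 := rel 2 (e 0)
  have b2 := rel 2 (e 1)
  rw [f4, f5, f6, f7, f8] at a2 b2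
  rw [p00, p10, p20, h4] at a2
  rw [h1] at b2
  have hJ' : T (b 1) (b 1) (e 1) * (T (b 0) (b 0) (e 0) * Lf lam x 0 1 2 +
      2 * T (b 0) (b 1) (e 0) * Lf lam x 1 1 2) +
      2 * T (b 1) (b 2) (e 1) * (T (b 0) (b 0) (e 0) * Lf lam x 0 2 2 +
      2 * T (b 0) (b 1) (e 0) * Lf lam x 1 2 2) = 0 := by
    unfold Lf at a2 b2 ⊢
    linear_combination -hJ + T (b 0) (b 1) (e 0) * b2 - T (b 0) (b 1) (e 1) * a2
  have hst : T (b 0) (b 0) (e 0) ≠ 0 ∨ T (b 0) (b 1) (e 0) ≠ 0 := by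
    by_contra hcon
    push Not at hcon
    obtain ⟨u, hu, hu0, k1, k2⟩ := common_zero hW.1 (T (e 1)) (T (e 2)) (fun _ _ => hS.s2 _ _ _)
      (fun _ _ => hS.s2 _ _ _)
    refine noz hS hW h hu hu0 ?_ (by rw [hS.s2, hS.s1]; exact k1) (by
      rw [hS.s2, hS.s1]; exact k2)
    rw [quad_exp hS hx hu, hcon.1, hcon.2, h4, p00, p10, p20]
    ring
  have ind12 : ∀ s t : ℂ, s • b 1 + t • b 2 = 0 → s = 0 ∧ t = 0 := by
    intro s t hst'
    have := h.b3.ind ![0, s, t] (by simpa [vec] using hst')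
    exact ⟨by simpa using congrFun this 1, by simpa using congrFun this 2⟩
  have hR1 := res_ne hS hW h (hb 1) (hb 2) ind12 h4 p10 p20 h1
  have hexp2 : ∀ y, T (T (b 0) (b 0) (e 0) • b 1 - (2 * T (b 0) (b 1) (e 0)) • b 0)
      (T (b 0) (b 0) (e 0) • b 1 - (2 * T (b 0) (b 1) (e 0)) • b 0) y =
      4 * T (b 0) (b 1) (e 0) ^ 2 * T (b 0) (b 0) y -
      4 * T (b 0) (b 1) (e 0) * T (b 0) (b 0) (e 0) * T (b 0) (b 1) y +
      T (b 0) (b 0) (e 0) ^ 2 * T (b 1) (b 1) y := by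
    intro y
    simp only [map_sub, map_smul, LinearMap.sub_apply, LinearMap.smul_apply, smul_eq_mul]
    rw [hS.s1 (b 1) (b 0)]
    ring
  have hexp3 : ∀ y, T (T (b 0) (b 0) (e 0) • b 1 - (2 * T (b 0) (b 1) (e 0)) • b 0) (b 2) y =
      T (b 0) (b 0) (e 0) * T (b 1) (b 2) y - 2 * T (b 0) (b 1) (e 0) * T (b 0) (b 2) y := by
    intro y
    simp only [map_sub, map_smul, LinearMap.sub_apply, LinearMap.smul_apply, smul_eq_mul]
  have hR2 := res_ne (a := T (b 0) (b 0) (e 0) • b 1 - (2 * T (b 0) (b 1) (e 0)) • b 0)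
    (p := b 2) hS hW h (W.sub_mem (W.smul_mem _ (hb 1)) (W.smul_mem _ (hb 0))) (hb 2) (by
      intro s t hst'
      have := h.b3.ind ![-(s * (2 * T (b 0) (b 1) (e 0))), s * T (b 0) (b 0) (e 0), t] (by
        simp only [vec, Matrix.cons_val_zero, Matrix.cons_val_one, Matrix.cons_val]
        rw [← hst']
        module)
      have i0 := congrFun this 0
      have i1 := congrFun this 1
      have i2 := congrFun this 2
      simp only [Matrix.cons_val_zero, Matrix.cons_val_one, Matrix.cons_val, Pi.zero_apply]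
        at i0 i1 i2
      refine ⟨?_, i2⟩
      rcases hst with h' | h'
      · exact (mul_eq_zero.mp i1).resolve_right h'
      · have : s * T (b 0) (b 1) (e 0) = 0 := by linear_combination -i0 / 2
        exact (mul_eq_zero.mp this).resolve_right h') (by
      rw [hexp2, h4]; ring) (by rw [hexp3, p10, p00]; ring) p20 h1
  rw [hexp2, hexp2, hexp3, hexp3] at hR2
  have r00 := rel 0 (e 0)
  have r10 := rel 1 (e 0)
  have r01 := rel 0 (e 1)
  have r11 := rel 1 (e 1)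
  have r02 := rel 0 (e 2)
  have r12 := rel 1 (e 2)
  have r22 := rel 2 (e 2)
  rw [f1, f2, f3] at r10 r11 r12
  rw [f4, f5, f6, f7, f8] at r22
  rw [p00, p10, p20, h4] at r00 r10
  rw [h1] at r01 r11
  have := soc (s0 := T (b 0) (b 0) (e 0)) (t0 := T (b 0) (b 1) (e 0))
    (s1 := T (b 0) (b 0) (e 1)) (t1 := T (b 0) (b 1) (e 1)) (u1 := T (b 1) (b 1) (e 1))
    (n1 := T (b 0) (b 2) (e 1)) (k1 := T (b 1) (b 2) (e 1))
    (s2 := T (b 0) (b 0) (e 2)) (t2 := T (b 0) (b 1) (e 2)) (u2 := T (b 1) (b 1) (e 2))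
    (n2 := T (b 0) (b 2) (e 2)) (k2 := T (b 1) (b 2) (e 2)) (c := T (b 2) (b 2) (e 2))
    (L333 := Lf lam x 0 0 0) (L334 := Lf lam x 0 0 1) (L344 := Lf lam x 0 1 1)
    (L444 := Lf lam x 1 1 1) (L335 := Lf lam x 0 0 2) (L345 := Lf lam x 0 1 2)
    (L445 := Lf lam x 1 1 2) (L355 := Lf lam x 0 2 2) (L455 := Lf lam x 1 2 2)
    (L555 := Lf lam x 2 2 2) hst (by linear_combination r00) (by linear_combination r10)
    (by linear_combination a2) (by linear_combination r01) (by linear_combination r11)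
    (by linear_combination b2) r02 r12 r22 hc
    (fun h' => hR1 (by linear_combination h'))
    (by
      rintro α β γ δ rfl rfl rfl rfl h'
      exact hR2 (by linear_combination h')) hJ'
  obtain ⟨z1, z2, z3, z4, z5, z6, z7, z8, z9, z10⟩ := this
  apply hR.mono_ne hx
  intro i j k
  fin_cases i <;> fin_cases j <;> fin_cases k <;> simp only [Fin.mk_one, Fin.zero_eta,
    Fin.reduceFinMk, Fin.isValue]
  · exact z1
  · exact z2
  · exact z5
  · rw [Lf_comm2]; exact z2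
  · exact z3
  · exact z6
  · rw [Lf_comm2]; exact z5
  · rw [Lf_comm2]; exact z6
  · exact z8
  · rw [f1]; exact z2
  · rw [f2]; exact z3
  · rw [f3]; exact z6
  · rw [Lf_comm2, f2]; exact z3
  · exact z4
  · exact z7
  · rw [Lf_comm2, f3]; exact z6
  · rw [Lf_comm2]; exact z7
  · exact z9
  · rw [f4]; exact z5
  · rw [f5]; exact z6
  · rw [f7]; exact z8
  · rw [Lf_comm2, f5]; exact z6
  · rw [f6]; exact z7
  · rw [f8]; exact z9
  · rw [Lf_comm2, f7]; exact z8
  · rw [Lf_comm2, f8]; exact z9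
  · exact z10

/-- the residue of the Jacobian determinant is not zero -/
theorem Res.dd_ne (hR : Res T W lam) (hS : Sm T) (hV : Module.finrank ℂ V = 6)
    (hW : IsPl T W) (h : Fr W b e) : lam (dd T b e) ≠ 0 := by
  obtain ⟨b', e', h', k1, k2, k3⟩ := exists_special hS hV hW
  have hne := hR.special_ne hS hV hW h' k1 k2 k3
  obtain ⟨β⟩ := exists_frame_basis hV
  have h1 := hR.res (vol β b e • dd T b' e') (vol β b' e' • dd T b e) (fun v hv => by
    have := h.dd_eq h' hS hW β hv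
    simp only [Pi.smul_apply, smul_eq_mul]
    linear_combination this)
  rw [map_smul, map_smul, smul_eq_mul, smul_eq_mul] at h1
  intro h0
  rw [h0, mul_zero] at h1
  rcases mul_eq_zero.mp h1 with h2 | h2
  · exact h.vol_ne β h2
  · exact hne h2

end Vale.Agent.P287.H674
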