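import Vale.Agent.P287.H674.Res6

/-!
The residue pairing of two planes meeting in a point.
-/

namespace Vale.Agent.P287.H674

open Module

variable {V : Type*} [AddCommGroup V] [Module ℂ V]
variable {T : V →ₗ[ℂ] V →ₗ[ℂ] V →ₗ[ℂ] ℂ}

/-- the volumes of the two adapted frames agree -/
theorem vol_swap (β : Basis (Fin 3 ⊕ Fin 3) ℂ V) {b0 b1 p e0 e1 g a3 a4 : V} {s t : Fin 3 → ℂ}
    (h3 : a3 = e0 + vec ![b0, b1, p] s) (h4 : a4 = e1 + vec ![b0, b1, p] t) :
    vol β ![a3, a4, p] ![b0, b1, g] = vol β ![b0, b1, p] ![e0, e1, g] := by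
  unfold vol
  -- first step: a permutation
  let σ : Equiv.Perm (Fin 3 ⊕ Fin 3) :=
    Equiv.swap (Sum.inl 0) (Sum.inr 0) * Equiv.swap (Sum.inl 1) (Sum.inr 1)
  have hσ : Equiv.Perm.sign σ = 1 := by
    simp only [σ, map_mul]
    rw [Equiv.Perm.sign_swap (by decide), Equiv.Perm.sign_swap (by decide)]
    rfl
  have h1 : β.det (Sum.elim ![b0, b1, p] ![e0, e1, g] ∘ σ) =
      β.det (Sum.elim ![b0, b1, p] ![e0, e1, g]) := by
    rw [AlternatingMap.map_perm, hσ, one_smul]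
  have h2 : (Sum.elim ![b0, b1, p] ![e0, e1, g] : Fin 3 ⊕ Fin 3 → V) ∘ σ =
      Sum.elim ![e0, e1, p] ![b0, b1, g] := by
    funext i
    rcases i with i | i <;> fin_cases i <;>
      simp [σ, Equiv.swap_apply_def]
  rw [← h1, h2]
  -- second step: a unipotent matrix
  rw [det_comb β (Sum.elim ![e0, e1, p] ![b0, b1, g]) (Sum.elim ![a3, a4, p] ![b0, b1, g])
    (Matrix.fromBlocks !![1, 0, s 2; 0, 1, t 2; 0, 0, 1] !![s 0, s 1, 0; t 0, t 1, 0; 0, 0, 0]
      0 1), Matrix.det_fromBlocks_zero₂₁]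
  · simp [Matrix.det_fin_three]
  · intro i
    rcases i with i | i <;> fin_cases i
    · simp only [Fintype.sum_sum_type, Fin.sum_univ_three, Matrix.fromBlocks_apply₁₁,
        Matrix.fromBlocks_apply₁₂, Sum.elim_inl, Sum.elim_inr, h3, vec]
      simp
      abel
    · simp only [Fintype.sum_sum_type, Fin.sum_univ_three, Matrix.fromBlocks_apply₁₁,
        Matrix.fromBlocks_apply₁₂, Sum.elim_inl, Sum.elim_inr, h4, vec]
      simp
      abel
    · simp [Fintype.sum_sum_type, Fin.sum_univ_three]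
    · simp [Fintype.sum_sum_type, Fin.sum_univ_three]
    · simp [Fintype.sum_sum_type, Fin.sum_univ_three]
    · simp [Fintype.sum_sum_type, Fin.sum_univ_three]

variable {W W' : Submodule ℂ V} {lam : (V → ℂ) →ₗ[ℂ] ℂ}

/-- the pairing in adapted frames -/
theorem Res.pair_core (hR : Res T W lam) (hS : Sm T) (hW : IsPl T W) (hW' : IsPl T W')
    {π : V →ₗ[ℂ] V} (hπ : ∀ w ∈ W', π w = w)
    {b0 b1 p e0 e1 g a3 a4 w0 w1 : V} (hπ0 : π e0 = 0) (hπ1 : π e1 = 0)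
    (h3 : a3 = e0 + w0) (h4 : a4 = e1 + w1) (hw0 : w0 ∈ W') (hw1 : w1 ∈ W')
    (hb0 : b0 ∈ W') (hb1 : b1 ∈ W') (hp' : p ∈ W')
    (hB : IsB3 W ![a3, a4, p]) (hF : Fr W ![a3, a4, p] ![b0, b1, g]) :
    lam (fun v => dd T ![b0, b1, p] ![e0, e1, g] (v + π v)) =
      2 * lam (dd T ![a3, a4, p] ![b0, b1, g]) := by
  have ha3 : a3 ∈ W := hB.mem 0
  have ha4 : a4 ∈ W := hB.mem 1
  have hp : p ∈ W := hB.mem 2
  have iso := fun {a b c : V} (ha : a ∈ W) (hb : b ∈ W) (hc : c ∈ W) =>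
    tri_zero_of_self hS.s1 hS.s2 hW.2 ha hb hc
  have iso' := fun {a b c : V} (ha : a ∈ W') (hb : b ∈ W') (hc : c ∈ W') =>
    tri_zero_of_self hS.s1 hS.s2 hW'.2 ha hb hc
  obtain ⟨x, hx⟩ := hF.coords
  have hx : Co W ![a3, a4, p] x := hx
  rw [hR.core hS hx (by simpa using iso' hp' hp' hb0) (by simpa using iso' hp' hp' hb1)]
  have he0 : e0 = a3 - w0 := by rw [h3]; abel
  have he1 : e1 = a4 - w1 := by rw [h4]; abel
  have hπa3 : π a3 = w0 := by rw [h3, map_add, hπ0, hπ w0 hw0, zero_add]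
  have hπa4 : π a4 = w1 := by rw [h4, map_add, hπ1, hπ w1 hw1, zero_add]
  have hπp : π p = p := hπ p hp'
  -- linear functionals
  let N : V → V → (V →ₗ[ℂ] ℂ) := fun b e => tl T b e ∘ₗ (LinearMap.id + π)
  have hN : ∀ b e v, N b e v = T (v + π v) b e := fun b e v => rfl
  let ω : V → ℂ := fun b => T w1 b a3 - T a4 b w0
  have hxx : ∀ v ∈ W, v = x 0 v • a3 + x 1 v • a4 + x 2 v • p := by
    intro v hv
    simpa using hx v hv
  -- the values of `N`
  have hv2 : ∀ v ∈ W, ∀ b e, N b e v = x 0 v * (T a3 b e + T w0 b e) +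
      x 1 v * (T a4 b e + T w1 b e) + 2 * x 2 v * T p b e := by
    intro v hv b e
    have e1 : v + π v = x 0 v • (a3 + w0) + x 1 v • (a4 + w1) + (2 * x 2 v) • p := by
      have : π v = x 0 v • w0 + x 1 v • w1 + x 2 v • p := by
        conv_lhs => rw [hxx v hv]
        simp only [map_add, map_smul, hπa3, hπa4, hπp]
      calc v + π v = (x 0 v • a3 + x 1 v • a4 + x 2 v • p) +
            (x 0 v • w0 + x 1 v • w1 + x 2 v • p) := by
            rw [this]; exact congrArg (· + _) (hxx v hv)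
        _ = _ := by module
    rw [hN, e1]
    simp only [map_add, map_smul, LinearMap.add_apply, LinearMap.smul_apply, smul_eq_mul]
  have hl : ∀ v ∈ W, ∀ a b, T (v + x 2 v • p) a b = x 0 v * T a3 a b + x 1 v * T a4 a b +
      2 * x 2 v * T p a b := by
    intro v hv a b
    have e1 : v + x 2 v • p = x 0 v • a3 + x 1 v • a4 + (2 * x 2 v) • p := by
      calc v + x 2 v • p = (x 0 v • a3 + x 1 v • a4 + x 2 v • p) + x 2 v • p :=
            congrArg (· + _) (hxx v hv)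
        _ = _ := by module
    rw [e1]
    simp only [map_add, map_smul, LinearMap.add_apply, LinearMap.smul_apply, smul_eq_mul]
  have r0 : ∀ v ∈ W, ∀ b ∈ W', N b e0 v = T (v + x 2 v • p) a3 b + x 1 v * ω b := by
    intro v hv b hb
    rw [hv2 v hv, hl v hv, he0]
    simp only [map_sub, ω]
    rw [iso' hw0 hb hw0, iso' hw1 hb hw0, iso' hp' hb hw0, hS.s2 w0 b a3, hS.s1 w0 a3 b,
      hS.s2 a3 w0 b, hS.s2 a3 b a3, hS.s2 a4 b a3, hS.s2 p b a3]
    ring
  have r1 : ∀ v ∈ W, ∀ b ∈ W', N b e1 v = T (v + x 2 v • p) a4 b - x 0 v * ω b := by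
    intro v hv b hb
    rw [hv2 v hv, hl v hv, he1]
    simp only [map_sub, ω]
    rw [iso' hw0 hb hw1, iso' hw1 hb hw1, iso' hp' hb hw1, hS.s2 w1 b a4, hS.s1 w1 a4 b,
      hS.s2 a4 w1 b, hS.s2 a3 b a4, hS.s2 a4 b a4, hS.s2 p b a4, hS.s2 w0 b a4, hS.s1 w0 a4 b,
      hS.s2 a4 w0 b, hS.s2 w1 b a3, hS.s1 w1 a3 b, hS.s2 a3 w1 b]
    ring
  -- the conics
  have hq : ∀ v ∈ W, ∀ b ∈ W', T v v b = x 0 v * T (v + x 2 v • p) a3 b +
      x 1 v * T (v + x 2 v • p) a4 b := by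
    intro v hv b hb
    have := quad_exp hS hx hv b
    simp only [Matrix.cons_val_zero, Matrix.cons_val_one, Matrix.cons_val] at this
    rw [this, hl v hv, hl v hv, iso' hp' hp' hb, hS.s1 p a3, hS.s1 p a4, hS.s1 a4 a3]
    ring
  have rp0 : ∀ v ∈ W, N p e0 v = x 1 v * ω p := by
    intro v hv
    rw [r0 v hv p hp', iso (W.add_mem hv (W.smul_mem _ hp)) ha3 hp, zero_add]
  have rp1 : ∀ v ∈ W, N p e1 v = - (x 0 v * ω p) := by
    intro v hv
    rw [r1 v hv p hp', iso (W.add_mem hv (W.smul_mem _ hp)) ha4 hp, zero_sub]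
  -- the identity
  let κ3 : ℂ := T a3 p g + T w0 p g
  let κ4 : ℂ := T a4 p g + T w1 p g
  let c : ℂ := T p p g
  let φ0 : V →ₗ[ℂ] ℂ := (-(2 * c * ω b1)) • x 2 + κ3 • N b1 e1 - κ4 • N b1 e0 + ω p • N b1 g
  let φ1 : V →ₗ[ℂ] ℂ := (2 * c * ω b0) • x 2 - κ3 • N b0 e1 + κ4 • N b0 e0 - ω p • N b0 g
  have key : ∀ v ∈ W, dd T ![b0, b1, p] ![e0, e1, g] (v + π v) =
      2 * c * (x 2 v * dl T ![a3, a4, p] ![b0, b1, g] (x 2) v) +
        (φ0 v * T v v b0 + φ1 v * T v v b1) := by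
    intro v hv
    have e1 : dd T ![b0, b1, p] ![e0, e1, g] (v + π v) =
        N p g v * (N b0 e0 v * N b1 e1 v - N b1 e0 v * N b0 e1 v) +
        N p e0 v * (N b0 e1 v * N b1 g v - N b1 e1 v * N b0 g v) -
        N p e1 v * (N b0 e0 v * N b1 g v - N b1 e0 v * N b0 g v) := by
      simp only [dd, mt, Matrix.det_fin_three, Matrix.of_apply, Matrix.cons_val_zero,
        Matrix.cons_val_one, Matrix.cons_val, hN]
      ring
    have e2 : N p g v = x 0 v * κ3 + x 1 v * κ4 + 2 * x 2 v * c := hv2 v hv p g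
    have e3 := hq v hv b0 hb0
    have e4 := hq v hv b1 hb1
    have e5 : dl T ![a3, a4, p] ![b0, b1, g] (x 2) v =
        T (v + x 2 v • p) a3 b0 * T (v + x 2 v • p) a4 b1 -
        T (v + x 2 v • p) a4 b0 * T (v + x 2 v • p) a3 b1 := by
      simp [dl]
    rw [e1, rp0 v hv, rp1 v hv, e2, e5, e3, e4]
    simp only [φ0, φ1, LinearMap.add_apply, LinearMap.sub_apply, LinearMap.smul_apply,
      smul_eq_mul]
    rw [r0 v hv b0 hb0, r0 v hv b1 hb1, r1 v hv b0 hb0, r1 v hv b1 hb1]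
    ring
  have h5 := hR.res (fun v => dd T ![b0, b1, p] ![e0, e1, g] (v + π v))
    ((2 * c) • (fun v => x 2 v * dl T ![a3, a4, p] ![b0, b1, g] (x 2) v) +
      ((fun v => φ0 v * T v v b0) + fun v => φ1 v * T v v b1)) key
  rw [h5, map_add, map_add, map_smul, hR.ideal, hR.ideal, smul_eq_mul]
  simp only [Matrix.cons_val]
  simp only [c]
  ring

end Vale.Agent.P287.H674
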