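import Vale.Agent.P287.H674.Lin

/-!
Lines on smooth cubic surfaces: a line has a skew line.
-/

namespace Vale.Agent.P287.H674

variable {V : Type*} [AddCommGroup V] [Module ℂ V]

/-- a basis of four vectors -/
structure IsB4 (a b c d : V) : Prop where
  ind : ∀ s t p q : ℂ, s • a + t • b + p • c + q • d = 0 → s = 0 ∧ t = 0 ∧ p = 0 ∧ q = 0
  span : ∀ x : V, ∃ s t p q : ℂ, x = s • a + t • b + p • c + q • d

variable {T : V →ₗ[ℂ] V →ₗ[ℂ] V →ₗ[ℂ] ℂ}

/-- a smooth cubic surface -/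
structure Sm (T : V →ₗ[ℂ] V →ₗ[ℂ] V →ₗ[ℂ] ℂ) : Prop where
  s1 : ∀ x y z, T x y z = T y x z
  s2 : ∀ x y z, T x y z = T x z y
  smooth : ∀ v, v ≠ 0 → ∃ w, T v v w ≠ 0

theorem Sm.nonsing (h : Sm T) {a b c d v : V} (hB : IsB4 a b c d) (hv : v ≠ 0)
    (h1 : T v v a = 0) (h2 : T v v b = 0) (h3 : T v v c = 0) : T v v d ≠ 0 := by
  intro h4
  obtain ⟨x, hx⟩ := h.smooth v hv
  obtain ⟨s, t, p, q, rfl⟩ := hB.span x
  apply hx
  simp [h1, h2, h3, h4]

/-- the discriminant of the residual conic -/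
noncomputable def disc (T : V →ₗ[ℂ] V →ₗ[ℂ] V →ₗ[ℂ] ℂ) (u1 u2 w : V) : ℂ :=
  4 * (T u1 u1 w * T u2 u2 w - T u1 u2 w ^ 2) * T w w w
    - 3 * (T u1 u1 w * T u2 w w ^ 2 - 2 * T u1 u2 w * T u1 w w * T u2 w w
      + T u2 u2 w * T u1 w w ^ 2)

/-- the residual conic in a plane with vanishing discriminant contains a line -/
theorem line_of_root (h : Sm T) {u1 u2 w w' : V} (hB : IsB4 u1 u2 w w')
    (l1 : T u1 u1 u1 = 0) (l2 : T u1 u1 u2 = 0) (l3 : T u1 u2 u2 = 0) (l4 : T u2 u2 u2 = 0)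
    (hd : disc T u1 u2 w = 0) :
    ∃ y1 y2 t1 t2 : ℂ, (y1, y2) ≠ 0 ∧ T (y1 • u1 + y2 • u2) (y1 • u1 + y2 • u2) w = 0 ∧
      T (y1 • u1 + y2 • u2) (w + (t1 • u1 + t2 • u2)) (w + (t1 • u1 + t2 • u2)) = 0 ∧
      T (w + (t1 • u1 + t2 • u2)) (w + (t1 • u1 + t2 • u2)) (w + (t1 • u1 + t2 • u2)) = 0 := by
  have c1 : T u2 u1 w = T u1 u2 w := h.s1 _ _ _
  have c2 : T u1 w u1 = T u1 u1 w := h.s2 _ _ _
  have c3 : T u1 w u2 = T u1 u2 w := h.s2 _ _ _
  have c4 : T u2 w u1 = T u1 u2 w := by rw [h.s2, h.s1]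
  have c5 : T u2 w u2 = T u2 u2 w := h.s2 _ _ _
  have c6 : T u1 u2 u1 = T u1 u1 u2 := h.s2 _ _ _
  have c7 : T u2 u1 u1 = T u1 u1 u2 := by rw [h.s1, h.s2]
  have c8 : T u2 u1 u2 = T u1 u2 u2 := h.s1 _ _ _
  have c9 : T u2 u2 u1 = T u1 u2 u2 := by rw [h.s2, h.s1]
  have c10 : T w u1 u1 = T u1 u1 w := by rw [h.s1, h.s2]
  have c11 : T w u1 u2 = T u1 u2 w := by rw [h.s1, h.s2]
  have c12 : T w u2 u1 = T u1 u2 w := by rw [h.s2, c11]
  have c13 : T w u2 u2 = T u2 u2 w := by rw [h.s1, h.s2]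
  have c14 : T w w u1 = T u1 w w := by rw [h.s2, h.s1]
  have c15 : T w w u2 = T u2 w w := by rw [h.s2, h.s1]
  have c16 : T w u1 w = T u1 w w := h.s1 _ _ _
  have c17 : T w u2 w = T u2 w w := h.s1 _ _ _
  have hM : (!![T u1 u1 w, T u1 u2 w, T u1 w w / 2; T u1 u2 w, T u2 u2 w, T u2 w w / 2;
      T u1 w w / 2, T u2 w w / 2, T w w w / 3] : Matrix (Fin 3) (Fin 3) ℂ).det = 0 := by
    rw [Matrix.det_fin_three]
    simp only [Matrix.of_apply, Matrix.cons_val', Matrix.cons_val_zero, Matrix.cons_val_one,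
      Matrix.cons_val]
    unfold disc at hd
    linear_combination hd / 12
  obtain ⟨r, hr, hr2⟩ := Matrix.exists_mulVec_eq_zero_iff.mpr hM
  have r1 : T u1 u1 w * r 0 + T u1 u2 w * r 1 + T u1 w w / 2 * r 2 = 0 := by
    simpa [Matrix.mulVec, dotProduct, Fin.sum_univ_three] using congrFun hr2 0
  have r2 : T u1 u2 w * r 0 + T u2 u2 w * r 1 + T u2 w w / 2 * r 2 = 0 := by
    simpa [Matrix.mulVec, dotProduct, Fin.sum_univ_three] using congrFun hr2 1
  have r3 : T u1 w w / 2 * r 0 + T u2 w w / 2 * r 1 + T w w w / 3 * r 2 = 0 := by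
    simpa [Matrix.mulVec, dotProduct, Fin.sum_univ_three] using congrFun hr2 2
  by_cases hr3 : r 2 = 0
  · rw [hr3] at r1 r2 r3
    have hr01 : (r 0, r 1) ≠ 0 := by
      intro e
      apply hr
      have e0 : r 0 = 0 := congrArg Prod.fst e
      have e1 : r 1 = 0 := congrArg Prod.snd e
      funext i
      fin_cases i
      · exact e0
      · exact e1
      · exact hr3
    -- a vector of the line on which the quadratic form does not vanish
    obtain ⟨p1, p2, hp⟩ : ∃ p1 p2 : ℂ, T u1 u1 w * p1 ^ 2 + 2 * T u1 u2 w * p1 * p2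
        + T u2 u2 w * p2 ^ 2 ≠ 0 := by
      by_contra hcon
      push Not at hcon
      have a1 : T u1 u1 w = 0 := by simpa using hcon 1 0
      have a2 : T u2 u2 w = 0 := by simpa using hcon 0 1
      have a3 : T u1 u2 w = 0 := by
        have := hcon 1 1
        rw [a1, a2] at this
        simpa using this
      obtain ⟨s, t, hst, hq⟩ := binary_quad (T u1 u1 w') (T u1 u2 w') (T u2 u2 w')
      have hne : s • u1 + t • u2 ≠ 0 := by
        intro e
        have := hB.ind s t 0 0 (by rw [zero_smul, zero_smul, add_zero, add_zero]; exact e)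
        exact hst (by rw [this.1, this.2.1]; rfl)
      have c18 : T u2 u1 w' = T u1 u2 w' := h.s1 _ _ _
      refine h.nonsing hB hne ?_ ?_ ?_ ?_
      · simp only [map_add, map_smul, LinearMap.add_apply, LinearMap.smul_apply, smul_eq_mul,
          c6, c7, c9, l1, l2, l3]
        ring
      · simp only [map_add, map_smul, LinearMap.add_apply, LinearMap.smul_apply, smul_eq_mul,
          c8, l2, l3, l4]
        ring
      · simp only [map_add, map_smul, LinearMap.add_apply, LinearMap.smul_apply, smul_eq_mul,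
          c1, a1, a2, a3]
        ring
      · simp only [map_add, map_smul, LinearMap.add_apply, LinearMap.smul_apply, smul_eq_mul, c18]
        linear_combination hq
    obtain ⟨τ, hτ⟩ := root2 (T u1 w w * p1 + T u2 w w * p2) (T w w w / 3) hp
    refine ⟨r 0, r 1, τ * p1, τ * p2, hr01, ?_, ?_, ?_⟩
    · simp only [map_add, map_smul, LinearMap.add_apply, LinearMap.smul_apply, smul_eq_mul, c1]
      linear_combination r 0 * r1 + r 1 * r2
    · simp only [map_add, map_smul, LinearMap.add_apply, LinearMap.smul_apply, smul_eq_mul,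
        c1, c2, c3, c4, c5, c6, c7, c8, c9, l1, l2, l3, l4]
      linear_combination 2 * r3 + 2 * τ * p1 * r1 + 2 * τ * p2 * r2
    · simp only [map_add, map_smul, LinearMap.add_apply, LinearMap.smul_apply, smul_eq_mul,
        c1, c2, c3, c4, c5, c6, c7, c8, c9, c10, c11, c12, c13, c14, c15, c16, c17,
        l1, l2, l3, l4]
      linear_combination 3 * hτ
  · obtain ⟨s, t, hst, hq⟩ := binary_quad (T u1 u1 w) (T u1 u2 w) (T u2 u2 w)
    refine ⟨s, t, r 0 / r 2, r 1 / r 2, hst, ?_, ?_, ?_⟩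
    · simp only [map_add, map_smul, LinearMap.add_apply, LinearMap.smul_apply, smul_eq_mul, c1]
      linear_combination hq
    · simp only [map_add, map_smul, LinearMap.add_apply, LinearMap.smul_apply, smul_eq_mul,
        c1, c2, c3, c4, c5, c6, c7, c8, c9, l1, l2, l3, l4]
      field_simp
      linear_combination 2 * s * r 2 * r1 + 2 * t * r 2 * r2
    · simp only [map_add, map_smul, LinearMap.add_apply, LinearMap.smul_apply, smul_eq_mul,
        c1, c2, c3, c4, c5, c6, c7, c8, c9, c10, c11, c12, c13, c14, c15, c16, c17,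
        l1, l2, l3, l4]
      field_simp
      linear_combination 3 * r 0 * r 2 * r1 + 3 * r 1 * r 2 * r2 + 3 * r 2 ^ 2 * r3

end Vale.Agent.P287.H674
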