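import Vale.Agent.P287.H674.Skew

/-!
Lines on smooth cubic surfaces: a line has a skew line (end).
-/

namespace Vale.Agent.P287.H674

open Polynomial in
theorem root5 {a : ℂ} (b c d e f : ℂ) (ha : a ≠ 0) :
    ∃ s : ℂ, a * s ^ 5 + b * s ^ 4 + c * s ^ 3 + d * s ^ 2 + e * s + f = 0 := by
  have hd : (C a * X ^ 5 + C b * X ^ 4 + C c * X ^ 3 + C d * X ^ 2 + C e * X + C f :
      ℂ[X]).degree ≠ 0 := by
    have : (C a * X ^ 5 + C b * X ^ 4 + C c * X ^ 3 + C d * X ^ 2 + C e * X + C f :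
      ℂ[X]).degree = 5 := by
      compute_degree!
    rw [this]; decide
  obtain ⟨s, hs⟩ := IsAlgClosed.exists_root _ hd
  exact ⟨s, by simpa using hs⟩

theorem quintic_root {f : ℂ → ℂ} {a b c d e g : ℂ}
    (hf : ∀ s, f s = a * s ^ 5 + b * s ^ 4 + c * s ^ 3 + d * s ^ 2 + e * s + g)
    (hab : a ≠ 0 ∨ b ≠ 0) : ∃ s, f s = 0 := by
  by_cases ha : a = 0
  · have hb : b ≠ 0 := by
      rcases hab with h | h
      · exact absurd ha h
      · exact h
    obtain ⟨s, hs⟩ := root4 c d e g hb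
    exact ⟨s, by rw [hf, ha]; linear_combination hs⟩
  · obtain ⟨s, hs⟩ := root5 b c d e g ha
    exact ⟨s, by rw [hf]; exact hs⟩

variable {V : Type*} [AddCommGroup V] [Module ℂ V]
variable {T : V →ₗ[ℂ] V →ₗ[ℂ] V →ₗ[ℂ] ℂ}

/-- the coefficients of the discriminant on a line of planes -/
theorem disc_shift (h : Sm T) (u1 u2 w w' : V) (s : ℂ) :
    disc T u1 u2 (w' + s • w) = disc T u1 u2 w * s ^ 5
    + (4 * ((T u1 u1 w' * T u2 u2 w + T u1 u1 w * T u2 u2 w' - 2 * T u1 u2 w' * T u1 u2 w)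
          * T w w w
        + (T u1 u1 w * T u2 u2 w - T u1 u2 w ^ 2) * (3 * T w w w'))
      - 3 * (T u1 u1 w' * T u2 w w ^ 2 + T u1 u1 w * (4 * T u2 w w' * T u2 w w)
        - 2 * (T u1 u2 w' * (T u1 w w * T u2 w w)
          + T u1 u2 w * (2 * T u1 w w' * T u2 w w + 2 * T u1 w w * T u2 w w'))
        + T u2 u2 w' * T u1 w w ^ 2 + T u2 u2 w * (4 * T u1 w w' * T u1 w w))) * s ^ 4
    + (4 * ((T u1 u1 w' * T u2 u2 w' - T u1 u2 w' ^ 2) * T w w w
        + (T u1 u1 w' * T u2 u2 w + T u1 u1 w * T u2 u2 w' - 2 * T u1 u2 w' * T u1 u2 w)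
          * (3 * T w w w')
        + (T u1 u1 w * T u2 u2 w - T u1 u2 w ^ 2) * (3 * T w w' w'))
      - 3 * (T u1 u1 w' * (4 * T u2 w w' * T u2 w w)
        + T u1 u1 w * (4 * T u2 w w' ^ 2 + 2 * T u2 w' w' * T u2 w w)
        - 2 * (T u1 u2 w' * (2 * T u1 w w' * T u2 w w + 2 * T u1 w w * T u2 w w')
          + T u1 u2 w * (T u1 w' w' * T u2 w w + 4 * T u1 w w' * T u2 w w'
            + T u1 w w * T u2 w' w'))
        + T u2 u2 w' * (4 * T u1 w w' * T u1 w w)
        + T u2 u2 w * (4 * T u1 w w' ^ 2 + 2 * T u1 w' w' * T u1 w w))) * s ^ 3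
    + (4 * ((T u1 u1 w' * T u2 u2 w' - T u1 u2 w' ^ 2) * (3 * T w w w')
        + (T u1 u1 w' * T u2 u2 w + T u1 u1 w * T u2 u2 w' - 2 * T u1 u2 w' * T u1 u2 w)
          * (3 * T w w' w')
        + (T u1 u1 w * T u2 u2 w - T u1 u2 w ^ 2) * T w' w' w')
      - 3 * (T u1 u1 w' * (4 * T u2 w w' ^ 2 + 2 * T u2 w' w' * T u2 w w)
        + T u1 u1 w * (4 * T u2 w' w' * T u2 w w')
        - 2 * (T u1 u2 w' * (T u1 w' w' * T u2 w w + 4 * T u1 w w' * T u2 w w'
            + T u1 w w * T u2 w' w')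
          + T u1 u2 w * (2 * T u1 w' w' * T u2 w w' + 2 * T u1 w w' * T u2 w' w'))
        + T u2 u2 w' * (4 * T u1 w w' ^ 2 + 2 * T u1 w' w' * T u1 w w)
        + T u2 u2 w * (4 * T u1 w' w' * T u1 w w'))) * s ^ 2
    + (4 * ((T u1 u1 w' * T u2 u2 w' - T u1 u2 w' ^ 2) * (3 * T w w' w')
        + (T u1 u1 w' * T u2 u2 w + T u1 u1 w * T u2 u2 w' - 2 * T u1 u2 w' * T u1 u2 w)
          * T w' w' w')
      - 3 * (T u1 u1 w' * (4 * T u2 w' w' * T u2 w w')
        + T u1 u1 w * T u2 w' w' ^ 2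
        - 2 * (T u1 u2 w' * (2 * T u1 w' w' * T u2 w w' + 2 * T u1 w w' * T u2 w' w')
          + T u1 u2 w * (T u1 w' w' * T u2 w' w'))
        + T u2 u2 w' * (4 * T u1 w' w' * T u1 w w')
        + T u2 u2 w * T u1 w' w' ^ 2)) * s
    + disc T u1 u2 w' := by
  have c1 : T u1 w' w = T u1 w w' := h.s2 _ _ _
  have c2 : T u2 w' w = T u2 w w' := h.s2 _ _ _
  have c3 : T w' w w = T w w w' := by rw [h.s1, h.s2]
  have c4 : T w w' w = T w w w' := h.s2 _ _ _
  have c5 : T w' w w' = T w w' w' := h.s1 _ _ _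
  have c6 : T w' w' w = T w w' w' := by rw [h.s2, h.s1]
  simp only [disc, map_add, map_smul, LinearMap.add_apply, LinearMap.smul_apply, smul_eq_mul,
    c1, c2, c3, c4, c5, c6]
  ring

/-- the second degenerate conic -/
theorem second_root (h : Sm T) {u1 u2 w w' : V} (hB : IsB4 u1 u2 w w')
    (l1 : T u1 u1 u1 = 0) (l2 : T u1 u1 u2 = 0)
    (m1 : T u1 u1 w = 0) (m2 : T u1 w w = 0) (m3 : T w w w = 0) :
    ∃ s : ℂ, disc T u1 u2 (w' + s • w) = 0 := by
  have c1 : T u1 w u1 = 0 := by rw [h.s2]; exact m1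
  have c2 : T w u1 u1 = 0 := by rw [h.s1]; exact c1
  have c3 : T w w u1 = 0 := by rw [h.s2, h.s1]; exact m2
  have c4 : T w u1 u2 = T u1 u2 w := by rw [h.s1, h.s2]
  have c5 : T u1 w u2 = T u1 u2 w := h.s2 _ _ _
  have c6 : T w w u2 = T u2 w w := by rw [h.s2, h.s1]
  have c7 : T w u1 w = 0 := by rw [h.s1]; exact m2
  have c8 : T w u1 w' = T u1 w w' := h.s1 _ _ _
  -- the vertex is nonzero
  have hvert : (T u2 w w, -2 * T u1 u2 w) ≠ 0 := by
    intro e
    have f2 : T u2 w w = 0 := congrArg Prod.fst e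
    have b0 : T u1 u2 w = 0 := by
      have : -2 * T u1 u2 w = 0 := congrArg Prod.snd e
      simpa using this
    obtain ⟨s, t, hst, hq⟩ := binary_quad (T u1 u1 w') (T u1 w w') (T w w w')
    have hne : s • u1 + t • w ≠ 0 := by
      intro e
      have := hB.ind s 0 t 0 (by rw [zero_smul, zero_smul, add_zero, add_zero]; exact e)
      exact hst (by rw [this.1, this.2.2.1]; rfl)
    refine h.nonsing hB hne ?_ ?_ ?_ ?_
    · simp only [map_add, map_smul, LinearMap.add_apply, LinearMap.smul_apply, smul_eq_mul,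
        l1, c1, c2, c3]
      ring
    · simp only [map_add, map_smul, LinearMap.add_apply, LinearMap.smul_apply, smul_eq_mul,
        l2, c4, c5, c6, b0, f2]
      ring
    · simp only [map_add, map_smul, LinearMap.add_apply, LinearMap.smul_apply, smul_eq_mul,
        m1, m2, m3, c7]
      ring
    · simp only [map_add, map_smul, LinearMap.add_apply, LinearMap.smul_apply, smul_eq_mul, c8]
      linear_combination hq
  have hne : (T u2 w w) • u1 + (-2 * T u1 u2 w) • w ≠ 0 := by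
    intro e
    have := hB.ind (T u2 w w) 0 (-2 * T u1 u2 w) 0
      (by rw [zero_smul, zero_smul, add_zero, add_zero]; exact e)
    exact hvert (by rw [this.1, this.2.2.1]; rfl)
  have key := h.nonsing hB hne
    (by
      simp only [map_add, map_smul, LinearMap.add_apply, LinearMap.smul_apply, smul_eq_mul,
        l1, c1, c2, c3]
      ring)
    (by
      simp only [map_add, map_smul, LinearMap.add_apply, LinearMap.smul_apply, smul_eq_mul,
        l2, c4, c5, c6]
      ring)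
    (by
      simp only [map_add, map_smul, LinearMap.add_apply, LinearMap.smul_apply, smul_eq_mul,
        m1, m2, m3, c7]
      ring)
  simp only [map_add, map_smul, LinearMap.add_apply, LinearMap.smul_apply, smul_eq_mul, c8] at key
  have hD4 : 4 * ((T u1 u1 w' * T u2 u2 w + T u1 u1 w * T u2 u2 w' - 2 * T u1 u2 w' * T u1 u2 w)
          * T w w w
        + (T u1 u1 w * T u2 u2 w - T u1 u2 w ^ 2) * (3 * T w w w'))
      - 3 * (T u1 u1 w' * T u2 w w ^ 2 + T u1 u1 w * (4 * T u2 w w' * T u2 w w)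
        - 2 * (T u1 u2 w' * (T u1 w w * T u2 w w)
          + T u1 u2 w * (2 * T u1 w w' * T u2 w w + 2 * T u1 w w * T u2 w w'))
        + T u2 u2 w' * T u1 w w ^ 2 + T u2 u2 w * (4 * T u1 w w' * T u1 w w)) ≠ 0 := by
    rw [m1, m2, m3]
    intro e
    apply key
    linear_combination -e / 3
  exact quintic_root (fun s => disc_shift h u1 u2 w w' s) (Or.inr hD4)

/-- the first degenerate conic -/
theorem first_root (h : Sm T) (u1 u2 w w' : V) (h0 : disc T u1 u2 w ≠ 0) :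
    ∃ s : ℂ, disc T u1 u2 (w' + s • w) = 0 := by
  exact quintic_root (fun s => disc_shift h u1 u2 w w' s) (Or.inl h0)

end Vale.Agent.P287.H674
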