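import Vale.Agent.P287.H674.Anti

/-!
Cubic fourfolds with an involution whose `-1`-eigenspace has dimension two.
-/

namespace Vale.Agent.P287.H674

open MvPolynomial

variable {V : Type*} [AddCommGroup V] [Module ℂ V]
variable {T : V →ₗ[ℂ] V →ₗ[ℂ] V →ₗ[ℂ] ℂ}

/-- the two eigenspaces of an involution whose `-1`-eigenspace `B` has dimension two -/
structure Sy (T : V →ₗ[ℂ] V →ₗ[ℂ] V →ₗ[ℂ] ℂ) (A B : Submodule ℂ V) : Prop extends Sm T where
  finA : Module.finrank ℂ A = 4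
  finB : Module.finrank ℂ B = 2
  top : ∀ v : V, ∃ a ∈ A, ∃ b ∈ B, v = a + b
  bot : ∀ v ∈ A, v ∈ B → v = 0
  aab : ∀ a ∈ A, ∀ a' ∈ A, ∀ b ∈ B, T a a' b = 0
  bbb : ∀ b ∈ B, ∀ b' ∈ B, ∀ b'' ∈ B, T b b' b'' = 0

theorem sy_of_inv (hS : Sm T) (hV : Module.finrank ℂ V = 6) {s : V →ₗ[ℂ] V}
    (hs : ∀ v, s (s v) = v) (hsT : ∀ x y z, T (s x) (s y) (s z) = T x y z)
    (h3 : Module.finrank ℂ (LinearMap.ker (s + LinearMap.id)) = 2) :
    Sy T (LinearMap.ker (s - LinearMap.id)) (LinearMap.ker (s + LinearMap.id)) := by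
  have hfin : Module.Finite ℂ V := Module.finite_of_finrank_pos (by omega)
  have memA : ∀ v, v ∈ LinearMap.ker (s - LinearMap.id) ↔ s v = v := by
    intro v
    rw [LinearMap.mem_ker, LinearMap.sub_apply, LinearMap.id_apply, sub_eq_zero]
  have memB : ∀ v, v ∈ LinearMap.ker (s + LinearMap.id) ↔ s v = - v := by
    intro v
    rw [LinearMap.mem_ker, LinearMap.add_apply, LinearMap.id_apply, add_eq_zero_iff_eq_neg]
  have hbot : ∀ v ∈ LinearMap.ker (s - LinearMap.id), v ∈ LinearMap.ker (s + LinearMap.id) →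
      v = 0 := by
    intro v h1 h2
    rw [memA] at h1
    rw [memB, h1] at h2
    have h4 : (2 : ℂ) • v = 0 := by
      have : (2 : ℂ) • v = v - (-v) := by module
      rw [this, ← h2, sub_self]
    simpa using h4
  have htop : ∀ v : V, ∃ a ∈ LinearMap.ker (s - LinearMap.id),
      ∃ b ∈ LinearMap.ker (s + LinearMap.id), v = a + b := by
    intro v
    refine ⟨(1 / 2 : ℂ) • (v + s v), ?_, (1 / 2 : ℂ) • (v - s v), ?_, by module⟩
    · rw [memA, map_smul, map_add, hs, add_comm]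
    · rw [memB, map_smul, map_sub, hs]; module
  refine ⟨hS, ?_, h3, htop, hbot, ?_, ?_⟩
  · have hc : IsCompl (LinearMap.ker (s - LinearMap.id)) (LinearMap.ker (s + LinearMap.id)) := by
      rw [isCompl_iff, Submodule.disjoint_def, Submodule.codisjoint_iff_exists_add_eq]
      refine ⟨hbot, fun v => ?_⟩
      obtain ⟨a, ha, b, hb, e⟩ := htop v
      exact ⟨a, b, ha, hb, e.symm⟩
    have := Submodule.finrank_add_eq_of_isCompl hc
    omega
  · intro a ha a' ha' b hb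
    have h1 := hsT a a' b
    rw [(memA a).mp ha, (memA a').mp ha', (memB b).mp hb, map_neg] at h1
    have : 2 * T a a' b = 0 := by linear_combination -h1
    simpa using this
  · intro a ha a' ha' b hb
    have h1 := hsT a a' b
    rw [(memB a).mp ha, (memB a').mp ha', (memB b).mp hb] at h1
    simp only [map_neg, LinearMap.neg_apply, neg_neg] at h1
    have : 2 * T a a' b = 0 := by linear_combination -h1
    simpa using this

namespace Sy

variable {A B : Submodule ℂ V}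

theorem nzB (h : Sy T A B) {b : V} (hb : b ∈ B) (h0 : b ≠ 0) : ∃ x ∈ A, T b b x ≠ 0 := by
  obtain ⟨w, hw⟩ := h.smooth b h0
  obtain ⟨x, hx, y, hy, rfl⟩ := h.top w
  refine ⟨x, hx, fun e => hw ?_⟩
  rw [map_add, e, h.bbb b hb b hb y hy, add_zero]

theorem cube (h : Sy T A B) {a b : V} (ha : a ∈ A) (hb : b ∈ B) :
    T (a + b) (a + b) (a + b) = T a a a + 3 * T b b a := by
  have z1 : T a a b = 0 := h.aab _ ha _ ha _ hb
  have z2 : T a b a = 0 := by rw [h.s2]; exact z1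
  have z3 : T b a a = 0 := by rw [h.s1]; exact z2
  have z4 : T b b b = 0 := h.bbb _ hb _ hb _ hb
  have z5 : T b a b = T b b a := h.s2 _ _ _
  have z6 : T a b b = T b b a := by rw [h.s1, h.s2]
  simp only [map_add, LinearMap.add_apply, z1, z2, z3, z4, z5, z6]
  ring

/-- a binary quadratic form is a product of two linear forms -/
theorem factor (α β γ : ℂ) (h : ¬ (α = 0 ∧ β = 0 ∧ γ = 0)) : ∃ g₀ g₁ k₀ k₁ : ℂ,
    g₀ * k₀ = α ∧ g₀ * k₁ + g₁ * k₀ = β ∧ g₁ * k₁ = γ := by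
  by_cases hα : α = 0
  · exact ⟨0, 1, β, γ, by rw [hα]; ring, by ring, by ring⟩
  · obtain ⟨δ, hδ⟩ := IsAlgClosed.exists_pow_nat_eq (β ^ 2 - 4 * α * γ) (n := 2) (by norm_num)
    refine ⟨α, (β + δ) / 2, 1, (β - δ) / (2 * α), by ring, by field_simp; ring, ?_⟩
    field_simp
    linear_combination -hδ

/-- either two reflections, or the quadratic forms of `B` are all obtained -/
theorem split (h : Sy T A B) {f₀ f₁ : V} (hf : IsB2 B f₀ f₁) :
    (∃ g k, IsB2 B g k ∧ ∀ x ∈ A, T g k x = 0) ∨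
    (∀ z : Fin 3 → ℂ, ∃ a ∈ A, T f₀ f₀ a = z 0 ∧ T f₀ f₁ a = z 1 ∧ T f₁ f₁ a = z 2) := by
  let κ : V →ₗ[ℂ] (Fin 3 → ℂ) := LinearMap.pi ![T f₀ f₀, T f₀ f₁, T f₁ f₁]
  by_cases htop : A.map κ = ⊤
  · right
    intro z
    have : z ∈ A.map κ := by rw [htop]; trivial
    obtain ⟨a, ha, hz⟩ := this
    exact ⟨a, ha, congrFun hz 0, congrFun hz 1, congrFun hz 2⟩
  · left
    obtain ⟨l, hl0, hl⟩ := Submodule.exists_le_ker_of_lt_top _ (lt_top_iff_ne_top.mpr htop)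
    set c : Fin 3 → ℂ := fun i => l (Pi.single i 1) with hc
    have hlz : ∀ z : Fin 3 → ℂ, l z = z 0 * c 0 + z 1 * c 1 + z 2 * c 2 := by
      intro z
      rw [LinearMap.pi_apply_eq_sum_univ l z, Fin.sum_univ_three]
      simp only [smul_eq_mul, hc]
      congr 4 <;> (try congr 1) <;> funext j <;> simp [Pi.single_apply, eq_comm]
    have hA : ∀ x ∈ A, T f₀ f₀ x * c 0 + T f₀ f₁ x * c 1 + T f₁ f₁ x * c 2 = 0 := by
      intro x hx
      have h1 : κ x ∈ A.map κ := ⟨x, hx, rfl⟩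
      have h2 := hl h1
      rw [LinearMap.mem_ker, hlz] at h2
      exact h2
    have hc0 : ¬ (c 0 = 0 ∧ c 1 = 0 ∧ c 2 = 0) := by
      rintro ⟨c0, c1, c2⟩
      apply hl0
      ext z
      simp [hlz, c0, c1, c2]
    obtain ⟨g₀, g₁, k₀, k₁, e0, e1, e2⟩ := factor _ _ _ hc0
    have hg : g₀ • f₀ + g₁ • f₁ ∈ B := B.add_mem (B.smul_mem _ hf.ha) (B.smul_mem _ hf.hb)
    have hk : k₀ • f₀ + k₁ • f₁ ∈ B := B.add_mem (B.smul_mem _ hf.ha) (B.smul_mem _ hf.hb)
    have hT : ∀ x ∈ A, T (g₀ • f₀ + g₁ • f₁) (k₀ • f₀ + k₁ • f₁) x = 0 := by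
      intro x hx
      have e3 : T f₁ f₀ x = T f₀ f₁ x := h.s1 _ _ _
      simp only [map_add, map_smul, LinearMap.add_apply, LinearMap.smul_apply, smul_eq_mul, e3]
      linear_combination hA x hx + T f₀ f₀ x * e0 + T f₀ f₁ x * e1 + T f₁ f₁ x * e2
    have hk0 : k₀ • f₀ + k₁ • f₁ ≠ 0 := by
      intro h0
      obtain ⟨h1, h2⟩ := hf.ind _ _ h0
      apply hc0
      refine ⟨?_, ?_, ?_⟩
      · rw [← e0, h1, mul_zero]
      · rw [← e1, h1, h2, mul_zero, mul_zero, add_zero]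
      · rw [← e2, h2, mul_zero]
    have hg0 : g₀ • f₀ + g₁ • f₁ ≠ 0 := by
      intro h0
      obtain ⟨h1, h2⟩ := hf.ind _ _ h0
      apply hc0
      refine ⟨?_, ?_, ?_⟩
      · rw [← e0, h1, zero_mul]
      · rw [← e1, h1, h2, zero_mul, zero_mul, add_zero]
      · rw [← e2, h2, zero_mul]
    have hdet : g₀ * k₁ - g₁ * k₀ ≠ 0 := by
      intro hd
      obtain ⟨x, hx, hx2⟩ := h.nzB hk hk0
      apply hx2
      have hT2 := hT x hx
      by_cases hk00 : k₀ = 0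
      · have hk1 : k₁ ≠ 0 := by
          intro h1
          apply hk0
          rw [hk00, h1]; simp
        have hg00 : g₀ = 0 := by
          rw [hk00] at hd
          have : g₀ * k₁ = 0 := by linear_combination hd
          exact (mul_eq_zero.mp this).resolve_right hk1
        have hg1 : g₁ ≠ 0 := by
          intro h1
          apply hg0
          rw [hg00, h1]; simp
        rw [hg00, hk00] at hT2
        simp only [zero_smul, zero_add, map_smul, LinearMap.smul_apply, smul_eq_mul] at hT2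
        have h4 : T f₁ f₁ x = 0 :=
          (mul_eq_zero.mp ((mul_eq_zero.mp hT2).resolve_left (by assumption))).resolve_left
            (by assumption)
        rw [hk00]
        simp [h4]
      · have hg00 : g₀ ≠ 0 := by
          intro h1
          apply hg0
          have : g₁ * k₀ = 0 := by rw [h1] at hd; linear_combination -hd
          rw [h1, (mul_eq_zero.mp this).resolve_right hk00]; simp
        have h5 : g₀ • f₀ + g₁ • f₁ = (g₀ / k₀) • (k₀ • f₀ + k₁ • f₁) := by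
          rw [smul_add, smul_smul, smul_smul, div_mul_cancel₀ _ hk00]
          congr 2
          field_simp
          linear_combination -hd
        rw [h5, map_smul, LinearMap.smul_apply, LinearMap.smul_apply, smul_eq_mul] at hT2
        exact (mul_eq_zero.mp hT2).resolve_left (div_ne_zero hg00 hk00)
    refine ⟨_, _, ⟨hg, hk, ?_, ?_⟩, hT⟩
    · intro s t hst
      have h1 : (s * g₀ + t * k₀) • f₀ + (s * g₁ + t * k₁) • f₁ = 0 := by
        rw [← hst]; module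
      obtain ⟨h2, h3⟩ := hf.ind _ _ h1
      constructor
      · apply mul_left_cancel₀ hdet
        linear_combination k₁ * h2 - k₀ * h3
      · apply mul_left_cancel₀ hdet
        linear_combination g₀ * h3 - g₁ * h2
    · intro x hx
      obtain ⟨s, t, rfl⟩ := hf.span x hx
      refine ⟨(s * k₁ - t * k₀) / (g₀ * k₁ - g₁ * k₀), (t * g₀ - s * g₁) / (g₀ * k₁ - g₁ * k₀), ?_⟩
      have e3 : s = (s * k₁ - t * k₀) / (g₀ * k₁ - g₁ * k₀) * g₀
          + (t * g₀ - s * g₁) / (g₀ * k₁ - g₁ * k₀) * k₀ := by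
        rw [div_mul_eq_mul_div, div_mul_eq_mul_div, ← add_div, eq_div_iff hdet]; ring
      have e4 : t = (s * k₁ - t * k₀) / (g₀ * k₁ - g₁ * k₀) * g₁
          + (t * g₀ - s * g₁) / (g₀ * k₁ - g₁ * k₀) * k₁ := by
        rw [div_mul_eq_mul_div, div_mul_eq_mul_div, ← add_div, eq_div_iff hdet]; ring
      conv_lhs => rw [e3, e4]
      module

/-- the kernel -/
theorem exists_v0 (h : Sy T A B) {f₀ f₁ : V}
    (hs : ∀ z : Fin 3 → ℂ, ∃ a ∈ A, T f₀ f₀ a = z 0 ∧ T f₀ f₁ a = z 1 ∧ T f₁ f₁ a = z 2) :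
    ∃ v₀ ∈ A, v₀ ≠ 0 ∧ T f₀ f₀ v₀ = 0 ∧ T f₀ f₁ v₀ = 0 ∧ T f₁ f₁ v₀ = 0 ∧
      ∀ a ∈ A, T f₀ f₀ a = 0 → T f₀ f₁ a = 0 → T f₁ f₁ a = 0 → ∃ c : ℂ, a = c • v₀ := by
  obtain ⟨a0, ha0, p0, p1, p2⟩ := hs ![1, 0, 0]
  obtain ⟨a1, ha1, q0, q1, q2⟩ := hs ![0, 1, 0]
  obtain ⟨a2, ha2, r0, r1, r2⟩ := hs ![0, 0, 1]
  simp at p0 p1 p2 q0 q1 q2 r0 r1 r2
  have f1 := finrank_inf_ker h.finA (T f₀ f₀) ha0 (by rw [p0]; exact one_ne_zero)
  have m1 : a1 ∈ A ⊓ LinearMap.ker (T f₀ f₀) := ⟨ha1, q0⟩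
  have f2 := finrank_inf_ker f1 (T f₀ f₁) m1 (by rw [q1]; exact one_ne_zero)
  have m2 : a2 ∈ A ⊓ LinearMap.ker (T f₀ f₀) ⊓ LinearMap.ker (T f₀ f₁) := ⟨⟨ha2, r0⟩, r1⟩
  have f3 := finrank_inf_ker f2 (T f₁ f₁) m2 (by rw [r2]; exact one_ne_zero)
  obtain ⟨v₀, hv⟩ := exists_IsB1 f3
  obtain ⟨⟨⟨m3, m4⟩, m5⟩, m6⟩ := hv.he
  exact ⟨v₀, m3, hv.ne, m4, m5, m6, fun a ha b0 b1 b2 => hv.span a ⟨⟨⟨ha, b0⟩, b1⟩, b2⟩⟩

end Sy

end Vale.Agent.P287.H674
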