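import Vale.Agent.P287.H674.Sy1

/-!
Cubic fourfolds with an involution whose `-1`-eigenspace has dimension two: the position of a
plane, and the case of two reflections.
-/

namespace Vale.Agent.P287.H674

open MvPolynomial

variable {V : Type*} [AddCommGroup V] [Module ℂ V]
variable {T : V →ₗ[ℂ] V →ₗ[ℂ] V →ₗ[ℂ] ℂ}

namespace Sy

variable {A B : Submodule ℂ V}

theorem zz (h : Sy T A B) {f₀ f₁ : V} (hf : IsB2 B f₀ f₁) {a : V} (h0 : T f₀ f₀ a = 0)
    (h1 : T f₀ f₁ a = 0) (h2 : T f₁ f₁ a = 0) {b b' : V} (hb : b ∈ B) (hb' : b' ∈ B) :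
    T b b' a = 0 := by
  obtain ⟨s, t, rfl⟩ := hf.span b hb
  obtain ⟨s', t', rfl⟩ := hf.span b' hb'
  have e3 : T f₁ f₀ a = T f₀ f₁ a := h.s1 _ _ _
  simp only [map_add, map_smul, LinearMap.add_apply, LinearMap.smul_apply, smul_eq_mul, e3, h0,
    h1, h2]
  ring

/-- a plane which meets `B` and is not stable meets `A` in a vertex -/
theorem stable (h : Sy T A B) {f₀ f₁ v₀ : V} (hf : IsB2 B f₀ f₁)
    (hker : ∀ a ∈ A, T f₀ f₀ a = 0 → T f₀ f₁ a = 0 → T f₁ f₁ a = 0 → ∃ c : ℂ, a = c • v₀)
    (hv3 : T v₀ v₀ v₀ ≠ 0) {W : Submodule ℂ V} (hW : Module.finrank ℂ W = 3)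
    (hWT : ∀ w ∈ W, T w w w = 0) {y : V} (hyW : y ∈ W) (hyB : y ∈ B) (hy0 : y ≠ 0)
    {a b : V} (ha : a ∈ A) (hb : b ∈ B) (hab : a + b ∈ W) : b ∈ W := by
  by_contra hbW
  have hW3 : ∀ {p q r : V}, p ∈ W → q ∈ W → r ∈ W → T p q r = 0 := fun hp hq hr =>
    tri_zero_of_self h.s1 h.s2 hWT hp hq hr
  -- `y, b` is a basis of `B`
  have hind : ∀ s t : ℂ, s • y + t • b = 0 → s = 0 ∧ t = 0 := by
    intro s t hst
    have ht : t = 0 := by
      by_contra ht
      apply hbW
      have : b = (-(s / t)) • y := by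
        have h1 : t • b = (-s) • y := by
          rw [← sub_eq_zero, ← hst]; module
        have h2 : b = t⁻¹ • (t • b) := by rw [smul_smul, inv_mul_cancel₀ ht, one_smul]
        rw [h2, h1, smul_smul]
        congr 1
        field_simp
      rw [this]
      exact W.smul_mem _ hyW
    rw [ht, zero_smul, add_zero] at hst
    exact ⟨(smul_eq_zero.mp hst).resolve_right hy0, ht⟩
  have hfinB : Module.Finite ℂ B := Module.finite_of_finrank_pos (by rw [h.finB]; omega)
  have hspan : ∀ x ∈ B, ∃ s t : ℂ, x = s • y + t • b := by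
    have hli : LinearIndependent ℂ ![(⟨y, hyB⟩ : B), ⟨b, hb⟩] := by
      rw [LinearIndependent.pair_iff]
      intro s t hst
      exact hind s t (congrArg Subtype.val hst)
    intro x hx
    have h1 := hli.span_eq_top_of_card_eq_finrank' (by simp [h.finB])
    have h2 : (⟨x, hx⟩ : B) ∈ Submodule.span ℂ (Set.range ![(⟨y, hyB⟩ : B), ⟨b, hb⟩]) := by
      rw [h1]; trivial
    rw [Matrix.range_cons, Matrix.range_cons, Matrix.range_empty, Set.union_empty,
      Set.singleton_union, Submodule.mem_span_pair] at h2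
    obtain ⟨s, t, hst⟩ := h2
    exact ⟨s, t, (congrArg Subtype.val hst).symm⟩
  -- a vector of `A` on which `T y y`, `T y b`, `T b b` vanish is a multiple of `v₀`
  have hker' : ∀ x ∈ A, T y y x = 0 → T y b x = 0 → T b b x = 0 → ∃ c : ℂ, x = c • v₀ := by
    intro x hx h0 h1 h2
    have hyb : IsB2 B y b := ⟨hyB, hb, hind, hspan⟩
    exact hker x hx (zz h hyb h0 h1 h2 hf.ha hf.ha) (zz h hyb h0 h1 h2 hf.ha hf.hb)
      (zz h hyb h0 h1 h2 hf.hb hf.hb)
  -- the vector `v` of `W ∩ A`
  obtain ⟨v, hvW, hvA, hv0⟩ : ∃ v ∈ W, v ∈ A ∧ v ≠ 0 := by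
    have hfin : Module.Finite ℂ W := Module.finite_of_finrank_pos (by omega)
    -- the projection to `B`
    by_contra hcon
    push Not at hcon
    have hdis : Disjoint W A := by
      rw [Submodule.disjoint_def]
      intro x hx hxA
      by_contra hx0
      exact hx0 (hcon x hx hxA)
    have hfinA : Module.Finite ℂ A := Module.finite_of_finrank_pos (by rw [h.finA]; omega)
    have hVtop : (⊤ : Submodule ℂ V) = A ⊔ B := by
      symm
      rw [Submodule.eq_top_iff']
      intro x
      obtain ⟨a, ha, b, hb, rfl⟩ := h.top x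
      exact Submodule.add_mem_sup ha hb
    have hfinV : Module.Finite ℂ V := by
      rw [Module.finite_def, hVtop]
      exact (Module.Finite.iff_fg.mp hfinA).sup (Module.Finite.iff_fg.mp hfinB)
    have h1 : Module.finrank ℂ V = 6 := by
      have h2 := Submodule.finrank_sup_add_finrank_inf_eq A B
      have h3 : A ⊓ B = ⊥ := by
        rw [Submodule.eq_bot_iff]
        rintro x ⟨hx1, hx2⟩
        exact h.bot x hx1 hx2
      rw [h3, finrank_bot, ← hVtop, finrank_top, h.finA, h.finB] at h2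
      omega
    have h2 := Submodule.finrank_add_finrank_le_of_disjoint hdis
    rw [hW, h.finA, h1] at h2
    omega
  -- the relations
  have r1 : T y y a = 0 := by
    have h1 := hW3 hyW hyW hab
    rw [map_add, h.bbb _ hyB _ hyB _ hb, add_zero] at h1
    exact h1
  have r2 : T y b a = 0 := by
    have h1 := hW3 hyW hab hab
    have e1 : T y a a = 0 := by
      rw [h.s1, h.s2]; exact h.aab _ ha _ ha _ hyB
    have e2 : T y a b = T y b a := h.s2 _ _ _
    simp only [map_add, LinearMap.add_apply, e1, e2, h.bbb _ hyB _ hb _ hb] at h1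
    have : 2 * T y b a = 0 := by linear_combination h1
    simpa using this
  have r3 : T y y v = 0 := hW3 hyW hyW hvW
  have r4 : T y b v = 0 := by
    have h1 := hW3 hyW hab hvW
    have e1 : T y a v = 0 := by
      rw [h.s1, h.s2]; exact h.aab _ ha _ hvA _ hyB
    rw [map_add, LinearMap.add_apply, e1, zero_add] at h1
    exact h1
  -- the combination
  set p := T b b v with hp
  set q := T b b a with hq
  have hx : q • v - p • a ∈ A := A.sub_mem (A.smul_mem _ hvA) (A.smul_mem _ ha)
  obtain ⟨c, hc⟩ := hker' _ hx (by simp [r1, r3]) (by simp [r2, r4]) (by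
    simp only [map_sub, map_smul, smul_eq_mul, ← hp, ← hq]; ring)
  have hx0 : q • v - p • a = 0 := by
    have h1 : (q • v - p • a) + (-p) • b ∈ W := by
      have : (q • v - p • a) + (-p) • b = q • v - p • (a + b) := by module
      rw [this]
      exact W.sub_mem (W.smul_mem _ hvW) (W.smul_mem _ hab)
    have h2 := hWT _ h1
    rw [h.cube hx (B.smul_mem _ hb)] at h2
    have h3 : T ((-p) • b) ((-p) • b) (q • v - p • a) = 0 := by
      simp only [map_sub, map_smul, LinearMap.smul_apply, smul_eq_mul, ← hp, ← hq]; ring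
    rw [h3, mul_zero, add_zero, hc] at h2
    simp only [map_smul, LinearMap.smul_apply, smul_eq_mul] at h2
    have h4 : c = 0 := by
      by_contra h5
      rcases mul_eq_zero.mp h2 with h6 | h6
      · exact h5 h6
      · rcases mul_eq_zero.mp h6 with h7 | h7
        · exact h5 h7
        · rcases mul_eq_zero.mp h7 with h8 | h8
          · exact h5 h8
          · exact hv3 h8
    rw [hc, h4, zero_smul]
  by_cases hp0 : p = 0
  · -- then `v` is a multiple of `v₀`
    obtain ⟨c', hc'⟩ := hker' v hvA r3 r4 hp0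
    have h1 := hWT v hvW
    rw [hc'] at h1
    simp only [map_smul, LinearMap.smul_apply, smul_eq_mul] at h1
    apply hv0
    have h4 : c' = 0 := by
      by_contra h5
      rcases mul_eq_zero.mp h1 with h6 | h6
      · exact h5 h6
      · rcases mul_eq_zero.mp h6 with h7 | h7
        · exact h5 h7
        · rcases mul_eq_zero.mp h7 with h8 | h8
          · exact h5 h8
          · exact hv3 h8
    rw [hc', h4, zero_smul]
  · apply hbW
    have h1 : a = (q / p) • v := by
      have h2 : p • a = q • v := (sub_eq_zero.mp hx0).symm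
      have h3 : a = p⁻¹ • (p • a) := by rw [smul_smul, inv_mul_cancel₀ hp0, one_smul]
      rw [h3, h2, smul_smul]
      congr 1
      field_simp
    have h2 : a ∈ W := by rw [h1]; exact W.smul_mem _ hvW
    have h3 : b = (a + b) - a := by abel
    rw [h3]
    exact W.sub_mem hab h2

end Sy

/-- two reflections -/
theorem two_reflections {F : MvPolynomial (Fin 6) ℂ} (hF : SmoothCubic F)
    {A B : Submodule ℂ (Fin 6 → ℂ)} (h : Sy (tri F) A B)
    {s : (Fin 6 → ℂ) →ₗ[ℂ] (Fin 6 → ℂ)} (hs : ∀ v, s (s v) = v)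
    (hsF : ∀ v, eval (s v) F = eval v F) (hsA : ∀ a ∈ A, s a = a) (hsB : ∀ b ∈ B, s b = - b)
    {g k : Fin 6 → ℂ} (hgk : IsB2 B g k) (h0 : ∀ x ∈ A, tri F g k x = 0) :
    TwoDisjointPlanes F := by
  have hgU : g ∉ A ⊔ Submodule.span ℂ {k} := by
    intro hg
    obtain ⟨a, ha, y, hy, hay⟩ := Submodule.mem_sup.mp hg
    obtain ⟨t, rfl⟩ := Submodule.mem_span_singleton.mp hy
    have h1 : a = g - t • k := by rw [← hay]; abel
    have h2 : a = 0 := h.bot a ha (by
      rw [h1]; exact B.sub_mem hgk.ha (B.smul_mem _ hgk.hb))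
    have h3 := (hgk.ind 1 (-t) (by rw [← h2, h1]; module)).1
    exact one_ne_zero h3
  obtain ⟨l, hl0, hl⟩ := Submodule.exists_le_ker_of_notMem hgU
  have hlA : ∀ a ∈ A, l a = 0 := fun a ha => hl (Submodule.mem_sup_left ha)
  have hlk : l k = 0 := hl (Submodule.mem_sup_right (Submodule.mem_span_singleton_self k))
  let r : (Fin 6 → ℂ) →ₗ[ℂ] (Fin 6 → ℂ) :=
    LinearMap.id - (2 * (l g)⁻¹) • (l.smulRight g)
  have hr : ∀ a ∈ A, ∀ β γ : ℂ, r (a + (β • g + γ • k)) = a + ((-β) • g + γ • k) := by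
    intro a ha β γ
    simp only [r, LinearMap.sub_apply, LinearMap.id_apply, LinearMap.smul_apply,
      LinearMap.smulRight_apply, map_add, map_smul, hlA a ha, hlk, smul_eq_mul, mul_zero,
      add_zero, zero_add]
    have : (2 * (l g)⁻¹) • l g • g = (2 : ℂ) • g := by
      rw [smul_smul]; congr 1; field_simp
    rw [this]; module
  have hdec : ∀ v : Fin 6 → ℂ, ∃ a ∈ A, ∃ β γ : ℂ, v = a + (β • g + γ • k) := by
    intro v
    obtain ⟨a, ha, b, hb, rfl⟩ := h.top v
    obtain ⟨β, γ, rfl⟩ := hgk.span b hb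
    exact ⟨a, ha, β, γ, rfl⟩
  have hrr : ∀ v, r (r v) = v := by
    intro v
    obtain ⟨a, ha, β, γ, rfl⟩ := hdec v
    rw [hr a ha, hr a ha, neg_neg]
  have hmem : ∀ β γ : ℂ, β • g + γ • k ∈ B := fun β γ =>
    B.add_mem (B.smul_mem _ hgk.ha) (B.smul_mem _ hgk.hb)
  have hrF : ∀ v, eval (r v) F = eval v F := by
    intro v
    obtain ⟨a, ha, β, γ, rfl⟩ := hdec v
    rw [hr a ha, ← tri_self hF.1, ← tri_self hF.1, h.cube ha (hmem _ _), h.cube ha (hmem _ _)]
    have e1 : tri F k g a = 0 := by rw [h.s1]; exact h0 a ha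
    simp only [map_add, map_smul, LinearMap.add_apply, LinearMap.smul_apply, smul_eq_mul,
      h0 a ha, e1]
    ring
  have hS : Sm (tri F) := h.toSm
  have hg0 : g ≠ 0 := by
    rintro rfl
    exact hl0 (map_zero l)
  have hdet : LinearMap.det r = -1 := by
    have h1 := det_inv hS (s := r) hrr (tri_inv hF.1 hrF)
    have h2 : LinearMap.ker (r + LinearMap.id) = Submodule.span ℂ {g} := by
      ext v
      rw [LinearMap.mem_ker, LinearMap.add_apply, LinearMap.id_apply,
        Submodule.mem_span_singleton]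
      constructor
      · intro hv
        obtain ⟨a, ha, β, γ, rfl⟩ := hdec v
        rw [hr a ha] at hv
        have h3 : a + (0 • g + γ • k) = 0 := by
          have h4 : (2 : ℂ) • (a + (0 • g + γ • k)) = 0 := by rw [← hv]; module
          exact (smul_eq_zero.mp h4).resolve_left two_ne_zero
        have h5 : a = -(γ • k) := by
          rw [zero_smul, zero_add] at h3
          exact eq_neg_of_add_eq_zero_left h3
        have h6 : a = 0 := h.bot a ha (by rw [h5]; exact B.neg_mem (B.smul_mem _ hgk.hb))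
        refine ⟨β, ?_⟩
        rw [h6, zero_smul, zero_add, zero_add] at h3
        rw [h6, h3]; simp
      · rintro ⟨β, rfl⟩
        have h3 := hr 0 A.zero_mem β 0
        rw [zero_add, zero_smul, add_zero, zero_add, add_zero] at h3
        rw [h3]; module
    rw [h1, h2, finrank_span_singleton hg0]; norm_num
  apply twoPlanes_of hF.1
  refine klein hF hrr hs ?_ hrF hsF hdet ?_ ?_
  · intro v
    obtain ⟨a, ha, β, γ, rfl⟩ := hdec v
    have e1 : s (a + (β • g + γ • k)) = a + ((-β) • g + (-γ) • k) := by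
      rw [map_add, hsA a ha, hsB _ (hmem β γ)]; module
    rw [e1, hr a ha, hr a ha, map_add, hsA a ha, hsB _ (hmem _ _)]; module
  · refine ⟨g, fun e => hg0 ?_⟩
    rw [hsB g hgk.ha] at e
    have : (2 : ℂ) • g = 0 := by
      have : (2 : ℂ) • g = g - (-g) := by module
      rw [this, e, sub_self]
    exact (smul_eq_zero.mp this).resolve_left two_ne_zero
  · refine ⟨k, fun e => ?_⟩
    have h3 := hr 0 A.zero_mem 0 1
    have h4 : (0 : Fin 6 → ℂ) + ((0 : ℂ) • g + (1 : ℂ) • k) = k := by module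
    have h5 : (0 : Fin 6 → ℂ) + ((-0 : ℂ) • g + (1 : ℂ) • k) = k := by module
    rw [h4, h5] at h3
    rw [hsB k hgk.hb, h3] at e
    have h6 : (2 : ℂ) • k = 0 := by
      have : (2 : ℂ) • k = k - (-k) := by module
      rw [this, e, sub_self]
    have h7 := (smul_eq_zero.mp h6).resolve_left two_ne_zero
    have h8 := (hgk.ind 0 1 (by rw [h7]; simp)).2
    exact one_ne_zero h8

end Vale.Agent.P287.H674
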