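import Vale.Agent.P287.H674.Sy2
import Vale.Agent.P287.H583.LeafF2
import Vale.Agent.P287.H673.FB
import Vale.Agent.P287.H46.Comp
import Vale.Agent.P287.H46.H34

/-!
A smooth cubic fourfold with a symplectic involution and a plane which is not stable under it
is rational.
-/

namespace Vale.Agent.P287.H674

open MvPolynomial

namespace Sy

variable {A B : Submodule ℂ (Fin 6 → ℂ)} {F : MvPolynomial (Fin 6) ℂ}

/-- independence of the adapted vectors -/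
theorem ind6 (h : Sy (tri F) A B) {f₀ f₁ v₀ : Fin 6 → ℂ} (hf : IsB2 B f₀ f₁) (hvA : v₀ ∈ A)
    (hv0 : v₀ ≠ 0) (k0 : tri F f₀ f₀ v₀ = 0) (k1 : tri F f₀ f₁ v₀ = 0) (k2 : tri F f₁ f₁ v₀ = 0)
    {e : Fin 3 → (Fin 6 → ℂ)} (heA : ∀ i, e i ∈ A) {m : Fin 3 → ℂ} (hm : ∀ i, m i ≠ 0)
    (e00 : tri F f₀ f₀ (e 0) = m 0 ∧ tri F f₀ f₁ (e 0) = 0 ∧ tri F f₁ f₁ (e 0) = 0)
    (e11 : tri F f₀ f₀ (e 1) = 0 ∧ tri F f₀ f₁ (e 1) = m 1 ∧ tri F f₁ f₁ (e 1) = 0)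
    (e22 : tri F f₀ f₀ (e 2) = 0 ∧ tri F f₀ f₁ (e 2) = 0 ∧ tri F f₁ f₁ (e 2) = m 2)
    {x z0 z1 z2 y0 y1 : ℂ}
    (hx : x • v₀ + z0 • e 0 + z1 • e 1 + z2 • e 2 + y0 • f₀ + y1 • f₁ = 0) :
    x = 0 ∧ z0 = 0 ∧ z1 = 0 ∧ z2 = 0 ∧ y0 = 0 ∧ y1 = 0 := by
  have hA : x • v₀ + z0 • e 0 + z1 • e 1 + z2 • e 2 ∈ A :=
    A.add_mem (A.add_mem (A.add_mem (A.smul_mem _ hvA) (A.smul_mem _ (heA 0)))
      (A.smul_mem _ (heA 1))) (A.smul_mem _ (heA 2))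
  have h1 : x • v₀ + z0 • e 0 + z1 • e 1 + z2 • e 2 = -(y0 • f₀ + y1 • f₁) := by
    rw [← sub_eq_zero, ← hx]; module
  have h2 : x • v₀ + z0 • e 0 + z1 • e 1 + z2 • e 2 = 0 := h.bot _ hA (by
    rw [h1]
    exact B.neg_mem (B.add_mem (B.smul_mem _ hf.ha) (B.smul_mem _ hf.hb)))
  have h3 : y0 • f₀ + y1 • f₁ = 0 := by
    rw [h2] at h1
    exact neg_eq_zero.mp h1.symm
  obtain ⟨c0, c1⟩ := hf.ind _ _ h3
  have g0 := congrArg (tri F f₀ f₀) h2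
  have g1 := congrArg (tri F f₀ f₁) h2
  have g2 := congrArg (tri F f₁ f₁) h2
  simp only [map_add, map_smul, map_zero, smul_eq_mul, k0, k1, k2, e00.1, e00.2.1, e00.2.2,
    e11.1, e11.2.1, e11.2.2, e22.1, e22.2.1, e22.2.2, mul_zero, add_zero, zero_add] at g0 g1 g2
  have d0 := (mul_eq_zero.mp g0).resolve_right (hm 0)
  have d1 := (mul_eq_zero.mp g1).resolve_right (hm 1)
  have d2 := (mul_eq_zero.mp g2).resolve_right (hm 2)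
  rw [d0, d1, d2, zero_smul, zero_smul, zero_smul, add_zero, add_zero, add_zero] at h2
  exact ⟨(smul_eq_zero.mp h2).resolve_right hv0, d0, d1, d2, c0, c1⟩

/-- the value of `F` in adapted coordinates -/
theorem evalF (h : Sy (tri F) A B) (hF : SmoothCubic F) {f₀ f₁ v₀ : Fin 6 → ℂ}
    (hf : IsB2 B f₀ f₁) (hvA : v₀ ∈ A)
    (k0 : tri F f₀ f₀ v₀ = 0) (k1 : tri F f₀ f₁ v₀ = 0) (k2 : tri F f₁ f₁ v₀ = 0)
    {e : Fin 3 → (Fin 6 → ℂ)} (heA : ∀ i, e i ∈ A)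
    (e00 : tri F f₀ f₀ (e 0) = 1 / 3 ∧ tri F f₀ f₁ (e 0) = 0 ∧ tri F f₁ f₁ (e 0) = 0)
    (e11 : tri F f₀ f₀ (e 1) = 0 ∧ tri F f₀ f₁ (e 1) = 1 / 6 ∧ tri F f₁ f₁ (e 1) = 0)
    (e22 : tri F f₀ f₀ (e 2) = 0 ∧ tri F f₀ f₁ (e 2) = 0 ∧ tri F f₁ f₁ (e 2) = 1 / 3)
    (x z0 z1 z2 y0 y1 : ℂ) :
    eval (x • v₀ + z0 • e 0 + z1 • e 1 + z2 • e 2 + y0 • f₀ + y1 • f₁) F =
      x ^ 3 * tri F v₀ v₀ v₀ + 3 * x ^ 2 * tri F v₀ v₀ (vec e ![z0, z1, z2])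
      + 3 * x * tri F v₀ (vec e ![z0, z1, z2]) (vec e ![z0, z1, z2])
      + tri F (vec e ![z0, z1, z2]) (vec e ![z0, z1, z2]) (vec e ![z0, z1, z2])
      + (z0 * y0 ^ 2 + z1 * y0 * y1 + z2 * y1 ^ 2) := by
  set ζ := vec e ![z0, z1, z2] with hζ
  have hζ' : ζ = z0 • e 0 + z1 • e 1 + z2 • e 2 := rfl
  have hA : x • v₀ + ζ ∈ A := by
    rw [hζ']
    exact A.add_mem (A.smul_mem _ hvA) (A.add_mem (A.add_mem (A.smul_mem _ (heA 0))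
      (A.smul_mem _ (heA 1))) (A.smul_mem _ (heA 2)))
  have hB : y0 • f₀ + y1 • f₁ ∈ B := B.add_mem (B.smul_mem _ hf.ha) (B.smul_mem _ hf.hb)
  have h1 : x • v₀ + z0 • e 0 + z1 • e 1 + z2 • e 2 + y0 • f₀ + y1 • f₁ =
      (x • v₀ + ζ) + (y0 • f₀ + y1 • f₁) := by rw [hζ']; abel
  rw [h1, ← tri_self hF.1, h.cube hA hB]
  have h2 : tri F (y0 • f₀ + y1 • f₁) (y0 • f₀ + y1 • f₁) (x • v₀ + ζ) =
      (z0 * y0 ^ 2 + z1 * y0 * y1 + z2 * y1 ^ 2) / 3 := by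
    have e3 : ∀ a, tri F f₁ f₀ a = tri F f₀ f₁ a := fun a => h.s1 _ _ _
    rw [hζ']
    simp only [map_add, map_smul, LinearMap.add_apply, LinearMap.smul_apply, smul_eq_mul, e3,
      k0, k1, k2, e00.1, e00.2.1, e00.2.2, e11.1, e11.2.1, e11.2.2, e22.1, e22.2.1, e22.2.2]
    ring
  have h3 : tri F (x • v₀ + ζ) (x • v₀ + ζ) (x • v₀ + ζ) =
      x ^ 3 * tri F v₀ v₀ v₀ + 3 * x ^ 2 * tri F v₀ v₀ ζ + 3 * x * tri F v₀ ζ ζ + tri F ζ ζ ζ := by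
    have e1 : tri F v₀ ζ v₀ = tri F v₀ v₀ ζ := h.s2 _ _ _
    have e2 : tri F ζ v₀ v₀ = tri F v₀ v₀ ζ := by rw [h.s1, h.s2]
    have e4 : tri F ζ v₀ ζ = tri F v₀ ζ ζ := h.s1 _ _ _
    have e5 : tri F ζ ζ v₀ = tri F v₀ ζ ζ := by rw [h.s2, h.s1]
    simp only [map_add, map_smul, LinearMap.add_apply, LinearMap.smul_apply, smul_eq_mul, e1, e2,
      e4, e5]
    ring
  rw [h2, h3]; ring

/-- adapted vectors -/
structure Ad (F : MvPolynomial (Fin 6) ℂ) (A : Submodule ℂ (Fin 6 → ℂ)) (f₀ f₁ v₀ : Fin 6 → ℂ)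
    (e : Fin 3 → (Fin 6 → ℂ)) : Prop where
  vA : v₀ ∈ A
  v0 : v₀ ≠ 0
  k0 : tri F f₀ f₀ v₀ = 0
  k1 : tri F f₀ f₁ v₀ = 0
  k2 : tri F f₁ f₁ v₀ = 0
  eA : ∀ i, e i ∈ A
  e00 : tri F f₀ f₀ (e 0) = 1 / 3 ∧ tri F f₀ f₁ (e 0) = 0 ∧ tri F f₁ f₁ (e 0) = 0
  e11 : tri F f₀ f₀ (e 1) = 0 ∧ tri F f₀ f₁ (e 1) = 1 / 6 ∧ tri F f₁ f₁ (e 1) = 0
  e22 : tri F f₀ f₀ (e 2) = 0 ∧ tri F f₀ f₁ (e 2) = 0 ∧ tri F f₁ f₁ (e 2) = 1 / 3

theorem mkAd {f₀ f₁ v₀ a0 a1 a2 : Fin 6 → ℂ} (hvA : v₀ ∈ A) (hv0 : v₀ ≠ 0)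
    (k0 : tri F f₀ f₀ v₀ = 0) (k1 : tri F f₀ f₁ v₀ = 0) (k2 : tri F f₁ f₁ v₀ = 0)
    (ha0 : a0 ∈ A) (ha1 : a1 ∈ A) (ha2 : a2 ∈ A)
    (p0 : tri F f₀ f₀ a0 = 1 / 3) (p1 : tri F f₀ f₁ a0 = 0) (p2 : tri F f₁ f₁ a0 = 0)
    (q0 : tri F f₀ f₀ a1 = 0) (q1 : tri F f₀ f₁ a1 = 1 / 6) (q2 : tri F f₁ f₁ a1 = 0)
    (r0 : tri F f₀ f₀ a2 = 0) (r1 : tri F f₀ f₁ a2 = 0) (r2 : tri F f₁ f₁ a2 = 1 / 3) :
    Ad F A f₀ f₁ v₀ ![a0, a1, a2] := by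
  have e0 : (![a0, a1, a2] : Fin 3 → (Fin 6 → ℂ)) 0 = a0 := rfl
  have e1 : (![a0, a1, a2] : Fin 3 → (Fin 6 → ℂ)) 1 = a1 := rfl
  have e2 : (![a0, a1, a2] : Fin 3 → (Fin 6 → ℂ)) 2 = a2 := rfl
  refine ⟨hvA, hv0, k0, k1, k2, ?_, ?_, ?_, ?_⟩
  · intro i; fin_cases i
    · exact ha0
    · exact ha1
    · exact ha2
  · rw [e0]; exact ⟨p0, p1, p2⟩
  · rw [e1]; exact ⟨q0, q1, q2⟩
  · rw [e2]; exact ⟨r0, r1, r2⟩

theorem basis_B (h : Sy (tri F) A B) {f₀ f₁ v₀ : Fin 6 → ℂ} (hf : IsB2 B f₀ f₁)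
    {e : Fin 3 → (Fin 6 → ℂ)} (hA : Ad F A f₀ f₁ v₀ e) :
    ∃ bas : Module.Basis (Fin 6) ℂ (Fin 6 → ℂ), bas 0 = v₀ ∧ bas 1 = e 0 ∧ bas 2 = e 1 ∧
      bas 3 = e 2 ∧ bas 4 = f₀ ∧ bas 5 = f₁ := by
  have hli : LinearIndependent ℂ ![v₀, e 0, e 1, e 2, f₀, f₁] := by
    rw [Fintype.linearIndependent_iff]
    intro g hg
    simp only [Fin.sum_univ_six, Matrix.cons_val] at hg
    obtain ⟨c0, c1, c2, c3, c4, c5⟩ := h.ind6 hf hA.vA hA.v0 hA.k0 hA.k1 hA.k2 hA.eA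
      (m := ![1 / 3, 1 / 6, 1 / 3]) (by intro i; fin_cases i <;> norm_num) hA.e00 hA.e11 hA.e22 hg
    intro i; fin_cases i
    · exact c0
    · exact c1
    · exact c2
    · exact c3
    · exact c4
    · exact c5
  have hbas : ∀ i, basisOfLinearIndependentOfCardEqFinrank hli (by simp) i =
    ![v₀, e 0, e 1, e 2, f₀, f₁] i := fun i => by simp
  exact ⟨_, hbas 0, hbas 1, hbas 2, hbas 3, hbas 4, hbas 5⟩

theorem basis_A (h : Sy (tri F) A B) {f₀ f₁ v₀ : Fin 6 → ℂ} (hf : IsB2 B f₀ f₁)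
    {e : Fin 3 → (Fin 6 → ℂ)} (hA : Ad F A f₀ f₁ v₀ e) :
    ∃ bas : Module.Basis (Fin 6) ℂ (Fin 6 → ℂ), bas 0 = e 0 ∧ bas 1 = e 1 ∧ bas 2 = e 2 ∧
      bas 3 = v₀ ∧ bas 4 = f₀ ∧ bas 5 = f₁ := by
  have hli : LinearIndependent ℂ ![e 0, e 1, e 2, v₀, f₀, f₁] := by
    rw [Fintype.linearIndependent_iff]
    intro g hg
    simp only [Fin.sum_univ_six, Matrix.cons_val] at hg
    obtain ⟨c0, c1, c2, c3, c4, c5⟩ := h.ind6 hf hA.vA hA.v0 hA.k0 hA.k1 hA.k2 hA.eA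
      (m := ![1 / 3, 1 / 6, 1 / 3]) (by intro i; fin_cases i <;> norm_num) hA.e00 hA.e11 hA.e22
      (x := g 3) (z0 := g 0) (z1 := g 1) (z2 := g 2) (y0 := g 4) (y1 := g 5)
      (by rw [← hg]; abel)
    intro i; fin_cases i
    · exact c1
    · exact c2
    · exact c3
    · exact c0
    · exact c4
    · exact c5
  have hbas : ∀ i, basisOfLinearIndependentOfCardEqFinrank hli (by simp) i =
    ![e 0, e 1, e 2, v₀, f₀, f₁] i := fun i => by simp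
  exact ⟨_, hbas 0, hbas 1, hbas 2, hbas 3, hbas 4, hbas 5⟩

theorem hpQ (F : MvPolynomial (Fin 6) ℂ) (v₀ : Fin 6 → ℂ) (e : Fin 3 → (Fin 6 → ℂ)) :
    IsHP 3 2 (fun z => 3 * tri F v₀ (vec e z) (vec e z)) := by
  refine IsHP.cmul 3 ?_
  have h1 : IsHP 3 2 (fun z : Fin 3 → ℂ => ∑ i, ∑ j, z i * z j * tri F v₀ (e i) (e j)) :=
    IsHP.sum _ fun i _ => IsHP.sum _ fun j _ => ((IsHP.coord i).mul (IsHP.coord j)).mulc _
  exact h1.congr fun z => bil_vec _ _ _ _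

theorem hpC (F : MvPolynomial (Fin 6) ℂ) (e : Fin 3 → (Fin 6 → ℂ)) :
    IsHP 3 3 (fun z => tri F (vec e z) (vec e z) (vec e z)) := by
  refine ⟨cubP (tri F) e, ?_, fun z => eval_cubP _ _ _⟩
  unfold cubP
  refine IsHomogeneous.sum _ _ _ fun i _ => IsHomogeneous.sum _ _ _ fun j _ => ?_
  have hl : (lin e (tri F (e i) (e j))).IsHomogeneous 1 := by
    unfold lin
    refine ((IsHomogeneous.add ?_ ?_).add ?_) <;>
      exact (isHomogeneous_X _ _).C_mul _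
  exact (isHomogeneous_X _ _).mul ((isHomogeneous_X _ _).mul hl)

/-- the vertex of the forms of `B` lies on the cubic -/
theorem rational_B (h : Sy (tri F) A B) (hF : SmoothCubic F) {f₀ f₁ v₀ : Fin 6 → ℂ}
    (hf : IsB2 B f₀ f₁) {e : Fin 3 → (Fin 6 → ℂ)} (hA : Ad F A f₀ f₁ v₀ e)
    (hv3 : tri F v₀ v₀ v₀ = 0) : RationalHypersurface F := by
  obtain ⟨bas, b0, b1, b2, b3, b4, b5⟩ := h.basis_B hf hA
  obtain ⟨l, hl⟩ : ∃ l : Fin 3 → ℂ, ∀ i, l i = 3 * tri F v₀ v₀ (e i) := ⟨_, fun _ => rfl⟩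
  obtain ⟨Q, hQ⟩ : ∃ Q : (Fin 3 → ℂ) → ℂ, ∀ z, Q z = 3 * tri F v₀ (vec e z) (vec e z) :=
    ⟨_, fun _ => rfl⟩
  obtain ⟨K, hK⟩ : ∃ K : (Fin 3 → ℂ) → ℂ, ∀ z, K z = tri F (vec e z) (vec e z) (vec e z) :=
    ⟨_, fun _ => rfl⟩
  have hQ' : IsHP 3 2 Q := (hpQ F v₀ e).congr hQ
  have hK' : IsHP 3 3 K := (hpC F e).congr hK
  have hform : ∀ (x : ℂ) (z : Fin 3 → ℂ) (y : Fin 2 → ℂ),
      eval (x • bas 0 + z 0 • bas 1 + z 1 • bas 2 + z 2 • bas 3 + y 0 • bas 4 + y 1 • bas 5) F =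
        x ^ 2 * (l 0 * z 0 + l 1 * z 1 + l 2 * z 2) + x * Q z + K z
        + (z 0 * y 0 ^ 2 + z 1 * y 0 * y 1 + z 2 * y 1 ^ 2) := by
    intro x z y
    rw [b0, b1, b2, b3, b4, b5, h.evalF hF hf hA.vA hA.k0 hA.k1 hA.k2 hA.eA hA.e00 hA.e11 hA.e22,
      hv3]
    have hz : (![z 0, z 1, z 2] : Fin 3 → ℂ) = z := by
      funext i; fin_cases i <;> rfl
    rw [hz]
    have h1 : tri F v₀ v₀ (vec e z) = z 0 * tri F v₀ v₀ (e 0) + z 1 * tri F v₀ v₀ (e 1)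
        + z 2 * tri F v₀ v₀ (e 2) := by
      simp only [vec, map_add, map_smul, smul_eq_mul]
    rw [h1, hl, hl, hl, hQ, hK]; ring
  have hθ := Vale.Agent.P287.H673.exists_theta_FB hF bas l Q K hQ' hK' hform
  exact Vale.Agent.P287.H583.rational_FB_of hF bas l Q K hQ' hK' hform hθ

/-- the generic case, given adapted vectors in the plane -/
theorem rational_A2 (h : Sy (tri F) A B) (hF : SmoothCubic F) {f₀ f₁ v₀ : Fin 6 → ℂ}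
    (hf : IsB2 B f₀ f₁) {e : Fin 3 → (Fin 6 → ℂ)} (hA : Ad F A f₀ f₁ v₀ e)
    (hv3 : tri F v₀ v₀ v₀ ≠ 0) {W : Submodule ℂ (Fin 6 → ℂ)}
    (hWT : ∀ w ∈ W, tri F w w w = 0) {s t : Fin 3 → ℂ}
    (hW : ∀ i, e i + (s i • f₀ + t i • f₁) ∈ W) : RationalHypersurface F := by
  obtain ⟨bas, b0, b1, b2, b3, b4, b5⟩ := h.basis_A hf hA
  obtain ⟨G', hG'⟩ := Vale.Agent.P287.H46.exists_comp F bas.equivFun.symm
  have hval : ∀ (z : Fin 3 → ℂ) (w : ℂ) (y : Fin 2 → ℂ),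
      bas.equivFun.symm ![z 0, z 1, z 2, w, y 0, y 1] =
        w • v₀ + z 0 • e 0 + z 1 • e 1 + z 2 • e 2 + y 0 • f₀ + y 1 • f₁ := by
    intro z w y
    rw [Module.Basis.equivFun_symm_apply]
    simp only [Fin.sum_univ_six, Matrix.cons_val, b0, b1, b2, b3, b4, b5]
    abel
  have hsG := Vale.Agent.P287.H46.smooth_comp bas.equivFun.symm hG' hF
  have hFF : Vale.Agent.P287.Spec.IsFF (fun i j => 3 * tri F v₀ (e i) (e j))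
    (fun i => 3 * tri F v₀ v₀ (e i)) (tri F v₀ v₀ v₀) ![s, t] G' := by
    intro z w y
    rw [hG', hval, h.evalF hF hf hA.vA hA.k0 hA.k1 hA.k2 hA.eA hA.e00 hA.e11 hA.e22]
    have hz : (![z 0, z 1, z 2] : Fin 3 → ℂ) = z := by
      funext i; fin_cases i <;> rfl
    rw [hz]
    have h1 : tri F v₀ v₀ (vec e z) = z 0 * tri F v₀ v₀ (e 0) + z 1 * tri F v₀ v₀ (e 1)
        + z 2 * tri F v₀ v₀ (e 2) := by
      simp only [vec, map_add, map_smul, smul_eq_mul]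
    have h2 : tri F v₀ (vec e z) (vec e z) = ∑ i, ∑ j, z i * z j * tri F v₀ (e i) (e j) :=
      bil_vec _ _ _ _
    -- the plane
    have h3 : tri F (vec e z) (vec e z) (vec e z) =
        -(z 0 * (s 0 * z 0 + s 1 * z 1 + s 2 * z 2) ^ 2
          + z 1 * (s 0 * z 0 + s 1 * z 1 + s 2 * z 2) * (t 0 * z 0 + t 1 * z 1 + t 2 * z 2)
          + z 2 * (t 0 * z 0 + t 1 * z 1 + t 2 * z 2) ^ 2) := by
      have h4 : z 0 • (e 0 + (s 0 • f₀ + t 0 • f₁)) + z 1 • (e 1 + (s 1 • f₀ + t 1 • f₁))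
          + z 2 • (e 2 + (s 2 • f₀ + t 2 • f₁)) ∈ W :=
        W.add_mem (W.add_mem (W.smul_mem _ (hW 0)) (W.smul_mem _ (hW 1))) (W.smul_mem _ (hW 2))
      have h5 : z 0 • (e 0 + (s 0 • f₀ + t 0 • f₁)) + z 1 • (e 1 + (s 1 • f₀ + t 1 • f₁))
          + z 2 • (e 2 + (s 2 • f₀ + t 2 • f₁)) =
          (0 : ℂ) • v₀ + z 0 • e 0 + z 1 • e 1 + z 2 • e 2
          + (s 0 * z 0 + s 1 * z 1 + s 2 * z 2) • f₀
          + (t 0 * z 0 + t 1 * z 1 + t 2 * z 2) • f₁ := by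
        module
      have h6 := hWT _ h4
      rw [tri_self hF.1, h5, h.evalF hF hf hA.vA hA.k0 hA.k1 hA.k2 hA.eA hA.e00 hA.e11 hA.e22,
        hz] at h6
      linear_combination h6
    rw [h1, h2, h3]
    simp only [Vale.Agent.P287.Spec.FF, Fin.sum_univ_three, Matrix.cons_val]
    ring
  refine Vale.Agent.P287.H46.rational_comp bas.equivFun.symm hG' ?_
  refine Vale.Agent.P287.H46.rational_FF _ _ _ _ hsG hFF (fun i j => ?_) hv3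
  change 3 * tri F v₀ (e i) (e j) = 3 * tri F v₀ (e j) (e i)
  rw [h.s2]

/-- the plane projects isomorphically to the space of forms -/
theorem get_A2 (h : Sy (tri F) A B) {f₀ f₁ v₀ : Fin 6 → ℂ}
    (hf : IsB2 B f₀ f₁)
    (hker : ∀ a ∈ A, tri F f₀ f₀ a = 0 → tri F f₀ f₁ a = 0 → tri F f₁ f₁ a = 0 →
      ∃ c : ℂ, a = c • v₀)
    (hv3 : tri F v₀ v₀ v₀ ≠ 0) {W : Submodule ℂ (Fin 6 → ℂ)} (hW : Module.finrank ℂ W = 3)
    (hWT : ∀ w ∈ W, tri F w w w = 0) (hWB : ∀ w ∈ W, w ∈ B → w = 0) (z : Fin 3 → ℂ) :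
    ∃ a ∈ A, ∃ s t : ℂ, a + (s • f₀ + t • f₁) ∈ W ∧
      tri F f₀ f₀ a = z 0 ∧ tri F f₀ f₁ a = z 1 ∧ tri F f₁ f₁ a = z 2 := by
  -- the map to `ℂ³`
  let κ : (Fin 6 → ℂ) →ₗ[ℂ] (Fin 3 → ℂ) :=
    LinearMap.pi ![tri F f₀ f₀, tri F f₀ f₁, tri F f₁ f₁]
  have hfB0 := hf.ha
  have hfB1 := hf.hb
  have hκ : ∀ a ∈ A, ∀ b ∈ B, κ (a + b) = ![tri F f₀ f₀ a, tri F f₀ f₁ a, tri F f₁ f₁ a] := by
    intro a ha b hb
    funext i
    fin_cases i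
    · change tri F f₀ f₀ (a + b) = _
      rw [map_add, h.bbb _ hfB0 _ hfB0 _ hb, add_zero]; rfl
    · change tri F f₀ f₁ (a + b) = _
      rw [map_add, h.bbb _ hfB0 _ hfB1 _ hb, add_zero]; rfl
    · change tri F f₁ f₁ (a + b) = _
      rw [map_add, h.bbb _ hfB1 _ hfB1 _ hb, add_zero]; rfl
  have hinj : Function.Injective (κ.domRestrict W) := by
    rw [← LinearMap.ker_eq_bot, LinearMap.ker_eq_bot']
    rintro ⟨w, hw⟩ h0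
    obtain ⟨a, ha, b, hb, rfl⟩ := h.top w
    have h1 : κ (a + b) = 0 := h0
    rw [hκ a ha b hb] at h1
    have z0 : tri F f₀ f₀ a = 0 := congrFun h1 0
    have z1 : tri F f₀ f₁ a = 0 := congrFun h1 1
    have z2 : tri F f₁ f₁ a = 0 := congrFun h1 2
    obtain ⟨c, hc⟩ := hker a ha z0 z1 z2
    have h2 := hWT _ hw
    rw [h.cube ha hb, h.zz hf z0 z1 z2 hb hb, mul_zero, add_zero, hc] at h2
    simp only [map_smul, LinearMap.smul_apply, smul_eq_mul] at h2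
    have h4 : c = 0 := by
      by_contra h5
      rcases mul_eq_zero.mp h2 with h6 | h6
      · exact h5 h6
      · rcases mul_eq_zero.mp h6 with h7 | h7
        · exact h5 h7
        · rcases mul_eq_zero.mp h7 with h8 | h8
          · exact h5 h8
          · exact hv3 h8
    have h5 : a = 0 := by rw [hc, h4, zero_smul]
    apply Subtype.ext
    change a + b = 0
    have h6 : a + b ∈ B := by rw [h5, zero_add]; exact hb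
    exact hWB _ hw h6
  have hfinW : Module.Finite ℂ W := Module.finite_of_finrank_pos (by omega)
  have hsurj : Function.Surjective (κ.domRestrict W) :=
    (LinearMap.injective_iff_surjective_of_finrank_eq_finrank (by rw [hW]; simp)).mp hinj
  obtain ⟨⟨w, hw⟩, hz⟩ := hsurj z
  obtain ⟨a, ha, b, hb, rfl⟩ := h.top w
  obtain ⟨s, t, rfl⟩ := hf.span b hb
  have h1 : κ (a + (s • f₀ + t • f₁)) = z := hz
  rw [hκ a ha _ hb] at h1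
  exact ⟨a, ha, s, t, hw, congrFun h1 0, congrFun h1 1, congrFun h1 2⟩

end Sy

/-- Theorem S -/
theorem rational_symp {F : MvPolynomial (Fin 6) ℂ} (hF : SmoothCubic F)
    {s : (Fin 6 → ℂ) →ₗ[ℂ] (Fin 6 → ℂ)} (hs : ∀ v, s (s v) = v)
    (hsF : ∀ v, eval (s v) F = eval v F)
    (h2 : Module.finrank ℂ (LinearMap.ker (s + LinearMap.id)) = 2)
    {W : Submodule ℂ (Fin 6 → ℂ)} (hW : PlaneIn F W) {w : Fin 6 → ℂ} (hw : w ∈ W)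
    (hsw : s w ∉ W) : RationalHypersurface F := by
  have hS : Sm (tri F) := ⟨tri_comm1 F, tri_comm2 F, fun v hv => smooth_tri hF hv⟩
  have h := sy_of_inv hS (by simp) hs (tri_inv hF.1 hsF) h2
  have memA : ∀ v, v ∈ LinearMap.ker (s - LinearMap.id) → s v = v := by
    intro v hv
    rwa [LinearMap.mem_ker, LinearMap.sub_apply, LinearMap.id_apply, sub_eq_zero] at hv
  have memB : ∀ v, v ∈ LinearMap.ker (s + LinearMap.id) → s v = - v := by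
    intro v hv
    rwa [LinearMap.mem_ker, LinearMap.add_apply, LinearMap.id_apply, add_eq_zero_iff_eq_neg] at hv
  obtain ⟨f₀, f₁, hf⟩ := exists_IsB2 h.finB
  rcases h.split hf with ⟨g, k, hgk, h0⟩ | hsurj
  · exact rational_of_two_planes hF (two_reflections hF h hs hsF memA memB hgk h0)
  obtain ⟨v₀, hvA, hv0, k0, k1, k2, hker⟩ := h.exists_v0 hsurj
  by_cases hv3 : tri F v₀ v₀ v₀ = 0
  · obtain ⟨a0, ha0, p0, p1, p2⟩ := hsurj ![1 / 3, 0, 0]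
    obtain ⟨a1, ha1, q0, q1, q2⟩ := hsurj ![0, 1 / 6, 0]
    obtain ⟨a2, ha2, r0, r1, r2⟩ := hsurj ![0, 0, 1 / 3]
    simp only [Matrix.cons_val] at p0 p1 p2 q0 q1 q2 r0 r1 r2
    exact h.rational_B hF hf (Sy.mkAd hvA hv0 k0 k1 k2 ha0 ha1 ha2 p0 p1 p2 q0 q1 q2 r0 r1 r2) hv3
  have hWT : ∀ w ∈ W, tri F w w w = 0 := fun w hw => by rw [tri_self hF.1]; exact hW.2 w hw
  have hWB : ∀ y ∈ W, y ∈ LinearMap.ker (s + LinearMap.id) → y = 0 := by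
    intro y hyW hyB
    by_contra hy0
    obtain ⟨a, ha, b, hb, rfl⟩ := h.top w
    have h3 := h.stable hf hker hv3 hW.1 hWT hyW hyB hy0 ha hb hw
    apply hsw
    rw [map_add, memA a ha, memB b hb]
    have : a + -b = (a + b) - (2 : ℂ) • b := by module
    rw [this]
    exact W.sub_mem hw (W.smul_mem _ h3)
  have hget := h.get_A2 hf hker hv3 hW.1 hWT hWB
  obtain ⟨a0, ha0, s0, t0, w0, p0, p1, p2⟩ := hget ![1 / 3, 0, 0]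
  obtain ⟨a1, ha1, s1, t1, w1, q0, q1, q2⟩ := hget ![0, 1 / 6, 0]
  obtain ⟨a2, ha2, s2, t2, w2, r0, r1, r2⟩ := hget ![0, 0, 1 / 3]
  simp only [Matrix.cons_val] at p0 p1 p2 q0 q1 q2 r0 r1 r2
  refine h.rational_A2 hF hf (Sy.mkAd hvA hv0 k0 k1 k2 ha0 ha1 ha2 p0 p1 p2 q0 q1 q2 r0 r1 r2)
    hv3 hWT (s := ![s0, s1, s2]) (t := ![t0, t1, t2]) ?_
  intro i; fin_cases i
  · exact w0
  · exact w1
  · exact w2

end Vale.Agent.P287.H674
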