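import Vale.Agent.P287.H674.Defs

/-!
The symmetric trilinear form of a cubic form in six variables.
-/

namespace Vale.Agent.P287.H674

open MvPolynomial

theorem pderiv_comm' (F : MvPolynomial (Fin 6) ℂ) (i j : Fin 6) :
    pderiv i (pderiv j F) = pderiv j (pderiv i F) := by
  have h : (⁅(pderiv i : Derivation ℂ (MvPolynomial (Fin 6) ℂ) (MvPolynomial (Fin 6) ℂ)),
      pderiv j⁆ : Derivation ℂ (MvPolynomial (Fin 6) ℂ) (MvPolynomial (Fin 6) ℂ)) = 0 := by
    apply MvPolynomial.derivation_ext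
    intro k
    simp [Derivation.commutator_apply, pderiv_X]
    by_cases h1 : j = k <;> by_cases h2 : i = k <;> simp [h1, h2]
  have h2 := congrArg (fun D => D F) h
  simp only [Derivation.commutator_apply] at h2
  exact sub_eq_zero.mp h2

/-- the third derivatives -/
noncomputable def cc (F : MvPolynomial (Fin 6) ℂ) (i j k : Fin 6) : ℂ :=
  eval 0 (pderiv k (pderiv j (pderiv i F)))

theorem cc_comm1 (F : MvPolynomial (Fin 6) ℂ) (i j k : Fin 6) : cc F i j k = cc F j i k := by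
  unfold cc; rw [pderiv_comm' F j i]

theorem cc_comm2 (F : MvPolynomial (Fin 6) ℂ) (i j k : Fin 6) : cc F i j k = cc F i k j := by
  unfold cc; rw [pderiv_comm' (pderiv i F) k j]

/-- the symmetric trilinear form `T` with `T(v,v,v) = F(v)` -/
noncomputable def tri (F : MvPolynomial (Fin 6) ℂ) :
    (Fin 6 → ℂ) →ₗ[ℂ] (Fin 6 → ℂ) →ₗ[ℂ] (Fin 6 → ℂ) →ₗ[ℂ] ℂ :=
  ∑ i, ∑ j, ∑ k, (1 / 6 * cc F i j k) •
    ((LinearMap.proj i : (Fin 6 → ℂ) →ₗ[ℂ] ℂ).smulRight
      ((LinearMap.proj j : (Fin 6 → ℂ) →ₗ[ℂ] ℂ).smulRight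
        (LinearMap.proj k : (Fin 6 → ℂ) →ₗ[ℂ] ℂ)))

theorem tri_apply (F : MvPolynomial (Fin 6) ℂ) (u v w : Fin 6 → ℂ) :
    tri F u v w = ∑ i, ∑ j, ∑ k, 1 / 6 * cc F i j k * (u i * v j * w k) := by
  simp only [tri, LinearMap.sum_apply, LinearMap.smul_apply, LinearMap.smulRight_apply,
    LinearMap.proj_apply, smul_eq_mul]
  refine Finset.sum_congr rfl fun i _ => Finset.sum_congr rfl fun j _ =>
    Finset.sum_congr rfl fun k _ => ?_
  ring

theorem tri_comm1 (F : MvPolynomial (Fin 6) ℂ) (u v w : Fin 6 → ℂ) :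
    tri F u v w = tri F v u w := by
  rw [tri_apply, tri_apply, Finset.sum_comm]
  refine Finset.sum_congr rfl fun i _ => Finset.sum_congr rfl fun j _ =>
    Finset.sum_congr rfl fun k _ => ?_
  rw [cc_comm1 F j i k]; ring

theorem tri_comm2 (F : MvPolynomial (Fin 6) ℂ) (u v w : Fin 6 → ℂ) :
    tri F u v w = tri F u w v := by
  rw [tri_apply, tri_apply]
  refine Finset.sum_congr rfl fun i _ => ?_
  rw [Finset.sum_comm]
  refine Finset.sum_congr rfl fun j _ => Finset.sum_congr rfl fun k _ => ?_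
  rw [cc_comm2 F i k j]; ring

theorem eval_const {P : MvPolynomial (Fin 6) ℂ} (h : P.IsHomogeneous 0) (v : Fin 6 → ℂ) :
    eval v P = eval 0 P := by
  rw [← totalDegree_zero_iff_isHomogeneous, totalDegree_eq_zero_iff_eq_C] at h
  rw [h]; simp

theorem euler {P : MvPolynomial (Fin 6) ℂ} {n : ℕ} (h : P.IsHomogeneous n) (v : Fin 6 → ℂ) :
    ∑ i, v i * eval v (pderiv i P) = n * eval v P := by
  have h1 := congrArg (eval v) h.sum_X_mul_pderiv
  simpa using h1

theorem eval_pderiv_eq {F : MvPolynomial (Fin 6) ℂ} (hF : F.IsHomogeneous 3)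
    (v : Fin 6 → ℂ) (i : Fin 6) : eval v (pderiv i F) = 3 * tri F v v (Pi.single i 1) := by
  have h1 : (pderiv i F).IsHomogeneous 2 := hF.pderiv
  have h2 : ∀ j, (pderiv j (pderiv i F)).IsHomogeneous 1 := fun j => h1.pderiv
  have h3 : ∀ j k, (pderiv k (pderiv j (pderiv i F))).IsHomogeneous 0 :=
    fun j k => (h2 j).pderiv
  have e1 := euler h1 v
  have e2 : ∀ j, eval v (pderiv j (pderiv i F)) = ∑ k, v k * cc F i j k := by
    intro j
    have := euler (h2 j) v
    simp only [Nat.cast_one, one_mul] at this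
    rw [← this]
    refine Finset.sum_congr rfl fun k _ => ?_
    rw [eval_const (h3 j k)]; rfl
  simp only [e2] at e1
  have e3 : tri F v v (Pi.single i 1) = tri F (Pi.single i 1) v v := by
    rw [tri_comm2, tri_comm1]
  rw [e3, tri_apply]
  have e4 : ∀ a : Fin 6, ∑ j, ∑ k, 1 / 6 * cc F a j k *
      ((Pi.single i 1 : Fin 6 → ℂ) a * v j * v k) =
      if a = i then ∑ j, ∑ k, 1 / 6 * cc F i j k * (v j * v k) else 0 := by
    intro a
    split_ifs with ha
    · subst ha; simp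
    · simp [ha]
  simp only [e4, Finset.sum_ite_eq', Finset.mem_univ, if_true]
  have e5 : ∑ j, ∑ k, 1 / 6 * cc F i j k * (v j * v k) =
      1 / 6 * ∑ j, v j * ∑ k, v k * cc F i j k := by
    rw [Finset.mul_sum]
    refine Finset.sum_congr rfl fun j _ => ?_
    rw [Finset.mul_sum, Finset.mul_sum]
    refine Finset.sum_congr rfl fun k _ => ?_
    ring
  rw [e5, e1]
  push_cast
  ring

theorem tri_self {F : MvPolynomial (Fin 6) ℂ} (hF : F.IsHomogeneous 3)
    (v : Fin 6 → ℂ) : tri F v v v = eval v F := by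
  have e1 := euler hF v
  simp only [eval_pderiv_eq hF] at e1
  have e2 : ∑ i, v i * (3 * tri F v v (Pi.single i 1)) = 3 * tri F v v v := by
    have e3 : tri F v v v = ∑ i, v i * tri F v v (Pi.single i 1) := by
      rw [LinearMap.pi_apply_eq_sum_univ (tri F v v) v]
      refine Finset.sum_congr rfl fun i _ => ?_
      rw [smul_eq_mul]
      congr 2
      funext j
      simp [Pi.single_apply, eq_comm]
    rw [e3, Finset.mul_sum]
    refine Finset.sum_congr rfl fun i _ => ?_
    ring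
  rw [e2] at e1
  push_cast at e1
  have : (3 : ℂ) ≠ 0 := by norm_num
  exact mul_left_cancel₀ this e1

/-- smoothness in terms of the trilinear form -/
theorem smooth_tri {F : MvPolynomial (Fin 6) ℂ} (hF : SmoothCubic F) {v : Fin 6 → ℂ}
    (hv : v ≠ 0) : ∃ w, tri F v v w ≠ 0 := by
  obtain ⟨i, hi⟩ := hF.2 v hv
  refine ⟨Pi.single i 1, fun h => hi ?_⟩
  rw [eval_pderiv_eq hF.1, h, mul_zero]

end Vale.Agent.P287.H674
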